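import Vale.Agent.P305.Model
import Vale.Agent.P305.MathlibUsed
import Vale.Agent.P305.Classes
import Vale.Agent.P305.OddDefs

set_option linter.all false

section

section

/-! Internal language: several arrays, (almost) only increments, so that all values stay small,
and calls of a black box. -/

set_option autoImplicit false

namespace Vale.Agent.P305.L1

open Function (update)

/-- Basic instructions. `load j d x`: register `d` gets entry `r x` of array `j`;
`store j x y`: entry `r x` of array `j` gets register `y`. -/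
inductive B
  | const (d c : ℕ)
  | copy (d x : ℕ)
  | inc (d : ℕ)
  | dec (d : ℕ)
  | sub (d x y : ℕ)
  | load (j d x : ℕ)
  | store (j x y : ℕ)

inductive Cmd
  | blk (l : List B)
  | add (d x y : ℕ)
  | seq (p q : Cmd)
  | ite (c : Test) (p q : Cmd)
  | loop (c : Test) (p : Cmd)
  | call

structure St where
  r : ℕ → ℕ
  a : ℕ → ℕ → ℕ

def B.step : B → St → St
  | .const d c, s => ⟨update s.r d c, s.a⟩
  | .copy d x, s => ⟨update s.r d (s.r x), s.a⟩
  | .inc d, s => ⟨update s.r d (s.r d + 1), s.a⟩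
  | .dec d, s => ⟨update s.r d (s.r d - 1), s.a⟩
  | .sub d x y, s => ⟨update s.r d (s.r x - s.r y), s.a⟩
  | .load j d x, s => ⟨update s.r d (s.a j (s.r x)), s.a⟩
  | .store j x y, s => ⟨s.r, update s.a j (update (s.a j) (s.r x) (s.r y))⟩

def run : List B → St → St
  | [], s => s
  | b :: l, s => run l (b.step s)

/-! The equations of the functions above are generated once here (and not again in later files). -/

theorem step_const (d c : ℕ) (s : St) : (B.const d c).step s = ⟨update s.r d c, s.a⟩ := by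
  simp only [B.step]
theorem run_nil (s : St) : run [] s = s := by
  simp only [run]
theorem run_cons (b : B) (l : List B) (s : St) : run (b :: l) s = run l (b.step s) := by
  simp only [run]

/-- Effect of a call of the black box with output `out` on input `inp` (held by array `1`,
zero beyond): the first `inp.headI` entries of array `2` become the output. -/
def callResult (s : St) (inp : List ℕ) (out : ℕ → ℕ) : St :=
  ⟨s.r, update s.a 2 (fun i => if i < inp.headI then out i else s.a 2 i)⟩

/-- Semantics. `R inp out t`: the black box on input `inp` halts with memory `out` after `t`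
steps. `cap`: bound for the results of additions. -/
inductive Ex (R : List ℕ → (ℕ → ℕ) → ℕ → Prop) (cap : ℕ) : Cmd → St → ℕ → St → Prop
  | blk (l : List B) (s : St) : Ex R cap (.blk l) s l.length (run l s)
  | add (d x y : ℕ) (s : St) (h : s.r x + s.r y ≤ cap) :
      Ex R cap (.add d x y) s 1 ⟨update s.r d (s.r x + s.r y), s.a⟩
  | seq {p q : Cmd} {s s' s'' : St} {t t' : ℕ} (h : Ex R cap p s t s')
      (h' : Ex R cap q s' t' s'') : Ex R cap (.seq p q) s (t + t') s''
  | iteTrue {c : Test} {p q : Cmd} {s s' : St} {t : ℕ} (hc : c.holds s.r)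
      (h : Ex R cap p s t s') : Ex R cap (.ite c p q) s (t + 1) s'
  | iteFalse {c : Test} {p q : Cmd} {s s' : St} {t : ℕ} (hc : ¬ c.holds s.r)
      (h : Ex R cap q s t s') : Ex R cap (.ite c p q) s (t + 1) s'
  | loopDone {c : Test} {p : Cmd} {s : St} (hc : ¬ c.holds s.r) : Ex R cap (.loop c p) s 1 s
  | loopStep {c : Test} {p : Cmd} {s s' s'' : St} {t t' : ℕ} (hc : c.holds s.r)
      (h : Ex R cap p s t s') (h' : Ex R cap (.loop c p) s' t' s'') :
      Ex R cap (.loop c p) s (t + t' + 1) s''
  | call {s : St} {inp : List ℕ} {out : ℕ → ℕ} {t : ℕ} (h : ∀ i, s.a 1 i = inp.getD i 0)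
      (hR : R inp out t) :
      Ex R cap .call s (t + inp.length + 1) (callResult s inp out)

/-- Loop rule: `Φ` is a potential paying for the time. -/
theorem loop_rule {R : List ℕ → (ℕ → ℕ) → ℕ → Prop} {cap : ℕ} {c : Test} {p : Cmd}
    (I : St → Prop) (Φ : St → ℕ)
    (hstep : ∀ s, I s → c.holds s.r →
      ∃ s' t, Ex R cap p s t s' ∧ I s' ∧ t + 1 + Φ s' ≤ Φ s) :
    ∀ s, I s → ∃ s' t, Ex R cap (.loop c p) s t s' ∧ I s' ∧ ¬ c.holds s'.r ∧
      t + Φ s' ≤ Φ s + 1 := by
  intro s
  induction hn : Φ s using Nat.strong_induction_on generalizing s with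
  | _ n ih =>
    intro hI
    by_cases hc : c.holds s.r
    · obtain ⟨s1, t1, hex, hI1, ht1⟩ := hstep s hI hc
      obtain ⟨s2, t2, hex2, hI2, hc2, ht2⟩ := ih (Φ s1) (by omega) s1 rfl hI1
      exact ⟨s2, t1 + t2 + 1, .loopStep hc hex hex2, hI2, hc2, by omega⟩
    · exact ⟨s, 1, .loopDone hc, hI, hc, by omega⟩

end Vale.Agent.P305.L1
end
end

section

section

/-! Compilation of the internal language to word RAM programs. -/

set_option autoImplicit false

namespace Vale.Agent.P305

open Function (update)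

/-- Offset (from the base) of the cell that holds entry `i` of array `j`. -/
def adr (K j i : ℕ) : ℕ := 2 * K * i + 2 * j

theorem adr_inj {K j j' i i' : ℕ} (hj : j < K) (hj' : j' < K) (h : adr K j i = adr K j' i') :
    j = j' ∧ i = i' := by
  have h : K * i + j = K * i' + j' := by
    have e : ∀ i j : ℕ, adr K j i = 2 * (K * i + j) := fun i j => by unfold adr; ring
    rw [e, e] at h
    omega
  have h1 : (K * i + j) % K = (K * i' + j') % K := by rw [h]
  have h2 : (K * i + j) / K = (K * i' + j') / K := by rw [h]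
  have hK : 0 < K := by omega
  rw [Nat.mul_add_mod, Nat.mul_add_mod, Nat.mod_eq_of_lt hj, Nat.mod_eq_of_lt hj'] at h1
  rw [Nat.mul_add_div hK, Nat.mul_add_div hK, Nat.div_eq_of_lt hj, Nat.div_eq_of_lt hj'] at h2
  exact ⟨h1, by simpa using h2⟩

theorem adr_even (K j i : ℕ) : adr K j i = 2 * (K * i + j) := by unfold adr; ring

theorem adr_le {K j : ℕ} (hj : j < K) (i : ℕ) : adr K j i ≤ 2 * K * (i + 1) := by
  rw [adr_even]
  linarith

theorem adr_le' {K j V i : ℕ} (hj : j < K) (hi : i ≤ V) : adr K j i ≤ 2 * K * (V + 1) :=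
  (adr_le hj i).trans (Nat.mul_le_mul_left _ (by omega))

/-- Rename the registers of a test. -/
def Test.ren (f : ℕ → ℕ) : Test → Test
  | .lt a b => .lt (f a) (f b)
  | .eq a b => .eq (f a) (f b)
  | .ne a b => .ne (f a) (f b)

theorem Test.ren_holds (f : ℕ → ℕ) (c : Test) (R r : ℕ → ℕ) (h : ∀ x, R (f x) = r x) :
    (c.ren f).holds R ↔ c.holds r := by
  cases c <;> simp only [holds, ren, h]

/-- Put into register `1` the address of entry `reg x` of array `j`. -/
def mkAdr (A B x : ℕ) : Prog :=
  .seq (.const 1 A) (.seq (.op .mul 1 1 x) (.seq (.const 2 B) (.seq (.op .add 1 1 2)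
    (.op .add 1 1 0))))

theorem mkAdr_exec {W A B x : ℕ} (S : State) (hx : x ≠ 1)
    (hA : A ≤ W) (hB : B ≤ W) (hW : S.reg 0 + (A * S.reg x + B) ≤ W) :
    ∃ ρ, Exec W (mkAdr A B x) S 5 ⟨ρ, S.mem⟩ ∧ ρ 1 = S.reg 0 + (A * S.reg x + B) ∧
      ∀ r, r ≠ 1 → r ≠ 2 → ρ r = S.reg r := by
  obtain ⟨R, m⟩ := S
  simp only at hW ⊢
  have e1 : Exec W (.const 1 A) ⟨R, m⟩ 1 ⟨update R 1 A, m⟩ := .const _ _ _ hA
  have e2 : Exec W (.op .mul 1 1 x) ⟨update R 1 A, m⟩ 1
      ⟨update (update R 1 A) 1 (A * R x), m⟩ := by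
    have := Exec.op (W := W) ⟨update R 1 A, m⟩ .mul 1 1 x (by
      simp only [Op.eval, Function.update_self, Function.update_of_ne hx]; omega)
    simpa [Op.eval, Function.update_of_ne hx] using this
  have e3 : Exec W (.const 2 B) ⟨update (update R 1 A) 1 (A * R x), m⟩ 1
      ⟨update (update (update R 1 A) 1 (A * R x)) 2 B, m⟩ := .const _ _ _ hB
  have e4 : Exec W (.op .add 1 1 2) ⟨update (update (update R 1 A) 1 (A * R x)) 2 B, m⟩ 1
      ⟨update (update (update (update R 1 A) 1 (A * R x)) 2 B) 1 (A * R x + B), m⟩ := by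
    have := Exec.op (W := W) ⟨update (update (update R 1 A) 1 (A * R x)) 2 B, m⟩ .add 1 1 2 (by
      simp only [Op.eval, Function.update_idem, ne_eq, OfNat.one_ne_ofNat, not_false_eq_true, Function.update_of_ne, Function.update_self]; omega)
    simpa only [Function.update_idem, Op.eval, ne_eq, OfNat.one_ne_ofNat, not_false_eq_true,     Function.update_of_ne, Function.update_self] using this
  have e5 : Exec W (.op .add 1 1 0)
      ⟨update (update (update (update R 1 A) 1 (A * R x)) 2 B) 1 (A * R x + B), m⟩ 1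
      ⟨update (update (update (update (update R 1 A) 1 (A * R x)) 2 B) 1 (A * R x + B)) 1
        (A * R x + B + R 0), m⟩ := by
    have := Exec.op (W := W)
      ⟨update (update (update (update R 1 A) 1 (A * R x)) 2 B) 1 (A * R x + B), m⟩ .add 1 1 0 (by
      simp only [Op.eval, Function.update_idem, Function.update_self, ne_eq, zero_ne_one, not_false_eq_true, Function.update_of_ne, OfNat.zero_ne_ofNat]; omega)
    simpa [Op.eval] using this
  refine ⟨_, .seq _ _ _ _ _ _ _ e1 (.seq _ _ _ _ _ _ _ e2 (.seq _ _ _ _ _ _ _ e3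
    (.seq _ _ _ _ _ _ _ e4 e5))), ?_, ?_⟩
  · simp only [Function.update_idem, Function.update_self]; omega
  · intro r h1 h2
    simp only [Function.update_idem, Function.update_of_ne h1, Function.update_of_ne h2]

namespace L1

/-- All values of a state are at most `V`. -/
def St.Bdd (V : ℕ) (s : St) : Prop := (∀ r, s.r r ≤ V) ∧ ∀ j i, s.a j i ≤ V

theorem St.Bdd.mono {V V' : ℕ} {s : St} (h : s.Bdd V) (hV : V ≤ V') : s.Bdd V' :=
  ⟨fun r => (h.1 r).trans hV, fun j i => (h.2 j i).trans hV⟩

/-- The arrays used are among the first `K`, the constants are at most `V`. -/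
def B.ok (K V : ℕ) : B → Prop
  | .const _ c => c ≤ V
  | .load j _ _ => j < K
  | .store j _ _ => j < K
  | _ => True

def Cmd.ok (K V : ℕ) : Cmd → Prop
  | .blk l => ∀ b ∈ l, b.ok K V
  | .add _ _ _ => True
  | .seq p q => p.ok K V ∧ q.ok K V
  | .ite _ p q => p.ok K V ∧ q.ok K V
  | .loop _ p => p.ok K V
  | .call => True

/-! The equations of `ok` are generated here (and not again in later files). -/

@[simp] theorem B.ok_const (K V d c : ℕ) : (B.const d c).ok K V ↔ c ≤ V := by simp only [ok]
@[simp] theorem B.ok_copy (K V d x : ℕ) : (B.copy d x).ok K V ↔ True := by simp only [B.ok]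
@[simp] theorem B.ok_inc (K V d : ℕ) : (B.inc d).ok K V ↔ True := by simp only [B.ok]
@[simp] theorem B.ok_dec (K V d : ℕ) : (B.dec d).ok K V ↔ True := by simp only [B.ok]
@[simp] theorem B.ok_sub (K V d x y : ℕ) : (B.sub d x y).ok K V ↔ True := by simp only [B.ok]
@[simp] theorem B.ok_load (K V j d x : ℕ) : (B.load j d x).ok K V ↔ j < K := by simp only [B.ok]
@[simp] theorem B.ok_store (K V j x y : ℕ) : (B.store j x y).ok K V ↔ j < K := by simp only [B.ok]
@[simp] theorem Cmd.ok_blk (K V : ℕ) (l : List B) : (Cmd.blk l).ok K V ↔ ∀ b ∈ l, b.ok K V := by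
  simp only [ok]
@[simp] theorem Cmd.ok_add (K V d x y : ℕ) : (Cmd.add d x y).ok K V ↔ True := by simp only [ok]
@[simp] theorem Cmd.ok_seq (K V : ℕ) (p q : Cmd) : (Cmd.seq p q).ok K V ↔ p.ok K V ∧ q.ok K V := by
  simp only [ok]
@[simp] theorem Cmd.ok_ite (K V : ℕ) (c : Test) (p q : Cmd) :
    (Cmd.ite c p q).ok K V ↔ p.ok K V ∧ q.ok K V := by
  simp only [ok]
@[simp] theorem Cmd.ok_loop (K V : ℕ) (c : Test) (p : Cmd) : (Cmd.loop c p).ok K V ↔ p.ok K V := by
  simp only [ok]
@[simp] theorem Cmd.ok_call (K V : ℕ) : Cmd.call.ok K V ↔ True := by simp only [ok]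

theorem B.ok.mono {K V V' : ℕ} {b : B} (h : b.ok K V) (hV : V ≤ V') : b.ok K V' := by
  cases b <;> simp_all only [ok]
  omega

theorem Cmd.ok.mono {K V V' : ℕ} {c : Cmd} (h : c.ok K V) (hV : V ≤ V') : c.ok K V' := by
  induction c with
  | blk l => exact fun b hb => (h b hb).mono hV
  | add d x y => trivial
  | seq p q ihp ihq => exact ⟨ihp h.1, ihq h.2⟩
  | ite c p q ihp ihq => exact ⟨ihp h.1, ihq h.2⟩
  | loop c p ih => exact ih h
  | call => trivial

theorem update_le {f : ℕ → ℕ} {V x v : ℕ} (hf : ∀ i, f i ≤ V) (hv : v ≤ V) (i : ℕ) :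
    update f x v i ≤ V := by
  by_cases h : i = x
  · subst h; simpa only [Function.update_self] using hv
  · rw [Function.update_of_ne h]; exact hf i

theorem B.step_bdd {K V : ℕ} (b : B) (s : St) (hb : b.ok K V) (hs : s.Bdd V) :
    (b.step s).Bdd (V + 1) := by
  have hs' := hs.mono (Nat.le_succ V)
  cases b with
  | const d c => exact ⟨update_le hs'.1 (by have : c ≤ V := hb; omega), hs'.2⟩
  | copy d x => exact ⟨update_le hs'.1 (hs'.1 x), hs'.2⟩
  | inc d => exact ⟨update_le hs'.1 (by have := hs.1 d; omega), hs'.2⟩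
  | dec d => exact ⟨update_le hs'.1 (by have := hs.1 d; omega), hs'.2⟩
  | sub d x y => exact ⟨update_le hs'.1 (by have := hs.1 x; omega), hs'.2⟩
  | load j d x => exact ⟨update_le hs'.1 (hs'.2 _ _), hs'.2⟩
  | store j x y =>
    refine ⟨hs'.1, fun j' i => ?_⟩
    show update s.a j (update (s.a j) (s.r x) (s.r y)) j' i ≤ V + 1
    by_cases h : j' = j
    · subst h
      rw [Function.update_self]
      exact update_le (hs'.2 _) (hs'.1 y) i
    · rw [Function.update_of_ne h]
      exact hs'.2 _ _

end L1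

open L1

/-- Compilation of basic instructions. Register `r` becomes register `2 r + 10`. -/
def compileB (K : ℕ) : B → Prog
  | .const d c => .const (2 * d + 10) c
  | .copy d x => .seq (.const 1 0) (.op .add (2 * d + 10) (2 * x + 10) 1)
  | .inc d => .seq (.const 1 1) (.op .add (2 * d + 10) (2 * d + 10) 1)
  | .dec d => .seq (.const 1 1) (.op .sub (2 * d + 10) (2 * d + 10) 1)
  | .sub d x y => .op .sub (2 * d + 10) (2 * x + 10) (2 * y + 10)
  | .load j d x => .seq (mkAdr (2 * K) (2 * j) (2 * x + 10)) (.load (2 * d + 10) 1)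
  | .store j x y => .seq (mkAdr (2 * K) (2 * j) (2 * x + 10)) (.store 1 (2 * y + 10))

def compileL (K : ℕ) : List B → Prog
  | [] => .const 1 0
  | b :: l => .seq (compileB K b) (compileL K l)

/-- Compilation; `P` is the code for a call. -/
def compile (K : ℕ) (P : Prog) : Cmd → Prog
  | .blk l => compileL K l
  | .add d x y => .op .add (2 * d + 10) (2 * x + 10) (2 * y + 10)
  | .seq p q => .seq (compile K P p) (compile K P q)
  | .ite c p q => .ite (c.ren fun r => 2 * r + 10) (compile K P p) (compile K P q)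
  | .loop c p => .loop (c.ren fun r => 2 * r + 10) (compile K P p)
  | .call => P

/-- The machine state `S` represents the state `s` of the internal language. Register `6` counts
the calls; the cells `b + 4 a + 3` hold time stamps; registers `2 r + 11` with `r ≥ Rm` are
never used. -/
structure Sim (K b Rm V : ℕ) (s : St) (S : State) : Prop where
  bdd : s.Bdd V
  base : S.reg 0 = b
  cnt : S.reg 6 ≤ V
  reg : ∀ r, S.reg (2 * r + 10) = s.r r
  arr : ∀ j, j < K → ∀ i, S.mem (b + adr K j i) = s.a j i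
  fresh : ∀ a, S.mem (b + (4 * a + 3)) ≤ S.reg 6
  unused : ∀ r, Rm ≤ r → S.reg (2 * r + 11) = 0

theorem Sim.mono {K b Rm V V' : ℕ} {s : St} {S : State} (h : Sim K b Rm V s S) (hV : V ≤ V') :
    Sim K b Rm V' s S :=
  ⟨h.bdd.mono hV, h.base, h.cnt.trans hV, h.reg, h.arr, h.fresh, h.unused⟩

/-- The input cells are not changed. -/
def Low (b : ℕ) (S S' : State) : Prop := ∀ c, c < b → S'.mem c = S.mem c

theorem Low.refl (b : ℕ) (S : State) : Low b S S := fun _ _ => rfl

theorem Low.trans {b : ℕ} {S S' S'' : State} (h : Low b S S') (h' : Low b S' S'') :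
    Low b S S'' := fun c hc => (h' c hc).trans (h c hc)

theorem sim_setreg {K b Rm V V' : ℕ} {s : St} {S : State} (h : Sim K b Rm V s S) (d v : ℕ)
    {ρ : ℕ → ℕ} (hρ : ∀ r, r ≠ 1 → r ≠ 2 → r ≠ 2 * d + 10 → ρ r = S.reg r)
    (hd : ρ (2 * d + 10) = v) (hV : V ≤ V') (hv : v ≤ V') :
    Sim K b Rm V' ⟨update s.r d v, s.a⟩ ⟨ρ, S.mem⟩ ∧ Low b S ⟨ρ, S.mem⟩ := by
  have h6 : ρ 6 = S.reg 6 := hρ 6 (by omega) (by omega) (by omega)
  refine ⟨⟨?_, ?_, ?_, ?_, h.arr, ?_, ?_⟩, fun _ _ => rfl⟩
  · exact ⟨update_le (h.bdd.mono hV).1 hv, (h.bdd.mono hV).2⟩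
  · show ρ 0 = b
    rw [hρ 0 (by omega) (by omega) (by (clear * -; omega)), h.base]
  · show ρ 6 ≤ V'
    rw [h6]; exact h.cnt.trans hV
  · intro r
    show ρ (2 * r + 10) = update s.r d v r
    by_cases hr : r = d
    · subst hr; simp [hd]
    · rw [Function.update_of_ne hr, hρ _ (by omega) (by (clear * -; omega)) (by (clear * - hr; omega)), h.reg]
  · intro a
    show S.mem _ ≤ ρ 6
    rw [h6]; exact h.fresh a
  · intro r hr
    show ρ _ = 0
    rw [hρ _ (by omega) (by omega) (by (clear * -; omega))]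
    exact h.unused r hr

theorem compileB_exec {K b Rm V W : ℕ} (i : B) (s : St) (S : State) (hi : i.ok K V)
    (hW : b + 2 * K * (V + 1) + 2 * K + V + 1 ≤ W) (h : Sim K b Rm V s S) :
    ∃ t S', Exec W (compileB K i) S t S' ∧ t ≤ 6 ∧ Sim K b Rm (V + 1) (i.step s) S' ∧
      Low b S S' := by
  have hs := h.bdd
  have hbd := B.step_bdd i s hi hs
  cases i with
  | const d c =>
    have hc : c ≤ V := hi
    refine ⟨1, _, .const S (2 * d + 10) c (by omega), by omega, ?_⟩
    exact sim_setreg h d c (fun r _ _ h3 => Function.update_of_ne h3 _ _) (by simp) (by omega)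
      (by omega)
  | copy d x =>
    have e1 : Exec W (.const 1 0) S 1 ⟨update S.reg 1 0, S.mem⟩ := .const _ _ _ (by omega)
    have hx := h.reg x
    have hxV := hs.1 x
    have e2 := Exec.op (W := W) ⟨update S.reg 1 0, S.mem⟩ .add (2 * d + 10) (2 * x + 10) 1 (by
      simp [Op.eval, hx]; omega)
    refine ⟨_, _, .seq _ _ _ _ _ _ _ e1 e2, by omega, ?_⟩
    refine sim_setreg h d (s.r x) (fun r h1 _ h3 => ?_) ?_ (by omega) (by omega)
    · simp only [ne_eq, Nat.reduceEqDiff, not_false_eq_true, Function.update_of_ne, Function.update_self, Function.update_of_ne h3, Function.update_of_ne h1]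
    · simp [Op.eval, hx]
  | inc d =>
    have e1 : Exec W (.const 1 1) S 1 ⟨update S.reg 1 1, S.mem⟩ := .const _ _ _ (by (clear * - hW; omega))
    have hx := h.reg d
    have hxV := hs.1 d
    have e2 := Exec.op (W := W) ⟨update S.reg 1 1, S.mem⟩ .add (2 * d + 10) (2 * d + 10) 1 (by
      simp only [Op.eval, ne_eq, Nat.reduceEqDiff, not_false_eq_true, Function.update_of_ne, hx, Function.update_self, Order.add_one_le_iff]; omega)
    refine ⟨_, _, .seq _ _ _ _ _ _ _ e1 e2, by omega, ?_⟩
    refine sim_setreg h d (s.r d + 1) (fun r h1 _ h3 => ?_) ?_ (by omega) (by omega)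
    · simp only [ne_eq, Nat.reduceEqDiff, not_false_eq_true, Function.update_of_ne, Function.update_self, Function.update_of_ne h3, Function.update_of_ne h1]
    · simp [Op.eval, hx]
  | dec d =>
    have e1 : Exec W (.const 1 1) S 1 ⟨update S.reg 1 1, S.mem⟩ := .const _ _ _ (by omega)
    have hx := h.reg d
    have hxV := hs.1 d
    have e2 := Exec.op (W := W) ⟨update S.reg 1 1, S.mem⟩ .sub (2 * d + 10) (2 * d + 10) 1 (by
      simp only [Op.eval, ne_eq, Nat.reduceEqDiff, not_false_eq_true, Function.update_of_ne, hx, Function.update_self, tsub_le_iff_right]; omega)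
    refine ⟨_, _, .seq _ _ _ _ _ _ _ e1 e2, by omega, ?_⟩
    refine sim_setreg h d (s.r d - 1) (fun r h1 _ h3 => ?_) ?_ (by omega) (by omega)
    · simp [Function.update_of_ne h3, Function.update_of_ne h1]
    · simp only [Op.eval, ne_eq, Nat.reduceEqDiff, not_false_eq_true, Function.update_of_ne, hx, Function.update_self]
  | sub d x y =>
    have hx := h.reg x
    have hy := h.reg y
    have hxV := hs.1 x
    have e2 := Exec.op (W := W) S .sub (2 * d + 10) (2 * x + 10) (2 * y + 10) (by
      simp only [Op.eval, hx, hy, tsub_le_iff_right]; (clear * - hW hy hxV; omega))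
    refine ⟨_, _, e2, by omega, ?_⟩
    refine sim_setreg h d (s.r x - s.r y) (fun r h1 _ h3 => ?_) ?_ (by omega) (by omega)
    · simp [Function.update_of_ne h3]
    · simp only [Op.eval, hx, hy, Function.update_self]
  | load j d x =>
    have hj : j < K := hi
    have hxV := hs.1 x
    have hle := adr_le' hj hxV
    obtain ⟨ρ, e1, h1, h2⟩ := mkAdr_exec (W := W) (A := 2 * K) (B := 2 * j) (x := 2 * x + 10) S
      (by omega) (by omega) (by omega) (by
        rw [h.base, h.reg]; unfold adr at hle; omega)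
    have e2 := Exec.load (W := W) ⟨ρ, S.mem⟩ (2 * d + 10) 1
    refine ⟨_, _, .seq _ _ _ _ _ _ _ e1 e2, by omega, ?_⟩
    refine sim_setreg h d (s.a j (s.r x)) (fun r h1' h2' h3 => ?_) ?_ (by omega)
      ((hs.2 j _).trans (by omega))
    · simp only [Function.update_of_ne h3]
      exact h2 r h1' h2'
    · simp only [Function.update_self]
      rw [h1, h.base, h.reg]
      exact h.arr j hj (s.r x)
  | store j x y =>
    have hj : j < K := hi
    have hxV := hs.1 x
    have hle := adr_le' hj hxV
    obtain ⟨ρ, e1, h1, h2⟩ := mkAdr_exec (W := W) (A := 2 * K) (B := 2 * j) (x := 2 * x + 10) S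
      (by omega) (by omega) (by omega) (by
        rw [h.base, h.reg]; unfold adr at hle; omega)
    have e2 := Exec.store (W := W) ⟨ρ, S.mem⟩ 1 (2 * y + 10)
    have h6 : ρ 6 = S.reg 6 := h2 6 (by omega) (by omega)
    refine ⟨_, _, .seq _ _ _ _ _ _ _ e1 e2, by omega, ⟨hbd, ?_, ?_, ?_, ?_, ?_, ?_⟩, ?_⟩
    · show ρ 0 = b
      rw [h2 0 (by omega) (by omega), h.base]
    · show ρ 6 ≤ V + 1
      rw [h6]; exact h.cnt.trans (by omega)
    · intro r
      show ρ (2 * r + 10) = s.r r
      rw [h2 _ (by omega) (by omega), h.reg]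
    · intro j' hj' i
      show update S.mem (ρ 1) (ρ (2 * y + 10)) (b + adr K j' i) =
        update s.a j (update (s.a j) (s.r x) (s.r y)) j' i
      rw [h2 (2 * y + 10) (by omega) (by omega), h.reg, h1, h.base, h.reg]
      change update S.mem (b + adr K j (s.r x)) (s.r y) (b + adr K j' i) = _
      by_cases hjj : j' = j
      · subst hjj
        rw [Function.update_self]
        by_cases hi : i = s.r x
        · subst hi
          rw [Function.update_self, Function.update_self]
        · rw [Function.update_of_ne hi, Function.update_of_ne, h.arr j' hj']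
          intro hh
          exact hi (adr_inj (i := i) (i' := s.r x) hj' hj' (by omega)).2
      · rw [Function.update_of_ne hjj, Function.update_of_ne, h.arr j' hj']
        intro hh
        exact hjj (adr_inj (i := i) (i' := s.r x) hj' hj (by omega)).1
    · intro a
      show update S.mem (ρ 1) (ρ (2 * y + 10)) (b + (4 * a + 3)) ≤ ρ 6
      rw [h6, Function.update_of_ne]
      · exact h.fresh a
      · have := adr_even K j (s.r x)
        unfold adr at this
        rw [h1, h.base, h.reg, this]
        omega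
    · intro r hr
      show ρ _ = 0
      rw [h2 _ (by omega) (by omega)]
      exact h.unused r hr
    · intro c hc
      show update S.mem (ρ 1) (ρ (2 * y + 10)) c = S.mem c
      rw [Function.update_of_ne]
      rw [h1, h.base]
      omega

theorem compileL_exec {K b Rm W : ℕ} (l : List B) :
    ∀ (V : ℕ) (s : St) (S : State), (∀ i ∈ l, i.ok K V) →
    b + 2 * K * (V + l.length + 1) + 2 * K + V + l.length + 1 ≤ W → Sim K b Rm V s S →
    ∃ t S', Exec W (compileL K l) S t S' ∧ t ≤ 6 * l.length + 1 ∧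
      Sim K b Rm (V + l.length) (run l s) S' ∧ Low b S S' := by
  induction l with
  | nil =>
    intro V s S _ hW h
    refine ⟨1, _, .const S 1 0 (by omega), by simp, ⟨h.bdd, ?_, ?_, ?_, h.arr, ?_, ?_⟩,
      fun _ _ => rfl⟩
    · simp only [ne_eq, zero_ne_one, not_false_eq_true, Function.update_of_ne, h.base]
    · simpa only [ne_eq, OfNat.ofNat_ne_one, not_false_eq_true, Function.update_of_ne, List.length_nil,     add_zero] using h.cnt
    · intro r
      show update S.reg 1 0 (2 * r + 10) = s.r r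
      rw [Function.update_of_ne (by omega), h.reg]
    · simpa only [ne_eq, OfNat.ofNat_ne_one, not_false_eq_true, Function.update_of_ne] using h.fresh
    · intro r hr
      show update S.reg 1 0 (2 * r + 11) = 0
      rw [Function.update_of_ne (by (clear * -; omega))]
      exact h.unused r hr
  | cons i l ih =>
    intro V s S hi hW h
    have hlen : (i :: l).length = l.length + 1 := rfl
    rw [hlen] at hW
    have hmul : 2 * K * (V + 1) ≤ 2 * K * (V + (l.length + 1) + 1) :=
      Nat.mul_le_mul_left _ (by (clear * - hlen; omega))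
    have hW1 : b + 2 * K * (V + 1) + 2 * K + V + 1 ≤ W := by (clear * - hW hlen hmul; omega)
    obtain ⟨t1, S1, e1, ht1, h1, f1⟩ := compileB_exec i s S (hi i (by simp)) hW1 h
    obtain ⟨t2, S2, e2, ht2, h2, f2⟩ := ih (V + 1) (i.step s) S1
      (fun j hj => (hi j (by simp [hj])).mono (by omega))
      (by rw [show V + 1 + l.length + 1 = V + (l.length + 1) + 1 by omega]; omega) h1
    refine ⟨t1 + t2, S2, .seq _ _ _ _ _ _ _ e1 e2, by rw [hlen]; (clear * - hlen ht1 ht2; omega), ?_, f1.trans f2⟩
    rw [hlen]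
    exact h2.mono (by omega)

/-- Overhead factor of the compilation; `κ` is the one of calls. -/
def ovh (κ : ℕ) : Cmd → ℕ
  | .blk _ => 6
  | .add _ _ _ => 1
  | .seq p q => ovh κ p + ovh κ q
  | .ite _ p q => ovh κ p + ovh κ q + 1
  | .loop _ p => ovh κ p + 1
  | .call => κ

/-- Time bound of the compiled program, sharper for loops. -/
def tb (κ : ℕ) : Cmd → ℕ → ℕ
  | .loop _ p, t => (ovh κ p + 1) * t
  | .blk l, t => ovh κ (.blk l) * (t + 1)
  | .add d x y, t => ovh κ (.add d x y) * (t + 1)
  | .seq p q, t => ovh κ (.seq p q) * (t + 1)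
  | .ite c p q, t => ovh κ (.ite c p q) * (t + 1)
  | .call, t => ovh κ .call * (t + 1)

theorem tb_le (κ : ℕ) (c : Cmd) (t : ℕ) : tb κ c t ≤ ovh κ c * (t + 1) := by
  cases c with
  | blk l => exact le_rfl
  | add d x y => exact le_rfl
  | seq p q => exact le_rfl
  | ite c p q => exact le_rfl
  | loop c p => exact Nat.mul_le_mul_left _ (by omega)
  | call => exact le_rfl

/-- Like `Ex`, with a second counter `u` of the steps without those of the black box. -/
inductive Ex2 (R : List ℕ → (ℕ → ℕ) → ℕ → Prop) (cap : ℕ) : Cmd → St → ℕ → ℕ → St → Prop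
  | blk (l : List B) (s : St) : Ex2 R cap (.blk l) s l.length l.length (run l s)
  | add (d x y : ℕ) (s : St) (h : s.r x + s.r y ≤ cap) :
      Ex2 R cap (.add d x y) s 1 1 ⟨update s.r d (s.r x + s.r y), s.a⟩
  | seq {p q : Cmd} {s s' s'' : St} {t t' u u' : ℕ} (h : Ex2 R cap p s t u s')
      (h' : Ex2 R cap q s' t' u' s'') : Ex2 R cap (.seq p q) s (t + t') (u + u') s''
  | iteTrue {c : Test} {p q : Cmd} {s s' : St} {t u : ℕ} (hc : c.holds s.r)
      (h : Ex2 R cap p s t u s') : Ex2 R cap (.ite c p q) s (t + 1) (u + 1) s'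
  | iteFalse {c : Test} {p q : Cmd} {s s' : St} {t u : ℕ} (hc : ¬ c.holds s.r)
      (h : Ex2 R cap q s t u s') : Ex2 R cap (.ite c p q) s (t + 1) (u + 1) s'
  | loopDone {c : Test} {p : Cmd} {s : St} (hc : ¬ c.holds s.r) : Ex2 R cap (.loop c p) s 1 1 s
  | loopStep {c : Test} {p : Cmd} {s s' s'' : St} {t t' u u' : ℕ} (hc : c.holds s.r)
      (h : Ex2 R cap p s t u s') (h' : Ex2 R cap (.loop c p) s' t' u' s'') :
      Ex2 R cap (.loop c p) s (t + t' + 1) (u + u' + 1) s''
  | call {s : St} {inp : List ℕ} {out : ℕ → ℕ} {t : ℕ} (h : ∀ i, s.a 1 i = inp.getD i 0)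
      (hR : R inp out t) :
      Ex2 R cap .call s (t + inp.length + 1) (inp.length + 1) (callResult s inp out)

theorem Ex2.toEx {R : List ℕ → (ℕ → ℕ) → ℕ → Prop} {cap : ℕ} {c : Cmd} {s s' : St} {t u : ℕ}
    (h : Ex2 R cap c s t u s') : Ex R cap c s t s' := by
  induction h with
  | blk l s => exact .blk _ _
  | add d x y s h => exact .add _ _ _ _ h
  | seq h h' ih ih' => exact .seq ih ih'
  | iteTrue hc h ih => exact .iteTrue hc ih
  | iteFalse hc h ih => exact .iteFalse hc ih
  | loopDone hc => exact .loopDone hc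
  | loopStep hc h h' ih ih' => exact .loopStep hc ih ih'
  | call h hR => exact .call h hR

theorem Ex.toEx2 {R : List ℕ → (ℕ → ℕ) → ℕ → Prop} {cap : ℕ} {c : Cmd} {s s' : St} {u : ℕ}
    (h : Ex (fun inp out t => t = 0 ∧ ∃ t', R inp out t') cap c s u s') :
    ∃ t, Ex2 R cap c s t u s' := by
  induction h with
  | blk l s => exact ⟨_, .blk _ _⟩
  | add d x y s h => exact ⟨_, .add _ _ _ _ h⟩
  | seq h h' ih ih' =>
    obtain ⟨t, ht⟩ := ih
    obtain ⟨t', ht'⟩ := ih'
    exact ⟨_, .seq ht ht'⟩
  | iteTrue hc h ih =>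
    obtain ⟨t, ht⟩ := ih
    exact ⟨_, .iteTrue hc ht⟩
  | iteFalse hc h ih =>
    obtain ⟨t, ht⟩ := ih
    exact ⟨_, .iteFalse hc ht⟩
  | loopDone hc => exact ⟨_, .loopDone hc⟩
  | loopStep hc h h' ih ih' =>
    obtain ⟨t, ht⟩ := ih
    obtain ⟨t', ht'⟩ := ih'
    exact ⟨_, .loopStep hc ht ht'⟩
  | @call s inp out t h hR =>
    obtain ⟨rfl, t', hR'⟩ := hR
    refine ⟨t' + inp.length + 1, ?_⟩
    rw [Nat.zero_add]
    exact .call h hR'

/-- What the code `P` of a call has to do. -/
def CallOK (R : List ℕ → (ℕ → ℕ) → ℕ → Prop) (K b Rm W κ Vm : ℕ) (P : Prog) : Prop :=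
  ∀ (V : ℕ) (s : St) (S : State) (inp : List ℕ) (out : ℕ → ℕ) (t : ℕ), V < Vm →
    (∀ i, s.a 1 i = inp.getD i 0) → R inp out t → Sim K b Rm V s S →
    ∃ t' S', Exec W P S t' S' ∧ t' ≤ κ * (t + inp.length + 1) ∧
      Sim K b Rm (V + 1) (callResult s inp out) S' ∧ Low b S S'

theorem compile_exec_aux {R : List ℕ → (ℕ → ℕ) → ℕ → Prop} {K b Rm W κ cap Vm : ℕ} {P : Prog}
    (hP : CallOK R K b Rm W κ Vm P) {c : Cmd} {s s' : St} {t u : ℕ} (h : Ex2 R cap c s t u s') :
    ∀ (V : ℕ) (S : State), c.ok K V → cap ≤ V → V + u ≤ Vm →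
    b + 2 * K * (V + u + 1) + 2 * K + V + u + 1 ≤ W → Sim K b Rm V s S →
    ∃ t' S', Exec W (compile K P c) S t' S' ∧ t' ≤ tb κ c t ∧ Sim K b Rm (V + u) s' S' ∧
      Low b S S' := by
  have hmono : ∀ {V x y : ℕ}, x ≤ y → b + 2 * K * (V + y + 1) + 2 * K + V + y + 1 ≤ W →
      b + 2 * K * (V + x + 1) + 2 * K + V + x + 1 ≤ W := by
    intro V x y hxy hW
    have : 2 * K * (V + x + 1) ≤ 2 * K * (V + y + 1) := Nat.mul_le_mul_left _ (by omega)
    omega
  induction h with
  | blk l s =>
    intro V S hok hcap hVm hW hS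
    obtain ⟨t', S', e, ht, h1, h2⟩ := compileL_exec l V s S hok hW hS
    exact ⟨t', S', e, by simp only [tb, ovh]; omega, h1, h2⟩
  | add d x y s h =>
    intro V S hok hcap hVm hW hS
    have hx := hS.reg x
    have hy := hS.reg y
    have e2 := Exec.op (W := W) S .add (2 * d + 10) (2 * x + 10) (2 * y + 10) (by
      simp only [Op.eval, hx, hy]; omega)
    refine ⟨_, _, e2, by simp only [tb, ovh, Nat.reduceAdd, one_mul, Nat.one_le_ofNat], ?_⟩
    refine sim_setreg hS d (s.r x + s.r y) (fun r h1 _ h3 => ?_) ?_ (by omega) (by (clear * - h hcap hx hy; omega))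
    · simp [Function.update_of_ne h3]
    · simp [Op.eval, hx, hy]
  | @seq p q s s1 s2 t1 t2 u1 u2 h h' ih ih' =>
    intro V S hok hcap hVm hW hS
    obtain ⟨v1, S1, e1, hv1, g1, f1⟩ := ih V S hok.1 hcap (by omega)
      (hmono (x := u1) (y := u1 + u2) (by omega) hW) hS
    obtain ⟨v2, S2, e2, hv2, g2, f2⟩ := ih' (V + u1) S1 (hok.2.mono (by omega)) (by omega)
      (by omega) (by rw [show V + u1 + u2 + 1 = V + (u1 + u2) + 1 by omega]; omega) g1
    refine ⟨v1 + v2, S2, .seq _ _ _ _ _ _ _ e1 e2, ?_, g2.mono (by omega), f1.trans f2⟩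
    have a1 := hv1.trans (tb_le _ _ _)
    have a2 := hv2.trans (tb_le _ _ _)
    simp only [tb, ovh]
    nlinarith only [a1, a2]
  | @iteTrue c p q s s' t u hc h ih =>
    intro V S hok hcap hVm hW hS
    obtain ⟨v, S1, e, hu, g, f⟩ := ih V S hok.1 hcap (by omega)
      (hmono (x := u) (y := u + 1) (by omega) hW) hS
    refine ⟨v + 1, S1, .iteTrue _ _ _ _ _ _ ((Test.ren_holds _ _ _ _ hS.reg).2 hc) e, ?_,
      g.mono (by omega), f⟩
    have a := hu.trans (tb_le _ _ _)
    simp only [tb, ovh]
    nlinarith only [a]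
  | @iteFalse c p q s s' t u hc h ih =>
    intro V S hok hcap hVm hW hS
    obtain ⟨v, S1, e, hu, g, f⟩ := ih V S hok.2 hcap (by omega)
      (hmono (x := u) (y := u + 1) (by omega) hW) hS
    refine ⟨v + 1, S1, .iteFalse _ _ _ _ _ _
      (fun hh => hc ((Test.ren_holds _ _ _ _ hS.reg).1 hh)) e, ?_, g.mono (by omega), f⟩
    have a := hu.trans (tb_le _ _ _)
    simp only [tb, ovh]
    nlinarith only [a]
  | @loopDone c p s hc =>
    intro V S hok hcap hVm hW hS
    exact ⟨1, S, .loopDone _ _ _ (fun hh => hc ((Test.ren_holds _ _ _ _ hS.reg).1 hh)),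
      by simp [tb], hS.mono (by omega), Low.refl _ _⟩
  | @loopStep c p s s1 s2 t1 t2 u1 u2 hc h h' ih ih' =>
    intro V S hok hcap hVm hW hS
    obtain ⟨v1, S1, e1, hv1, g1, f1⟩ := ih V S hok hcap (by omega)
      (hmono (x := u1) (y := u1 + u2 + 1) (by omega) hW) hS
    obtain ⟨v2, S2, e2, hv2, g2, f2⟩ := ih' (V + u1) S1
      (Cmd.ok.mono (c := .loop c p) hok (by omega)) (by omega) (by omega)
      (by
        have := hmono (V := V) (x := u1 + u2) (y := u1 + u2 + 1) (by omega) hW
        rw [show V + u1 + u2 + 1 = V + (u1 + u2) + 1 by omega]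
        (clear * - this; omega)) g1
    refine ⟨v1 + v2 + 1, S2, .loopStep _ _ _ _ _ _ _
      ((Test.ren_holds _ _ _ _ hS.reg).2 hc) e1 e2, ?_, g2.mono (by omega), f1.trans f2⟩
    have a1 := hv1.trans (tb_le _ _ _)
    simp only [tb] at hv2 ⊢
    linarith
  | @call s inp out t h hR =>
    intro V S hok hcap hVm hW hS
    obtain ⟨v, S1, e, hu, g, f⟩ := hP V s S inp out t (by omega) h hR hS
    refine ⟨v, S1, e, ?_, g.mono (by omega), f⟩
    simp only [tb, ovh]
    nlinarith only [hu]

theorem compile_exec {R : List ℕ → (ℕ → ℕ) → ℕ → Prop} {K b Rm W κ cap Vm : ℕ} {P : Prog}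
    (hP : CallOK R K b Rm W κ Vm P) {c : Cmd} {s s' : St} {t u : ℕ} (h : Ex2 R cap c s t u s')
    (V : ℕ) (S : State) (hok : c.ok K V) (hcap : cap ≤ V) (hVm : V + u ≤ Vm)
    (hW : b + 2 * K * (V + u + 1) + 2 * K + V + u + 1 ≤ W) (hS : Sim K b Rm V s S) :
    ∃ t' S', Exec W (compile K P c) S t' S' ∧ t' ≤ ovh κ c * (t + 1) ∧
      Sim K b Rm (V + u) s' S' ∧ Low b S S' := by
  obtain ⟨t', S', e, ht, h1, h2⟩ := compile_exec_aux hP h V S hok hcap hVm hW hS
  exact ⟨t', S', e, ht.trans (tb_le _ _ _), h1, h2⟩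

end Vale.Agent.P305
end
end

section

section

/-! Relocation of a word RAM program to odd registers and odd memory cells above the base, with
time stamps, so that the program can be called several times. -/

set_option autoImplicit false

namespace Vale.Agent.P305

open Function (update)

def State.Bdd (V : ℕ) (s : State) : Prop := (∀ r, s.reg r ≤ V) ∧ ∀ a, s.mem a ≤ V

theorem Exec.bdd {W V : ℕ} (hWV : W ≤ V) {p : Prog} {s s' : State} {t : ℕ} (h : Exec W p s t s') :
    s.Bdd V → s'.Bdd V := by
  induction h with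
  | const s d c h => exact fun hs => ⟨L1.update_le hs.1 (h.trans hWV), hs.2⟩
  | op s o d a b h => exact fun hs => ⟨L1.update_le hs.1 (h.trans hWV), hs.2⟩
  | load s d a => exact fun hs => ⟨L1.update_le hs.1 (hs.2 _), hs.2⟩
  | store s a b => exact fun hs => ⟨hs.1, L1.update_le hs.2 (hs.1 _)⟩
  | seq p q s s' s'' t t' h h' ih ih' => exact fun hs => ih' (ih hs)
  | iteTrue c p q s s' t hc h ih => exact ih
  | iteFalse c p q s s' t hc h ih => exact ih
  | loopDone c p s hc => exact id
  | loopStep c p s s' s'' t t' hc h h' ih ih' => exact fun hs => ih' (ih hs)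

theorem Exec.mono {W W' : ℕ} (hW : W ≤ W') {p : Prog} {s s' : State} {t : ℕ}
    (h : Exec W p s t s') : Exec W' p s t s' := by
  induction h with
  | const s d c h => exact .const _ _ _ (h.trans hW)
  | op s o d a b h => exact .op _ _ _ _ _ (h.trans hW)
  | load s d a => exact .load _ _ _
  | store s a b => exact .store _ _ _
  | seq p q s s' s'' t t' h h' ih ih' => exact .seq _ _ _ _ _ _ _ ih ih'
  | iteTrue c p q s s' t hc h ih => exact .iteTrue _ _ _ _ _ _ hc ih
  | iteFalse c p q s s' t hc h ih => exact .iteFalse _ _ _ _ _ _ hc ih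
  | loopDone c p s hc => exact .loopDone _ _ _ hc
  | loopStep c p s s' s'' t t' hc h h' ih ih' => exact .loopStep _ _ _ _ _ _ _ hc ih ih'

/-- A bound for the registers a program writes. -/
def Prog.regBd : Prog → ℕ
  | .const d _ => d + 1
  | .op _ d _ _ => d + 1
  | .load d _ => d + 1
  | .store _ _ => 0
  | .seq p q => max p.regBd q.regBd
  | .ite _ p q => max p.regBd q.regBd
  | .loop _ p => p.regBd

theorem Exec.reg_eq {W : ℕ} {p : Prog} {s s' : State} {t : ℕ} (h : Exec W p s t s') :
    ∀ r, p.regBd ≤ r → s'.reg r = s.reg r := by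
  induction h with
  | const s d c h =>
    intro r hr
    simp only [Prog.regBd] at hr
    exact Function.update_of_ne (by omega) _ _
  | op s o d a b h =>
    intro r hr
    simp only [Prog.regBd] at hr
    exact Function.update_of_ne (by omega) _ _
  | load s d a =>
    intro r hr
    simp only [Prog.regBd] at hr
    exact Function.update_of_ne (by omega) _ _
  | store s a b => exact fun _ _ => rfl
  | seq p q s s' s'' t t' h h' ih ih' =>
    intro r hr
    simp only [Prog.regBd] at hr
    rw [ih' r (by omega), ih r (by omega)]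
  | iteTrue c p q s s' t hc h ih =>
    intro r hr
    simp only [Prog.regBd] at hr
    exact ih r (by omega)
  | iteFalse c p q s s' t hc h ih =>
    intro r hr
    simp only [Prog.regBd] at hr
    exact ih r (by omega)
  | loopDone c p s hc => exact fun _ _ => rfl
  | loopStep c p s s' s'' t t' hc h h' ih ih' =>
    intro r hr
    rw [ih' r hr]
    exact ih r hr

/-- Relocation: register `r` becomes `2 r + 11`, cell `a` becomes `b + 4 a + 1`, where `b` is the
content of register `0`; its time stamp, in cell `b + 4 a + 3`, is compared with register `6`. -/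
def reloc : Prog → Prog
  | .const d c => .const (2 * d + 11) c
  | .op o d a b => .op o (2 * d + 11) (2 * a + 11) (2 * b + 11)
  | .load d a => .seq (mkAdr 4 3 (2 * a + 11)) (.seq (.load 3 1) (.ite (.eq 3 6)
      (.seq (mkAdr 4 1 (2 * a + 11)) (.load (2 * d + 11) 1)) (.const (2 * d + 11) 0)))
  | .store a b => .seq (mkAdr 4 3 (2 * a + 11)) (.seq (.store 1 6)
      (.seq (mkAdr 4 1 (2 * a + 11)) (.store 1 (2 * b + 11))))
  | .seq p q => .seq (reloc p) (reloc q)
  | .ite c p q => .ite (c.ren fun r => 2 * r + 11) (reloc p) (reloc q)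
  | .loop c p => .loop (c.ren fun r => 2 * r + 11) (reloc p)

structure RSim (b : ℕ) (s S : State) : Prop where
  base : S.reg 0 = b
  reg : ∀ r, S.reg (2 * r + 11) = s.reg r
  mem : ∀ a, (if S.mem (b + (4 * a + 3)) = S.reg 6 then S.mem (b + (4 * a + 1)) else 0) = s.mem a
  fresh : ∀ a, S.mem (b + (4 * a + 3)) ≤ S.reg 6

structure RFrame (b : ℕ) (S S' : State) : Prop where
  reg : ∀ r, r ≠ 1 → r ≠ 2 → r ≠ 3 → (∀ x, r ≠ 2 * x + 11) → S'.reg r = S.reg r
  low : ∀ c, c < b → S'.mem c = S.mem c
  even : ∀ i, S'.mem (b + 2 * i) = S.mem (b + 2 * i)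

theorem RFrame.refl (b : ℕ) (S : State) : RFrame b S S :=
  ⟨fun _ _ _ _ _ => rfl, fun _ _ => rfl, fun _ => rfl⟩

theorem RFrame.trans {b : ℕ} {S S' S'' : State} (h : RFrame b S S') (h' : RFrame b S' S'') :
    RFrame b S S'' :=
  ⟨fun r h1 h2 h3 h4 => (h'.reg r h1 h2 h3 h4).trans (h.reg r h1 h2 h3 h4),
    fun c hc => (h'.low c hc).trans (h.low c hc), fun i => (h'.even i).trans (h.even i)⟩

theorem rsim_setreg {b : ℕ} {s S : State} (h : RSim b s S) (d v : ℕ) {ρ : ℕ → ℕ}
    (hρ : ∀ r, r ≠ 1 → r ≠ 2 → r ≠ 3 → r ≠ 2 * d + 11 → ρ r = S.reg r)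
    (hd : ρ (2 * d + 11) = v) :
    RSim b ⟨update s.reg d v, s.mem⟩ ⟨ρ, S.mem⟩ ∧ RFrame b S ⟨ρ, S.mem⟩ := by
  have h6 : ρ 6 = S.reg 6 := hρ 6 (by omega) (by omega) (by omega) (by omega)
  refine ⟨⟨?_, ?_, ?_, ?_⟩, ⟨?_, fun _ _ => rfl, fun _ => rfl⟩⟩
  · show ρ 0 = b
    rw [hρ 0 (by omega) (by omega) (by omega) (by omega), h.base]
  · intro r
    show ρ (2 * r + 11) = update s.reg d v r
    by_cases hr : r = d
    · subst hr; simp [hd]
    · rw [Function.update_of_ne hr, hρ _ (by omega) (by omega) (by omega) (by omega), h.reg]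
  · intro a
    show (if S.mem (b + (4 * a + 3)) = ρ 6 then S.mem (b + (4 * a + 1)) else 0) = s.mem a
    rw [h6]; exact h.mem a
  · intro a
    show S.mem (b + (4 * a + 3)) ≤ ρ 6
    rw [h6]; exact h.fresh a
  · intro r h1 h2 h3 h4
    exact hρ _ h1 h2 h3 (h4 d)

theorem reloc_exec {W V W' b : ℕ} (hWV : W ≤ V) (hW' : b + 4 * V + 4 ≤ W') {p : Prog}
    {s s' : State} {t : ℕ} (h : Exec W p s t s') :
    ∀ S, s.Bdd V → RSim b s S →
    ∃ t' S', Exec W' (reloc p) S t' S' ∧ t' ≤ 13 * t ∧ RSim b s' S' ∧ RFrame b S S' := by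
  induction h with
  | const s d c h =>
    intro S hs hS
    refine ⟨1, _, .const S (2 * d + 11) c (by omega), by omega, ?_⟩
    exact rsim_setreg hS d c (fun r _ _ _ h3 => Function.update_of_ne h3 _ _) (by simp)
  | op s o d a c h =>
    intro S hs hS
    have e := Exec.op (W := W') S o (2 * d + 11) (2 * a + 11) (2 * c + 11) (by
      rw [hS.reg, hS.reg]; omega)
    refine ⟨1, _, e, by omega, ?_⟩
    exact rsim_setreg hS d _ (fun r _ _ _ h3 => Function.update_of_ne h3 _ _) (by
      simp [hS.reg])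
  | load s d a =>
    intro S hs hS
    have ha := hs.1 a
    obtain ⟨ρ, e1, h1, h2⟩ := mkAdr_exec (W := W') (A := 4) (B := 3) (x := 2 * a + 11) S
      (by omega) (by omega) (by omega) (by rw [hS.base, hS.reg]; omega)
    have e2 := Exec.load (W := W') ⟨ρ, S.mem⟩ 3 1
    simp only at e2
    rw [h1, hS.base, hS.reg] at e2
    set q := S.mem (b + (4 * s.reg a + 3)) with hq
    have hmem := hS.mem (s.reg a)
    rw [← hq] at hmem
    have h6 : ρ 6 = S.reg 6 := h2 6 (by omega) (by omega)
    by_cases hc : q = S.reg 6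
    · rw [if_pos hc] at hmem
      obtain ⟨ρ', e3, h3, h4⟩ := mkAdr_exec (W := W') (A := 4) (B := 1) (x := 2 * a + 11)
        ⟨update ρ 3 q, S.mem⟩ (by omega) (by omega) (by omega) (by
          simp only
          rw [Function.update_of_ne (by omega), Function.update_of_ne (by omega),
            h2 0 (by omega) (by omega), h2 _ (by omega) (by omega), hS.base, hS.reg]
          omega)
      simp only at h3 h4
      rw [Function.update_of_ne (by omega), Function.update_of_ne (by omega),
        h2 0 (by omega) (by omega), h2 _ (by (clear * -; omega)) (by omega), hS.base, hS.reg] at h3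
      have e4 := Exec.load (W := W') ⟨ρ', S.mem⟩ (2 * d + 11) 1
      simp only at e4
      rw [h3, hmem] at e4
      refine ⟨_, _, .seq _ _ _ _ _ _ _ e1 (.seq _ _ _ _ _ _ _ e2
        (.iteTrue _ _ _ _ _ _ ?_ (.seq _ _ _ _ _ _ _ e3 e4))), by omega, ?_⟩
      · simp only [Test.holds, Function.update_self]
        rw [Function.update_of_ne (by omega), h6, hc]
      · refine rsim_setreg hS d (s.mem (s.reg a)) (fun r h1' h2' h3' h4' => ?_) (by simp)
        rw [Function.update_of_ne h4', h4 r h1' h2', Function.update_of_ne h3', h2 r h1' h2']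
    · rw [if_neg hc] at hmem
      have e4 := Exec.const (W := W') ⟨update ρ 3 q, S.mem⟩ (2 * d + 11) 0 (by omega)
      refine ⟨_, _, .seq _ _ _ _ _ _ _ e1 (.seq _ _ _ _ _ _ _ e2
        (.iteFalse _ _ _ _ _ _ ?_ e4)), by omega, ?_⟩
      · simp only [Test.holds, Function.update_self]
        rw [Function.update_of_ne (by omega), h6]
        exact hc
      · refine rsim_setreg hS d (s.mem (s.reg a)) (fun r h1' h2' h3' h4' => ?_) (by simp [← hmem])
        simp only
        rw [Function.update_of_ne h4', Function.update_of_ne h3', h2 r h1' h2']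
  | store s a c =>
    intro S hs hS
    have ha := hs.1 a
    obtain ⟨ρ, e1, h1, h2⟩ := mkAdr_exec (W := W') (A := 4) (B := 3) (x := 2 * a + 11) S
      (by omega) (by omega) (by omega) (by rw [hS.base, hS.reg]; omega)
    rw [hS.base, hS.reg] at h1
    have h6 : ρ 6 = S.reg 6 := h2 6 (by omega) (by omega)
    have e2 := Exec.store (W := W') ⟨ρ, S.mem⟩ 1 6
    simp only at e2
    rw [h1, h6] at e2
    set m1 := update S.mem (b + (4 * s.reg a + 3)) (S.reg 6) with hm1
    obtain ⟨ρ', e3, h3, h4⟩ := mkAdr_exec (W := W') (A := 4) (B := 1) (x := 2 * a + 11)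
      ⟨ρ, m1⟩ (by omega) (by omega) (by omega) (by
        simp only
        rw [h2 0 (by omega) (by omega), h2 _ (by omega) (by omega), hS.base, hS.reg]
        omega)
    simp only at h3 h4
    rw [h2 0 (by omega) (by omega), h2 _ (by omega) (by (clear * -; omega)), hS.base, hS.reg] at h3
    have e4 := Exec.store (W := W') ⟨ρ', m1⟩ 1 (2 * c + 11)
    simp only at e4
    rw [h3, h4 (2 * c + 11) (by omega) (by (clear * -; omega)), h2 (2 * c + 11) (by (clear * -; omega)) (by omega),
      hS.reg] at e4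
    have h6' : ρ' 6 = S.reg 6 := by rw [h4 6 (by omega) (by omega), h6]
    refine ⟨_, _, .seq _ _ _ _ _ _ _ e1 (.seq _ _ _ _ _ _ _ e2 (.seq _ _ _ _ _ _ _ e3 e4)),
      by omega, ⟨?_, ?_, ?_, ?_⟩, ?_, ?_, ?_⟩
    · show ρ' 0 = b
      rw [h4 0 (by omega) (by omega), h2 0 (by omega) (by omega), hS.base]
    · intro r
      show ρ' (2 * r + 11) = s.reg r
      rw [h4 _ (by omega) (by omega), h2 _ (by omega) (by omega), hS.reg]
    · intro x
      show (if update m1 (b + (4 * s.reg a + 1)) (s.reg c) (b + (4 * x + 3)) = ρ' 6 then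
        update m1 (b + (4 * s.reg a + 1)) (s.reg c) (b + (4 * x + 1)) else 0) =
        update s.mem (s.reg a) (s.reg c) x
      rw [h6', Function.update_of_ne (by omega), hm1]
      by_cases hx : x = s.reg a
      · subst hx
        rw [Function.update_self, Function.update_self, Function.update_self, if_pos rfl]
      · rw [Function.update_of_ne hx, Function.update_of_ne (by omega),
          Function.update_of_ne (by omega), Function.update_of_ne (by omega), hS.mem]
    · intro x
      show update m1 (b + (4 * s.reg a + 1)) (s.reg c) (b + (4 * x + 3)) ≤ ρ' 6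
      rw [h6', Function.update_of_ne (by (clear * -; omega)), hm1]
      by_cases hx : x = s.reg a
      · subst hx
        rw [Function.update_self]
      · rw [Function.update_of_ne (by omega)]
        exact hS.fresh x
    · intro r h1' h2' _ _
      show ρ' r = S.reg r
      rw [h4 r h1' h2', h2 r h1' h2']
    · intro x hx
      show update m1 (b + (4 * s.reg a + 1)) (s.reg c) x = S.mem x
      rw [Function.update_of_ne (by omega), hm1, Function.update_of_ne (by (clear * - h1 h3 hx; omega))]
    · intro i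
      show update m1 (b + (4 * s.reg a + 1)) (s.reg c) (b + 2 * i) = S.mem (b + 2 * i)
      rw [Function.update_of_ne (by omega), hm1, Function.update_of_ne (by omega)]
  | seq p q s s1 s2 t1 t2 h h' ih ih' =>
    intro S hs hS
    obtain ⟨u1, S1, e1, hu1, g1, f1⟩ := ih S hs hS
    obtain ⟨u2, S2, e2, hu2, g2, f2⟩ := ih' S1 (h.bdd hWV hs) g1
    exact ⟨u1 + u2, S2, .seq _ _ _ _ _ _ _ e1 e2, by (clear * - hu1 hu2; omega), g2, f1.trans f2⟩
  | iteTrue c p q s s' t hc h ih =>
    intro S hs hS
    obtain ⟨u, S1, e, hu, g, f⟩ := ih S hs hS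
    exact ⟨u + 1, S1, .iteTrue _ _ _ _ _ _ ((Test.ren_holds _ _ _ _ hS.reg).2 hc) e, by omega,
      g, f⟩
  | iteFalse c p q s s' t hc h ih =>
    intro S hs hS
    obtain ⟨u, S1, e, hu, g, f⟩ := ih S hs hS
    exact ⟨u + 1, S1, .iteFalse _ _ _ _ _ _
      (fun hh => hc ((Test.ren_holds _ _ _ _ hS.reg).1 hh)) e, by omega, g, f⟩
  | loopDone c p s hc =>
    intro S hs hS
    exact ⟨1, S, .loopDone _ _ _ (fun hh => hc ((Test.ren_holds _ _ _ _ hS.reg).1 hh)),
      by omega, hS, RFrame.refl _ _⟩
  | loopStep c p s s1 s2 t1 t2 hc h h' ih ih' =>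
    intro S hs hS
    obtain ⟨u1, S1, e1, hu1, g1, f1⟩ := ih S hs hS
    obtain ⟨u2, S2, e2, hu2, g2, f2⟩ := ih' S1 (h.bdd hWV hs) g1
    exact ⟨u1 + u2 + 1, S2, .loopStep _ _ _ _ _ _ _
      ((Test.ren_holds _ _ _ _ hS.reg).2 hc) e1 e2, by (clear * - hu1 hu2; omega), g2, f1.trans f2⟩

end Vale.Agent.P305
end
end

section

section

/-! Facts about the encoding of graphs. -/

set_option autoImplicit false

namespace Vale.Agent.P305

section Encode

variable {n : ℕ} {G : SimpleGraph (Fin n)} (L : AdjLists G)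

theorem AdjLists.length_nbrs (v : Fin n) [Fintype (G.neighborSet v)] :
    (L.nbrs v).length = G.degree v := by
  classical
  rw [← List.toFinset_card_of_nodup (L.nodup v)]
  unfold SimpleGraph.degree
  congr 1
  ext w
  simp only [List.mem_toFinset, L.mem_iff, SimpleGraph.mem_neighborFinset]

theorem AdjLists.upTo_self : L.upTo n = (List.finRange n).flatMap L.nbrs := by
  unfold AdjLists.upTo
  rw [List.take_of_length_le (by simp)]

theorem AdjLists.upTo_length : (L.upTo n).length = 2 * G.edgeSet.ncard := by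
  classical
  rw [L.upTo_self, List.length_flatMap]
  have h1 := G.sum_degrees_eq_twice_card_edges
  have h2 : G.edgeSet.ncard = G.edgeFinset.card := by
    rw [← SimpleGraph.coe_edgeFinset, Set.ncard_coe_finset]
  rw [h2, ← h1, ← List.sum_toFinset _ (List.nodup_finRange n)]
  · simp only [List.toFinset_finRange]
    exact Finset.sum_congr rfl fun v _ => L.length_nbrs v

theorem AdjLists.upTo_le {k l : ℕ} (h : k ≤ l) : (L.upTo k).length ≤ (L.upTo l).length := by
  unfold AdjLists.upTo
  exact ((List.take_sublist_take_left h).flatMap _).length_le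

theorem AdjLists.encode_length : L.encode.length = n + 2 + (L.upTo n).length := by
  simp only [encode, List.length_cons, List.length_append, List.length_map, List.length_range]; omega

theorem AdjLists.encode_zero : L.encode.getD 0 0 = n := by
  simp only [encode, List.getD_eq_getElem?_getD, List.length_cons, List.length_append, List.length_map, List.length_range, lt_add_iff_pos_left, Order.lt_add_one_iff, zero_le, getElem?_pos, List.getElem_cons_zero, Option.getD_some]

theorem AdjLists.encode_headI : L.encode.headI = n := by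
  simp [AdjLists.encode]

theorem AdjLists.encode_off {k : ℕ} (hk : k ≤ n) :
    L.encode.getD (k + 1) 0 = (L.upTo k).length := by
  simp only [AdjLists.encode, List.getD_cons_succ]
  rw [List.getD_append _ _ _ _ (by simp; omega)]
  simp only [List.getD_eq_getElem?_getD, List.getElem?_map, List.getElem?_range (show k < n + 1 by omega), Option.map_some, Option.getD_some]

theorem AdjLists.encode_adj (k : ℕ) :
    L.encode.getD (n + 2 + k) 0 = ((L.upTo n).map Fin.val).getD k 0 := by
  rw [show n + 2 + k = (n + 1 + k) + 1 by omega]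
  simp only [AdjLists.encode, List.getD_cons_succ]
  rw [List.getD_append_right _ _ _ _ (by simp)]
  simp only [List.length_map, List.length_range, add_tsub_cancel_left, List.getD_eq_getElem?_getD, List.getElem?_map]

theorem AdjLists.encode_le (i : ℕ) : L.encode.getD i 0 ≤ n + 2 * G.edgeSet.ncard := by
  rcases i with _ | i
  · rw [L.encode_zero]; omega
  · by_cases h : i ≤ n
    · rw [L.encode_off h, ← L.upTo_length]
      exact (L.upTo_le h).trans (by omega)
    · obtain ⟨k, rfl⟩ : ∃ k, i = n + 1 + k := ⟨i - (n + 1), by omega⟩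
      rw [show n + 1 + k + 1 = n + 2 + k by omega, L.encode_adj]
      by_cases hk : k < ((L.upTo n).map Fin.val).length
      · rw [List.getD_eq_getElem _ _ hk, List.getElem_map]
        exact (Fin.is_lt _).le.trans (by omega)
      · rw [List.getD_eq_default _ _ (by omega)]
        omega

theorem getD_length_le (l : List ℕ) (i : ℕ) (h : l.length ≤ i) : l.getD i 0 = 0 :=
  List.getD_eq_default _ _ h

end Encode

/-- The behaviour of the black box `P` on graphs with property `CH`. -/
def BB (P : Prog) (CH : ∀ n : ℕ, SimpleGraph (Fin n) → Prop) (Wp : ℕ) (inp : List ℕ)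
    (out : ℕ → ℕ) (t : ℕ) : Prop :=
  ∃ (n : ℕ) (H : SimpleGraph (Fin n)) (L : AdjLists H) (sP : State) (M : H.Subgraph),
    CH n H ∧ inp = L.encode ∧ Exec Wp P (State.init inp) t sP ∧ out = sP.mem ∧
    IsMaximumMatching H M ∧ Represents sP.mem M

theorem Represents.le {n : ℕ} {G : SimpleGraph (Fin n)} {mem : ℕ → ℕ} {M : G.Subgraph}
    (hM : M.IsMatching) (h : Represents mem M) {v : ℕ} (hv : v < n) : mem v ≤ n := by
  by_cases hv' : (⟨v, hv⟩ : Fin n) ∈ M.verts
  · obtain ⟨u, hu, _⟩ := hM hv'
    have := (h ⟨v, hv⟩).2 u hu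
    have h2 := u.2
    simp only at this
    omega
  · have := (h ⟨v, hv⟩).1 hv'
    simp only at this
    omega

end Vale.Agent.P305
end
end

section

section

/-! The code for a call of the black box. -/

set_option autoImplicit false

namespace Vale.Agent.P305

open Function (update)

def zeroRegs : ℕ → Prog
  | 0 => .const 1 0
  | k + 1 => .seq (.const (2 * k + 11) 0) (zeroRegs k)

theorem zeroRegs_exec (W k : ℕ) : ∀ S : State, ∃ ρ, Exec W (zeroRegs k) S (k + 1) ⟨ρ, S.mem⟩ ∧
    (∀ x, x < k → ρ (2 * x + 11) = 0) ∧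
    (∀ r, r ≠ 1 → (∀ x, x < k → r ≠ 2 * x + 11) → ρ r = S.reg r) := by
  induction k with
  | zero =>
    intro S
    refine ⟨_, .const S 1 0 (by omega), by intro x hx; omega, fun r h1 _ => ?_⟩
    exact Function.update_of_ne h1 _ _
  | succ k ih =>
    intro S
    have e1 : Exec W (.const (2 * k + 11) 0) S 1 ⟨update S.reg (2 * k + 11) 0, S.mem⟩ :=
      .const _ _ _ (by omega)
    obtain ⟨ρ, e2, h1, h2⟩ := ih ⟨update S.reg (2 * k + 11) 0, S.mem⟩
    refine ⟨ρ, ?_, ?_, ?_⟩
    · have := Exec.seq (W := W) _ _ _ _ _ _ _ e1 e2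
      rwa [show 1 + (k + 1) = k + 1 + 1 by ring] at this
    · intro x hx
      by_cases hxk : x = k
      · subst hxk
        rw [h2 _ (by omega) (by intro y hy; omega)]
        simp
      · exact h1 x (by omega)
    · intro r hr h
      rw [h2 r hr (fun x hx => h x (by omega))]
      exact Function.update_of_ne (h k (by omega)) _ _

/-- Register `7` gets the number of vertices, register `8` the length of the encoding held by
array `1`. -/
def lenProg (K : ℕ) : Prog :=
  .seq (.const 4 0) (.seq (mkAdr (2 * K) 2 4) (.seq (.load 7 1) (.seq (.const 4 1)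
    (.seq (.op .add 4 4 7) (.seq (mkAdr (2 * K) 2 4) (.seq (.load 3 1) (.seq (.op .add 8 7 3)
      (.seq (.const 1 2) (.op .add 8 8 1)))))))))

theorem lenProg_exec {K b W N D : ℕ} (S : State) (h0 : S.reg 0 = b)
    (hN : S.mem (b + adr K 1 0) = N) (hD : S.mem (b + adr K 1 (N + 1)) = D)
    (hW : b + 2 * K * (N + 2) + 2 * K + N + D + 2 ≤ W) :
    ∃ ρ, Exec W (lenProg K) S 18 ⟨ρ, S.mem⟩ ∧ ρ 7 = N ∧ ρ 8 = N + 2 + D ∧
      (∀ r, r ≠ 1 → r ≠ 2 → r ≠ 3 → r ≠ 4 → r ≠ 7 → r ≠ 8 → ρ r = S.reg r) := by
  obtain ⟨R, m⟩ := S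
  simp only at h0 hN hD
  have ha : ∀ i, adr K 1 i = 2 * K * i + 2 := fun i => by unfold adr; ring
  have hmul1 : 2 * K * (N + 1) ≤ 2 * K * (N + 2) := Nat.mul_le_mul_left _ (by omega)
  have e1 : Exec W (.const 4 0) ⟨R, m⟩ 1 ⟨update R 4 0, m⟩ := .const _ _ _ (by omega)
  obtain ⟨ρ1, e2, g1, g2⟩ := mkAdr_exec (W := W) (A := 2 * K) (B := 2) (x := 4)
    ⟨update R 4 0, m⟩ (by omega) (by omega) (by omega) (by simp [h0]; omega)
  simp only [Function.update_self] at g1
  rw [Function.update_of_ne (by omega), h0, ← ha] at g1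
  have e3 := Exec.load (W := W) ⟨ρ1, m⟩ 7 1
  simp only at e3
  rw [g1, hN] at e3
  have e4 : Exec W (.const 4 1) ⟨update ρ1 7 N, m⟩ 1 ⟨update (update ρ1 7 N) 4 1, m⟩ :=
    .const _ _ _ (by omega)
  have e5 := Exec.op (W := W) ⟨update (update ρ1 7 N) 4 1, m⟩ .add 4 4 7 (by
    simp only [Op.eval, Function.update_self, ne_eq, Nat.reduceEqDiff, not_false_eq_true, Function.update_of_ne]; omega)
  simp only [Op.eval, Function.update_self] at e5
  rw [Function.update_of_ne (show (7 : ℕ) ≠ 4 by omega), Function.update_self] at e5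
  obtain ⟨ρ2, e6, g3, g4⟩ := mkAdr_exec (W := W) (A := 2 * K) (B := 2) (x := 4)
    ⟨update (update (update ρ1 7 N) 4 1) 4 (1 + N), m⟩ (by omega) (by omega) (by omega) (by
      simp only [Function.update_self]
      rw [Function.update_of_ne (by omega), Function.update_of_ne (by omega),
        Function.update_of_ne (by omega), g2 0 (by omega) (by omega)]
      simp only
      rw [Function.update_of_ne (by omega), h0, Nat.add_comm 1 N]
      omega)
  simp only [Function.update_self] at g3
  rw [Function.update_of_ne (by omega), Function.update_of_ne (by omega),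
    Function.update_of_ne (by omega), g2 0 (by omega) (by omega)] at g3
  simp only at g3
  rw [Function.update_of_ne (by omega), h0, ← ha, Nat.add_comm 1 N] at g3
  have e7 := Exec.load (W := W) ⟨ρ2, m⟩ 3 1
  simp only at e7
  rw [g3, hD] at e7
  have h7 : ρ2 7 = N := by
    rw [g4 7 (by omega) (by omega)]
    simp only
    rw [Function.update_of_ne (by omega), Function.update_of_ne (by omega), Function.update_self]
  have e8 := Exec.op (W := W) ⟨update ρ2 3 D, m⟩ .add 8 7 3 (by
    simp only [Op.eval, ne_eq, Nat.reduceEqDiff, not_false_eq_true, Function.update_of_ne, h7, Function.update_self]; omega)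
  simp only [Op.eval, Function.update_self] at e8
  rw [Function.update_of_ne (show (7 : ℕ) ≠ 3 by omega), h7] at e8
  have e9 : Exec W (.const 1 2) ⟨update (update ρ2 3 D) 8 (N + D), m⟩ 1
      ⟨update (update (update ρ2 3 D) 8 (N + D)) 1 2, m⟩ := .const _ _ _ (by omega)
  have e10 := Exec.op (W := W) ⟨update (update (update ρ2 3 D) 8 (N + D)) 1 2, m⟩ .add 8 8 1 (by
    simp only [Op.eval, ne_eq, OfNat.ofNat_ne_one, not_false_eq_true, Function.update_of_ne, Function.update_self]; (clear * - hW h0 hN hD g1 g3 h7; omega))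
  simp only [Op.eval, Function.update_self] at e10
  rw [Function.update_of_ne (show (8 : ℕ) ≠ 1 by omega), Function.update_self] at e10
  refine ⟨_, .seq _ _ _ _ _ _ _ e1 (.seq _ _ _ _ _ _ _ e2 (.seq _ _ _ _ _ _ _ e3
    (.seq _ _ _ _ _ _ _ e4 (.seq _ _ _ _ _ _ _ e5 (.seq _ _ _ _ _ _ _ e6
    (.seq _ _ _ _ _ _ _ e7 (.seq _ _ _ _ _ _ _ e8 (.seq _ _ _ _ _ _ _ e9 e10)))))))),
    ?_, ?_, ?_⟩
  · rw [Function.update_of_ne (by omega), Function.update_of_ne (by omega),
      Function.update_of_ne (by omega), Function.update_of_ne (by omega), h7]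
  · rw [Function.update_self]; omega
  · intro r r1 r2 r3 r4 r7 r8
    rw [Function.update_of_ne r8, Function.update_of_ne r1, Function.update_of_ne r8,
      Function.update_of_ne r3, g4 r r1 r2]
    simp only
    rw [Function.update_of_ne r4, Function.update_of_ne r4, Function.update_of_ne r7, g2 r r1 r2]
    simp only
    rw [Function.update_of_ne r4]

/-- Copy the first entries (their number in register `8`) of array `1` to the memory of the
black box. -/
def copyA (K : ℕ) : Prog :=
  .loop (.lt 4 8) (.seq (mkAdr (2 * K) 2 4) (.seq (.load 3 1) (.seq (mkAdr 4 1 4)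
    (.seq (.store 1 3) (.seq (mkAdr 4 3 4) (.seq (.store 1 6)
      (.seq (.const 2 1) (.op .add 4 4 2))))))))

theorem copyA_exec {K b W N kk : ℕ} (inp : ℕ → ℕ)
    (hW : b + 2 * K * (N + 1) + 2 * K + 4 * N + 4 ≤ W) :
    ∀ (k i : ℕ) (S : State), i + k = N → S.reg 0 = b → S.reg 4 = i → S.reg 8 = N →
    S.reg 6 = kk →
    (∀ x, S.mem (b + adr K 1 x) = inp x) →
    (∀ a, a < i → S.mem (b + (4 * a + 3)) = kk ∧ S.mem (b + (4 * a + 1)) = inp a) →
    (∀ a, i ≤ a → S.mem (b + (4 * a + 3)) < kk) →
    ∃ S', Exec W (copyA K) S (21 * k + 1) S' ∧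
    (∀ a, a < N → S'.mem (b + (4 * a + 3)) = kk ∧ S'.mem (b + (4 * a + 1)) = inp a) ∧
    (∀ a, N ≤ a → S'.mem (b + (4 * a + 3)) < kk) ∧
    (∀ r, r ≠ 1 → r ≠ 2 → r ≠ 3 → r ≠ 4 → S'.reg r = S.reg r) ∧
    (∀ c, c < b → S'.mem c = S.mem c) ∧
    (∀ x, S'.mem (b + 2 * x) = S.mem (b + 2 * x)) := by
  intro k
  induction k with
  | zero =>
    intro i S hi h0 h4 h8 h6 hin hlo hhi
    obtain rfl : i = N := by omega
    exact ⟨S, .loopDone _ _ _ (by simp [Test.holds, h8, h4]), hlo, hhi, fun _ _ _ _ _ => rfl,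
      fun _ _ => rfl, fun _ => rfl⟩
  | succ k ih =>
    intro i S hi h0 h4 h8 h6 hin hlo hhi
    have hib : i < N := by omega
    obtain ⟨R, m⟩ := S
    simp only at h0 h4 h8 h6 hin hlo hhi
    have hmul : 2 * K * i ≤ 2 * K * (N + 1) := Nat.mul_le_mul_left _ (by omega)
    have ha : ∀ i, adr K 1 i = 2 * K * i + 2 := fun i => by unfold adr; ring
    obtain ⟨ρ1, e1, g1, g2⟩ := mkAdr_exec (W := W) (A := 2 * K) (B := 2) (x := 4)
      ⟨R, m⟩ (by omega) (by omega) (by omega) (by simp only [h0, h4]; omega)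
    simp only at g1 g2
    rw [h0, h4, ← ha] at g1
    have e2 := Exec.load (W := W) ⟨ρ1, m⟩ 3 1
    simp only at e2
    rw [g1, hin] at e2
    have p0 : ρ1 0 = b := by rw [g2 0 (by omega) (by omega), h0]
    have p4 : ρ1 4 = i := by rw [g2 4 (by omega) (by omega), h4]
    have p6 : ρ1 6 = kk := by rw [g2 6 (by omega) (by omega), h6]
    obtain ⟨ρ2, e3, g3, g4⟩ := mkAdr_exec (W := W) (A := 4) (B := 1) (x := 4)
      ⟨update ρ1 3 (inp i), m⟩ (by omega) (by omega) (by omega) (by
        simp only
        rw [Function.update_of_ne (by omega), Function.update_of_ne (by omega), p0, p4]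
        omega)
    simp only at g3 g4
    rw [Function.update_of_ne (by omega), Function.update_of_ne (by omega), p0, p4] at g3
    have q3 : ρ2 3 = inp i := by rw [g4 3 (by omega) (by omega), Function.update_self]
    have q0 : ρ2 0 = b := by
      rw [g4 0 (by omega) (by omega), Function.update_of_ne (by omega), p0]
    have q4 : ρ2 4 = i := by
      rw [g4 4 (by omega) (by omega), Function.update_of_ne (by omega), p4]
    have q6 : ρ2 6 = kk := by
      rw [g4 6 (by (clear * -; omega)) (by omega), Function.update_of_ne (by omega), p6]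
    have e4 := Exec.store (W := W) ⟨ρ2, m⟩ 1 3
    simp only at e4
    rw [g3, q3] at e4
    set m1 := update m (b + (4 * i + 1)) (inp i) with hm1
    obtain ⟨ρ3, e5, g5, g6⟩ := mkAdr_exec (W := W) (A := 4) (B := 3) (x := 4)
      ⟨ρ2, m1⟩ (by omega) (by (clear * - hW hi h0 h4 h8 g1 p0 p4 g3 q0; omega)) (by omega) (by simp only [q0, q4]; omega)
    simp only at g5 g6
    rw [q0, q4] at g5
    have e6 := Exec.store (W := W) ⟨ρ3, m1⟩ 1 6
    simp only at e6
    rw [g5, g6 6 (by omega) (by omega), q6] at e6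
    set m2 := update m1 (b + (4 * i + 3)) kk with hm2
    have e7 : Exec W (.const 2 1) ⟨ρ3, m2⟩ 1 ⟨update ρ3 2 1, m2⟩ := .const _ _ _ (by omega)
    have r4 : ρ3 4 = i := by rw [g6 4 (by omega) (by omega), q4]
    have e8 := Exec.op (W := W) ⟨update ρ3 2 1, m2⟩ .add 4 4 2 (by
      simp only [Op.eval, ne_eq, Nat.reduceEqDiff, not_false_eq_true, Function.update_of_ne, r4, Function.update_self, Order.add_one_le_iff]; omega)
    simp only [Op.eval, Function.update_self] at e8
    rw [Function.update_of_ne (show (4 : ℕ) ≠ 2 by omega), r4] at e8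
    have hreg : ∀ r, r ≠ 1 → r ≠ 2 → r ≠ 3 → r ≠ 4 →
        update (update ρ3 2 1) 4 (i + 1) r = R r := by
      intro r r1 r2 r3 r4
      rw [Function.update_of_ne r4, Function.update_of_ne r2, g6 r r1 r2, g4 r r1 r2,
        Function.update_of_ne r3, g2 r r1 r2]
    have hev : ∀ x, m2 (b + 2 * x) = m (b + 2 * x) := by
      intro x
      rw [hm2, Function.update_of_ne (by (clear * - h4 p4 q4 r4; omega)), hm1, Function.update_of_ne (by omega)]
    obtain ⟨S', e9, z1, z2, z3, z4, z5⟩ := ih (i + 1) ⟨update (update ρ3 2 1) 4 (i + 1), m2⟩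
      (by omega)
      (by
        show update (update ρ3 2 1) 4 (i + 1) 0 = b
        rw [hreg 0 (by omega) (by omega) (by omega) (by omega), h0])
      (by simp)
      (by
        show update (update ρ3 2 1) 4 (i + 1) 8 = N
        rw [hreg 8 (by omega) (by omega) (by omega) (by omega), h8])
      (by
        show update (update ρ3 2 1) 4 (i + 1) 6 = kk
        rw [hreg 6 (by omega) (by omega) (by omega) (by omega), h6])
      (by
        intro x
        show m2 (b + adr K 1 x) = inp x
        rw [adr_even, hev, ← adr_even, hin])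
      (by
        intro a haa
        show m2 _ = kk ∧ m2 _ = inp a
        by_cases hai : a = i
        · subst hai
          refine ⟨by rw [hm2, Function.update_self], ?_⟩
          rw [hm2, Function.update_of_ne (by omega), hm1, Function.update_self]
        · rw [hm2, Function.update_of_ne (by omega), Function.update_of_ne (by (clear * - h4 p4 q4 r4; omega)), hm1,
            Function.update_of_ne (by (clear * - h4 p4 q4 r4; omega)), Function.update_of_ne (by omega)]
          exact hlo a (by (clear * - h4 p4 q4 r4 haa hai; omega)))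
      (by
        intro a haa
        show m2 _ < kk
        rw [hm2, Function.update_of_ne (by (clear * - h4 p4 q4 r4 haa; omega)), hm1, Function.update_of_ne (by (clear * - h4 p4 q4 r4 haa; omega))]
        exact hhi a (by omega))
    refine ⟨S', ?_, z1, z2, ?_, ?_, ?_⟩
    · have hstep := Exec.loopStep (W := W) (.lt 4 8) _ ⟨R, m⟩ _ S' _ _
        (by simp only [Test.holds, h8, h4]; exact hib)
        (.seq _ _ _ _ _ _ _ e1 (.seq _ _ _ _ _ _ _ e2 (.seq _ _ _ _ _ _ _ e3
          (.seq _ _ _ _ _ _ _ e4 (.seq _ _ _ _ _ _ _ e5 (.seq _ _ _ _ _ _ _ e6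
          (.seq _ _ _ _ _ _ _ e7 e8))))))) e9
      have ht : 5 + (1 + (5 + (1 + (5 + (1 + (1 + 1)))))) + (21 * k + 1) + 1 =
        21 * (k + 1) + 1 := by ring
      rw [ht] at hstep
      exact hstep
    · intro r r1 r2 r3 r4
      rw [z3 r r1 r2 r3 r4]
      exact hreg r r1 r2 r3 r4
    · intro c hc
      rw [z4 c hc]
      show m2 c = m c
      rw [hm2, Function.update_of_ne (by (clear * - h0 h4 g1 p0 p4 g3 q0 q4 g5 r4 hc; omega)), hm1, Function.update_of_ne (by (clear * - h0 h4 g1 p0 p4 g3 q0 q4 g5 r4 hc; omega))]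
    · intro x
      rw [z5 x]
      exact hev x

/-- Copy the first cells (their number in register `7`) of the memory of the black box to
array `2`. -/
def copyB (K : ℕ) : Prog :=
  .loop (.lt 4 7) (.seq (mkAdr 4 3 4) (.seq (.load 3 1) (.seq (.ite (.eq 3 6)
    (.seq (mkAdr 4 1 4) (.load 3 1)) (.const 3 0)) (.seq (mkAdr (2 * K) 4 4) (.seq (.store 1 3)
      (.seq (.const 2 1) (.op .add 4 4 2)))))))

theorem copyB_exec {K b W N kk : ℕ} (hK : 3 ≤ K) (out : ℕ → ℕ) (A : ℕ → ℕ → ℕ)
    (hW : b + 2 * K * (N + 1) + 2 * K + 4 * N + 4 ≤ W) :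
    ∀ (k i : ℕ) (S : State), i + k = N → S.reg 0 = b → S.reg 4 = i → S.reg 7 = N →
    S.reg 6 = kk →
    (∀ a, (if S.mem (b + (4 * a + 3)) = kk then S.mem (b + (4 * a + 1)) else 0) = out a) →
    (∀ j, j < K → ∀ x, S.mem (b + adr K j x) = if j = 2 ∧ x < i then out x else A j x) →
    ∃ S' t, Exec W (copyB K) S t S' ∧ t ≤ 22 * k + 1 ∧
    (∀ j, j < K → ∀ x, S'.mem (b + adr K j x) = if j = 2 ∧ x < N then out x else A j x) ∧
    (∀ r, r ≠ 1 → r ≠ 2 → r ≠ 3 → r ≠ 4 → S'.reg r = S.reg r) ∧
    (∀ c, c < b → S'.mem c = S.mem c) ∧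
    (∀ x, S'.mem (b + (2 * x + 1)) = S.mem (b + (2 * x + 1))) := by
  intro k
  induction k with
  | zero =>
    intro i S hi h0 h4 h7 h6 hout hA
    obtain rfl : i = N := by omega
    exact ⟨S, 1, .loopDone _ _ _ (by simp [Test.holds, h7, h4]), by omega, hA,
      fun _ _ _ _ _ => rfl, fun _ _ => rfl, fun _ => rfl⟩
  | succ k ih =>
    intro i S hi h0 h4 h7 h6 hout hA
    have hib : i < N := by omega
    obtain ⟨R, m⟩ := S
    simp only at h0 h4 h7 h6 hout hA
    have hmul : 2 * K * i ≤ 2 * K * (N + 1) := Nat.mul_le_mul_left _ (by omega)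
    have ha : ∀ i, adr K 2 i = 2 * K * i + 4 := fun i => by unfold adr; ring
    obtain ⟨ρ1, e1, g1, g2⟩ := mkAdr_exec (W := W) (A := 4) (B := 3) (x := 4)
      ⟨R, m⟩ (by omega) (by (clear * - hK hW hi h0 h4 h7 hmul; omega)) (by omega) (by simp only [h0, h4]; (clear * - hK hW hi h0 h4 h7; omega))
    simp only at g1 g2
    rw [h0, h4] at g1
    have e2 := Exec.load (W := W) ⟨ρ1, m⟩ 3 1
    simp only at e2
    rw [g1] at e2
    set q := m (b + (4 * i + 3)) with hq
    have hoi := hout i
    rw [← hq] at hoi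
    -- the conditional
    obtain ⟨ρ2, t2, e3, ht2, g3, g4⟩ : ∃ ρ2 t2, Exec W (.ite (.eq 3 6)
        (.seq (mkAdr 4 1 4) (.load 3 1)) (.const 3 0)) ⟨update ρ1 3 q, m⟩ t2 ⟨ρ2, m⟩ ∧ t2 ≤ 7 ∧
        ρ2 3 = out i ∧ ∀ r, r ≠ 1 → r ≠ 2 → r ≠ 3 → ρ2 r = R r := by
      by_cases hc : q = kk
      · rw [if_pos hc] at hoi
        obtain ⟨ρ', e3, h3, h4'⟩ := mkAdr_exec (W := W) (A := 4) (B := 1) (x := 4)
          ⟨update ρ1 3 q, m⟩ (by omega) (by (clear * - hK hW hi h0 h4 h7 hmul g1; omega)) (by omega) (by
            simp only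
            rw [Function.update_of_ne (by omega), Function.update_of_ne (by omega),
              g2 0 (by omega) (by omega), g2 4 (by omega) (by omega), h0, h4]
            omega)
        simp only at h3 h4'
        rw [Function.update_of_ne (by omega), Function.update_of_ne (by omega),
          g2 0 (by omega) (by omega), g2 4 (by omega) (by omega), h0, h4] at h3
        have e4 := Exec.load (W := W) ⟨ρ', m⟩ 3 1
        simp only at e4
        rw [h3, hoi] at e4
        refine ⟨_, _, .iteTrue _ _ _ _ _ _ ?_ (.seq _ _ _ _ _ _ _ e3 e4), by omega, by simp, ?_⟩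
        · simp only [Test.holds, Function.update_self]
          rw [Function.update_of_ne (by omega), g2 6 (by omega) (by omega), h6, hc]
        · intro r r1 r2 r3
          rw [Function.update_of_ne r3, h4' r r1 r2, Function.update_of_ne r3, g2 r r1 r2]
      · rw [if_neg hc] at hoi
        have e4 := Exec.const (W := W) ⟨update ρ1 3 q, m⟩ 3 0 (by omega)
        refine ⟨_, _, .iteFalse _ _ _ _ _ _ ?_ e4, by omega, by simp [← hoi], ?_⟩
        · simp only [Test.holds, Function.update_self]
          rw [Function.update_of_ne (by omega), g2 6 (by omega) (by omega), h6]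
          exact hc
        · intro r r1 r2 r3
          simp only
          rw [Function.update_of_ne r3, Function.update_of_ne r3, g2 r r1 r2]
    have p0 : ρ2 0 = b := by rw [g4 0 (by omega) (by omega) (by omega), h0]
    have p4 : ρ2 4 = i := by rw [g4 4 (by omega) (by omega) (by omega), h4]
    obtain ⟨ρ3, e5, g5, g6⟩ := mkAdr_exec (W := W) (A := 2 * K) (B := 4) (x := 4)
      ⟨ρ2, m⟩ (by omega) (by omega) (by (clear * - hK hW hi h0 h4 h7 hmul g1 p0 p4; omega)) (by simp only [p0, p4]; omega)
    simp only at g5 g6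
    rw [p0, p4, ← ha] at g5
    have e6 := Exec.store (W := W) ⟨ρ3, m⟩ 1 3
    simp only at e6
    rw [g5, g6 3 (by omega) (by omega), g3] at e6
    set m2 := update m (b + adr K 2 i) (out i) with hm2
    have e7 : Exec W (.const 2 1) ⟨ρ3, m2⟩ 1 ⟨update ρ3 2 1, m2⟩ := .const _ _ _ (by (clear * - hK hW hi h0 h4 h7 hmul g1 p0 p4 g5; omega))
    have r4 : ρ3 4 = i := by rw [g6 4 (by omega) (by omega), p4]
    have e8 := Exec.op (W := W) ⟨update ρ3 2 1, m2⟩ .add 4 4 2 (by
      simp only [Op.eval, ne_eq, Nat.reduceEqDiff, not_false_eq_true, Function.update_of_ne, r4, Function.update_self, Order.add_one_le_iff]; (clear * - hK hW hi h0 h4 h7 hmul g1 p0 p4 g5 r4; omega))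
    simp only [Op.eval, Function.update_self] at e8
    rw [Function.update_of_ne (show (4 : ℕ) ≠ 2 by omega), r4] at e8
    have hreg : ∀ r, r ≠ 1 → r ≠ 2 → r ≠ 3 → r ≠ 4 →
        update (update ρ3 2 1) 4 (i + 1) r = R r := by
      intro r r1 r2 r3 r4
      rw [Function.update_of_ne r4, Function.update_of_ne r2, g6 r r1 r2, g4 r r1 r2 r3]
    have hodd : ∀ x, m2 (b + (2 * x + 1)) = m (b + (2 * x + 1)) := by
      intro x
      rw [hm2, adr_even, Function.update_of_ne (by (clear * -; omega))]
    obtain ⟨S', t', e9, ht', z1, z2, z3, z4⟩ := ih (i + 1)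
      ⟨update (update ρ3 2 1) 4 (i + 1), m2⟩ (by omega)
      (by
        show update (update ρ3 2 1) 4 (i + 1) 0 = b
        rw [hreg 0 (by omega) (by omega) (by omega) (by omega), h0])
      (by simp)
      (by
        show update (update ρ3 2 1) 4 (i + 1) 7 = N
        rw [hreg 7 (by omega) (by omega) (by omega) (by omega), h7])
      (by
        show update (update ρ3 2 1) 4 (i + 1) 6 = kk
        rw [hreg 6 (by omega) (by omega) (by omega) (by omega), h6])
      (by
        intro a
        show (if m2 _ = kk then m2 _ else 0) = out a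
        rw [show 4 * a + 3 = 2 * (2 * a + 1) + 1 by ring, show 4 * a + 1 = 2 * (2 * a) + 1 by ring,
          hodd, hodd, ← show 4 * a + 3 = 2 * (2 * a + 1) + 1 by ring,
          ← show 4 * a + 1 = 2 * (2 * a) + 1 by ring]
        exact hout a)
      (by
        intro j hj x
        show m2 (b + adr K j x) = _
        by_cases hjx : j = 2 ∧ x = i
        · obtain ⟨rfl, rfl⟩ := hjx
          rw [hm2, Function.update_self, if_pos ⟨rfl, by omega⟩]
        · rw [hm2, Function.update_of_ne, hA j hj x]
          · by_cases hx : j = 2 ∧ x < i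
            · rw [if_pos hx, if_pos ⟨hx.1, by omega⟩]
            · rw [if_neg hx, if_neg]
              rintro ⟨rfl, h2⟩
              have : x ≠ i := fun h => hjx ⟨rfl, h⟩
              exact hx ⟨rfl, by (clear * - h4 p4 r4 h2 this; omega)⟩
          · intro hh
            exact hjx (adr_inj (i := x) (i' := i) hj (show 2 < K by omega) (by omega)))
    refine ⟨S', _, .loopStep _ _ _ _ _ _ _
      (by simp only [Test.holds, h7, h4]; exact hib)
      (.seq _ _ _ _ _ _ _ e1 (.seq _ _ _ _ _ _ _ e2 (.seq _ _ _ _ _ _ _ e3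
        (.seq _ _ _ _ _ _ _ e5 (.seq _ _ _ _ _ _ _ e6
        (.seq _ _ _ _ _ _ _ e7 e8)))))) e9, by omega, z1, ?_, ?_, ?_⟩
    · intro r r1 r2 r3 r4
      rw [z2 r r1 r2 r3 r4]
      exact hreg r r1 r2 r3 r4
    · intro c hc
      rw [z3 c hc]
      show m2 c = m c
      rw [hm2, Function.update_of_ne (by (clear * - h0 h4 g1 p0 g5 hc; omega))]
    · intro x
      rw [z4 x]
      exact hodd x

/-- The code for a call of `P`. -/
def callProg (K : ℕ) (P : Prog) : Prog :=
  .seq (.const 1 1) (.seq (.op .add 6 6 1) (.seq (zeroRegs P.regBd) (.seq (lenProg K)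
    (.seq (.const 4 0) (.seq (copyA K) (.seq (reloc P) (.seq (.const 4 0) (copyB K))))))))

open L1

theorem callProg_ok {P : Prog} {CH : ∀ n : ℕ, SimpleGraph (Fin n) → Prop} {K b W Vm Wp : ℕ}
    (hK : 3 ≤ K) (hW : b + 2 * K * (2 * Vm + 4) + 2 * K + 12 * Vm + 4 * Wp + 20 ≤ W) :
    CallOK (BB P CH Wp) K b P.regBd W (P.regBd + 100) Vm (callProg K P) := by
  rintro V s S inp out t hVm hin ⟨n, H, L, sP, M, _, rfl, hP, rfl, hM, hrep⟩ hS
  obtain ⟨R, m⟩ := S
  have hbase : R 0 = b := hS.base
  have hcnt : R 6 ≤ V := hS.cnt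
  have hfresh : ∀ a, m (b + (4 * a + 3)) ≤ R 6 := hS.fresh
  have harr : ∀ j, j < K → ∀ i, m (b + adr K j i) = s.a j i := hS.arr
  have hunused : ∀ r, P.regBd ≤ r → R (2 * r + 11) = 0 := hS.unused
  have hreg : ∀ r, R (2 * r + 10) = s.r r := hS.reg
  have hsV := hS.bdd
  set D := (L.upTo n).length with hD
  have hn : n ≤ V := by
    have := hsV.2 1 0
    rwa [hin 0, L.encode_zero] at this
  have hDV : D ≤ V := by
    have := hsV.2 1 (n + 1)
    rwa [hin (n + 1), L.encode_off le_rfl] at this
  have hlen : L.encode.length = n + 2 + D := L.encode_length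
  have hK1 : 2 * K * (V + 2) ≤ 2 * K * (2 * Vm + 4) := Nat.mul_le_mul_left _ (by omega)
  have hK2 : 2 * K * (n + 2) ≤ 2 * K * (2 * Vm + 4) := Nat.mul_le_mul_left _ (by omega)
  have hK3 : 2 * K * (n + 1) ≤ 2 * K * (2 * Vm + 4) := Nat.mul_le_mul_left _ (by (clear * - hVm hn; omega))
  -- count the call
  have e1 : Exec W (.const 1 1) ⟨R, m⟩ 1 ⟨update R 1 1, m⟩ := .const _ _ _ (by omega)
  have e2 := Exec.op (W := W) ⟨update R 1 1, m⟩ .add 6 6 1 (by simp [Op.eval]; omega)
  simp only [Op.eval, Function.update_self] at e2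
  rw [Function.update_of_ne (show (6 : ℕ) ≠ 1 by omega)] at e2
  set kk := R 6 + 1 with hkk
  -- clear registers
  obtain ⟨ρ3, e3, g3, g3'⟩ := zeroRegs_exec W P.regBd ⟨update (update R 1 1) 6 kk, m⟩
  simp only at e3 g3'
  have f3 : ∀ r, r ≠ 1 → r ≠ 6 → (∀ x, r ≠ 2 * x + 11) → ρ3 r = R r := by
    intro r r1 r6 hx
    rw [g3' r r1 (fun x _ => hx x), Function.update_of_ne r6, Function.update_of_ne r1]
  have f36 : ρ3 6 = kk := by
    rw [g3' 6 (by omega) (by intro x _; (clear * -; omega)), Function.update_self]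
  have f3z : ∀ x, ρ3 (2 * x + 11) = 0 := by
    intro x
    by_cases hx : x < P.regBd
    · exact g3 x hx
    · rw [g3' _ (by omega) (by intro y hy; (clear * - hx hy; omega)), Function.update_of_ne (by omega),
        Function.update_of_ne (by omega)]
      exact hunused x (by omega)
  -- lengths
  obtain ⟨ρ4, e4, g47, g48, g4⟩ := lenProg_exec (K := K) (b := b) (W := W) (N := n) (D := D)
    ⟨ρ3, m⟩ (by simp only; rw [f3 0 (by omega) (by omega) (by intro x; omega), hbase])
    (by simp only; rw [harr 1 (by omega), hin, L.encode_zero])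
    (by simp only; rw [harr 1 (by omega), hin, L.encode_off le_rfl]) (by omega)
  simp only at e4 g4
  rw [← hlen] at g48
  have hK4 : 2 * K * (L.encode.length + 1) ≤ 2 * K * (2 * Vm + 4) :=
    Nat.mul_le_mul_left _ (by (clear * - hVm hn hDV hlen g47 g48; omega))
  -- copy the input
  have e5 : Exec W (.const 4 0) ⟨ρ4, m⟩ 1 ⟨update ρ4 4 0, m⟩ := .const _ _ _ (by omega)
  obtain ⟨S6, e6, z1, z2, z3, z4, z5⟩ := copyA_exec (K := K) (b := b) (W := W)
    (N := L.encode.length) (kk := kk) (fun i => L.encode.getD i 0) (by omega)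
    L.encode.length 0 ⟨update ρ4 4 0, m⟩ (by omega)
    (by
      simp only
      rw [Function.update_of_ne (by omega), g4 0 (by omega) (by omega) (by omega) (by omega)
        (by omega) (by omega), f3 0 (by omega) (by omega) (by intro x; omega), hbase])
    (by simp)
    (by simp only; rw [Function.update_of_ne (by omega), g48])
    (by
      simp only
      rw [Function.update_of_ne (by (clear * -; omega)), g4 6 (by omega) (by omega) (by omega) (by omega)
        (by omega) (by omega), f36])
    (by intro x; simp only; rw [harr 1 (by omega), hin])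
    (by intro a ha; omega)
    (by
      intro a _
      have := hfresh a
      simp only
      omega)
  simp only at z3 z4 z5
  have z3' : ∀ r, r ≠ 1 → r ≠ 2 → r ≠ 3 → r ≠ 4 → r ≠ 6 → r ≠ 7 → r ≠ 8 →
      (∀ x, r ≠ 2 * x + 11) → S6.reg r = R r := by
    intro r r1 r2 r3 r4 r6 r7 r8 hx
    rw [z3 r r1 r2 r3 r4, Function.update_of_ne r4, g4 r r1 r2 r3 r4 r7 r8, f3 r r1 r6 hx]
  have z6 : S6.reg 6 = kk := by
    rw [z3 6 (by omega) (by omega) (by omega) (by omega), Function.update_of_ne (by omega),
      g4 6 (by omega) (by omega) (by omega) (by omega) (by omega) (by omega), f36]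
  have z7 : S6.reg 7 = n := by
    rw [z3 7 (by omega) (by omega) (by omega) (by omega), Function.update_of_ne (by omega), g47]
  have zz : ∀ x, S6.reg (2 * x + 11) = 0 := by
    intro x
    rw [z3 _ (by omega) (by omega) (by (clear * -; omega)) (by (clear * -; omega)), Function.update_of_ne (by omega),
      g4 _ (by omega) (by omega) (by omega) (by omega) (by omega) (by omega), f3z]
  have z0 : S6.reg 0 = b := by
    rw [z3' 0 (by omega) (by omega) (by omega) (by omega) (by omega) (by omega) (by omega)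
      (by intro x; omega), hbase]
  -- run the black box
  have hrs : RSim b (State.init L.encode) S6 := by
    refine ⟨z0, fun r => zz r, fun a => ?_, fun a => ?_⟩
    · show _ = L.encode.getD a 0
      rw [z6]
      by_cases ha : a < L.encode.length
      · rw [if_pos (z1 a ha).1, (z1 a ha).2]
      · rw [if_neg (z2 a (by omega)).ne, getD_length_le _ _ (by omega)]
    · rw [z6]
      by_cases ha : a < L.encode.length
      · rw [(z1 a ha).1]
      · exact (z2 a (by omega)).le
  have hbd : (State.init L.encode).Bdd (Vm + Wp) := by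
    refine ⟨fun r => Nat.zero_le _, fun a => ?_⟩
    show L.encode.getD a 0 ≤ _
    rw [← hin a]
    exact (hsV.2 1 a).trans (by omega)
  obtain ⟨tP, S7, e7, htP, hR7, hF7⟩ := reloc_exec (W := Wp) (V := Vm + Wp) (W' := W) (b := b)
    (by omega) (by (clear * - hK hW hVm hbase hDV hlen hK1 g47 g48 z7 z0; omega)) hP S6 hbd hrs
  -- copy the output
  have r76 : S7.reg 6 = kk := by
    rw [hF7.reg 6 (by omega) (by omega) (by omega) (by intro x; omega), z6]
  have r77 : S7.reg 7 = n := by
    rw [hF7.reg 7 (by omega) (by omega) (by omega) (by intro x; omega), z7]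
  have e8 : Exec W (.const 4 0) S7 1 ⟨update S7.reg 4 0, S7.mem⟩ := .const _ _ _ (by omega)
  have harr7 : ∀ j, j < K → ∀ x, S7.mem (b + adr K j x) = s.a j x := by
    intro j hj x
    rw [adr_even, hF7.even, z5, ← adr_even, harr j hj]
  obtain ⟨S9, t9, e9, ht9, y1, y2, y3, y4⟩ := copyB_exec (K := K) (b := b) (W := W) (N := n)
    (kk := kk) hK sP.mem s.a (by omega) n 0 ⟨update S7.reg 4 0, S7.mem⟩ (by omega)
    (by simp only; rw [Function.update_of_ne (by omega), hR7.base])
    (by simp) (by simp only; rw [Function.update_of_ne (by omega), r77])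
    (by simp only; rw [Function.update_of_ne (by omega), r76])
    (by
      intro a
      have := hR7.mem a
      rwa [r76] at this)
    (by
      intro j hj x
      simp only
      rw [if_neg (by omega), harr7 j hj])
  simp only at y2 y3 y4
  have y2' : ∀ r, r ≠ 1 → r ≠ 2 → r ≠ 3 → r ≠ 4 → r ≠ 6 → r ≠ 7 → r ≠ 8 →
      (∀ x, r ≠ 2 * x + 11) → S9.reg r = R r := by
    intro r r1 r2 r3 r4 r6 r7 r8 hx
    rw [y2 r r1 r2 r3 r4, Function.update_of_ne r4, hF7.reg r r1 r2 r3 hx,
      z3' r r1 r2 r3 r4 r6 r7 r8 hx]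
  have y6 : S9.reg 6 = kk := by
    rw [y2 6 (by omega) (by omega) (by omega) (by omega), Function.update_of_ne (by omega), r76]
  refine ⟨_, S9, .seq _ _ _ _ _ _ _ e1 (.seq _ _ _ _ _ _ _ e2 (.seq _ _ _ _ _ _ _ e3
    (.seq _ _ _ _ _ _ _ e4 (.seq _ _ _ _ _ _ _ e5 (.seq _ _ _ _ _ _ _ e6
    (.seq _ _ _ _ _ _ _ e7 (.seq _ _ _ _ _ _ _ e8 e9))))))), ?_,
    ⟨⟨?_, ?_⟩, ?_, ?_, ?_, ?_, ?_, ?_⟩, ?_⟩
  · have : (P.regBd + 100) * (t + L.encode.length + 1) =
        P.regBd * (t + L.encode.length) + P.regBd + 100 * t + 100 * L.encode.length + 100 := by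
      ring
    rw [this]
    have h0 : 0 ≤ P.regBd * (t + L.encode.length) := Nat.zero_le _
    (clear * - hlen g47 g48 z7 htP r77 ht9; omega)
  · intro r
    exact (hsV.1 r).trans (by omega)
  · intro j x
    show update s.a 2 (fun i => if i < L.encode.headI then sP.mem i else s.a 2 i) j x ≤ V + 1
    by_cases hj : j = 2
    · subst hj
      rw [Function.update_self, L.encode_headI]
      split_ifs with hx
      · exact (hrep.le hM.1 hx).trans (by (clear * - hn g47 z7 r77; omega))
      · exact (hsV.2 2 x).trans (by omega)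
    · rw [Function.update_of_ne hj]
      exact (hsV.2 j x).trans (by omega)
  · rw [y2' 0 (by omega) (by omega) (by omega) (by omega) (by omega) (by omega) (by (clear * -; omega))
      (by intro x; omega), hbase]
  · rw [y6]; (clear * - hcnt f36 z6 r76 y6; omega)
  · intro r
    rw [y2' _ (by omega) (by (clear * -; omega)) (by (clear * -; omega)) (by omega) (by omega) (by omega) (by (clear * -; omega))
      (by intro x; omega)]
    exact hreg r
  · intro j hj x
    rw [y1 j hj x]
    show _ = update s.a 2 (fun i => if i < L.encode.headI then sP.mem i else s.a 2 i) j x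
    by_cases hj2 : j = 2
    · subst hj2
      rw [Function.update_self, L.encode_headI]
      simp
    · rw [Function.update_of_ne hj2, if_neg (fun h => hj2 h.1)]
  · intro a
    rw [y6, show b + (4 * a + 3) = b + (2 * (2 * a + 1) + 1) by ring, y4,
      ← show b + (4 * a + 3) = b + (2 * (2 * a + 1) + 1) by ring]
    have := hR7.fresh a
    rwa [r76] at this
  · intro r hr
    rw [y2 _ (by omega) (by omega) (by (clear * -; omega)) (by (clear * -; omega)), Function.update_of_ne (by omega),
      hR7.reg, hP.reg_eq r hr]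
    rfl
  · intro c hc
    rw [y3 c hc, hF7.low c hc, z4 c hc]

end Vale.Agent.P305
end
end

section

section

/-! From programs of the internal language to word RAM programs. -/

set_option autoImplicit false

namespace Vale.Agent.P305

open Function (update)

/-! ### Base computation -/

def baseProg : Prog :=
  .seq (.const 1 0) (.seq (.load 1 1) (.seq (.const 2 1) (.seq (.op .add 1 1 2)
    (.seq (.load 3 1) (.seq (.op .add 1 1 2) (.op .add 0 1 3))))))

theorem baseProg_exec {W N D : ℕ} (mem : ℕ → ℕ) (h0 : mem 0 = N) (h1 : mem (N + 1) = D)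
    (hW : N + 2 + D ≤ W) :
    ∃ ρ, Exec W baseProg ⟨fun _ => 0, mem⟩ 7 ⟨ρ, mem⟩ ∧ ρ 0 = N + 2 + D ∧
      ∀ r, 4 ≤ r → ρ r = 0 := by
  set R : ℕ → ℕ := fun _ => 0 with hR
  have e1 : Exec W (.const 1 0) ⟨R, mem⟩ 1 ⟨update R 1 0, mem⟩ := .const _ _ _ (by omega)
  have e2 : Exec W (.load 1 1) ⟨update R 1 0, mem⟩ 1 ⟨update (update R 1 0) 1 N, mem⟩ := by
    have := Exec.load (W := W) ⟨update R 1 0, mem⟩ 1 1
    simpa [h0] using this
  have e3 : Exec W (.const 2 1) ⟨update (update R 1 0) 1 N, mem⟩ 1
      ⟨update (update (update R 1 0) 1 N) 2 1, mem⟩ := .const _ _ _ (by omega)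
  have e4 : Exec W (.op .add 1 1 2) ⟨update (update (update R 1 0) 1 N) 2 1, mem⟩ 1
      ⟨update (update (update (update R 1 0) 1 N) 2 1) 1 (N + 1), mem⟩ := by
    have := Exec.op (W := W) ⟨update (update (update R 1 0) 1 N) 2 1, mem⟩ .add 1 1 2 (by
      simp only [Op.eval, Function.update_idem, ne_eq, OfNat.one_ne_ofNat, not_false_eq_true, Function.update_of_ne, Function.update_self, Order.add_one_le_iff]; omega)
    simpa [Op.eval] using this
  set R4 := update (update (update (update R 1 0) 1 N) 2 1) 1 (N + 1) with hR4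
  have e5 : Exec W (.load 3 1) ⟨R4, mem⟩ 1 ⟨update R4 3 D, mem⟩ := by
    have := Exec.load (W := W) ⟨R4, mem⟩ 3 1
    simpa only [hR4, Function.update_idem, Function.update_self, h1] using this
  have e6 : Exec W (.op .add 1 1 2) ⟨update R4 3 D, mem⟩ 1
      ⟨update (update R4 3 D) 1 (N + 2), mem⟩ := by
    have := Exec.op (W := W) ⟨update R4 3 D, mem⟩ .add 1 1 2 (by
      simp only [Op.eval, hR4, Function.update_idem, ne_eq, OfNat.one_ne_ofNat, not_false_eq_true, Function.update_of_ne, Function.update_self, Nat.reduceEqDiff, OfNat.ofNat_ne_one, Order.add_one_le_iff]; omega)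
    simpa only [hR4, Function.update_idem, Op.eval, ne_eq, OfNat.one_ne_ofNat, not_false_eq_true,     Function.update_of_ne, Function.update_self, Nat.reduceEqDiff, OfNat.ofNat_ne_one] using this
  have e7 : Exec W (.op .add 0 1 3) ⟨update (update R4 3 D) 1 (N + 2), mem⟩ 1
      ⟨update (update (update R4 3 D) 1 (N + 2)) 0 (N + 2 + D), mem⟩ := by
    have := Exec.op (W := W) ⟨update (update R4 3 D) 1 (N + 2), mem⟩ .add 0 1 3 (by
      simp only [Op.eval, hR4, Function.update_idem, Function.update_self, ne_eq, OfNat.ofNat_ne_one, not_false_eq_true, Function.update_of_ne]; omega)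
    simpa only [hR4, Function.update_idem, Op.eval, Function.update_self, ne_eq, OfNat.ofNat_ne_one,     not_false_eq_true, Function.update_of_ne] using this
  refine ⟨_, .seq _ _ _ _ _ _ _ e1 (.seq _ _ _ _ _ _ _ e2 (.seq _ _ _ _ _ _ _ e3
    (.seq _ _ _ _ _ _ _ e4 (.seq _ _ _ _ _ _ _ e5 (.seq _ _ _ _ _ _ _ e6 e7))))), by simp, ?_⟩
  intro r hr
  rw [Function.update_of_ne (by omega), Function.update_of_ne (by omega),
    Function.update_of_ne (by omega), hR4, Function.update_of_ne (by omega),
    Function.update_of_ne (by omega), Function.update_of_ne (by omega),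
    Function.update_of_ne (by omega)]

/-! ### Copying the input into array `0` -/

def copyIn (K : ℕ) : Prog :=
  .loop (.lt 4 0) (.seq (.load 3 4) (.seq (mkAdr (2 * K) 0 4) (.seq (.store 1 3)
    (.seq (.const 2 1) (.op .add 4 4 2)))))

theorem copyIn_exec {K b W : ℕ} (hK : 0 < K) (inp : ℕ → ℕ) (hW : b + 2 * K * b + 2 * K + 1 ≤ W) :
    ∀ (k i : ℕ) (S : State), i + k = b → S.reg 0 = b → S.reg 4 = i →
    (∀ r, 5 ≤ r → S.reg r = 0) → (∀ c, c < b → S.mem c = inp c) →
    (∀ i', i' < i → S.mem (b + 2 * K * i') = inp i') →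
    (∀ x, (∀ i', i' < i → x ≠ 2 * K * i') → S.mem (b + x) = 0) →
    ∃ S', Exec W (copyIn K) S (10 * k + 1) S' ∧ S'.reg 0 = b ∧
    (∀ r, 5 ≤ r → S'.reg r = 0) ∧ (∀ c, c < b → S'.mem c = inp c) ∧
    (∀ i', i' < b → S'.mem (b + 2 * K * i') = inp i') ∧
    (∀ x, (∀ i', i' < b → x ≠ 2 * K * i') → S'.mem (b + x) = 0) := by
  intro k
  induction k with
  | zero =>
    intro i S hi h0 h4 h10 hin hcp hz
    obtain rfl : i = b := by omega
    exact ⟨S, .loopDone _ _ _ (by simp [Test.holds, h0, h4]), h0, h10, hin, hcp, hz⟩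
  | succ k ih =>
    intro i S hi h0 h4 h10 hin hcp hz
    have hib : i < b := by omega
    obtain ⟨R, m⟩ := S
    simp only at h0 h4 h10 hin hcp hz
    have hmul : 2 * K * i ≤ 2 * K * b := Nat.mul_le_mul_left _ hib.le
    have e1 : Exec W (.load 3 4) ⟨R, m⟩ 1 ⟨update R 3 (inp i), m⟩ := by
      have := Exec.load (W := W) ⟨R, m⟩ 3 4
      simpa [h4, hin i hib] using this
    obtain ⟨ρ, e2, g1, g2⟩ := mkAdr_exec (W := W) (A := 2 * K) (B := 0) (x := 4)
      ⟨update R 3 (inp i), m⟩ (by omega) (by omega) (by omega) (by simp only [ne_eq, OfNat.zero_ne_ofNat, not_false_eq_true, Function.update_of_ne, h0, Nat.succ_ne_self, h4, add_zero]; (clear * - hK hW hi h0 hmul; omega))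
    have g1 : ρ 1 = b + 2 * K * i := by
      rw [g1]
      simp [h0, h4]
    have gr : ∀ r, 4 ≤ r → ρ r = R r := by
      intro r hr
      rw [g2 r (by omega) (by omega)]
      simp only
      rw [Function.update_of_ne (by omega)]
    have g3 : ρ 3 = inp i := by rw [g2 3 (by omega) (by omega)]; simp
    have g0 : ρ 0 = b := by
      rw [g2 0 (by omega) (by omega)]
      simp only
      rw [Function.update_of_ne (by omega), h0]
    have e3 : Exec W (.store 1 3) ⟨ρ, m⟩ 1 ⟨ρ, update m (b + 2 * K * i) (inp i)⟩ := by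
      have := Exec.store (W := W) ⟨ρ, m⟩ 1 3
      simpa [g1, g3] using this
    have e4 : Exec W (.const 2 1) ⟨ρ, update m (b + 2 * K * i) (inp i)⟩ 1
        ⟨update ρ 2 1, update m (b + 2 * K * i) (inp i)⟩ := .const _ _ _ (by (clear ih hib h10 hin hcp hz hmul e1 e2 gr g3 e3; omega))
    have e5 : Exec W (.op .add 4 4 2) ⟨update ρ 2 1, update m (b + 2 * K * i) (inp i)⟩ 1
        ⟨update (update ρ 2 1) 4 (i + 1), update m (b + 2 * K * i) (inp i)⟩ := by
      have := Exec.op (W := W) ⟨update ρ 2 1, update m (b + 2 * K * i) (inp i)⟩ .add 4 4 2 (by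
        simp only [Op.eval, ne_eq, Nat.reduceEqDiff, not_false_eq_true, Function.update_of_ne, gr 4 le_rfl, h4, Function.update_self, Order.add_one_le_iff]; omega)
      simpa [Op.eval, gr 4 le_rfl, h4] using this
    obtain ⟨S', e6, q0, q10, qin, qcp, qz⟩ := ih (i + 1)
      ⟨update (update ρ 2 1) 4 (i + 1), update m (b + 2 * K * i) (inp i)⟩ (by omega)
      (by simp [g0]) (by simp)
      (by
        intro r hr
        simp only
        rw [Function.update_of_ne (by omega), Function.update_of_ne (by omega), gr r (by omega),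
          h10 r hr])
      (by
        intro c hc
        simp only
        rw [Function.update_of_ne (by omega), hin c hc])
      (by
        intro i' hi'
        simp only
        by_cases hii : i' = i
        · subst hii; simp
        · rw [Function.update_of_ne, hcp i' (by omega)]
          intro hh
          apply hii
          have : 2 * K * i' = 2 * K * i := by (clear hK hW ih hib h10 hin hcp hz hmul e1 e2 gr g3 e3 e4 e5 hi' hii; omega)
          exact Nat.eq_of_mul_eq_mul_left (by (clear * - hK; omega)) this)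
      (by
        intro x hx
        simp only
        rw [Function.update_of_ne, hz x (fun i' hi' => hx i' (by omega))]
        intro hh
        exact hx i (by (clear * -; omega)) (by (clear hK hW ih hib h10 hin hcp hz hmul e1 e2 gr g3 e3 e4 e5 hx; omega)))
    refine ⟨S', ?_, q0, q10, qin, qcp, qz⟩
    have hstep := Exec.loopStep (W := W) (.lt 4 0) _ ⟨R, m⟩ _ S' _ _
      (by simp only [Test.holds, h0, h4]; exact hib)
      (.seq _ _ _ _ _ _ _ e1 (.seq _ _ _ _ _ _ _ e2 (.seq _ _ _ _ _ _ _ e3
        (.seq _ _ _ _ _ _ _ e4 e5)))) e6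
    have ht : 1 + (5 + (1 + (1 + 1))) + (10 * k + 1) + 1 = 10 * (k + 1) + 1 := by ring
    rw [ht] at hstep
    exact hstep

/-! ### Copying array `3` to the first cells -/

def copyOutLoop (K : ℕ) : Prog :=
  .loop (.lt 4 5) (.seq (mkAdr (2 * K) 6 4) (.seq (.load 3 1) (.seq (.store 4 3)
    (.seq (.const 2 1) (.op .add 4 4 2)))))

theorem copyOutLoop_exec {K b W N : ℕ} (f : ℕ → ℕ) (hN : N ≤ b)
    (hW : b + 2 * K * N + 2 * K + 7 ≤ W) :
    ∀ (k i : ℕ) (S : State), i + k = N → S.reg 0 = b → S.reg 4 = i → S.reg 5 = N →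
    (∀ c, c < i → S.mem c = f c) → (∀ j, j < N → S.mem (b + (2 * K * j + 6)) = f j) →
    ∃ S', Exec W (copyOutLoop K) S (10 * k + 1) S' ∧ (∀ c, c < N → S'.mem c = f c) := by
  intro k
  induction k with
  | zero =>
    intro i S hi h0 h4 h5 hlo hcp
    obtain rfl : i = N := by omega
    exact ⟨S, .loopDone _ _ _ (by simp [Test.holds, h5, h4]), hlo⟩
  | succ k ih =>
    intro i S hi h0 h4 h5 hlo hcp
    have hib : i < N := by omega
    obtain ⟨R, m⟩ := S
    simp only at h0 h4 h5 hlo hcp
    have hmul : 2 * K * i ≤ 2 * K * N := Nat.mul_le_mul_left _ hib.le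
    obtain ⟨ρ, e2, g1, g2⟩ := mkAdr_exec (W := W) (A := 2 * K) (B := 6) (x := 4)
      ⟨R, m⟩ (by omega) (by omega) (by omega) (by simp [h0, h4]; omega)
    have g1 : ρ 1 = b + (2 * K * i + 6) := by
      rw [g1]
      simp [h0, h4]
    have gr : ∀ r, r ≠ 1 → r ≠ 2 → ρ r = R r := g2
    have e1 : Exec W (.load 3 1) ⟨ρ, m⟩ 1 ⟨update ρ 3 (f i), m⟩ := by
      have := Exec.load (W := W) ⟨ρ, m⟩ 3 1
      simpa [g1, hcp i hib] using this
    have g4 : ρ 4 = i := by rw [gr 4 (by omega) (by omega), h4]
    have e3 : Exec W (.store 4 3) ⟨update ρ 3 (f i), m⟩ 1 ⟨update ρ 3 (f i), update m i (f i)⟩ := by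
      have := Exec.store (W := W) ⟨update ρ 3 (f i), m⟩ 4 3
      simpa only [ne_eq, Nat.succ_ne_self, not_false_eq_true, Function.update_of_ne, g4, Function.update_self] using     this
    have e4 : Exec W (.const 2 1) ⟨update ρ 3 (f i), update m i (f i)⟩ 1
        ⟨update (update ρ 3 (f i)) 2 1, update m i (f i)⟩ := .const _ _ _ (by omega)
    have e5 : Exec W (.op .add 4 4 2) ⟨update (update ρ 3 (f i)) 2 1, update m i (f i)⟩ 1
        ⟨update (update (update ρ 3 (f i)) 2 1) 4 (i + 1), update m i (f i)⟩ := by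
      have := Exec.op (W := W) ⟨update (update ρ 3 (f i)) 2 1, update m i (f i)⟩ .add 4 4 2 (by
        simp only [Op.eval, ne_eq, Nat.reduceEqDiff, not_false_eq_true, Function.update_of_ne, Nat.succ_ne_self, g4, Function.update_self, Order.add_one_le_iff]; omega)
      simpa [Op.eval, g4] using this
    obtain ⟨S', e6, q⟩ := ih (i + 1)
      ⟨update (update (update ρ 3 (f i)) 2 1) 4 (i + 1), update m i (f i)⟩ (by omega)
      (by simp [gr 0 (by omega) (by omega), h0]) (by simp)
      (by simp only [ne_eq, Nat.succ_ne_self, not_false_eq_true, Function.update_of_ne, Nat.reduceEqDiff, gr 5 (by omega) (by omega), h5])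
      (by
        intro c hc
        simp only
        by_cases hci : c = i
        · subst hci; simp
        · rw [Function.update_of_ne hci, hlo c (by omega)])
      (by
        intro j hj
        simp only
        rw [Function.update_of_ne (by (clear f hW ih hib hlo hcp hmul e2 e1 e3 e4 e5 hj; omega)), hcp j hj])
    refine ⟨S', ?_, q⟩
    have hstep := Exec.loopStep (W := W) (.lt 4 5) _ ⟨R, m⟩ _ S' _ _
      (by simp only [Test.holds, h5, h4]; exact hib)
      (.seq _ _ _ _ _ _ _ e2 (.seq _ _ _ _ _ _ _ e1 (.seq _ _ _ _ _ _ _ e3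
        (.seq _ _ _ _ _ _ _ e4 e5)))) e6
    have ht : 5 + (1 + (1 + (1 + 1))) + (10 * k + 1) + 1 = 10 * (k + 1) + 1 := by ring
    rw [ht] at hstep
    exact hstep

def copyOut (K : ℕ) : Prog :=
  .seq (.const 1 0) (.seq (.load 5 1) (.seq (.const 4 0) (copyOutLoop K)))

theorem copyOut_exec {K b W N : ℕ} (f : ℕ → ℕ) (hN : N ≤ b)
    (hW : b + 2 * K * N + 2 * K + 7 ≤ W) (S : State) (h0 : S.reg 0 = b) (hm : S.mem 0 = N)
    (hcp : ∀ j, j < N → S.mem (b + (2 * K * j + 6)) = f j) :
    ∃ S', Exec W (copyOut K) S (10 * N + 4) S' ∧ (∀ c, c < N → S'.mem c = f c) := by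
  obtain ⟨R, m⟩ := S
  simp only at h0 hm hcp
  have e1 : Exec W (.const 1 0) ⟨R, m⟩ 1 ⟨update R 1 0, m⟩ := .const _ _ _ (by omega)
  have e2 : Exec W (.load 5 1) ⟨update R 1 0, m⟩ 1 ⟨update (update R 1 0) 5 N, m⟩ := by
    have := Exec.load (W := W) ⟨update R 1 0, m⟩ 5 1
    simpa [hm] using this
  have e3 : Exec W (.const 4 0) ⟨update (update R 1 0) 5 N, m⟩ 1
      ⟨update (update (update R 1 0) 5 N) 4 0, m⟩ := .const _ _ _ (by omega)
  obtain ⟨S', e4, q⟩ := copyOutLoop_exec (K := K) (b := b) (W := W) f hN hW N 0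
    ⟨update (update (update R 1 0) 5 N) 4 0, m⟩ (by omega) (by simp [h0]) (by simp) (by simp)
    (by intro c hc; omega) hcp
  refine ⟨S', ?_, q⟩
  have hstep := Exec.seq (W := W) _ _ _ _ _ _ _ e1 (Exec.seq _ _ _ _ _ _ _ e2
    (Exec.seq _ _ _ _ _ _ _ e3 e4))
  have ht : 1 + (1 + (1 + (10 * N + 1))) = 10 * N + 4 := by ring
  rw [ht] at hstep
  exact hstep

/-! ### The initial state of the internal language -/

/-- Array `0` holds the input, all else is `0`. -/
def L1.St.init (inp : List ℕ) : L1.St :=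
  ⟨fun _ => 0, fun j i => if j = 0 then inp.getD i 0 else 0⟩

theorem init_exec {K W Rm V : ℕ} (hK : 1 ≤ K) {n : ℕ} {G : SimpleGraph (Fin n)} (L : AdjLists G)
    (hV : n + 2 * G.edgeSet.ncard ≤ V)
    (hW : L.encode.length + 2 * K * L.encode.length + 2 * K + 1 ≤ W) :
    ∃ S', Exec W (.seq baseProg (copyIn K)) (State.init L.encode) (10 * L.encode.length + 8) S' ∧
      Sim K L.encode.length Rm V (L1.St.init L.encode) S' ∧ S'.mem 0 = n := by
  have hlen := L.encode_length
  have hD : L.encode.getD (n + 1) 0 = (L.upTo n).length := L.encode_off le_rfl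
  obtain ⟨ρ, e1, g0, g4⟩ := baseProg_exec (W := W) (N := n) (D := (L.upTo n).length)
    (fun i => L.encode.getD i 0) L.encode_zero hD (by omega)
  rw [← hlen] at g0
  obtain ⟨S', e2, q0, q6, qin, qcp, qz⟩ := copyIn_exec (K := K) (b := L.encode.length) (W := W)
    (by omega) (fun i => L.encode.getD i 0) hW L.encode.length 0
    ⟨ρ, fun i => L.encode.getD i 0⟩ (by omega) g0 (g4 4 (by omega))
    (fun r hr => g4 r (by omega)) (fun c _ => rfl) (by intro i' hi'; omega)
    (by intro x _; exact getD_length_le _ _ (by omega))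
  refine ⟨S', ?_, ⟨?_, q0, ?_, ?_, ?_, ?_, ?_⟩, ?_⟩
  · have hstep := Exec.seq (W := W) _ _ _ _ _ _ _ e1 e2
    have ht : 7 + (10 * L.encode.length + 1) = 10 * L.encode.length + 8 := by ring
    rw [ht] at hstep
    exact hstep
  · refine ⟨fun r => Nat.zero_le _, fun j i => ?_⟩
    show (if j = 0 then L.encode.getD i 0 else 0) ≤ _
    split
    · exact (L.encode_le i).trans (by omega)
    · omega
  · rw [q6 6 (by omega)]; omega
  · intro r
    exact q6 _ (by omega)
  · intro j hj i
    show S'.mem (L.encode.length + adr K j i) = if j = 0 then L.encode.getD i 0 else 0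
    by_cases hj0 : j = 0
    · subst hj0
      have ha : adr K 0 i = 2 * K * i := by unfold adr; ring
      rw [ha, if_pos rfl]
      by_cases hi : i < L.encode.length
      · exact qcp i hi
      · rw [qz _ ?_, getD_length_le _ _ (by (clear * - g0 q0 hi; omega))]
        intro i' hi' h
        have : i = i' := Nat.eq_of_mul_eq_mul_left (show 0 < 2 * K by omega) h
        omega
    · rw [if_neg hj0]
      apply qz
      intro i' hi' h
      have ha : adr K 0 i' = 2 * K * i' := by unfold adr; ring
      exact hj0 (adr_inj (i := i) (i' := i') hj (show 0 < K by omega) (by rw [ha, h])).1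
  · intro a
    rw [qz, q6 6 (by omega)]
    intro i' hi' h
    have : 2 * K * i' = 2 * (K * i') := by ring
    omega
  · intro r _
    exact q6 _ (by (clear * -; omega))
  · rw [qin 0 (by (clear * - hlen hD g0 q0; omega))]
    exact L.encode_zero

/-! ### Polynomial bounds -/

def PolyBd (f : ℕ → ℕ) : Prop := ∃ k, ∀ N, 2 ≤ N → f N ≤ N ^ k

theorem PolyBd.const (c : ℕ) : PolyBd fun _ => c :=
  ⟨c, fun N hN => (Nat.lt_pow_self (by omega)).le⟩

theorem PolyBd.id : PolyBd fun N => N := ⟨1, fun N _ => by simp⟩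

theorem PolyBd.pow {f : ℕ → ℕ} (hf : PolyBd f) (e : ℕ) : PolyBd fun N => f N ^ e := by
  obtain ⟨k, hk⟩ := hf
  exact ⟨k * e, fun N hN => (Nat.pow_le_pow_left (hk N hN) e).trans (by rw [pow_mul])⟩

theorem PolyBd.mul {f g : ℕ → ℕ} (hf : PolyBd f) (hg : PolyBd g) : PolyBd fun N => f N * g N := by
  obtain ⟨k, hk⟩ := hf
  obtain ⟨l, hl⟩ := hg
  exact ⟨k + l, fun N hN => (Nat.mul_le_mul (hk N hN) (hl N hN)).trans (by rw [pow_add])⟩

theorem PolyBd.add {f g : ℕ → ℕ} (hf : PolyBd f) (hg : PolyBd g) : PolyBd fun N => f N + g N := by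
  obtain ⟨k, hk⟩ := hf
  obtain ⟨l, hl⟩ := hg
  refine ⟨k + l + 1, fun N hN => ?_⟩
  have h1 := hk N hN
  have h2 := hl N hN
  have h3 : N ^ k ≤ N ^ (k + l) := Nat.pow_le_pow_right (by omega) (by omega)
  have h4 : N ^ l ≤ N ^ (k + l) := Nat.pow_le_pow_right (by omega) (by omega)
  calc f N + g N ≤ N ^ (k + l) + N ^ (k + l) := by omega
    _ = N ^ (k + l) * 2 := by ring
    _ ≤ N ^ (k + l) * N := Nat.mul_le_mul_left _ hN
    _ = N ^ (k + l + 1) := by rw [pow_succ]

/-! ### Determinism -/

theorem Exec.det {W : ℕ} {p : Prog} {s s' : State} {t : ℕ} (h : Exec W p s t s') :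
    ∀ {t' : ℕ} {s'' : State}, Exec W p s t' s'' → t = t' ∧ s' = s'' := by
  induction h with
  | const s d c h => intro t' s'' h'; cases h'; exact ⟨rfl, rfl⟩
  | op s o d a b h => intro t' s'' h'; cases h'; exact ⟨rfl, rfl⟩
  | load s d a => intro t' s'' h'; cases h'; exact ⟨rfl, rfl⟩
  | store s a b => intro t' s'' h'; cases h'; exact ⟨rfl, rfl⟩
  | seq p q s s1 s2 t1 t2 h h' ih ih' =>
    intro t' s'' h''
    cases h'' with
    | seq _ _ _ s1' _ t1' t2' g g' =>
      obtain ⟨rfl, rfl⟩ := ih g
      obtain ⟨rfl, rfl⟩ := ih' g'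
      exact ⟨rfl, rfl⟩
  | iteTrue c p q s s' t hc h ih =>
    intro t' s'' h''
    cases h'' with
    | iteTrue _ _ _ _ _ t1' _ g =>
      obtain ⟨rfl, rfl⟩ := ih g
      exact ⟨rfl, rfl⟩
    | iteFalse _ _ _ _ _ t1' hc' g => exact absurd hc hc'
  | iteFalse c p q s s' t hc h ih =>
    intro t' s'' h''
    cases h'' with
    | iteTrue _ _ _ _ _ t1' hc' g => exact absurd hc' hc
    | iteFalse _ _ _ _ _ t1' _ g =>
      obtain ⟨rfl, rfl⟩ := ih g
      exact ⟨rfl, rfl⟩
  | loopDone c p s hc =>
    intro t' s'' h''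
    cases h'' with
    | loopDone _ _ _ _ => exact ⟨rfl, rfl⟩
    | loopStep _ _ _ _ _ _ _ hc' _ _ => exact absurd hc' hc
  | loopStep c p s s1 s2 t1 t2 hc h h' ih ih' =>
    intro t' s'' h''
    cases h'' with
    | loopDone _ _ _ hc' => exact absurd hc hc'
    | loopStep _ _ _ s1' _ t1' t2' _ g g' =>
      obtain ⟨rfl, rfl⟩ := ih g
      obtain ⟨rfl, rfl⟩ := ih' g'
      exact ⟨rfl, rfl⟩

theorem encode_ext {n n' : ℕ} {G : SimpleGraph (Fin n)} {G' : SimpleGraph (Fin n')}
    {L : AdjLists G} {L' : AdjLists G'}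
    (h : ∀ i, L.encode.getD i 0 = L'.encode.getD i 0) : L.encode = L'.encode := by
  have h0 : n = n' := by
    have := h 0
    rwa [L.encode_zero, L'.encode_zero] at this
  subst h0
  have h1 : (L.upTo n).length = (L'.upTo n).length := by
    have := h (n + 1)
    rwa [L.encode_off le_rfl, L'.encode_off le_rfl] at this
  have hlen : L.encode.length = L'.encode.length := by
    rw [L.encode_length, L'.encode_length, h1]
  apply List.ext_getElem hlen
  intro i hi hi'
  have := h i
  rwa [List.getD_eq_getElem _ _ hi, List.getD_eq_getElem _ _ hi'] at this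

open L1

theorem BB.det {P : Prog} {CH : ∀ n : ℕ, SimpleGraph (Fin n) → Prop} {Wp : ℕ}
    {inp inp' : List ℕ} {out out' : ℕ → ℕ} {t t' : ℕ} (he : ∀ i, inp.getD i 0 = inp'.getD i 0)
    (h : BB P CH Wp inp out t) (h' : BB P CH Wp inp' out' t') :
    inp = inp' ∧ out = out' ∧ t = t' := by
  obtain ⟨n, H, L, sP, M, _, rfl, hP, rfl, _, _⟩ := h
  obtain ⟨n', H', L', sP', M', _, rfl, hP', rfl, _, _⟩ := h'
  have := encode_ext he
  rw [← this] at hP'
  obtain ⟨rfl, rfl⟩ := hP.det hP'
  exact ⟨this, rfl, rfl⟩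

theorem Ex.det {R : List ℕ → (ℕ → ℕ) → ℕ → Prop} {cap : ℕ}
    (hR : ∀ {inp inp' : List ℕ} {out out' : ℕ → ℕ} {t t' : ℕ},
      (∀ i, inp.getD i 0 = inp'.getD i 0) → R inp out t → R inp' out' t' →
      inp = inp' ∧ out = out' ∧ t = t')
    {c : Cmd} {s s' : St} {t : ℕ} (h : Ex R cap c s t s') :
    ∀ {t' : ℕ} {s'' : St}, Ex R cap c s t' s'' → t = t' ∧ s' = s'' := by
  induction h with
  | blk l s => intro t' s'' h'; cases h'; exact ⟨rfl, rfl⟩
  | add d x y s h => intro t' s'' h'; cases h'; exact ⟨rfl, rfl⟩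
  | seq h h' ih ih' =>
    intro t' s'' h''
    cases h'' with
    | seq g g' =>
      obtain ⟨rfl, rfl⟩ := ih g
      obtain ⟨rfl, rfl⟩ := ih' g'
      exact ⟨rfl, rfl⟩
  | iteTrue hc h ih =>
    intro t' s'' h''
    cases h'' with
    | iteTrue _ g =>
      obtain ⟨rfl, rfl⟩ := ih g
      exact ⟨rfl, rfl⟩
    | iteFalse hc' g => exact absurd hc hc'
  | iteFalse hc h ih =>
    intro t' s'' h''
    cases h'' with
    | iteTrue hc' g => exact absurd hc' hc
    | iteFalse _ g =>
      obtain ⟨rfl, rfl⟩ := ih g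
      exact ⟨rfl, rfl⟩
  | loopDone hc =>
    intro t' s'' h''
    cases h'' with
    | loopDone _ => exact ⟨rfl, rfl⟩
    | loopStep hc' _ _ => exact absurd hc' hc
  | loopStep hc h h' ih ih' =>
    intro t' s'' h''
    cases h'' with
    | loopDone hc' => exact absurd hc hc'
    | loopStep _ g g' =>
      obtain ⟨rfl, rfl⟩ := ih g
      obtain ⟨rfl, rfl⟩ := ih' g'
      exact ⟨rfl, rfl⟩
  | call h hRt =>
    intro t' s'' h''
    cases h'' with
    | call g gR =>
      obtain ⟨rfl, rfl, rfl⟩ := hR (fun i => by rw [← h i, ← g i]) hRt gR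
      exact ⟨rfl, rfl⟩

/-- From a program of the internal language, with calls of a black box, to a word RAM program. -/
theorem solves_of_L1 {P : Prog} {CH CG : ∀ n : ℕ, SimpleGraph (Fin n) → Prop}
    {TH : ∀ n : ℕ, SimpleGraph (Fin n) → ℕ} (hP : Solves P CH TH)
    {K : ℕ} (hK : 4 ≤ K) (q : Cmd) {cst : ℕ} (hq : q.ok K cst) (k1 k2 : ℕ)
    (Sz : ∀ n : ℕ, SimpleGraph (Fin n) → ∀ n' : ℕ, SimpleGraph (Fin n') → Prop)
    (TT A B : ∀ n : ℕ, SimpleGraph (Fin n) → ℕ)
    (hsz : ∀ (n : ℕ) (G : SimpleGraph (Fin n)), CG n G → ∀ (n' : ℕ) (H : SimpleGraph (Fin n')),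
      CH n' H → Sz n G n' H →
      n' + H.edgeSet.ncard + 2 ≤ (n + G.edgeSet.ncard + 2) ^ k2 ∧ TH n' H ≤ TT n G)
    (hA : ∀ (n : ℕ) (G : SimpleGraph (Fin n)), CG n G → A n G ≤ (n + G.edgeSet.ncard + 2) ^ k1)
    (hrun : ∀ (n : ℕ) (G : SimpleGraph (Fin n)), CG n G → ∀ L : AdjLists G,
      ∀ (R : List ℕ → (ℕ → ℕ) → ℕ → Prop) (τ : ℕ),
      (∀ (n' : ℕ) (H : SimpleGraph (Fin n')) (L' : AdjLists H), CH n' H → Sz n G n' H →
        ∃ (out : ℕ → ℕ) (t : ℕ) (M : H.Subgraph), R L'.encode out t ∧ t ≤ τ ∧
          IsMaximumMatching H M ∧ Represents out M) →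
      ∃ (t : ℕ) (s : St) (M : G.Subgraph),
        Ex R ((n + G.edgeSet.ncard + 2) ^ k1) q (St.init L.encode) t s ∧
        t ≤ A n G + B n G * τ ∧ IsMaximumMatching G M ∧ Represents (s.a 3) M) :
    ∃ (P' : Prog) (C : ℕ), Solves P' CG
      (fun n G => C * (A n G + B n G * TT n G + n + G.edgeSet.ncard + 1)) := by
  obtain ⟨kP, hkP⟩ := hP
  have hpoly : PolyBd fun N => 2 * N + 2 * K * (2 * (2 * N + cst + N ^ k1 + N ^ k1 + 1) + 4) +
      2 * K + 12 * (2 * N + cst + N ^ k1 + N ^ k1 + 1) + 4 * N ^ (k2 * kP) + 20 := by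
    have c := PolyBd.const
    have i := PolyBd.id
    have hV := (((((c 2).mul i).add (c cst)).add (i.pow k1)).add (i.pow k1)).add (c 1)
    exact (((((((c 2).mul i).add (((c 2).mul (c K)).mul (((c 2).mul hV).add (c 4)))).add
      ((c 2).mul (c K))).add ((c 12).mul hV)).add ((c 4).mul (i.pow (k2 * kP)))).add (c 20))
  obtain ⟨k, hk⟩ := hpoly
  refine ⟨.seq (.seq baseProg (copyIn K)) (.seq (compile K (callProg K P) q) (copyOut K)),
    100 + ovh (P.regBd + 100) q, k, ?_⟩
  intro n G hG L
  set m := G.edgeSet.ncard with hm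
  set N := n + m + 2 with hN
  have hW := hk N (by omega)
  beta_reduce at hW
  set W := N ^ k with hWdef
  set A1 := N ^ k1 with hA1
  set Wp := N ^ (k2 * kP) with hWp
  have hlen : L.encode.length = n + 2 + 2 * m := by rw [L.encode_length, L.upTo_length]
  set b := L.encode.length with hb
  -- the two runs
  have hAn : A n G ≤ A1 := hA n G hG
  have hR1 : ∀ (n' : ℕ) (H : SimpleGraph (Fin n')) (L' : AdjLists H), CH n' H → Sz n G n' H →
      ∃ (out : ℕ → ℕ) (t : ℕ) (M : H.Subgraph), BB P CH Wp L'.encode out t ∧ t ≤ TT n G ∧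
        IsMaximumMatching H M ∧ Represents out M := by
    intro n' H L' hCH hSz
    obtain ⟨h1, h2⟩ := hsz n G hG n' H hCH hSz
    obtain ⟨t, s, M, e, ht, hM, hrep⟩ := hkP n' H hCH L'
    refine ⟨s.mem, t, M, ⟨n', H, L', s, M, hCH, rfl, e.mono ?_, rfl, hM, hrep⟩, ht.trans h2,
      hM, hrep⟩
    calc (n' + H.edgeSet.ncard + 2) ^ kP ≤ (N ^ k2) ^ kP := Nat.pow_le_pow_left h1 kP
      _ = Wp := by rw [hWp, pow_mul]
  obtain ⟨t, s, M, ex1, ht, hM, hrep⟩ := hrun n G hG L (BB P CH Wp) (TT n G) hR1
  obtain ⟨u, s0, M0, ex0, hu, -, -⟩ := hrun n G hG L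
    (fun inp out t => t = 0 ∧ ∃ t', BB P CH Wp inp out t') 0 (by
      intro n' H L' hCH hSz
      obtain ⟨out, t, M, h1, _, h3, h4⟩ := hR1 n' H L' hCH hSz
      exact ⟨out, 0, M, ⟨rfl, t, h1⟩, le_rfl, h3, h4⟩)
  rw [Nat.mul_zero, Nat.add_zero] at hu
  obtain ⟨t', ex2⟩ := Ex.toEx2 ex0
  obtain ⟨rfl, rfl⟩ := Ex.det BB.det ex2.toEx ex1
  -- initial phase
  set Vm := 2 * N + cst + A1 + A1 + 1 with hVm
  have hw0 : b + 2 * K * b + 2 * K + 1 ≤ W := by
    have : 2 * K * b ≤ 2 * K * (2 * Vm + 4) := Nat.mul_le_mul_left _ (by (clear * - hlen; omega))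
    omega
  obtain ⟨S0, e0, sim0, m0⟩ := init_exec (W := W) (K := K) (Rm := P.regBd)
    (V := 2 * N + cst + A1) (by omega) L (by (clear * - hlen; omega)) hw0
  -- main phase
  have hcall : CallOK (BB P CH Wp) K b P.regBd W (P.regBd + 100) Vm (callProg K P) :=
    callProg_ok (by omega) (by (clear * - hlen hW m0; omega))
  have hw1 : b + 2 * K * (2 * N + cst + A1 + u + 1) + 2 * K + (2 * N + cst + A1) + u + 1 ≤ W := by
    have : 2 * K * (2 * N + cst + A1 + u + 1) ≤ 2 * K * (2 * Vm + 4) :=
      Nat.mul_le_mul_left _ (by (clear * - hlen hAn hu m0; omega))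
    (clear * - hlen hAn hu hW m0 this; omega)
  obtain ⟨u1, S1, e1, hu1, sim1, f1⟩ := compile_exec hcall ex2 (2 * N + cst + A1) S0
    (hq.mono (by omega)) (show A1 ≤ 2 * N + cst + A1 by (clear * - hlen m0; omega)) (by (clear * - hAn hu; omega)) hw1 sim0
  -- copy out
  have hm3 : S1.mem 0 = n := by rw [f1 0 (by omega), m0]
  have hw4 : b + 2 * K * n + 2 * K + 7 ≤ W := by
    have : 2 * K * n ≤ 2 * K * (2 * Vm + 4) := Nat.mul_le_mul_left _ (by omega)
    omega
  obtain ⟨S4, e4, hout⟩ := copyOut_exec (K := K) (W := W) (N := n) (s0.a 3) (b := b) (by omega)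
    hw4 S1 sim1.base hm3 (by
      intro j hj
      rw [← sim1.arr 3 (by omega) j]
      rfl)
  refine ⟨_, S4, M, .seq _ _ _ _ _ _ _ e0 (.seq _ _ _ _ _ _ _ e1 e4), ?_, hM, ?_⟩
  · have a1 : ovh (P.regBd + 100) q * (t' + 1) ≤
        ovh (P.regBd + 100) q * (A n G + B n G * TT n G + n + m + 1) :=
      Nat.mul_le_mul_left _ (by (clear * - hlen ht m0 hm3; omega))
    show _ ≤ (100 + ovh (P.regBd + 100) q) * (A n G + B n G * TT n G + n + m + 1)
    rw [add_mul]
    have a3 : 100 * (A n G + B n G * TT n G + n + m + 1) ≥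
        (10 * b + 8) + (10 * n + 4) := by (clear * - hlen ht m0 hm3; omega)
    omega
  · intro v
    have hv := hrep v
    rw [hout v v.2]
    exact ⟨fun h => hv.1 h, fun u hu => hv.2 u hu⟩

end Vale.Agent.P305
end
end

section

section

/-! Graphs on `{0, …, n-1} ⊆ ℕ`, their array representation, and conventions for L1 programs.

Conventions. Register `0` always holds `n` and register `1` always holds `0` (once `unpack` has
run); no procedure changes them. Array `0`: raw input. Array `1`/`2`: input/output of calls.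
Array `3`: result. Array `4` = offsets, array `5` = concatenated adjacency lists of the input
graph; they are never changed after `unpack`. -/

set_option autoImplicit false

namespace Vale.Agent.P305

open Function (update)

/-- `A` is the adjacency relation of a simple graph on `{0, …, n-1}`. -/
structure Gr (n : ℕ) (A : ℕ → ℕ → Prop) : Prop where
  symm : ∀ {u v}, A u v → A v u
  irr : ∀ u, ¬ A u u
  lt : ∀ {u v}, A u v → u < n

/-- `off`, `adj` represent the graph: the neighbours of `v` are the entries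
`adj p`, `off v ≤ p < off (v+1)`, without repetition. -/
structure CSR (n : ℕ) (A : ℕ → ℕ → Prop) (off adj : ℕ → ℕ) : Prop where
  off0 : off 0 = 0
  mono : ∀ v < n, off v ≤ off (v + 1)
  mem : ∀ v < n, ∀ u, A v u ↔ ∃ p, off v ≤ p ∧ p < off (v + 1) ∧ adj p = u
  inj : ∀ v < n, ∀ p q, off v ≤ p → p < off (v + 1) → off v ≤ q → q < off (v + 1) →
    adj p = adj q → p = q

/-- The adjacency relation on `ℕ` of a graph on `Fin n`. -/
def natAdj {n : ℕ} (G : SimpleGraph (Fin n)) (u v : ℕ) : Prop :=
  ∃ (hu : u < n) (hv : v < n), G.Adj ⟨u, hu⟩ ⟨v, hv⟩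

theorem natAdj_gr {n : ℕ} (G : SimpleGraph (Fin n)) : Gr n (natAdj G) where
  symm := fun ⟨hu, hv, h⟩ => ⟨hv, hu, h.symm⟩
  irr := fun _ ⟨_, _, h⟩ => G.loopless.irrefl _ h
  lt := fun ⟨hu, _, _⟩ => hu

theorem Gr.lt' {n : ℕ} {A : ℕ → ℕ → Prop} (h : Gr n A) {u v : ℕ} (huv : A u v) : v < n :=
  h.lt (h.symm huv)

/-- `m` is (the partner function of) a matching: an involution whose non-trivial pairs are edges.
Uncovered vertices are fixed. -/
structure Mat (A : ℕ → ℕ → Prop) (m : ℕ → ℕ) : Prop where
  inv : ∀ v, m (m v) = v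
  adj : ∀ v, m v ≠ v → A v (m v)

/-- The set of vertices left uncovered. -/
def exposed (n : ℕ) (m : ℕ → ℕ) : Finset ℕ := (Finset.range n).filter (fun v => m v = v)

/-- `m` is a maximum matching. -/
def IsMax (n : ℕ) (A : ℕ → ℕ → Prop) (m : ℕ → ℕ) : Prop :=
  Mat A m ∧ ∀ m', Mat A m' → (exposed n m).card ≤ (exposed n m').card

theorem Mat.lt {n : ℕ} {A : ℕ → ℕ → Prop} (hG : Gr n A) {m : ℕ → ℕ} (h : Mat A m) {v : ℕ}
    (hv : v < n) : m v < n := by
  by_cases hne : m v = v
  · omega
  · exact hG.lt' (h.adj v hne)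

end Vale.Agent.P305
end
end

section

section

/-! Copying the input into the arrays `4` (offsets) and `5` (adjacency). A model proof. -/

set_option autoImplicit false

namespace Vale.Agent.P305

open Function (update)
open L1

variable {R : List ℕ → (ℕ → ℕ) → ℕ → Prop} {cap : ℕ}

/-- Copies `raw = array 0`. Registers used: 0 to 5. -/
def unpack : Cmd :=
  .seq (.blk [.const 1 0, .load 0 0 1, .const 2 0, .const 3 1, .copy 5 0, .inc 5])
  (.seq (.loop (.lt 2 5) (.blk [.load 0 4 3, .store 4 2 4, .inc 2, .inc 3]))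
  (.seq (.blk [.const 2 0, .copy 5 4])
    (.loop (.lt 2 5) (.blk [.load 0 4 3, .store 5 2 4, .inc 2, .inc 3]))))

theorem unpack_spec (s : St) (n m2 : ℕ) (hn : s.a 0 0 = n) (hm : s.a 0 (n + 1) = m2) :
    ∃ s' t, Ex R cap unpack s t s' ∧ t ≤ 5 * (n + m2) + 20 ∧ s'.r 0 = n ∧ s'.r 1 = 0 ∧
      (∀ i ≤ n, s'.a 4 i = s.a 0 (i + 1)) ∧ (∀ p < m2, s'.a 5 p = s.a 0 (n + 2 + p)) ∧
      (∀ j, j ≠ 4 → j ≠ 5 → s'.a j = s.a j) := by
  -- first block
  obtain ⟨s1, hs1⟩ : ∃ s1, s1 = run [.const 1 0, .load 0 0 1, .const 2 0, .const 3 1, .copy 5 0,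
    .inc 5] s := ⟨_, rfl⟩
  have e1 : Ex R cap (.blk [.const 1 0, .load 0 0 1, .const 2 0, .const 3 1, .copy 5 0,
    .inc 5]) s 6 s1 := by rw [hs1]; exact Ex.blk _ _
  have h1 : s1.r 0 = n ∧ s1.r 1 = 0 ∧ s1.r 2 = 0 ∧ s1.r 3 = 1 ∧ s1.r 5 = n + 1 ∧ s1.a = s.a := by
    subst hs1; simp [run, B.step, hn]
  -- first loop
  obtain ⟨s2, t2, e2, I2, c2, ht2⟩ := loop_rule (R := R) (cap := cap) (c := .lt 2 5)
    (p := .blk [.load 0 4 3, .store 4 2 4, .inc 2, .inc 3])
    (fun s' => s'.r 0 = n ∧ s'.r 1 = 0 ∧ s'.r 3 = s'.r 2 + 1 ∧ s'.r 2 ≤ n + 1 ∧ s'.r 5 = n + 1 ∧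
      (∀ i < s'.r 2, s'.a 4 i = s.a 0 (i + 1)) ∧ (0 < s'.r 2 → s'.r 4 = s.a 0 (s'.r 2)) ∧
      (∀ j, j ≠ 4 → s'.a j = s.a j))
    (fun s' => 5 * (n + 1 - s'.r 2))
    (by
      rintro s' ⟨h0, h1, h3, h2, h5, ha, hr4, hj⟩ hc
      refine ⟨_, _, Ex.blk _ _, ?_, ?_⟩
      · simp only [Test.holds] at hc
        have hj0 := hj 0 (by decide)
        simp only [run, B.step, h3, hj0, ne_eq, Nat.reduceEqDiff, not_false_eq_true, Function.update_of_ne, Function.update_self, Nat.succ_ne_self, OfNat.zero_ne_ofNat, h0, OfNat.one_ne_ofNat, h1, Nat.add_left_cancel_iff, add_le_add_iff_right, h5, Order.lt_add_one_iff, Function.update_apply, lt_add_iff_pos_left, zero_le, imp_self, true_and]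
        refine ⟨by omega, ?_, ?_⟩
        · intro i hi
          split
          · (clear m2 hm h0 h1 h3 h2 h5 ha hr4 hj hc hj0 hi; simp_all)
          · exact ha i (by omega)
        · intro j hj4
          simp [hj4, hj j hj4]
      · simp only [Test.holds, List.length_cons, List.length_nil, zero_add, Nat.reduceAdd, run, B.step, ne_eq, Nat.reduceEqDiff, not_false_eq_true, Function.update_of_ne, Function.update_self, Nat.succ_ne_self, Nat.reduceSubDiff] at hc ⊢
        omega)
    s1 (by
      obtain ⟨a0, a1, a2, a3, a5, aa⟩ := h1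
      simp only [a0, a1, a3, a2, zero_add, le_add_iff_nonneg_left, zero_le, a5, Nat.add_left_cancel_iff, not_lt_zero, aa, IsEmpty.forall_iff, implies_true, lt_self_iff_false, ne_eq, and_self])
  obtain ⟨b0, b1, b3, b2, b5, ba, b4, bj⟩ := I2
  have b2' : s2.r 2 = n + 1 := by simp only [Test.holds] at c2; omega
  -- second block
  obtain ⟨s3, hs3⟩ : ∃ s3, s3 = run [.const 2 0, .copy 5 4] s2 := ⟨_, rfl⟩
  have e3 : Ex R cap (.blk [.const 2 0, .copy 5 4]) s2 2 s3 := by rw [hs3]; exact Ex.blk _ _
  have h3 : s3.r 0 = n ∧ s3.r 1 = 0 ∧ s3.r 2 = 0 ∧ s3.r 3 = n + 2 ∧ s3.r 5 = m2 ∧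
      s3.a = s2.a := by
    have : s2.r 4 = m2 := by rw [b4 (by omega), b2', hm]
    subst hs3; simp only [run, B.step, ne_eq, Nat.reduceEqDiff, not_false_eq_true, Function.update_of_ne, this, OfNat.zero_ne_ofNat, b0, OfNat.one_ne_ofNat, b1, Function.update_self, Nat.succ_ne_self, b3, b2', Nat.add_right_cancel_iff, Nat.add_left_cancel_iff, and_self]
  -- second loop
  obtain ⟨s4, t4, e4, I4, c4, ht4⟩ := loop_rule (R := R) (cap := cap) (c := .lt 2 5)
    (p := .blk [.load 0 4 3, .store 5 2 4, .inc 2, .inc 3])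
    (fun s' => s'.r 0 = n ∧ s'.r 1 = 0 ∧ s'.r 3 = s'.r 2 + (n + 2) ∧ s'.r 2 ≤ m2 ∧ s'.r 5 = m2 ∧
      (∀ i < s'.r 2, s'.a 5 i = s.a 0 (n + 2 + i)) ∧ s'.a 4 = s2.a 4 ∧
      (∀ j, j ≠ 4 → j ≠ 5 → s'.a j = s.a j))
    (fun s' => 5 * (m2 - s'.r 2))
    (by
      rintro s' ⟨h0, h1, h3, h2, h5, ha, hr4, hj⟩ hc
      refine ⟨_, _, Ex.blk _ _, ?_, ?_⟩
      · simp only [Test.holds] at hc
        have hj0 := hj 0 (by decide) (by decide)
        simp only [run, B.step, h3, hj0, ne_eq, Nat.reduceEqDiff, not_false_eq_true, Function.update_of_ne, Function.update_self, Nat.succ_ne_self, OfNat.zero_ne_ofNat, h0, OfNat.one_ne_ofNat, h1, Order.add_one_le_iff, h5, Order.lt_add_one_iff, Function.update_apply, hr4, true_and]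
        refine ⟨by (clear * -; omega), by omega, ?_, ?_⟩
        · intro i hi
          split
          · (clear e2 ht2 ba bj h0 h1 h3 h2 h5 ha hr4 hj hc hj0 hi; simp_all [add_comm])
          · exact ha i (by omega)
        · intro j hj4 hj5
          simp [hj5, hj j hj4 hj5]
      · simp only [Test.holds, List.length_cons, List.length_nil, zero_add, Nat.reduceAdd, run, B.step, ne_eq, Nat.reduceEqDiff, not_false_eq_true, Function.update_of_ne, Function.update_self, Nat.succ_ne_self] at hc ⊢
        (clear e2 ht2 ba bj h0 h1 h3 h2 ha hr4 hj; omega))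
    s3 (by
      obtain ⟨a0, a1, a2, a3, a5, aa⟩ := h3
      simp only [a0, a1, a3, a2, zero_add, Nat.add_left_cancel_iff, zero_le, a5, not_lt_zero, aa, IsEmpty.forall_iff, implies_true, ne_eq, true_and]
      intro j h4 _; exact bj j h4)
  obtain ⟨d0, d1, d3, d2, d5, da, d4, dj⟩ := I4
  refine ⟨s4, _, .seq e1 (.seq e2 (.seq e3 e4)), ?_, d0, d1, ?_, ?_, dj⟩
  · simp only [h1.2.2.1, h3.2.2.1] at ht2 ht4
    simp only [Test.holds] at c4
    omega
  · intro i hi
    rw [d4]; exact ba i (by omega)
  · intro p hp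
    exact da p (by simp only [Test.holds] at c4; (clear * - h1 b0 b5 h3 c4 d0 d3 d2 d5 hp; omega))

end Vale.Agent.P305
end
end

section

section

/-! Conversions between `CSR` and `AdjLists`. -/

set_option autoImplicit false

namespace Vale.Agent.P305

theorem CSR.mono' {n : ℕ} {A : ℕ → ℕ → Prop} {off adj : ℕ → ℕ} (h : CSR n A off adj) :
    ∀ {i j : ℕ}, i ≤ j → j ≤ n → off i ≤ off j := by
  intro i j hij
  induction hij with
  | refl => intro _; exact le_rfl
  | step h' ih =>
    intro hj
    exact (ih (by omega)).trans (h.mono _ (by omega))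

theorem AdjLists.upTo_succ {n : ℕ} {G : SimpleGraph (Fin n)} (L : AdjLists G) {k : ℕ}
    (hk : k < n) : L.upTo (k + 1) = L.upTo k ++ L.nbrs ⟨k, hk⟩ := by
  unfold AdjLists.upTo
  rw [List.take_add_one, List.flatMap_append]
  congr 1
  rw [List.getElem?_eq_getElem (by simpa using hk)]
  simp

theorem AdjLists.upTo_append {n : ℕ} {G : SimpleGraph (Fin n)} (L : AdjLists G) (k : ℕ) :
    ∃ l, L.upTo n = L.upTo k ++ l := by
  unfold AdjLists.upTo
  rw [List.take_of_length_le (by simp), ← List.take_append_drop k (List.finRange n)]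
  refine ⟨((List.finRange n).drop k).flatMap L.nbrs, ?_⟩
  conv_lhs => rw [List.flatMap_append]
  simp

/-- The arrays of a `CSR` representation form adjacency lists. -/
theorem CSR.toAdjLists {N : ℕ} {H : SimpleGraph (Fin N)} {off adj : ℕ → ℕ}
    (h : CSR N (natAdj H) off adj) :
    ∃ L : AdjLists H, ∀ k ≤ N, (L.upTo k).map Fin.val = (List.range (off k)).map adj := by
  have hlt : ∀ (v : Fin N) (i : ℕ), i < off (v + 1) - off v → adj (off v + i) < N := by
    intro v i hi
    have := (h.mem v v.2 (adj (off v + i))).2 ⟨off v + i, by omega, by omega, rfl⟩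
    obtain ⟨_, h2, _⟩ := this
    exact h2
  set f : Fin N → ℕ → Fin N := fun v p => if hp : adj p < N then ⟨adj p, hp⟩ else v with hf
  have hfv : ∀ (v : Fin N) (i : ℕ), i < off (v + 1) - off v →
      (f v (off v + i)).val = adj (off v + i) := by
    intro v i hi
    rw [hf]
    simp only
    rw [dif_pos (hlt v i hi)]
  set nb : Fin N → List (Fin N) := fun v =>
    (List.range (off (v + 1) - off v)).map (fun i => f v (off v + i)) with hnb
  have hnbval : ∀ v : Fin N, (nb v).map Fin.val =
      (List.range (off (v + 1) - off v)).map (fun i => adj (off v + i)) := by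
    intro v
    rw [hnb]
    simp only [List.map_map]
    apply List.map_congr_left
    intro i hi
    rw [List.mem_range] at hi
    exact hfv v i hi
  let L : AdjLists H :=
    { nbrs := nb
      nodup := by
        intro v
        rw [hnb]
        apply List.Nodup.map_on _ List.nodup_range
        intro i hi j hj hij
        rw [List.mem_range] at hi hj
        have h1 := hfv v i hi
        have h2 := hfv v j hj
        have := h.inj v v.2 (off v + i) (off v + j) (by omega) (by omega) (by omega) (by omega)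
          (by rw [← h1, ← h2, hij])
        omega
      mem_iff := by
        intro u v
        have key := h.mem u u.2 v
        constructor
        · intro hv
          rw [hnb, List.mem_map] at hv
          obtain ⟨i, hi, hiv⟩ := hv
          rw [List.mem_range] at hi
          have := hfv u i hi
          rw [hiv] at this
          have h2 := key.2 ⟨off u + i, by omega, by omega, this.symm⟩
          obtain ⟨_, _, h3⟩ := h2
          exact h3
        · intro hv
          obtain ⟨p, h1, h2, h3⟩ := key.1 ⟨u.2, v.2, hv⟩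
          rw [hnb, List.mem_map]
          refine ⟨p - off u, List.mem_range.2 (by omega), ?_⟩
          have := hfv u (p - off u) (by omega)
          rw [show off u + (p - off u) = p by omega] at this ⊢
          exact Fin.ext (this.trans h3) }
  refine ⟨L, ?_⟩
  intro k
  induction k with
  | zero =>
    intro _
    rw [h.off0]
    simp [AdjLists.upTo]
  | succ k ih =>
    intro hk
    rw [L.upTo_succ (by omega), List.map_append, ih (by omega)]
    have h1 : L.nbrs ⟨k, by omega⟩ = nb ⟨k, by omega⟩ := rfl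
    rw [h1, hnbval]
    simp only
    have h2 := h.mono k (by omega)
    conv_rhs => rw [show off (k + 1) = off k + (off (k + 1) - off k) by omega, List.range_add]
    rw [List.map_append, List.map_map]
    rfl

theorem CSR.encode {N : ℕ} {H : SimpleGraph (Fin N)} {off adj : ℕ → ℕ}
    (h : CSR N (natAdj H) off adj) :
    ∃ L : AdjLists H, L.encode = N :: ((List.range (N + 1)).map off ++
      (List.range (off N)).map adj) := by
  obtain ⟨L, hL⟩ := h.toAdjLists
  refine ⟨L, ?_⟩
  unfold AdjLists.encode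
  rw [hL N le_rfl]
  congr 2
  apply List.map_congr_left
  intro k hk
  rw [List.mem_range] at hk
  have := congrArg List.length (hL k (by omega))
  simpa using this

/-- The entries of the input form a `CSR` representation. -/
theorem csr_of_encode {n : ℕ} {G : SimpleGraph (Fin n)} (L : AdjLists G) {off adj : ℕ → ℕ}
    (h1 : ∀ i ≤ n, off i = L.encode.getD (i + 1) 0)
    (h2 : ∀ p < off n, adj p = L.encode.getD (n + 2 + p) 0) :
    CSR n (natAdj G) off adj := by
  have hoff : ∀ i ≤ n, off i = (L.upTo i).length := by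
    intro i hi
    rw [h1 i hi, L.encode_off hi]
  -- entries in the block of `v`
  have hblk : ∀ (v : ℕ) (hv : v < n) (i : ℕ) (hi : i < (L.nbrs ⟨v, hv⟩).length),
      adj (off v + i) = ((L.nbrs ⟨v, hv⟩)[i]).val := by
    intro v hv i hi
    obtain ⟨l, hl⟩ := L.upTo_append (v + 1)
    rw [L.upTo_succ hv] at hl
    have hlen : off v + i < (L.upTo n).length := by
      rw [hl, hoff v (by omega)]
      simp only [List.length_append]
      omega
    rw [h2 _ (by rw [hoff n le_rfl]; exact hlen), L.encode_adj, hl,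
      List.getD_eq_getElem _ _ (by rw [← hl]; simpa using hlen), List.getElem_map]
    congr 1
    have e1 := hoff v (by omega)
    rw [List.getElem_append_left (by simp only [List.length_append]; omega),
      List.getElem_append_right (by omega)]
    congr 1
    omega
  have hsucc : ∀ (v : ℕ) (hv : v < n), off (v + 1) = off v + (L.nbrs ⟨v, hv⟩).length := by
    intro v hv
    rw [hoff (v + 1) (by omega), hoff v (by omega), L.upTo_succ hv, List.length_append]
  refine ⟨?_, ?_, ?_, ?_⟩
  · rw [hoff 0 (by omega)]; simp [AdjLists.upTo]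
  · intro v hv
    rw [hsucc v hv]; omega
  · intro v hv u
    constructor
    · rintro ⟨_, hu, huv⟩
      have := (L.mem_iff ⟨v, hv⟩ ⟨u, hu⟩).2 huv
      obtain ⟨i, hi, hiu⟩ := List.getElem_of_mem this
      refine ⟨off v + i, by omega, by rw [hsucc v hv]; omega, ?_⟩
      rw [hblk v hv i hi, hiu]
    · rintro ⟨p, hp1, hp2, rfl⟩
      rw [hsucc v hv] at hp2
      have hi : p - off v < (L.nbrs ⟨v, hv⟩).length := by omega
      have := hblk v hv (p - off v) hi
      rw [show off v + (p - off v) = p by omega] at this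
      have hmem := (L.mem_iff ⟨v, hv⟩ _).1 (List.getElem_mem hi)
      rw [this]
      exact ⟨hv, Fin.is_lt _, hmem⟩
  · intro v hv p q hp1 hp2 hq1 hq2 hpq
    rw [hsucc v hv] at hp2 hq2
    have hi : p - off v < (L.nbrs ⟨v, hv⟩).length := by omega
    have hj : q - off v < (L.nbrs ⟨v, hv⟩).length := by omega
    have e1 := hblk v hv (p - off v) hi
    have e2 := hblk v hv (q - off v) hj
    rw [show off v + (p - off v) = p by omega] at e1
    rw [show off v + (q - off v) = q by omega] at e2
    rw [e1, e2] at hpq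
    have := (L.nodup ⟨v, hv⟩).getElem_inj_iff.1 (Fin.ext hpq)
    omega

end Vale.Agent.P305
end
end

section

section

/-! Writing the input of a call: from CSR arrays `10` (offsets), `11` (adjacency) to array `1`. -/

set_option autoImplicit false

namespace Vale.Agent.P305

open Function (update)
open L1

variable {R : List ℕ → (ℕ → ℕ) → ℕ → Prop} {cap : ℕ}

/-- The length of the encoding held by an array. -/
def encLen (f : ℕ → ℕ) : ℕ := f 0 + 2 + f (f 0 + 1)

/-- Nothing beyond the encoding. -/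
def Clean (f : ℕ → ℕ) : Prop := ∀ i, encLen f ≤ i → f i = 0

/-- Clears array `1`. Registers used: 21 to 24. -/
def clear1 : Cmd :=
  .seq (.blk [.const 21 0, .const 24 0, .load 1 22 21, .copy 23 22, .inc 23, .load 1 23 23])
  (.seq (.add 22 22 23)
  (.seq (.blk [.inc 22, .inc 22])
  (.loop (.lt 21 22) (.blk [.store 1 21 24, .inc 21]))))

theorem clear1_spec (s : St) (h : Clean (s.a 1)) (hcap : encLen (s.a 1) ≤ cap) :
    ∃ s' t, Ex R cap clear1 s t s' ∧ t ≤ 3 * encLen (s.a 1) + 10 ∧
      (∀ i, s'.a 1 i = 0) ∧ (∀ j, j ≠ 1 → s'.a j = s.a j) ∧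
      (∀ r, r < 21 ∨ 24 < r → s'.r r = s.r r) := by
  set f := s.a 1 with hf
  set D := encLen f with hD
  obtain ⟨s1, hs1⟩ : ∃ s1, s1 = run [.const 21 0, .const 24 0, .load 1 22 21, .copy 23 22, .inc 23,
    .load 1 23 23] s := ⟨_, rfl⟩
  have e1 : Ex R cap (.blk [.const 21 0, .const 24 0, .load 1 22 21, .copy 23 22, .inc 23,
    .load 1 23 23]) s 6 s1 := by rw [hs1]; exact Ex.blk _ _
  have h1 : s1.r 21 = 0 ∧ s1.r 24 = 0 ∧ s1.r 22 = f 0 ∧ s1.r 23 = f (f 0 + 1) ∧ s1.a = s.a ∧
      (∀ r, r < 21 ∨ 24 < r → s1.r r = s.r r) := by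
    subst hs1
    simp only [run, B.step]
    refine ⟨by simp only [ne_eq, Nat.reduceEqDiff, not_false_eq_true, Function.update_of_ne, Function.update_self, Function.update_idem], by simp, by simp [hf], by simp [hf], trivial, ?_⟩
    intro r hr
    simp only [Function.update_apply]
    rw [if_neg (by omega), if_neg (by omega), if_neg (by omega), if_neg (by omega),
      if_neg (by omega), if_neg (by omega)]
  obtain ⟨a21, a24, a22, a23, aa, ar⟩ := h1
  have e2 : Ex R cap (.add 22 22 23) s1 1 _ := Ex.add 22 22 23 s1 (by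
    rw [a22, a23]; unfold encLen at hD; omega)
  rw [a22, a23, aa] at e2
  obtain ⟨s2, hs2⟩ : ∃ s2, s2 = run [.inc 22, .inc 22]
    (⟨update s1.r 22 (f 0 + f (f 0 + 1)), s.a⟩ : St) := ⟨_, rfl⟩
  have e3 : Ex R cap (.blk [.inc 22, .inc 22])
    (⟨update s1.r 22 (f 0 + f (f 0 + 1)), s.a⟩ : St) 2 s2 := by rw [hs2]; exact Ex.blk _ _
  have h2 : s2.r 21 = 0 ∧ s2.r 24 = 0 ∧ s2.r 22 = D ∧ s2.a = s.a ∧
      (∀ r, r < 21 ∨ 24 < r → s2.r r = s.r r) := by
    subst hs2
    simp only [run, B.step]
    refine ⟨by simp [a21], by simp [a24], ?_, trivial, ?_⟩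
    · simp only [Function.update_self, Function.update_idem, hD, encLen]; omega
    · intro r hr
      simp only [Function.update_apply]
      rw [if_neg (by omega), if_neg (by omega), if_neg (by omega), ar r hr]
  obtain ⟨b21, b24, b22, ba, br⟩ := h2
  obtain ⟨s4, t4, e4, I4, c4, ht4⟩ := loop_rule (R := R) (cap := cap) (c := .lt 21 22)
    (p := .blk [.store 1 21 24, .inc 21])
    (fun s' => s'.r 24 = 0 ∧ s'.r 22 = D ∧ s'.r 21 ≤ D ∧
      (∀ i, s'.a 1 i = if i < s'.r 21 then 0 else f i) ∧ (∀ j, j ≠ 1 → s'.a j = s.a j) ∧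
      (∀ r, r < 21 ∨ 24 < r → s'.r r = s.r r))
    (fun s' => 3 * (D - s'.r 21))
    (by
      rintro s' ⟨h24, h22, h21, ha, hj, hr⟩ hc
      refine ⟨_, _, Ex.blk _ _, ?_, ?_⟩
      · simp only [Test.holds] at hc
        simp only [run, B.step]
        refine ⟨by simp [h24], by simp [h22], by simp; omega, ?_, ?_, ?_⟩
        · intro i
          simp only [Function.update_self, Function.update_apply]
          by_cases hi : i = s'.r 21
          · simp [hi, h24]
          · rw [if_neg hi, ha i]
            by_cases hi' : i < s'.r 21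
            · rw [if_pos hi', if_pos (by omega)]
            · rw [if_neg hi', if_neg (by omega)]
        · intro j hj1
          simp [hj1, hj j hj1]
        · intro r hr'
          rw [Function.update_of_ne (by omega), hr r hr']
      · simp only [Test.holds, List.length_cons, List.length_nil, zero_add, Nat.reduceAdd, run, B.step, Function.update_self] at hc ⊢
        omega)
    s2 (by
      refine ⟨b24, b22, by omega, ?_, ?_, br⟩
      · intro i; rw [b21, ba, if_neg (by omega)]
      · intro j _; rw [ba])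
  obtain ⟨d24, d22, d21, da, dj, dr⟩ := I4
  have d21' : s4.r 21 = D := by simp only [Test.holds] at c4; omega
  refine ⟨s4, _, .seq e1 (.seq e2 (.seq e3 e4)), ?_, ?_, dj, dr⟩
  · rw [b21] at ht4
    omega
  · intro i
    rw [da i, d21']
    split
    · rfl
    · exact h i (by omega)

/-- Writes the encoding. Register `20` holds the number of vertices. Registers used: 21 to 25. -/
def pack : Cmd :=
  .seq clear1
  (.seq (.blk [.const 21 0, .store 1 21 20, .const 22 1, .const 23 0, .copy 25 20, .inc 25])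
  (.seq (.loop (.lt 23 25) (.blk [.load 10 24 23, .store 1 22 24, .inc 22, .inc 23]))
  (.seq (.blk [.const 23 0, .copy 25 24])
  (.loop (.lt 23 25) (.blk [.load 11 24 23, .store 1 22 24, .inc 22, .inc 23])))))

theorem encFn (N : ℕ) (off adj : ℕ → ℕ) (i : ℕ) :
    (N :: ((List.range (N + 1)).map off ++ (List.range (off N)).map adj)).getD i 0 =
    if i = 0 then N else if i < N + 2 then off (i - 1) else
      if i < N + 2 + off N then adj (i - (N + 2)) else 0 := by
  rcases i with _ | i
  · simp
  · rw [List.getD_cons_succ]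
    by_cases h1 : i + 1 < N + 2
    · rw [if_neg (by omega), if_pos h1, List.getD_append _ _ _ _ (by simp; omega)]
      rw [List.getD_eq_getElem _ _ (by simp; omega)]
      simp only [List.getElem_map, List.getElem_range, add_tsub_cancel_right]
    · rw [if_neg (by omega), if_neg h1, List.getD_append_right _ _ _ _ (by simp; omega)]
      by_cases h2 : i + 1 < N + 2 + off N
      · rw [if_pos h2, List.getD_eq_getElem _ _ (by simp only [List.length_map, List.length_range]; omega)]
        simp only [List.length_map, List.length_range, List.getElem_map, List.getElem_range, Nat.reduceSubDiff]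
      · rw [if_neg h2, List.getD_eq_default _ _ (by simp only [List.length_map, List.length_range]; omega)]

theorem pack_spec (s : St) (N : ℕ) (hN : s.r 20 = N) (h : Clean (s.a 1))
    (hcap : encLen (s.a 1) ≤ cap) :
    ∃ s' t, Ex R cap pack s t s' ∧
      t ≤ 3 * encLen (s.a 1) + 5 * (N + s.a 10 N) + 40 ∧
      (∀ i, s'.a 1 i = (N :: ((List.range (N + 1)).map (s.a 10) ++
        (List.range (s.a 10 N)).map (s.a 11))).getD i 0) ∧
      (∀ j, j ≠ 1 → s'.a j = s.a j) ∧ (∀ r, r < 21 ∨ 25 < r → s'.r r = s.r r) := by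
  obtain ⟨s0, t0, e0, ht0, hz, hj0, hr0⟩ := clear1_spec (R := R) (cap := cap) s h hcap
  set off := s.a 10 with hoff
  set adj := s.a 11 with hadj
  have o0 : s0.a 10 = off := hj0 10 (by decide)
  have j0 : s0.a 11 = adj := hj0 11 (by decide)
  have n0 : s0.r 20 = N := by rw [hr0 20 (by omega), hN]
  obtain ⟨s1, hs1⟩ : ∃ s1, s1 = run [.const 21 0, .store 1 21 20, .const 22 1, .const 23 0,
    .copy 25 20, .inc 25] s0 := ⟨_, rfl⟩
  have e1 : Ex R cap (.blk [.const 21 0, .store 1 21 20, .const 22 1, .const 23 0,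
    .copy 25 20, .inc 25]) s0 6 s1 := by rw [hs1]; exact Ex.blk _ _
  have h1 : s1.r 22 = 1 ∧ s1.r 23 = 0 ∧ s1.r 25 = N + 1 ∧
      (∀ i, s1.a 1 i = if i = 0 then N else 0) ∧ (∀ j, j ≠ 1 → s1.a j = s.a j) ∧
      (∀ r, r < 21 ∨ 25 < r → s1.r r = s.r r) := by
    subst hs1
    simp only [run, B.step]
    refine ⟨by simp, by simp, by simp [n0], ?_, ?_, ?_⟩
    · intro i
      simp [Function.update_apply, n0, hz]
    · intro j hj
      simp [hj, hj0 j hj]
    · intro r hr
      simp only [Function.update_apply]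
      rw [if_neg (by omega), if_neg (by omega), if_neg (by omega), if_neg (by omega),
        if_neg (by omega), hr0 r (by omega)]
  obtain ⟨a22, a23, a25, aa, aj, ar⟩ := h1
  -- offsets
  obtain ⟨s2, t2, e2, I2, c2, ht2⟩ := loop_rule (R := R) (cap := cap) (c := .lt 23 25)
    (p := .blk [.load 10 24 23, .store 1 22 24, .inc 22, .inc 23])
    (fun s' => s'.r 25 = N + 1 ∧ s'.r 22 = s'.r 23 + 1 ∧ s'.r 23 ≤ N + 1 ∧
      (∀ i, s'.a 1 i = if i = 0 then N else if i < s'.r 23 + 1 then off (i - 1) else 0) ∧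
      (0 < s'.r 23 → s'.r 24 = off (s'.r 23 - 1)) ∧
      (∀ j, j ≠ 1 → s'.a j = s.a j) ∧ (∀ r, r < 21 ∨ 25 < r → s'.r r = s.r r))
    (fun s' => 5 * (N + 1 - s'.r 23))
    (by
      rintro s' ⟨h25, h22, h23, ha, h24, hj, hr⟩ hc
      refine ⟨_, _, Ex.blk _ _, ?_, ?_⟩
      · simp only [Test.holds] at hc
        have h10 := hj 10 (by decide)
        simp only [run, B.step]
        refine ⟨by simp [h25], by simp [h22], by simp; omega, ?_, ?_, ?_, ?_⟩
        · intro i
          simp only [Function.update_self, Function.update_apply, h10]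
          by_cases hi : i = s'.r 23 + 1
          · subst hi
            simp only [Nat.reduceEqDiff, ↓reduceIte, h22, Nat.add_left_cancel_iff, Nat.add_eq_zero_iff, one_ne_zero, and_false, Nat.succ_ne_self, lt_add_iff_pos_right, Order.lt_one_iff, hoff, add_tsub_cancel_right]
          · simp only [h22]
            rw [show s'.a 1 i = _ from ha i]
            by_cases hi' : i < s'.r 23 + 1
            · simp only [Nat.reduceEqDiff, ↓reduceIte, hi, hi', Nat.succ_ne_self, show i < s'.r 23 + 1 + 1 by omega]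
            · simp [hi, hi', show ¬ i < s'.r 23 + 1 + 1 by (clear * - hi hi'; omega)]
        · intro _
          simp only [h10, ne_eq, Nat.reduceEqDiff, not_false_eq_true, Function.update_of_ne, Nat.succ_ne_self, Function.update_self, hoff, add_tsub_cancel_right]
        · intro j hj1
          simp [hj1, hj j hj1]
        · intro r hr'
          simp only [Function.update_apply]
          rw [if_neg (by omega), if_neg (by omega), if_neg (by omega), hr r hr']
      · simp only [Test.holds, List.length_cons, List.length_nil, zero_add, Nat.reduceAdd, run, B.step, ne_eq, Nat.reduceEqDiff, not_false_eq_true, Function.update_of_ne, Function.update_self, Nat.succ_ne_self, Nat.reduceSubDiff] at hc ⊢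
        (clear * - n0 a25 h25 hc; omega))
    s1 (by
      refine ⟨a25, by omega, by omega, ?_, by omega, aj, ar⟩
      intro i
      rw [aa i, a23]
      by_cases hi : i = 0
      · simp [hi]
      · rw [if_neg hi, if_neg hi, if_neg (by omega)])
  obtain ⟨b25, b22, b23, ba, b24, bj, br⟩ := I2
  have b23' : s2.r 23 = N + 1 := by simp only [Test.holds] at c2; (clear * - n0 a25 c2 b25 b22 b23; omega)
  obtain ⟨s3, hs3⟩ : ∃ s3, s3 = run [.const 23 0, .copy 25 24] s2 := ⟨_, rfl⟩
  have e3 : Ex R cap (.blk [.const 23 0, .copy 25 24]) s2 2 s3 := by rw [hs3]; exact Ex.blk _ _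
  have h3 : s3.r 22 = N + 2 ∧ s3.r 23 = 0 ∧ s3.r 25 = off N ∧ s3.a = s2.a ∧
      (∀ r, r < 21 ∨ 25 < r → s3.r r = s.r r) := by
    have h24 : s2.r 24 = off N := by rw [b24 (by omega), b23']; rfl
    subst hs3
    simp only [run, B.step]
    refine ⟨by simp [b22, b23'], by simp, by simp [h24], trivial, ?_⟩
    intro r hr
    simp only [Function.update_apply]
    rw [if_neg (by omega), if_neg (by omega), br r hr]
  obtain ⟨c22, c23, c25, ca, cr⟩ := h3
  -- adjacency
  obtain ⟨s4, t4, e4, I4, c4, ht4⟩ := loop_rule (R := R) (cap := cap) (c := .lt 23 25)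
    (p := .blk [.load 11 24 23, .store 1 22 24, .inc 22, .inc 23])
    (fun s' => s'.r 25 = off N ∧ s'.r 22 = s'.r 23 + (N + 2) ∧ s'.r 23 ≤ off N ∧
      (∀ i, s'.a 1 i = if i = 0 then N else if i < N + 2 then off (i - 1) else
        if i < N + 2 + s'.r 23 then adj (i - (N + 2)) else 0) ∧
      (∀ j, j ≠ 1 → s'.a j = s.a j) ∧ (∀ r, r < 21 ∨ 25 < r → s'.r r = s.r r))
    (fun s' => 5 * (off N - s'.r 23))
    (by
      rintro s' ⟨h25, h22, h23, ha, hj, hr⟩ hc
      refine ⟨_, _, Ex.blk _ _, ?_, ?_⟩
      · simp only [Test.holds] at hc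
        have h11 := hj 11 (by decide)
        simp only [run, B.step]
        refine ⟨by simp only [ne_eq, Nat.reduceEqDiff, not_false_eq_true, Function.update_of_ne, Nat.succ_ne_self, h25], by simp only [ne_eq, Nat.reduceEqDiff, not_false_eq_true, Function.update_of_ne, h22, Nat.succ_ne_self, Function.update_self]; omega, by simp only [ne_eq, Nat.reduceEqDiff, not_false_eq_true, Function.update_of_ne, Nat.succ_ne_self, Function.update_self, Order.add_one_le_iff]; omega, ?_, ?_, ?_⟩
        · intro i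
          simp only [Function.update_self, Function.update_apply, h11]
          by_cases hi : i = s'.r 23 + (N + 2)
          · subst hi
            simp only [Nat.reduceEqDiff, ↓reduceIte, h22, Nat.add_left_cancel_iff, Nat.add_eq_zero_iff, OfNat.ofNat_ne_zero, and_false, show ¬(s'.r 23 + (N + 2) < N + 2) by omega, Nat.succ_ne_self, show s'.r 23 + (N + 2) < N + 2 + (s'.r 23 + 1) by omega, hadj, add_tsub_cancel_right]
          · simp only [h22]
            rw [show s'.a 1 i = _ from ha i]
            by_cases hi' : i < N + 2 + s'.r 23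
            · simp only [Nat.reduceEqDiff, ↓reduceIte, hi, hi', Nat.succ_ne_self, show i < N + 2 + (s'.r 23 + 1) by omega]
            · simp only [Nat.reduceEqDiff, ↓reduceIte, hi, hi', Nat.succ_ne_self, show ¬i < N + 2 + (s'.r 23 + 1) by omega]
        · intro j hj1
          simp [hj1, hj j hj1]
        · intro r hr'
          simp only [Function.update_apply]
          rw [if_neg (by (clear * - hr'; omega)), if_neg (by omega), if_neg (by (clear * - hr'; omega)), hr r hr']
      · simp only [Test.holds, List.length_cons, List.length_nil, zero_add, Nat.reduceAdd, run, B.step, ne_eq, Nat.reduceEqDiff, not_false_eq_true, Function.update_of_ne, Function.update_self, Nat.succ_ne_self] at hc ⊢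
        omega)
    s3 (by
      refine ⟨c25, by (clear * - n0 a25 b25 b23' c22 c23; omega), by omega, ?_, ?_, cr⟩
      · intro i
        rw [ca, ba i, c23, b23']
        by_cases hi : i = 0
        · simp [hi]
        · rw [if_neg hi, if_neg hi]
          by_cases hi' : i < N + 2
          · rw [if_pos (by omega), if_pos hi']
          · rw [if_neg (by omega), if_neg hi', if_neg (by omega)]
      · intro j hj
        rw [ca]; exact bj j hj)
  obtain ⟨d25, d22, d23, da, dj, dr⟩ := I4
  have d23' : s4.r 23 = off N := by simp only [Test.holds] at c4; omega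
  refine ⟨s4, _, .seq e0 (.seq e1 (.seq e2 (.seq e3 e4))), ?_, ?_, dj, dr⟩
  · rw [a23] at ht2
    rw [c23] at ht4
    omega
  · intro i
    rw [encFn, da i, d23']

theorem clean_encode {n : ℕ} {G : SimpleGraph (Fin n)} (L : AdjLists G) {f : ℕ → ℕ}
    (h : ∀ i, f i = L.encode.getD i 0) :
    encLen f = L.encode.length ∧ Clean f := by
  have h1 : encLen f = L.encode.length := by
    unfold encLen
    rw [h 0, L.encode_zero, h (n + 1), L.encode_off le_rfl, L.encode_length]
  refine ⟨h1, fun i hi => ?_⟩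
  rw [h i]
  exact getD_length_le _ _ (by omega)

/-- The form in which `pack` is used. -/
theorem pack_spec' (s : St) {N : ℕ} {H : SimpleGraph (Fin N)} (hN : s.r 20 = N)
    (h : Clean (s.a 1)) (hcap : encLen (s.a 1) ≤ cap) (hc : CSR N (natAdj H) (s.a 10) (s.a 11)) :
    ∃ (s' : St) (t : ℕ) (L : AdjLists H), Ex R cap pack s t s' ∧
      t ≤ 3 * encLen (s.a 1) + 5 * (N + s.a 10 N) + 40 ∧ (∀ i, s'.a 1 i = L.encode.getD i 0) ∧
      Clean (s'.a 1) ∧ encLen (s'.a 1) = N + 2 + s.a 10 N ∧
      (L.upTo N).length = s.a 10 N ∧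
      (∀ j, j ≠ 1 → s'.a j = s.a j) ∧ (∀ r, r < 21 ∨ 25 < r → s'.r r = s.r r) := by
  obtain ⟨s', t, e, ht, h1, hj, hr⟩ := pack_spec (R := R) (cap := cap) s N hN h hcap
  obtain ⟨L, hL⟩ := hc.encode
  have h2 : ∀ i, s'.a 1 i = L.encode.getD i 0 := by
    intro i
    rw [h1 i, hL]
  obtain ⟨h3, h4⟩ := clean_encode L h2
  have h5 : L.encode.length = N + 2 + s.a 10 N := by
    rw [hL]; simp only [List.length_cons, List.length_append, List.length_map, List.length_range]; omega
  refine ⟨s', t, L, e, ht, h2, h4, by rw [h3, h5], ?_, hj, hr⟩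
  rw [L.encode_length] at h5
  omega

end Vale.Agent.P305
end
end

section

section

/-! Rules for counting loops and for loops over all arcs. -/

set_option autoImplicit false

namespace Vale.Agent.P305

open Function (update)
open L1

variable {R : List ℕ → (ℕ → ℕ) → ℕ → Prop} {cap : ℕ}

/-- A loop whose body increases register `i` from `k0` up to the bound in register `b`. -/
theorem for_rule {i b : ℕ} {body : Cmd} (N c k0 : ℕ) (I : ℕ → St → Prop)
    (hbody : ∀ k s, k0 ≤ k → k < N → I k s → s.r i = k → s.r b = N →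
      ∃ s' t, Ex R cap body s t s' ∧ t ≤ c ∧ I (k + 1) s' ∧ s'.r i = k + 1 ∧ s'.r b = N)
    (s : St) (hk0 : k0 ≤ N) (hI : I k0 s) (hi : s.r i = k0) (hb : s.r b = N) :
    ∃ s' t, Ex R cap (.loop (.lt i b) body) s t s' ∧ t ≤ (c + 1) * (N - k0) + 1 ∧ I N s' ∧
      s'.r i = N ∧ s'.r b = N := by
  obtain ⟨s', t, e, ⟨h1, h2, h2', h3⟩, h4, ht⟩ := loop_rule (R := R) (cap := cap) (c := .lt i b)
    (p := body) (fun s => k0 ≤ s.r i ∧ s.r i ≤ N ∧ s.r b = N ∧ I (s.r i) s)
    (fun s => (c + 1) * (N - s.r i))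
    (by
      rintro s ⟨h0, h1, h2, h3⟩ hc
      simp only [Test.holds] at hc
      obtain ⟨s', t, e, ht, hI', hi', hb'⟩ := hbody (s.r i) s h0 (by omega) h3 rfl h2
      refine ⟨s', t, e, ⟨by omega, by omega, hb', by rwa [hi']⟩, ?_⟩
      rw [hi', show N - s.r i = (N - (s.r i + 1)) + 1 by (clear * - hb h2 hc hi' hb'; omega), Nat.mul_add]
      omega)
    s ⟨by omega, by omega, hb, by rwa [hi]⟩
  simp only [Test.holds] at h4
  have h5 : s'.r i = N := by omega
  refine ⟨s', t, e, ?_, by rwa [h5] at h3, h5, h2'⟩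
  rw [hi] at ht
  omega

/-- Loop over all arcs: register `2` is the vertex, `3` the position, `4` is scratch and `5` gets
the head of the arc. -/
def arcLoop (body : Cmd) : Cmd :=
  .seq (.blk [.const 2 0, .const 3 0])
  (.loop (.lt 2 0)
    (.seq (.blk [.copy 4 2, .inc 4, .load 4 4 4])
    (.ite (.lt 3 4) (.seq (.blk [.load 5 5 3]) (.seq body (.blk [.inc 3]))) (.blk [.inc 2]))))

/-- Rule for `arcLoop`. -/
theorem arc_rule {body : Cmd} {n : ℕ} {off adj : ℕ → ℕ} (h0 : off 0 = 0)
    (hmono : ∀ v < n, off v ≤ off (v + 1)) (c : ℕ) (I : ℕ → ℕ → St → Prop)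
    (hI : ∀ v p s s', v ≤ n → p ≤ off n → I v p s → s'.a = s.a →
      (∀ r, (r < 2 ∨ 5 < r) → s'.r r = s.r r) → I v p s')
    (hnext : ∀ v s, v < n → I v (off (v + 1)) s → I (v + 1) (off (v + 1)) s)
    (hbody : ∀ v p s, v < n → off v ≤ p → p < off (v + 1) → p < off n → I v p s → s.r 0 = n →
      s.r 2 = v → s.r 3 = p → s.r 5 = adj p → s.a 4 = off → s.a 5 = adj →
      ∃ s' t, Ex R cap body s t s' ∧ t ≤ c ∧ I v (p + 1) s' ∧ s'.r 0 = n ∧ s'.r 2 = v ∧
        s'.r 3 = p ∧ s'.a 4 = off ∧ s'.a 5 = adj)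
    (s : St) (hs : I 0 0 s) (hn : s.r 0 = n) (ho : s.a 4 = off) (ha : s.a 5 = adj) :
    ∃ s' t, Ex R cap (arcLoop body) s t s' ∧ t ≤ (c + 7) * off n + 6 * n + 3 ∧
      I n (off n) s' ∧ s'.r 0 = n ∧ s'.a 4 = off ∧ s'.a 5 = adj := by
  have hle : ∀ v ≤ n, off v ≤ off n := by
    intro v hv
    obtain ⟨k, rfl⟩ : ∃ k, n = v + k := ⟨n - v, by omega⟩
    clear hv
    induction k with
    | zero => exact le_rfl
    | succ k ih =>
      have h1 : ∀ k' ≤ k, off v ≤ off (v + k') := by
        intro k' hk'
        induction k' with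
        | zero => exact le_rfl
        | succ k' ih' =>
          have := hmono (v + k') (by omega)
          have := ih' (by omega)
          rw [show v + (k' + 1) = v + k' + 1 by omega]
          omega
      have := h1 k le_rfl
      have := hmono (v + k) (by omega)
      rw [show v + (k + 1) = v + k + 1 by omega]
      omega
  obtain ⟨s1, hs1⟩ : ∃ s1, s1 = run [.const 2 0, .const 3 0] s := ⟨_, rfl⟩
  have e1 : Ex R cap (.blk [.const 2 0, .const 3 0]) s 2 s1 := by rw [hs1]; exact Ex.blk _ _
  have h1 : s1.r 2 = 0 ∧ s1.r 3 = 0 ∧ s1.a = s.a ∧ (∀ r, (r < 2 ∨ 5 < r) → s1.r r = s.r r) := by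
    subst hs1
    simp only [run, B.step]
    refine ⟨by simp, by simp, trivial, fun r hr => ?_⟩
    simp only [Function.update_apply]
    rw [if_neg (by omega), if_neg (by omega)]
  obtain ⟨a2, a3, aa, ar⟩ := h1
  obtain ⟨s', t, e, ⟨b0, b2, b3, b3', b4, b5, b6⟩, hc, ht⟩ := loop_rule (R := R) (cap := cap)
    (c := .lt 2 0)
    (p := .seq (.blk [.copy 4 2, .inc 4, .load 4 4 4])
    (.ite (.lt 3 4) (.seq (.blk [.load 5 5 3]) (.seq body (.blk [.inc 3]))) (.blk [.inc 2])))
    (fun s => s.r 0 = n ∧ s.r 2 ≤ n ∧ off (s.r 2) ≤ s.r 3 ∧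
      ((s.r 2 < n → s.r 3 ≤ off (s.r 2 + 1)) ∧ s.r 3 ≤ off n) ∧
      s.a 4 = off ∧ s.a 5 = adj ∧ I (s.r 2) (s.r 3) s)
    (fun s => (c + 7) * (off n - s.r 3) + 6 * (n - s.r 2))
    (by
      rintro s ⟨h0, h2, h3, h3', h4, h5, h6⟩ hc
      simp only [Test.holds] at hc
      have hv : s.r 2 < n := by omega
      have h3'' : s.r 3 ≤ off (s.r 2 + 1) := h3'.1 hv
      have hoff := hle (s.r 2 + 1) (by omega)
      obtain ⟨s1, hs1⟩ : ∃ s1, s1 = run [.copy 4 2, .inc 4, .load 4 4 4] s := ⟨_, rfl⟩
      have e1 : Ex R cap (.blk [.copy 4 2, .inc 4, .load 4 4 4]) s 3 s1 := by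
        rw [hs1]; exact Ex.blk _ _
      have g1 : s1.r 4 = off (s.r 2 + 1) ∧ s1.a = s.a ∧ (∀ r, r ≠ 4 → s1.r r = s.r r) := by
        subst hs1
        simp only [run, B.step]
        refine ⟨by simp [h4], trivial, fun r hr => ?_⟩
        simp only [Function.update_apply, if_neg hr]
      obtain ⟨g4, ga, gr⟩ := g1
      by_cases hlt : s.r 3 < off (s.r 2 + 1)
      · obtain ⟨s2, hs2⟩ : ∃ s2, s2 = run [.load 5 5 3] s1 := ⟨_, rfl⟩
        have e2 : Ex R cap (.blk [.load 5 5 3]) s1 1 s2 := by rw [hs2]; exact Ex.blk _ _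
        have g2 : s2.r 5 = adj (s.r 3) ∧ s2.a = s.a ∧
            (∀ r, r ≠ 4 → r ≠ 5 → s2.r r = s.r r) := by
          subst hs2
          simp only [run, B.step]
          refine ⟨by simp [ga, h5, gr 3], ga, fun r hr hr' => ?_⟩
          simp only [Function.update_apply, if_neg hr', gr r hr]
        obtain ⟨k5, ka, kr⟩ := g2
        obtain ⟨s3, t3, e3, ht3, hI3, l0, l2, l3, l4, l5⟩ := hbody (s.r 2) (s.r 3) s2 hv h3 hlt
          (by omega) (hI _ _ s s2 (by omega) (by omega) h6 ka
            (fun r hr => kr r (by omega) (by omega)))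
          (by rw [kr 0 (by decide) (by decide), h0]) (kr 2 (by decide) (by decide))
          (kr 3 (by decide) (by decide)) k5 (by rw [ka, h4]) (by rw [ka, h5])
        obtain ⟨s4, hs4⟩ : ∃ s4, s4 = run [.inc 3] s3 := ⟨_, rfl⟩
        have e4 : Ex R cap (.blk [.inc 3]) s3 1 s4 := by rw [hs4]; exact Ex.blk _ _
        have g4' : s4.r 3 = s.r 3 + 1 ∧ s4.a = s3.a ∧ (∀ r, r ≠ 3 → s4.r r = s3.r r) := by
          subst hs4
          simp only [run, B.step]
          refine ⟨by simp [l3], trivial, fun r hr => ?_⟩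
          simp only [Function.update_apply, if_neg hr]
        obtain ⟨m3, ma, mr⟩ := g4'
        refine ⟨s4, _, .seq e1 (.iteTrue (by
          simp only [Test.holds]; rw [g4, gr 3 (by decide)]; exact hlt)
          (.seq e2 (.seq e3 e4))), ⟨?_, ?_, ?_, ?_, ?_, ?_, ?_⟩, ?_⟩
        · rw [mr 0 (by decide), l0]
        · rw [mr 2 (by decide), l2]; omega
        · rw [mr 2 (by decide), l2, m3]; omega
        · rw [mr 2 (by decide), l2, m3]; omega
        · rw [ma, l4]
        · rw [ma, l5]
        · rw [mr 2 (by decide), l2, m3]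
          exact hI _ _ s3 s4 (by omega) (by omega) hI3 ma (fun r hr => mr r (by omega))
        · rw [mr 2 (by decide), l2, m3,
            show off n - s.r 3 = (off n - (s.r 3 + 1)) + 1 by (clear * - h3' hoff g4 hlt l3 m3; omega), Nat.mul_add]
          (clear * - ht3; omega)
      · obtain ⟨s2, hs2⟩ : ∃ s2, s2 = run [.inc 2] s1 := ⟨_, rfl⟩
        have e2 : Ex R cap (.blk [.inc 2]) s1 1 s2 := by rw [hs2]; exact Ex.blk _ _
        have g2 : s2.r 2 = s.r 2 + 1 ∧ s2.a = s.a ∧
            (∀ r, r ≠ 4 → r ≠ 2 → s2.r r = s.r r) := by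
          subst hs2
          simp only [run, B.step]
          refine ⟨by simp [gr 2], ga, fun r hr hr' => ?_⟩
          simp only [Function.update_apply, if_neg hr', gr r hr]
        obtain ⟨k2, ka, kr⟩ := g2
        have heq : s.r 3 = off (s.r 2 + 1) := by omega
        refine ⟨s2, _, .seq e1 (.iteFalse (by
          simp only [Test.holds]; rw [g4, gr 3 (by decide)]; exact hlt) e2),
          ⟨?_, ?_, ?_, ?_, ?_, ?_, ?_⟩, ?_⟩
        · rw [kr 0 (by decide) (by decide), h0]
        · rw [k2]; omega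
        · rw [k2, kr 3 (by decide) (by decide)]; omega
        · rw [k2, kr 3 (by decide) (by decide)]
          exact ⟨fun hvn => by rw [heq]; exact hmono _ (by omega), by omega⟩
        · rw [ka, h4]
        · rw [ka, h5]
        · rw [k2, kr 3 (by decide) (by decide), heq]
          apply hnext _ _ hv
          rw [heq] at h6
          exact hI _ _ s s2 (by omega) (by omega) h6 ka
            (fun r hr => kr r (by omega) (by omega))
        · rw [k2, kr 3 (by decide) (by decide)]
          (clear * - h0 hc k2; omega))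
    s1 (by
      refine ⟨by rw [ar 0 (by omega), hn], by omega, by rw [a2, a3, h0], ?_, by rw [aa, ho],
        by rw [aa, ha], ?_⟩
      · rw [a3]; omega
      · rw [a2, a3]
        exact hI _ _ s s1 (by omega) (by omega) hs aa ar)
  simp only [Test.holds] at hc
  have h2 : s'.r 2 = n := by omega
  have h3 : s'.r 3 = off n := by
    rw [h2] at b3
    omega
  rw [h2, h3] at b6
  refine ⟨s', _, .seq e1 e, ?_, b6, b0, b4, b5⟩
  rw [a2, a3] at ht
  simp only [Nat.sub_zero] at ht
  omega

end Vale.Agent.P305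
end
end

section

section

/-! Matchings as subgraphs and as partner functions. -/

set_option autoImplicit false

namespace Vale.Agent.P305

theorem ncard_verts {V : Type} [Finite V] {G : SimpleGraph V} {M : G.Subgraph}
    (h : M.IsMatching) : M.verts.ncard = 2 * M.edgeSet.ncard := by
  classical
  have := Fintype.ofFinite V
  have h1 : Fintype.card M.verts = ∑ e : M.edgeSet, 2 := by
    rw [← Finset.card_univ]
    rw [Finset.card_eq_sum_card_fiberwise (s := Finset.univ) (t := Finset.univ)
      (f := h.toEdge) (by intro x _; simp only [Finset.coe_univ, Set.mem_univ])]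
    apply Finset.sum_congr rfl
    rintro ⟨e, he⟩ -
    induction e with
    | _ u v =>
      have huv : M.Adj u v := he
      have h2 := h.toEdge_preimage_singleton huv
      have h3 : (Finset.univ.filter fun x => h.toEdge x = ⟨s(u, v), he⟩) =
          {⟨u, huv.fst_mem⟩, ⟨v, huv.snd_mem⟩} := by
        ext x
        have h4 := Set.ext_iff.1 h2 x
        simpa only [Finset.mem_filter, Finset.mem_univ, true_and, Finset.mem_insert, Finset.mem_singleton,     Set.mem_preimage, Set.mem_singleton_iff, Set.mem_insert_iff] using h4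
      rw [h3, Finset.card_pair]
      intro h5
      rw [Subtype.mk_eq_mk] at h5
      exact huv.ne h5
  rw [← Nat.card_coe_set_eq, Nat.card_eq_fintype_card, h1, ← Nat.card_coe_set_eq,
    Nat.card_eq_fintype_card]
  simp only [Finset.sum_const, Finset.card_univ, Fintype.card_ofFinset, smul_eq_mul, mul_comm]

/-- The subgraph of a partner function. -/
def subOf {n : ℕ} (G : SimpleGraph (Fin n)) (m : ℕ → ℕ) (hm : Mat (natAdj G) m) : G.Subgraph where
  verts := {v | m v ≠ v}
  Adj u v := m u = v ∧ u ≠ v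
  adj_sub := by
    rintro u v ⟨h1, h2⟩
    have h3 := hm.adj u (by rw [h1]; exact fun h => h2 (Fin.ext h.symm))
    obtain ⟨_, _, h4⟩ := h3
    have h5 : (⟨m u, by assumption⟩ : Fin n) = v := Fin.ext h1
    rw [h5] at h4
    exact h4
  edge_vert := by
    rintro u v ⟨h1, h2⟩
    show m u ≠ u
    rw [h1]
    exact fun h => h2 (Fin.ext h.symm)
  symm := ⟨by
    rintro u v ⟨h1, h2⟩
    exact ⟨by rw [← h1, hm.inv], h2.symm⟩⟩

theorem subOf_matching {n : ℕ} {G : SimpleGraph (Fin n)} {m : ℕ → ℕ} (hm : Mat (natAdj G) m) :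
    (subOf G m hm).IsMatching := by
  intro v hv
  have hv' : m v ≠ v := hv
  have hlt : m v < n := Mat.lt (natAdj_gr G) hm v.2
  refine ⟨⟨m v, hlt⟩, ⟨rfl, fun h => hv' (congrArg Fin.val h).symm⟩, ?_⟩
  rintro w ⟨h1, _⟩
  exact Fin.ext h1.symm

theorem exposed_card {n : ℕ} (m : ℕ → ℕ) (S : Set (Fin n)) (h : ∀ v : Fin n, v ∈ S ↔ m v ≠ v) :
    (exposed n m).card + S.ncard = n := by
  classical
  have h1 : (exposed n m).card = (Sᶜ).ncard := by
    rw [← Set.ncard_coe_finset, ← Set.ncard_image_of_injective (Sᶜ) Fin.val_injective]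
    congr 1
    ext v
    simp only [exposed, Finset.coe_filter, Finset.mem_range, Set.mem_ofPred_eq, Set.mem_image, Set.mem_compl_iff]
    constructor
    · rintro ⟨h1, h2⟩
      exact ⟨⟨v, h1⟩, by rw [h]; simpa using h2, rfl⟩
    · rintro ⟨w, hw, rfl⟩
      rw [h] at hw
      exact ⟨w.2, by simpa using hw⟩
  rw [h1, add_comm, Set.ncard_add_ncard_compl]
  simp only [Nat.card_eq_fintype_card, Fintype.card_fin]

theorem subOf_card {n : ℕ} {G : SimpleGraph (Fin n)} {m : ℕ → ℕ} (hm : Mat (natAdj G) m) :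
    (exposed n m).card + 2 * (subOf G m hm).edgeSet.ncard = n := by
  rw [← ncard_verts (subOf_matching hm)]
  exact exposed_card m _ fun v => Iff.rfl

/-- The partner function of a subgraph. -/
noncomputable def mateOf {n : ℕ} {G : SimpleGraph (Fin n)} (M : G.Subgraph) (v : ℕ) : ℕ :=
  open Classical in
  if h : ∃ u : Fin n, ∃ hv : v < n, M.Adj ⟨v, hv⟩ u then (h.choose : ℕ) else v

theorem mateOf_adj {n : ℕ} {G : SimpleGraph (Fin n)} {M : G.Subgraph} (hM : M.IsMatching)
    {u v : Fin n} (h : M.Adj u v) : mateOf M u = v := by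
  have hex : ∃ w : Fin n, ∃ hv : (u : ℕ) < n, M.Adj ⟨u, hv⟩ w := ⟨v, u.2, h⟩
  unfold mateOf
  rw [dif_pos hex]
  obtain ⟨_, hc⟩ := hex.choose_spec
  exact congrArg Fin.val (hM.eq_of_adj_left hc h)

theorem mateOf_not {n : ℕ} {G : SimpleGraph (Fin n)} {M : G.Subgraph} {v : ℕ}
    (h : ∀ hv : v < n, (⟨v, hv⟩ : Fin n) ∉ M.verts) : mateOf M v = v := by
  unfold mateOf
  rw [dif_neg]
  rintro ⟨u, hv, huv⟩
  exact h hv huv.fst_mem

theorem mateOf_mat {n : ℕ} {G : SimpleGraph (Fin n)} {M : G.Subgraph} (hM : M.IsMatching) :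
    Mat (natAdj G) (mateOf M) := by
  have key : ∀ v : ℕ, (∃ u : Fin n, ∃ hv : v < n, M.Adj ⟨v, hv⟩ u) ∨ mateOf M v = v := by
    intro v
    by_cases h : ∃ u : Fin n, ∃ hv : v < n, M.Adj ⟨v, hv⟩ u
    · exact Or.inl h
    · right
      unfold mateOf
      rw [dif_neg h]
  constructor
  · intro v
    rcases key v with ⟨u, hv, h⟩ | h
    · have h1 := mateOf_adj hM h
      have h2 := mateOf_adj hM h.symm
      simp only at h1 h2
      rw [h1, h2]
    · rw [h, h]
  · intro v hne
    rcases key v with ⟨u, hv, h⟩ | h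
    · have h1 := mateOf_adj hM h
      simp only at h1
      rw [h1]
      exact ⟨hv, u.2, M.adj_sub h⟩
    · exact absurd h hne

theorem mateOf_card {n : ℕ} {G : SimpleGraph (Fin n)} {M : G.Subgraph} (hM : M.IsMatching) :
    (exposed n (mateOf M)).card + 2 * M.edgeSet.ncard = n := by
  rw [← ncard_verts hM]
  apply exposed_card
  intro v
  constructor
  · intro hv
    obtain ⟨u, hu, _⟩ := hM hv
    rw [mateOf_adj hM hu]
    exact fun h => hu.ne (Fin.ext h.symm)
  · intro h
    by_contra hv
    exact h (mateOf_not fun _ => hv)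

/-- A maximum matching gives a maximum partner function. -/
theorem isMax_mateOf {n : ℕ} {G : SimpleGraph (Fin n)} {M : G.Subgraph}
    (hM : IsMaximumMatching G M) : IsMax n (natAdj G) (mateOf M) := by
  refine ⟨mateOf_mat hM.1, fun m' hm' => ?_⟩
  have h1 := mateOf_card hM.1
  have h2 := subOf_card hm'
  have h3 := hM.2 _ (subOf_matching hm')
  omega

/-- What the output of a black box says about the partner function. -/
theorem Represents.mateOf {n : ℕ} {G : SimpleGraph (Fin n)} {M : G.Subgraph} {f : ℕ → ℕ}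
    (hM : M.IsMatching) (hf : Represents f M) {v : ℕ} (hv : v < n) :
    f v = if mateOf M v = v then 0 else mateOf M v + 1 := by
  by_cases h : (⟨v, hv⟩ : Fin n) ∈ M.verts
  · obtain ⟨u, hu, _⟩ := hM h
    have h1 := mateOf_adj hM hu
    simp only at h1
    rw [h1, if_neg]
    · exact (hf ⟨v, hv⟩).2 u hu
    · intro h2
      exact hu.ne (Fin.ext h2.symm)
  · rw [mateOf_not fun _ => h, if_pos rfl]
    exact (hf ⟨v, hv⟩).1 h

/-- A maximum partner function gives a maximum matching. -/
theorem maximum_of_isMax {n : ℕ} {G : SimpleGraph (Fin n)} {m : ℕ → ℕ}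
    (h : IsMax n (natAdj G) m) {f : ℕ → ℕ} (hf : ∀ v < n, f v = if m v = v then 0 else m v + 1) :
    ∃ M : G.Subgraph, IsMaximumMatching G M ∧ Represents f M := by
  refine ⟨subOf G m h.1, ⟨subOf_matching h.1, fun M' hM' => ?_⟩, fun v => ⟨fun hv => ?_, ?_⟩⟩
  · have h1 := subOf_card h.1
    have h2 := mateOf_card hM'
    have h3 := h.2 _ (mateOf_mat hM')
    (clear * - h h1 h2 h3; omega)
  · have : m v = v := by
      by_contra hne
      exact hv hne
    rw [hf v v.2, if_pos this]
  · rintro u ⟨h1, h2⟩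
    rw [hf v v.2, if_neg, h1]
    rw [h1]
    exact fun h => h2 (Fin.ext h.symm)

end Vale.Agent.P305
end
end

section

section

/-! Arcs of a graph, and the gadget graph: every edge `uv` becomes a copy of `K₄` minus the edge
`uv`. -/

set_option autoImplicit false

namespace Vale.Agent.P305

/-- The arcs `p < m2` of a graph: owner (tail), head and reverse. -/
structure Arcs (n : ℕ) (A : ℕ → ℕ → Prop) (m2 : ℕ) (own adj rev : ℕ → ℕ) : Prop where
  own_lt : ∀ p < m2, own p < n
  rev_lt : ∀ p < m2, rev p < m2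
  own_rev : ∀ p < m2, own (rev p) = adj p
  adj_rev : ∀ p < m2, adj (rev p) = own p
  mem : ∀ u w, A u w ↔ ∃ p < m2, own p = u ∧ adj p = w
  inj : ∀ p < m2, ∀ q < m2, own p = own q → adj p = adj q → p = q

namespace Arcs

variable {n m2 : ℕ} {A : ℕ → ℕ → Prop} {own adj rev : ℕ → ℕ}

theorem rev_rev (h : Arcs n A m2 own adj rev) {p : ℕ} (hp : p < m2) : rev (rev p) = p := by
  have h1 := h.rev_lt p hp
  apply h.inj _ (h.rev_lt _ h1) _ hp
  · rw [h.own_rev _ h1, h.adj_rev _ hp]
  · rw [h.adj_rev _ h1, h.own_rev _ hp]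

theorem adj_lt (h : Arcs n A m2 own adj rev) {p : ℕ} (hp : p < m2) : adj p < n := by
  rw [← h.own_rev p hp]
  exact h.own_lt _ (h.rev_lt p hp)

theorem ne (h : Arcs n A m2 own adj rev) (hG : Gr n A) {p : ℕ} (hp : p < m2) :
    own p ≠ adj p := by
  intro he
  exact hG.irr (own p) ((h.mem _ _).2 ⟨p, hp, rfl, he.symm⟩)

theorem rev_ne (h : Arcs n A m2 own adj rev) (hG : Gr n A) {p : ℕ} (hp : p < m2) :
    rev p ≠ p := by
  intro he
  have := h.own_rev p hp
  rw [he] at this
  exact h.ne hG hp this

end Arcs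

/-- The order of the gadget graph. -/
def RH (n m2 : ℕ) (own adj rev : ℕ → ℕ) (x y : ℕ) : Prop :=
  ∃ p < m2, y = n + p ∧ (x = own p ∨ x = adj p ∨ (x = n + rev p ∧ adj p < own p))

/-- The gadget graph: comparability graph of `RH`. -/
def HA (n m2 : ℕ) (own adj rev : ℕ → ℕ) (x y : ℕ) : Prop :=
  RH n m2 own adj rev x y ∨ RH n m2 own adj rev y x

section

variable {n m2 : ℕ} {A : ℕ → ℕ → Prop} {own adj rev : ℕ → ℕ}

theorem RH.trans (h : Arcs n A m2 own adj rev) {x y z : ℕ}
    (h1 : RH n m2 own adj rev x y) (h2 : RH n m2 own adj rev y z) :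
    RH n m2 own adj rev x z := by
  obtain ⟨p, hp, rfl, hx⟩ := h1
  obtain ⟨q, hq, rfl, hy⟩ := h2
  have e1 := h.own_lt q hq
  have e2 := h.adj_lt hq
  rcases hy with hy | hy | ⟨hy, hlt⟩
  · omega
  · omega
  · have hpq : p = rev q := by omega
    subst hpq
    have e3 := h.own_rev q hq
    have e4 := h.adj_rev q hq
    refine ⟨q, hq, rfl, ?_⟩
    rcases hx with hx | hx | ⟨hx, hlt'⟩
    · right; left; rw [hx, e3]
    · left; rw [hx, e4]
    · omega

theorem RH.irrefl (h : Arcs n A m2 own adj rev) (x : ℕ) : ¬ RH n m2 own adj rev x x := by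
  rintro ⟨p, hp, rfl, hx⟩
  have e1 := h.own_lt p hp
  have e2 := h.adj_lt hp
  rcases hx with hx | hx | ⟨hx, hlt⟩
  · omega
  · omega
  · have e3 := h.own_rev p hp
    have : rev p = p := by omega
    rw [this] at e3
    omega

/-- There is no chain with four elements. -/
theorem RH.height (h : Arcs n A m2 own adj rev) {x y z w : ℕ}
    (h1 : RH n m2 own adj rev x y) (h2 : RH n m2 own adj rev y z)
    (h3 : RH n m2 own adj rev z w) : False := by
  obtain ⟨p, hp, rfl, _⟩ := h1
  obtain ⟨q, hq, rfl, hy⟩ := h2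
  obtain ⟨r, hr, rfl, hz⟩ := h3
  have e1 := h.own_lt q hq
  have e2 := h.adj_lt hq
  have e1' := h.own_lt r hr
  have e2' := h.adj_lt hr
  rcases hy with hy | hy | ⟨hy, hlt⟩
  · omega
  · omega
  rcases hz with hz | hz | ⟨hz, hlt'⟩
  · omega
  · omega
  have hqr : q = rev r := by omega
  subst hqr
  have e3 := h.own_rev r hr
  have e4 := h.adj_rev r hr
  omega

theorem RH.lt (h : Arcs n A m2 own adj rev) {x y : ℕ} (h1 : RH n m2 own adj rev x y) :
    x < n + m2 ∧ y < n + m2 := by
  obtain ⟨p, hp, rfl, hx⟩ := h1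
  have e1 := h.own_lt p hp
  have e2 := h.adj_lt hp
  have e3 := h.rev_lt p hp
  omega

theorem HA.gr (h : Arcs n A m2 own adj rev) : Gr (n + m2) (HA n m2 own adj rev) where
  symm := fun h1 => h1.symm
  irr := fun u h1 => by
    rcases h1 with h1 | h1
    · exact RH.irrefl h u h1
    · exact RH.irrefl h u h1
  lt := fun h1 => by
    rcases h1 with h1 | h1
    · exact (RH.lt h h1).1
    · exact (RH.lt h h1).2

/-- The neighbours of an old vertex. -/
theorem HA.of_lt {x y : ℕ} (hx : x < n)
    (h1 : HA n m2 own adj rev x y) : ∃ p < m2, y = n + p ∧ (x = own p ∨ x = adj p) := by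
  rcases h1 with ⟨p, hp, rfl, h2⟩ | ⟨p, hp, rfl, h2⟩
  · refine ⟨p, hp, rfl, ?_⟩
    rcases h2 with h2 | h2 | ⟨h2, _⟩
    · exact Or.inl h2
    · exact Or.inr h2
    · omega
  · omega

/-- The neighbours of a new vertex. -/
theorem HA.of_new (h : Arcs n A m2 own adj rev) {p y : ℕ} (hp : p < m2)
    (h1 : HA n m2 own adj rev (n + p) y) : y = own p ∨ y = adj p ∨ y = n + rev p := by
  rcases h1 with ⟨q, hq, rfl, h2⟩ | ⟨q, hq, h3, h2⟩
  · have e1 := h.own_lt q hq
    have e2 := h.adj_lt hq
    rcases h2 with h2 | h2 | ⟨h2, _⟩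
    · omega
    · omega
    · have : p = rev q := by omega
      subst this
      right; right
      rw [h.rev_rev hq]
  · have : p = q := by omega
    subst this
    (clear * - h2; tauto)

theorem HA.new_own {p : ℕ} (hp : p < m2) : HA n m2 own adj rev (n + p) (own p) :=
  Or.inr ⟨p, hp, rfl, Or.inl rfl⟩

theorem HA.new_adj {p : ℕ} (hp : p < m2) : HA n m2 own adj rev (n + p) (adj p) :=
  Or.inr ⟨p, hp, rfl, Or.inr (Or.inl rfl)⟩

theorem HA.new_rev (h : Arcs n A m2 own adj rev) (hG : Gr n A) {p : ℕ} (hp : p < m2) :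
    HA n m2 own adj rev (n + p) (n + rev p) := by
  have hne := h.ne hG hp
  have e1 := h.own_rev p hp
  have e2 := h.adj_rev p hp
  rcases Nat.lt_or_gt_of_ne hne with hlt | hlt
  · left
    exact ⟨rev p, h.rev_lt p hp, rfl, Or.inr (Or.inr ⟨by rw [h.rev_rev hp], by omega⟩)⟩
  · right
    exact ⟨p, hp, rfl, Or.inr (Or.inr ⟨rfl, hlt⟩)⟩

end

end Vale.Agent.P305
end
end

section

section

/-! Matchings of a graph and of its gadget graph. -/

set_option autoImplicit false

namespace Vale.Agent.P305

variable {n m2 : ℕ} {A : ℕ → ℕ → Prop} {own adj rev : ℕ → ℕ}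

section Up

open Classical in
/-- The arc of a matched vertex. -/
noncomputable def arcOf (m2 : ℕ) (own adj : ℕ → ℕ) (u w : ℕ) : ℕ :=
  if h : ∃ p < m2, own p = u ∧ adj p = w then h.choose else 0

theorem arcOf_spec {u w : ℕ} (h : ∃ p < m2, own p = u ∧ adj p = w) :
    arcOf m2 own adj u w < m2 ∧ own (arcOf m2 own adj u w) = u ∧
      adj (arcOf m2 own adj u w) = w := by
  unfold arcOf
  rw [dif_pos h]
  exact h.choose_spec

/-- The matching of the gadget graph obtained from a matching of the graph. -/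
noncomputable def upM (n m2 : ℕ) (own adj rev : ℕ → ℕ) (m : ℕ → ℕ) (x : ℕ) : ℕ :=
  if x < n then (if m x = x then x else n + arcOf m2 own adj x (m x))
  else if x < n + m2 then
    (if m (own (x - n)) = adj (x - n) then own (x - n) else n + rev (x - n))
  else x

variable (h : Arcs n A m2 own adj rev) (hG : Gr n A) {m : ℕ → ℕ} (hm : Mat A m)

theorem upM_new {p : ℕ} (hp : p < m2) (h1 : m (own p) = adj p) :
    upM n m2 own adj rev m (n + p) = own p := by
  unfold upM
  rw [if_neg (by omega), if_pos (by omega), show n + p - n = p by (clear * -; omega), if_pos h1]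

theorem upM_new' {p : ℕ} (hp : p < m2) (h1 : m (own p) ≠ adj p) :
    upM n m2 own adj rev m (n + p) = n + rev p := by
  unfold upM
  rw [if_neg (by omega), if_pos (by omega), show n + p - n = p by omega, if_neg h1]

include h hG in
theorem upM_old {p : ℕ} (hp : p < m2) (h1 : m (own p) = adj p) :
    upM n m2 own adj rev m (own p) = n + p := by
  have e1 := h.own_lt p hp
  have hne := h.ne hG hp
  unfold upM
  rw [if_pos e1, if_neg (by rw [h1]; exact hne.symm), h1]
  have h2 := arcOf_spec (m2 := m2) (own := own) (adj := adj) (u := own p) (w := adj p)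
    ⟨p, hp, rfl, rfl⟩
  rw [h.inj _ h2.1 _ hp h2.2.1 h2.2.2]

theorem upM_fix {x : ℕ} (hx : x < n) : upM n m2 own adj rev m x = x ↔ m x = x := by
  constructor
  · intro h1
    by_contra hne
    unfold upM at h1
    rw [if_pos hx, if_neg hne] at h1
    omega
  · intro h1
    unfold upM
    rw [if_pos hx, if_pos h1]

include h hG hm

theorem upM_mat : Mat (HA n m2 own adj rev) (upM n m2 own adj rev m) := by
  have key : ∀ x, upM n m2 own adj rev m (upM n m2 own adj rev m x) = x ∧
      (upM n m2 own adj rev m x ≠ x →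
        HA n m2 own adj rev x (upM n m2 own adj rev m x)) := by
    intro x
    rcases Nat.lt_or_ge x n with hx | hx
    · by_cases h1 : m x = x
      · have h2 : upM n m2 own adj rev m x = x := (upM_fix hx).2 h1
        rw [h2, h2]
        exact ⟨rfl, fun h3 => absurd rfl h3⟩
      · obtain ⟨p, hp, h2, h3⟩ := (h.mem _ _).1 (hm.adj x h1)
        have h4 : m (own p) = adj p := by rw [h2, h3]
        have h5 := upM_old h hG hp h4
        have h6 : upM n m2 own adj rev m (n + p) = own p := upM_new hp h4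
        rw [h2] at h5 h6
        rw [h5, h6]
        refine ⟨rfl, fun _ => ?_⟩
        rw [← h2]
        exact Or.symm (HA.new_own hp)
    · rcases Nat.lt_or_ge x (n + m2) with hx2 | hx2
      · obtain ⟨p, rfl⟩ : ∃ p, x = n + p := ⟨x - n, by omega⟩
        have hp : p < m2 := by omega
        by_cases h4 : m (own p) = adj p
        · have h5 := upM_old h hG hp h4
          have h6 : upM n m2 own adj rev m (n + p) = own p := upM_new hp h4
          rw [h6, h5]
          exact ⟨rfl, fun _ => HA.new_own hp⟩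
        · have h6 : upM n m2 own adj rev m (n + p) = n + rev p := upM_new' hp h4
          have h7 : m (own (rev p)) ≠ adj (rev p) := by
            rw [h.own_rev p hp, h.adj_rev p hp]
            intro h8
            apply h4
            rw [← h8, hm.inv]
          have h8 : upM n m2 own adj rev m (n + rev p) = n + rev (rev p) :=
            upM_new' (h.rev_lt p hp) h7
          rw [h6, h8, h.rev_rev hp]
          exact ⟨rfl, fun _ => HA.new_rev h hG hp⟩
      · have h1 : upM n m2 own adj rev m x = x := by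
          unfold upM
          rw [if_neg (by omega), if_neg (by omega)]
        rw [h1, h1]
        exact ⟨rfl, fun h3 => absurd rfl h3⟩
  exact ⟨fun x => (key x).1, fun x => (key x).2⟩

omit hm in
theorem upM_exposed : exposed (n + m2) (upM n m2 own adj rev m) = exposed n m := by
  ext x
  simp only [exposed, Finset.mem_filter, Finset.mem_range]
  constructor
  · rintro ⟨h1, h2⟩
    by_cases hx : x < n
    · exact ⟨hx, (upM_fix hx).1 h2⟩
    · exfalso
      obtain ⟨p, rfl⟩ : ∃ p, x = n + p := ⟨x - n, by (clear * - h2 hx; omega)⟩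
      have hp : p < m2 := by omega
      by_cases h4 : m (own p) = adj p
      · rw [upM_new hp h4] at h2
        have := h.own_lt p hp
        omega
      · rw [upM_new' hp h4] at h2
        have := h.rev_ne hG hp
        omega
  · rintro ⟨h1, h2⟩
    exact ⟨by omega, (upM_fix h1).2 h2⟩

end Up

section Down

/-- The pairs read off a matching of the gadget graph. -/
def KR (n m2 : ℕ) (own adj rev : ℕ → ℕ) (mH : ℕ → ℕ) (v u : ℕ) : Prop :=
  ∃ p < m2, own p = v ∧ adj p = u ∧ mH (n + p) < n ∧ mH (n + rev p) < n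

variable (h : Arcs n A m2 own adj rev) (hG : Gr n A) {mH : ℕ → ℕ}
  (hm : Mat (HA n m2 own adj rev) mH)

include h in
theorem KR.symm {v u : ℕ} (h1 : KR n m2 own adj rev mH v u) :
    KR n m2 own adj rev mH u v := by
  obtain ⟨p, hp, rfl, rfl, h2, h3⟩ := h1
  exact ⟨rev p, h.rev_lt p hp, h.own_rev p hp, h.adj_rev p hp, h3, by rwa [h.rev_rev hp]⟩

include h hG hm

/-- If both gadget vertices are matched to old vertices then the owner is matched to one of
them. -/
theorem KR.cov {p : ℕ} (hp : p < m2) (h1 : mH (n + p) < n) (h2 : mH (n + rev p) < n) :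
    mH (own p) = n + p ∨ mH (own p) = n + rev p := by
  have a1 : HA n m2 own adj rev (n + p) (mH (n + p)) := hm.adj _ (by omega)
  have a2 : HA n m2 own adj rev (n + rev p) (mH (n + rev p)) := hm.adj _ (by omega)
  have b1 := HA.of_new h hp a1
  have b2 := HA.of_new h (h.rev_lt p hp) a2
  rw [h.own_rev p hp, h.adj_rev p hp, h.rev_rev hp] at b2
  rcases b1 with b1 | b1 | b1
  · left; rw [← b1, hm.inv]
  · rcases b2 with b2 | b2 | b2
    · exfalso
      have e1 : n + p = n + rev p := by rw [← hm.inv (n + p), b1, ← b2, hm.inv]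
      have := h.rev_ne hG hp
      omega
    · right; rw [← b2, hm.inv]
    · omega
  · omega

theorem KR.fn {v u u' : ℕ} (h1 : KR n m2 own adj rev mH v u)
    (h2 : KR n m2 own adj rev mH v u') : u = u' := by
  obtain ⟨p, hp, h3, h4, h5, h6⟩ := h1
  obtain ⟨q, hq, h7, h8, h9, h10⟩ := h2
  have c1 := KR.cov h hG hm hp h5 h6
  have c2 := KR.cov h hG hm hq h9 h10
  rw [h3] at c1
  rw [h7] at c2
  have hne1 := h.ne hG hp
  have hne2 := h.ne hG hq
  have key : p = q := by
    rcases c1 with c1 | c1
    · rcases c2 with c2 | c2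
      · omega
      · exfalso
        have e : p = rev q := by omega
        have := h.own_rev q hq
        rw [← e] at this
        omega
    · rcases c2 with c2 | c2
      · exfalso
        have e : q = rev p := by omega
        have := h.own_rev p hp
        rw [← e] at this
        omega
      · have e : rev p = rev q := by omega
        rw [← h.rev_rev hp, e, h.rev_rev hq]
  rw [← h4, ← h8, key]

omit h hG hm

open Classical in
/-- The matching of the graph obtained from a matching of the gadget graph. -/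
noncomputable def downM (n m2 : ℕ) (own adj rev : ℕ → ℕ) (mH : ℕ → ℕ) (v : ℕ) : ℕ :=
  if hv : ∃ u, KR n m2 own adj rev mH v u then hv.choose else v

include h hG hm

theorem downM_eq {v u : ℕ} (h1 : KR n m2 own adj rev mH v u) :
    downM n m2 own adj rev mH v = u := by
  have hex : ∃ u, KR n m2 own adj rev mH v u := ⟨u, h1⟩
  unfold downM
  rw [dif_pos hex]
  exact KR.fn h hG hm hex.choose_spec h1

omit h hG hm in
theorem downM_none {v : ℕ} (h1 : ¬ ∃ u, KR n m2 own adj rev mH v u) :
    downM n m2 own adj rev mH v = v := by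
  unfold downM
  rw [dif_neg h1]

theorem downM_mat : Mat A (downM n m2 own adj rev mH) := by
  constructor
  · intro v
    by_cases h1 : ∃ u, KR n m2 own adj rev mH v u
    · obtain ⟨u, hu⟩ := h1
      rw [downM_eq h hG hm hu, downM_eq h hG hm (KR.symm h hu)]
    · rw [downM_none h1, downM_none h1]
  · intro v hv
    by_cases h1 : ∃ u, KR n m2 own adj rev mH v u
    · obtain ⟨u, hu⟩ := h1
      rw [downM_eq h hG hm hu]
      obtain ⟨p, hp, h3, h4, _⟩ := hu
      exact (h.mem _ _).2 ⟨p, hp, h3, h4⟩
    · exact absurd (downM_none h1) hv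

/-- At most as many vertices stay uncovered as in the gadget graph. -/
theorem downM_exposed : (exposed n (downM n m2 own adj rev mH)).card ≤
    (exposed (n + m2) mH).card := by
  -- the other gadget vertex
  have step : ∀ v, v ∈ exposed n (downM n m2 own adj rev mH) → mH v ≠ v →
      ∃ p < m2, mH v = n + p ∧ mH (n + rev p) = n + rev p := by
    intro v hv hne
    simp only [exposed, Finset.mem_filter, Finset.mem_range] at hv
    obtain ⟨hvn, hv⟩ := hv
    obtain ⟨p, hp, h1, h2⟩ := HA.of_lt hvn (hm.adj v hne)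
    refine ⟨p, hp, h1, ?_⟩
    have h3 : mH (n + p) = v := by rw [← h1, hm.inv]
    by_contra hne2
    have a2 := hm.adj _ hne2
    have b2 := HA.of_new h (h.rev_lt p hp) a2
    rw [h.own_rev p hp, h.adj_rev p hp, h.rev_rev hp] at b2
    have hlt : mH (n + rev p) < n := by
      rcases b2 with b2 | b2 | b2
      · rw [b2]; exact h.adj_lt hp
      · rw [b2]; exact h.own_lt p hp
      · exfalso
        have : mH (n + p) = n + rev p := by rw [← b2, hm.inv]
        omega
    have hK : KR n m2 own adj rev mH (own p) (adj p) := ⟨p, hp, rfl, rfl, by omega, hlt⟩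
    rcases h2 with h2 | h2
    · have := downM_eq h hG hm hK
      rw [← h2, hv] at this
      exact h.ne hG hp (by rw [← h2, this])
    · have := downM_eq h hG hm (KR.symm h hK)
      rw [← h2, hv] at this
      exact h.ne hG hp (by rw [← h2, this])
  apply Finset.card_le_card_of_injOn
    (fun v => if mH v = v then v else n + rev (mH v - n))
  · intro v hv
    have hv' := hv
    simp only [exposed, Finset.coe_filter, Finset.mem_range, Set.mem_ofPred_eq] at hv'
    by_cases h1 : mH v = v
    · simp only [h1, if_true]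
      simp only [exposed, Finset.coe_filter, Finset.mem_range, Set.mem_ofPred_eq]
      exact ⟨by omega, h1⟩
    · obtain ⟨p, hp, h2, h3⟩ := step v hv h1
      beta_reduce
      rw [if_neg h1, h2, show n + p - n = p by (clear * - h2 h3; omega)]
      simp only [exposed, Finset.coe_filter, Finset.mem_range, Set.mem_ofPred_eq]
      have := h.rev_lt p hp
      exact ⟨by omega, h3⟩
  · intro v hv w hw hvw
    have hv' := hv
    have hw' := hw
    simp only [exposed, Finset.coe_filter, Finset.mem_range, Set.mem_ofPred_eq] at hv' hw'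
    simp only at hvw
    by_cases h1 : mH v = v
    · by_cases h2 : mH w = w
      · rw [if_pos h1, if_pos h2] at hvw; exact hvw
      · rw [if_pos h1, if_neg h2] at hvw; omega
    · by_cases h2 : mH w = w
      · rw [if_neg h1, if_pos h2] at hvw; omega
      · rw [if_neg h1, if_neg h2] at hvw
        obtain ⟨p, hp, h3, h4⟩ := step v hv h1
        obtain ⟨q, hq, h5, h6⟩ := step w hw h2
        rw [h3, h5, show n + p - n = p by (clear * - h3 h4 h5 h6; omega), show n + q - n = q by (clear * - h3 h4 hvw h5 h6; omega)] at hvw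
        have e : rev p = rev q := by omega
        have e2 : p = q := by rw [← h.rev_rev hp, e, h.rev_rev hq]
        rw [← hm.inv v, h3, e2, ← h5, hm.inv]

/-- A maximum matching of the gadget graph gives a maximum matching of the graph. -/
theorem downM_isMax (hmax : IsMax (n + m2) (HA n m2 own adj rev) mH) :
    IsMax n A (downM n m2 own adj rev mH) := by
  refine ⟨downM_mat h hG hm, fun m' hm' => ?_⟩
  have h1 := downM_exposed h hG hm
  have h2 := hmax.2 _ (upM_mat h hG hm')
  rw [upM_exposed h hG] at h2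
  omega

end Down

end Vale.Agent.P305
end
end

section

section

/-! The gadget graph as a graph on `Fin`, its offsets and lists; arcs from offsets. -/

set_option autoImplicit false

namespace Vale.Agent.P305

variable {n m2 : ℕ} {A : ℕ → ℕ → Prop} {own adj rev : ℕ → ℕ}

/-- The gadget graph. -/
def gadG (n m2 : ℕ) (own adj rev : ℕ → ℕ) (h : Arcs n A m2 own adj rev) :
    SimpleGraph (Fin (n + m2)) where
  Adj x y := HA n m2 own adj rev x y
  symm := ⟨fun _ _ h1 => h1.symm⟩
  loopless := ⟨fun x h1 => (HA.gr h).irr x h1⟩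

theorem natAdj_gadG (h : Arcs n A m2 own adj rev) :
    natAdj (gadG n m2 own adj rev h) = HA n m2 own adj rev := by
  ext x y
  constructor
  · rintro ⟨_, _, h1⟩
    exact h1
  · intro h1
    exact ⟨(HA.gr h).lt h1, (HA.gr h).lt ((HA.gr h).symm h1), h1⟩

theorem block_of_lt {off : ℕ → ℕ} {n : ℕ} (h0 : off 0 = 0) {p : ℕ} (hp : p < off n) :
    ∃ v < n, off v ≤ p ∧ p < off (v + 1) := by
  induction n with
  | zero => omega
  | succ n ih =>
    by_cases h : p < off n
    · obtain ⟨v, hv, h1, h2⟩ := ih h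
      exact ⟨v, by omega, h1, h2⟩
    · exact ⟨n, by omega, by omega, hp⟩

theorem CSR.block_unique {off : ℕ → ℕ} (h : CSR n A off adj) {v w p : ℕ} (hv : v < n)
    (hw : w < n) (h1 : off v ≤ p) (h2 : p < off (v + 1)) (h3 : off w ≤ p)
    (h4 : p < off (w + 1)) : v = w := by
  rcases Nat.lt_trichotomy v w with hlt | heq | hlt
  · have := h.mono' (i := v + 1) (j := w) (by omega) (by omega)
    omega
  · exact heq
  · have := h.mono' (i := w + 1) (j := v) (by omega) (by omega)
    omega

/-- Owner and reverse arrays make an `Arcs` structure. -/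
theorem arcs_of {off : ℕ → ℕ} (hG : Gr n A) (h : CSR n A off adj)
    (hown : ∀ v < n, ∀ p, off v ≤ p → p < off (v + 1) → own p = v)
    (hrev : ∀ v < n, ∀ p, off v ≤ p → p < off (v + 1) →
      ∃ q, off (adj p) ≤ q ∧ q < off (adj p + 1) ∧ adj q = v ∧ rev p = q) :
    Arcs n A (off n) own adj rev := by
  have hA : ∀ v < n, ∀ p, off v ≤ p → p < off (v + 1) → A v (adj p) := by
    intro v hv p h1 h2
    exact (h.mem v hv _).2 ⟨p, h1, h2, rfl⟩
  constructor
  · intro p hp
    obtain ⟨v, hv, h1, h2⟩ := block_of_lt h.off0 hp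
    rw [hown v hv p h1 h2]
    exact hv
  · intro p hp
    obtain ⟨v, hv, h1, h2⟩ := block_of_lt h.off0 hp
    obtain ⟨q, h3, h4, h5, h6⟩ := hrev v hv p h1 h2
    have h7 : adj p < n := hG.lt' (hA v hv p h1 h2)
    have := h.mono' (i := adj p + 1) (j := n) (by (clear * - h7; omega)) le_rfl
    omega
  · intro p hp
    obtain ⟨v, hv, h1, h2⟩ := block_of_lt h.off0 hp
    obtain ⟨q, h3, h4, h5, h6⟩ := hrev v hv p h1 h2
    have h7 : adj p < n := hG.lt' (hA v hv p h1 h2)
    rw [h6]
    exact hown _ h7 q h3 h4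
  · intro p hp
    obtain ⟨v, hv, h1, h2⟩ := block_of_lt h.off0 hp
    obtain ⟨q, h3, h4, h5, h6⟩ := hrev v hv p h1 h2
    rw [h6, h5, hown v hv p h1 h2]
  · intro u w
    constructor
    · intro huw
      have hu := hG.lt huw
      obtain ⟨p, h1, h2, h3⟩ := (h.mem u hu w).1 huw
      have := h.mono' (i := u + 1) (j := n) (by omega) le_rfl
      exact ⟨p, by omega, hown u hu p h1 h2, h3⟩
    · rintro ⟨p, hp, rfl, rfl⟩
      obtain ⟨v, hv, h1, h2⟩ := block_of_lt h.off0 hp
      rw [hown v hv p h1 h2]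
      exact hA v hv p h1 h2
  · intro p hp q hq he1 he2
    obtain ⟨v, hv, h1, h2⟩ := block_of_lt h.off0 hp
    obtain ⟨w, hw, h3, h4⟩ := block_of_lt h.off0 hq
    rw [hown v hv p h1 h2, hown w hw q h3 h4] at he1
    subst he1
    exact h.inj v hv p q h1 h2 h3 h4 he2

/-- The arrays of the gadget graph. -/
theorem gad_csr {off : ℕ → ℕ} (hG : Gr n A) (hc : CSR n A off adj)
    (hown : ∀ v < n, ∀ p, off v ≤ p → p < off (v + 1) → own p = v)
    (h : Arcs n A (off n) own adj rev) {oh ah : ℕ → ℕ}
    (h1 : ∀ i ≤ n, oh i = 2 * off i) (h2 : ∀ i ≤ off n, oh (n + i) = 2 * off n + 3 * i)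
    (h3 : ∀ p < off n, ah (2 * p) = n + p ∧ ah (2 * p + 1) = n + rev p)
    (h4 : ∀ p < off n, ah (2 * off n + 3 * p) = own p ∧ ah (2 * off n + 3 * p + 1) = adj p ∧
      ah (2 * off n + 3 * p + 2) = n + rev p) :
    CSR (n + off n) (HA n (off n) own adj rev) oh ah := by
  have hblk : ∀ p < off n, ∀ v < n, own p = v → off v ≤ p ∧ p < off (v + 1) := by
    intro p hp v hv ho
    obtain ⟨w, hw, h5, h6⟩ := block_of_lt hc.off0 hp
    rw [hown w hw p h5 h6] at ho
    subst ho
    exact ⟨h5, h6⟩
  have hle : ∀ v < n, ∀ p, p < off (v + 1) → p < off n := by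
    intro v hv p hp
    have := hc.mono' (i := v + 1) (j := n) (by omega) le_rfl
    omega
  constructor
  · rw [h1 0 (by omega), hc.off0]
  · intro v hv
    by_cases hvn : v < n
    · rw [h1 v (by omega), h1 (v + 1) (by omega)]
      have := hc.mono v hvn
      (clear * - this; omega)
    · obtain ⟨i, rfl⟩ : ∃ i, v = n + i := ⟨v - n, by omega⟩
      rw [h2 i (by omega), show n + i + 1 = n + (i + 1) by omega, h2 (i + 1) (by omega)]
      omega
  · intro v hv u
    by_cases hvn : v < n
    · rw [h1 v (by omega), h1 (v + 1) (by omega)]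
      constructor
      · intro h5
        obtain ⟨p, hp, rfl, h6⟩ := HA.of_lt hvn h5
        rcases h6 with h6 | h6
        · obtain ⟨h7, h8⟩ := hblk p hp v hvn h6.symm
          exact ⟨2 * p, by omega, by omega, (h3 p hp).1⟩
        · have hr := h.rev_lt p hp
          obtain ⟨h7, h8⟩ := hblk (rev p) hr v hvn (by rw [h.own_rev p hp, h6])
          refine ⟨2 * rev p + 1, by omega, by omega, ?_⟩
          rw [(h3 (rev p) hr).2, h.rev_rev hp]
      · rintro ⟨x, h5, h6, rfl⟩
        rcases Nat.even_or_odd' x with ⟨p, rfl | rfl⟩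
        · have h7 : off v ≤ p ∧ p < off (v + 1) := by omega
          have hp := hle v hvn p h7.2
          rw [(h3 p hp).1, ← hown v hvn p h7.1 h7.2]
          exact Or.symm (HA.new_own hp)
        · have h7 : off v ≤ p ∧ p < off (v + 1) := by omega
          have hp := hle v hvn p h7.2
          rw [(h3 p hp).2, ← hown v hvn p h7.1 h7.2]
          have := HA.new_adj (n := n) (own := own) (adj := adj) (rev := rev) (h.rev_lt p hp)
          rw [h.adj_rev p hp] at this
          exact Or.symm this
    · obtain ⟨i, rfl⟩ : ∃ i, v = n + i := ⟨v - n, by (clear * - hvn; omega)⟩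
      have hi : i < off n := by omega
      obtain ⟨a1, a2, a3⟩ := h4 i hi
      rw [h2 i (by omega), show n + i + 1 = n + (i + 1) by omega, h2 (i + 1) (by omega)]
      constructor
      · intro h5
        rcases HA.of_new h hi h5 with h6 | h6 | h6
        · exact ⟨2 * off n + 3 * i, by (clear * -; omega), by omega, by rw [a1, h6]⟩
        · exact ⟨2 * off n + 3 * i + 1, by omega, by (clear * -; omega), by rw [a2, h6]⟩
        · exact ⟨2 * off n + 3 * i + 2, by omega, by omega, by rw [a3, h6]⟩
      · rintro ⟨x, h5, h6, rfl⟩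
        have h7 : x = 2 * off n + 3 * i ∨ x = 2 * off n + 3 * i + 1 ∨
            x = 2 * off n + 3 * i + 2 := by omega
        rcases h7 with rfl | rfl | rfl
        · rw [a1]; exact HA.new_own hi
        · rw [a2]; exact HA.new_adj hi
        · rw [a3]; exact HA.new_rev h hG hi
  · intro v hv x y hx1 hx2 hy1 hy2 hxy
    by_cases hvn : v < n
    · rw [h1 v (by omega)] at hx1 hy1
      rw [h1 (v + 1) (by omega)] at hx2 hy2
      have noswap : ∀ p q, off v ≤ p → p < off (v + 1) → off v ≤ q → q < off (v + 1) →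
          p = rev q → False := by
        intro p q b1 b2 b3 b4 b5
        have hq := hle v hvn q b4
        have c1 := h.own_rev q hq
        rw [← b5, hown v hvn p b1 b2] at c1
        have c2 := hown v hvn q b3 b4
        have c3 := h.ne hG hq
        omega
      rcases Nat.even_or_odd' x with ⟨p, rfl | rfl⟩
      · have b1 : off v ≤ p ∧ p < off (v + 1) := by omega
        have hp := hle v hvn p b1.2
        rw [(h3 p hp).1] at hxy
        rcases Nat.even_or_odd' y with ⟨q, rfl | rfl⟩
        · have b2 : off v ≤ q ∧ q < off (v + 1) := by omega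
          have hq := hle v hvn q b2.2
          rw [(h3 q hq).1] at hxy
          omega
        · have b2 : off v ≤ q ∧ q < off (v + 1) := by omega
          have hq := hle v hvn q b2.2
          rw [(h3 q hq).2] at hxy
          exact (noswap p q b1.1 b1.2 b2.1 b2.2 (by omega)).elim
      · have b1 : off v ≤ p ∧ p < off (v + 1) := by omega
        have hp := hle v hvn p b1.2
        rw [(h3 p hp).2] at hxy
        rcases Nat.even_or_odd' y with ⟨q, rfl | rfl⟩
        · have b2 : off v ≤ q ∧ q < off (v + 1) := by omega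
          have hq := hle v hvn q b2.2
          rw [(h3 q hq).1] at hxy
          exact (noswap q p b2.1 b2.2 b1.1 b1.2 (by omega)).elim
        · have b2 : off v ≤ q ∧ q < off (v + 1) := by omega
          have hq := hle v hvn q b2.2
          rw [(h3 q hq).2] at hxy
          have e : rev p = rev q := by omega
          have : p = q := by rw [← h.rev_rev hp, e, h.rev_rev hq]
          omega
    · obtain ⟨i, rfl⟩ : ∃ i, v = n + i := ⟨v - n, by omega⟩
      have hi : i < off n := by omega
      obtain ⟨a1, a2, a3⟩ := h4 i hi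
      rw [h2 i (by omega)] at hx1 hy1
      rw [show n + i + 1 = n + (i + 1) by omega, h2 (i + 1) (by omega)] at hx2 hy2
      have e1 := h.own_lt i hi
      have e2 := h.adj_lt hi
      have e3 := h.ne hG hi
      have hx : x = 2 * off n + 3 * i ∨ x = 2 * off n + 3 * i + 1 ∨
          x = 2 * off n + 3 * i + 2 := by omega
      have hy : y = 2 * off n + 3 * i ∨ y = 2 * off n + 3 * i + 1 ∨
          y = 2 * off n + 3 * i + 2 := by (clear * - hy1 hy2; omega)
      rcases hx with rfl | rfl | rfl <;> rcases hy with rfl | rfl | rfl <;>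
        simp only [a1, a2, a3] at hxy <;> omega

end Vale.Agent.P305
end
end

section

section

/-! The program computing the arrays of the gadget graph. -/

set_option autoImplicit false

namespace Vale.Agent.P305

open Function (update)
open L1

variable {R : List ℕ → (ℕ → ℕ) → ℕ → Prop} {cap : ℕ}

/-- Multiples of `n` in array `6`. -/
def mulN : Cmd := .seq (.blk [.const 2 0, .const 3 0])
  (.loop (.lt 2 0) (.seq (.blk [.store 6 2 3]) (.seq (.add 3 3 0) (.blk [.inc 2]))))

theorem mulN_spec (s : St) {n : ℕ} (hn : s.r 0 = n) (hcap : n * n ≤ cap) :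
    ∃ s' t, Ex R cap mulN s t s' ∧ t ≤ 5 * n + 5 ∧ s'.r 0 = n ∧ s'.r 1 = s.r 1 ∧
      (∀ i < n, s'.a 6 i = i * n) ∧ (∀ j, j ≠ 6 → s'.a j = s.a j) := by
  obtain ⟨s1, hs1⟩ : ∃ s1, s1 = run [.const 2 0, .const 3 0] s := ⟨_, rfl⟩
  have e1 : Ex R cap (.blk [.const 2 0, .const 3 0]) s 2 s1 := by rw [hs1]; exact Ex.blk _ _
  have h1 : s1.r 0 = n ∧ s1.r 1 = s.r 1 ∧ s1.r 2 = 0 ∧ s1.r 3 = 0 ∧ s1.a = s.a := by
    subst hs1; simp only [run, B.step, ne_eq, OfNat.zero_ne_ofNat, not_false_eq_true, Function.update_of_ne, hn, OfNat.one_ne_ofNat, Nat.reduceEqDiff, Function.update_self, and_self]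
  obtain ⟨a0, a1, a2, a3, aa⟩ := h1
  obtain ⟨s2, t2, e2, ht2, ⟨b3, b1, b6, bj⟩, _, b0⟩ := for_rule (R := R) (cap := cap)
    (i := 2) (b := 0)
    (body := (.seq (.blk [.store 6 2 3]) (.seq (.add 3 3 0) (.blk [.inc 2])))) n 3 0
    (fun k s' => s'.r 3 = k * n ∧ s'.r 1 = s.r 1 ∧ (∀ i < k, s'.a 6 i = i * n) ∧
      (∀ j, j ≠ 6 → s'.a j = s.a j))
    (by
      rintro k s' _ hk ⟨h3, h1, h6, hj⟩ hi hb
      refine ⟨_, _, .seq (.blk _ _) (.seq (.add _ _ _ _ ?_) (.blk _ _)), ?_, ⟨?_, ?_, ?_, ?_⟩,
        ?_, ?_⟩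
      · simp only [run, B.step]
        rw [h3, hb]
        have : (k + 1) * n ≤ n * n := Nat.mul_le_mul_right n hk
        rw [Nat.add_mul] at this
        (clear * - hcap a0 hb this; omega)
      · simp
      · simp [run, B.step, h3, hb, Nat.add_mul]
      · simp [run, B.step, h1]
      · intro i hik
        simp only [run, B.step, Function.update_apply, hi, h3]
        by_cases hi' : i = k
        · simp [hi']
        · simp only [↓reduceIte, ne_eq, hi', not_false_eq_true, Function.update_of_ne, h6 i (by omega)]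
      · intro j hj6
        simp only [run, B.step, ne_eq, Nat.reduceEqDiff, not_false_eq_true, Function.update_of_ne, hj6, hj j hj6]
      · simp only [run, B.step, hi, ne_eq, Nat.reduceEqDiff, not_false_eq_true, Function.update_of_ne, Function.update_self, Nat.add_left_cancel_iff]
      · simp only [run, B.step, hb, ne_eq, Nat.reduceEqDiff, not_false_eq_true, Function.update_of_ne, OfNat.zero_ne_ofNat])
    s1 (by omega) ⟨by rw [a3]; simp, a1, by intro i hi; omega, by intro j _; rw [aa]⟩ a2 a0
  refine ⟨s2, _, .seq e1 e2, ?_, b0, b1, b6, bj⟩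
  omega

theorem index_inj {n w v x y : ℕ} (hx : x < n) (hy : y < n) (h : w * n + x = v * n + y) :
    w = v ∧ x = y := by
  rcases Nat.lt_trichotomy w v with hlt | heq | hlt
  · have : (w + 1) * n ≤ v * n := Nat.mul_le_mul_right n hlt
    rw [Nat.add_mul] at this
    omega
  · subst heq
    exact ⟨rfl, by omega⟩
  · have : (v + 1) * n ≤ w * n := Nat.mul_le_mul_right n hlt
    rw [Nat.add_mul] at this
    (clear * - hy h this; omega)

theorem index_lt {n w x : ℕ} (hw : w < n) (hx : x < n) : w * n + x < n * n := by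
  have : (w + 1) * n ≤ n * n := Nat.mul_le_mul_right n hw
  rw [Nat.add_mul] at this
  omega

/-- Table of arcs (array `7`) and owners (array `8`). -/
def arcTab : Cmd := arcLoop
  (.seq (.blk [.load 6 6 2]) (.seq (.add 6 6 5) (.blk [.store 7 6 3, .store 8 3 2])))

theorem arcTab_spec (s : St) {n : ℕ} {A : ℕ → ℕ → Prop} (hG : Gr n A)
    (hC : CSR n A (s.a 4) (s.a 5)) (hn : s.r 0 = n) (h6 : ∀ i < n, s.a 6 i = i * n)
    (hcap : n * n ≤ cap) :
    ∃ s' t, Ex R cap arcTab s t s' ∧ t ≤ 11 * s.a 4 n + 6 * n + 3 ∧ s'.r 0 = n ∧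
      s'.r 1 = s.r 1 ∧
      (∀ v < n, ∀ p, s.a 4 v ≤ p → p < s.a 4 (v + 1) → s'.a 8 p = v ∧
        s'.a 7 (v * n + s.a 5 p) = p) ∧ (∀ j, j ≠ 7 → j ≠ 8 → s'.a j = s.a j) := by
  set off := s.a 4 with hoff
  set adj := s.a 5 with hadj
  obtain ⟨s', t, e, ht, ⟨i1, i2, i3⟩, h0, _, _⟩ := arc_rule (R := R) (cap := cap)
    (body := (.seq (.blk [.load 6 6 2]) (.seq (.add 6 6 5) (.blk [.store 7 6 3, .store 8 3 2]))))
    (n := n) (off := off) (adj := adj) hC.off0 hC.mono 4
    (fun v p s' => (∀ w < n, ∀ q, off w ≤ q → q < off (w + 1) → (w < v ∨ (w = v ∧ q < p)) →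
        s'.a 8 q = w ∧ s'.a 7 (w * n + adj q) = q) ∧
      (∀ j, j ≠ 7 → j ≠ 8 → s'.a j = s.a j) ∧ s'.r 1 = s.r 1)
    (by
      rintro v p s1 s2 _ _ ⟨i1, i2, i3⟩ ha hr
      rw [ha]
      exact ⟨i1, i2, by rw [hr 1 (by omega), i3]⟩)
    (by
      rintro v s1 hv ⟨i1, i2, i3⟩
      refine ⟨fun w hw q h1 h2 h3 => i1 w hw q h1 h2 ?_, i2, i3⟩
      rcases h3 with h3 | ⟨h3, h4⟩
      · by_cases hwv : w = v
        · subst hwv; right; exact ⟨rfl, h2⟩
        · left; omega
      · subst h3; omega)
    (by
      rintro v p s1 hv h1 h2 hp ⟨i1, i2, i3⟩ r0 r2 r3 r5 a4 a5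
      have hpn : adj p < n := hG.lt' ((hC.mem v hv _).2 ⟨p, h1, h2, rfl⟩)
      have a6 : s1.a 6 v = v * n := by rw [i2 6 (by decide) (by decide), h6 v hv]
      refine ⟨_, _, .seq (.blk _ _) (.seq (.add _ _ _ _ ?_) (.blk _ _)), ?_, ⟨?_, ?_, ?_⟩,
        ?_, ?_, ?_, ?_, ?_⟩
      · simp only [run, B.step, Function.update_apply, r2, r5, a6]
        have := index_lt hv hpn
        simp only [↓reduceIte, Nat.reduceEqDiff, ge_iff_le]
        omega
      · simp
      · intro w hw q b1 b2 b3
        simp only [run, B.step, r2, a6, Function.update_self, ne_eq, Nat.reduceEqDiff, not_false_eq_true, Function.update_of_ne, r5, Function.update_idem, r3, Nat.succ_ne_self]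
        simp only [Function.update_apply]
        by_cases hqp : q = p
        · subst hqp
          have : w = v := hC.block_unique hw hv b1 b2 h1 h2
          subst this
          simp
        · have hwv : w < v ∨ (w = v ∧ q < p) := by
            rcases b3 with b3 | b3
            · exact Or.inl b3
            · right; (clear * - r2 r3 hqp b3; omega)
          obtain ⟨c1, c2⟩ := i1 w hw q b1 b2 hwv
          have hqn : adj q < n := hG.lt' ((hC.mem w hw _).2 ⟨q, b1, b2, rfl⟩)
          rw [if_neg hqp, if_neg]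
          · exact ⟨c1, c2⟩
          · intro heq
            obtain ⟨d1, d2⟩ := index_inj hqn hpn heq
            subst d1
            exact hqp (hC.inj w hw q p b1 b2 h1 h2 d2)
      · intro j hj7 hj8
        simp [run, B.step, hj7, hj8, i2 j hj7 hj8]
      · simp [run, B.step, i3]
      · simp [run, B.step, r0]
      · simp [run, B.step, r2]
      · simp only [run, B.step, Function.update_self, ne_eq, Nat.reduceEqDiff, not_false_eq_true, Function.update_of_ne, Function.update_idem, r3, Nat.succ_ne_self]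
      · simp [run, B.step, a4]
      · simp [run, B.step, a5])
    s ⟨fun w hw q h1 h2 h3 => by (clear * - h3; omega), fun j _ _ => rfl, rfl⟩ hn rfl rfl
  refine ⟨s', t, e, ht, h0, i3, ?_, i2⟩
  intro v hv p h1 h2
  exact i1 v hv p h1 h2 (Or.inl hv)

/-- Reverse arcs in array `9`; register `7` gets the number of arcs. -/
def revTab : Cmd := .seq (.blk [.const 2 0, .load 4 7 0])
  (.loop (.lt 2 7) (.seq (.blk [.load 5 5 2, .load 6 6 5, .load 8 3 2])
    (.seq (.add 6 6 3) (.blk [.load 7 6 6, .store 9 2 6, .inc 2]))))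

theorem revTab_spec (s : St) {n : ℕ} (hn : s.r 0 = n) (h6 : ∀ i < n, s.a 6 i = i * n)
    (hcap : n * n ≤ cap) (h5 : ∀ p < s.a 4 n, s.a 5 p < n) (h8 : ∀ p < s.a 4 n, s.a 8 p < n) :
    ∃ s' t, Ex R cap revTab s t s' ∧ t ≤ 8 * s.a 4 n + 3 ∧ s'.r 0 = n ∧ s'.r 1 = s.r 1 ∧
      s'.r 7 = s.a 4 n ∧
      (∀ p < s.a 4 n, s'.a 9 p = s.a 7 (s.a 5 p * n + s.a 8 p)) ∧
      (∀ j, j ≠ 9 → s'.a j = s.a j) := by
  obtain ⟨s1, hs1⟩ : ∃ s1, s1 = run [.const 2 0, .load 4 7 0] s := ⟨_, rfl⟩
  have e1 : Ex R cap (.blk [.const 2 0, .load 4 7 0]) s 2 s1 := by rw [hs1]; exact Ex.blk _ _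
  have h1 : s1.r 0 = n ∧ s1.r 1 = s.r 1 ∧ s1.r 2 = 0 ∧ s1.r 7 = s.a 4 n ∧ s1.a = s.a := by
    subst hs1; simp [run, B.step, hn]
  obtain ⟨a0, a1, a2, a7, aa⟩ := h1
  obtain ⟨s2, t2, e2, ht2, ⟨b0, b1, b9, bj⟩, _, b7⟩ := for_rule (R := R) (cap := cap)
    (i := 2) (b := 7)
    (body := (.seq (.blk [.load 5 5 2, .load 6 6 5, .load 8 3 2])
    (.seq (.add 6 6 3) (.blk [.load 7 6 6, .store 9 2 6, .inc 2])))) (s.a 4 n) 7 0
    (fun k s' => s'.r 0 = n ∧ s'.r 1 = s.r 1 ∧
      (∀ p < k, s'.a 9 p = s.a 7 (s.a 5 p * n + s.a 8 p)) ∧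
      (∀ j, j ≠ 9 → s'.a j = s.a j))
    (by
      rintro k s' _ hk ⟨h0, h1, h9, hj⟩ hi hb
      have j5 := hj 5 (by decide)
      have j6 := hj 6 (by decide)
      have j7 := hj 7 (by decide)
      have j8 := hj 8 (by decide)
      have k5 := h5 k hk
      have k8 := h8 k hk
      have k6 := h6 _ k5
      refine ⟨_, _, .seq (.blk _ _) (.seq (.add _ _ _ _ ?_) (.blk _ _)), ?_, ⟨?_, ?_, ?_, ?_⟩,
        ?_, ?_⟩
      · have := index_lt k5 k8
        simp only [run, B.step, hi, j5, Function.update_self, j6, k6, ne_eq, Nat.reduceEqDiff, not_false_eq_true, Function.update_of_ne, j8, ge_iff_le]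
        omega
      · simp
      · simp [run, B.step, h0]
      · simp [run, B.step, h1]
      · intro i hik
        simp only [run, B.step, hi, j5, Function.update_self, j6, k6, ne_eq, Nat.reduceEqDiff, not_false_eq_true, Function.update_of_ne, j8, j7, Function.update_idem, Function.update_apply]
        by_cases hi' : i = k
        · simp [hi']
        · simp [hi', h9 i (by omega)]
      · intro j hj9
        simp only [run, B.step, Function.update_self, ne_eq, Nat.reduceEqDiff, not_false_eq_true, Function.update_of_ne, Function.update_idem, hj9, hj j hj9]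
      · simp only [run, B.step, hi, Function.update_self, ne_eq, Nat.reduceEqDiff, not_false_eq_true, Function.update_of_ne, Function.update_idem, Nat.add_left_cancel_iff]
      · simp [run, B.step, hb])
    s1 (by omega) ⟨a0, a1, by intro i hi; omega, by intro j _; rw [aa]⟩ a2 a7
  refine ⟨s2, _, .seq e1 e2, ?_, b0, b1, b7, b9, bj⟩
  omega

/-- Offsets of the old vertices. -/
def offA : Cmd := .seq (.blk [.const 2 0, .copy 4 0, .inc 4])
  (.loop (.lt 2 4) (.seq (.blk [.load 4 3 2]) (.seq (.add 3 3 3) (.blk [.store 10 2 3, .inc 2]))))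

theorem offA_spec (s : St) {n : ℕ} (hn : s.r 0 = n) (hcap : ∀ i ≤ n, 2 * s.a 4 i ≤ cap) :
    ∃ s' t, Ex R cap offA s t s' ∧ t ≤ 5 * n + 9 ∧ s'.r 0 = n ∧ s'.r 1 = s.r 1 ∧
      s'.r 7 = s.r 7 ∧ s'.r 2 = n + 1 ∧ s'.r 3 = 2 * s.a 4 n ∧
      (∀ i ≤ n, s'.a 10 i = 2 * s.a 4 i) ∧ (∀ j, j ≠ 10 → s'.a j = s.a j) := by
  obtain ⟨s1, hs1⟩ : ∃ s1, s1 = run [.const 2 0, .copy 4 0, .inc 4] s := ⟨_, rfl⟩
  have e1 : Ex R cap (.blk [.const 2 0, .copy 4 0, .inc 4]) s 3 s1 := by
    rw [hs1]; exact Ex.blk _ _
  have h1 : s1.r 0 = n ∧ s1.r 1 = s.r 1 ∧ s1.r 7 = s.r 7 ∧ s1.r 2 = 0 ∧ s1.r 4 = n + 1 ∧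
      s1.a = s.a := by
    subst hs1; simp [run, B.step, hn]
  obtain ⟨a0, a1, a7, a2, a4, aa⟩ := h1
  obtain ⟨s2, t2, e2, ht2, ⟨b0, b1, b7, b3, b10, bj⟩, b2, b4⟩ := for_rule (R := R) (cap := cap)
    (i := 2) (b := 4)
    (body := (.seq (.blk [.load 4 3 2]) (.seq (.add 3 3 3) (.blk [.store 10 2 3, .inc 2]))))
    (n + 1) 4 0
    (fun k s' => s'.r 0 = n ∧ s'.r 1 = s.r 1 ∧ s'.r 7 = s.r 7 ∧
      (0 < k → s'.r 3 = 2 * s.a 4 (k - 1)) ∧
      (∀ i < k, s'.a 10 i = 2 * s.a 4 i) ∧
      (∀ j, j ≠ 10 → s'.a j = s.a j))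
    (by
      rintro k s' _ hk ⟨h0, h1, h7, h3, h10, hj⟩ hi hb
      have j4 := hj 4 (by decide)
      refine ⟨_, _, .seq (.blk _ _) (.seq (.add _ _ _ _ ?_) (.blk _ _)), ?_,
        ⟨?_, ?_, ?_, ?_, ?_, ?_⟩, ?_, ?_⟩
      · have := hcap k (by (clear * - a0 a4 hk h0 hi hb; omega))
        simp only [run, B.step, hi, j4, Function.update_self, ge_iff_le]
        omega
      · simp
      · simp [run, B.step, h0]
      · simp [run, B.step, h1]
      · simp [run, B.step, h7]
      · intro _
        simp only [run, B.step, hi, j4, Function.update_self, Function.update_idem, ne_eq, Nat.reduceEqDiff, not_false_eq_true, Function.update_of_ne, Nat.succ_ne_self, add_tsub_cancel_right]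
        omega
      · intro i hik
        simp [run, B.step, Function.update_apply, hi, j4]
        by_cases hi' : i = k
        · simp [hi']; omega
        · simp [hi', h10 i (by omega)]
      · intro j hj9
        simp [run, B.step, hj9, hj j hj9]
      · simp [run, B.step, hi]
      · simp [run, B.step, hb])
    s1 (by omega) ⟨a0, a1, a7, by omega, by intro i hi; omega, by intro j _; rw [aa]⟩ a2 a4
  refine ⟨s2, _, .seq e1 e2, ?_, b0, b1, b7, b2, b3 (by omega), fun i hi => b10 i (by omega), bj⟩
  (clear * - hn a0 a4 ht2 b0 b3 b2 b4; omega)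

/-- Offsets of the new vertices; register `20` gets the number of vertices. -/
def offB : Cmd := .seq (.add 20 0 7) (.seq (.blk [.copy 4 20, .inc 4])
  (.loop (.lt 2 4) (.blk [.inc 3, .inc 3, .inc 3, .store 10 2 3, .inc 2])))

theorem offB_spec (s : St) {n m : ℕ} (hn : s.r 0 = n) (h7 : s.r 7 = m) (h2 : s.r 2 = n + 1)
    (h3 : s.r 3 = 2 * m) (hcap : n + m ≤ cap) (h10 : s.a 10 n = 2 * m) :
    ∃ s' t, Ex R cap offB s t s' ∧ t ≤ 6 * m + 4 ∧ s'.r 0 = n ∧ s'.r 1 = s.r 1 ∧
      s'.r 7 = m ∧ s'.r 20 = n + m ∧ (∀ i ≤ n, s'.a 10 i = s.a 10 i) ∧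
      (∀ i ≤ m, s'.a 10 (n + i) = 2 * m + 3 * i) ∧ (∀ j, j ≠ 10 → s'.a j = s.a j) := by
  have e0 : Ex R cap (.add 20 0 7) s 1 ⟨update s.r 20 (n + m), s.a⟩ := by
    have := Ex.add (R := R) (cap := cap) 20 0 7 s (by rw [hn, h7]; exact hcap)
    rwa [hn, h7] at this
  obtain ⟨s1, hs1⟩ : ∃ s1, s1 = run [.copy 4 20, .inc 4] ⟨update s.r 20 (n + m), s.a⟩ := ⟨_, rfl⟩
  have e1 : Ex R cap (.blk [.copy 4 20, .inc 4]) ⟨update s.r 20 (n + m), s.a⟩ 2 s1 := by
    rw [hs1]; exact Ex.blk _ _
  have h1 : s1.r 0 = n ∧ s1.r 1 = s.r 1 ∧ s1.r 7 = m ∧ s1.r 2 = n + 1 ∧ s1.r 3 = 2 * m ∧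
      s1.r 4 = n + m + 1 ∧ s1.r 20 = n + m ∧ s1.a = s.a := by
    subst hs1; simp [run, B.step, hn, h7, h2, h3]
  obtain ⟨a0, a1, a7, a2, a3, a4, a20, aa⟩ := h1
  obtain ⟨s2, t2, e2, ht2, ⟨b0, b1, b7, b20, b3, b10, b10', bj⟩, b2, b4⟩ :=
    for_rule (R := R) (cap := cap)
    (i := 2) (b := 4)
    (body := (.blk [.inc 3, .inc 3, .inc 3, .store 10 2 3, .inc 2])) (n + m + 1) 5 (n + 1)
    (fun k s' => s'.r 0 = n ∧ s'.r 1 = s.r 1 ∧ s'.r 7 = m ∧ s'.r 20 = n + m ∧
      s'.r 3 + 3 * (n + 1) = 2 * m + 3 * k ∧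
      (∀ i ≤ n, s'.a 10 i = s.a 10 i) ∧ (∀ i, n + i < k → s'.a 10 (n + i) = 2 * m + 3 * i) ∧
      (∀ j, j ≠ 10 → s'.a j = s.a j))
    (by
      rintro k s' hk0 hk ⟨h0, h1, h7, h20, h3, h10, h10', hj⟩ hi hb
      refine ⟨_, _, .blk _ _, ?_, ⟨?_, ?_, ?_, ?_, ?_, ?_, ?_, ?_⟩, ?_, ?_⟩
      · simp
      · simp [run, B.step, h0]
      · simp only [run, B.step, Function.update_self, Function.update_idem, ne_eq, Nat.reduceEqDiff, not_false_eq_true, Function.update_of_ne, OfNat.one_ne_ofNat, h1]
      · simp [run, B.step, h7]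
      · simp [run, B.step, h20]
      · simp only [run, B.step, Function.update_self, Function.update_idem, ne_eq, Nat.reduceEqDiff, not_false_eq_true, Function.update_of_ne, Nat.succ_ne_self]
        (clear * - h2 a0 a7 a2 a4 a20 h0 h7 h20 h3; omega)
      · intro i hik
        simp only [run, B.step, Function.update_self, Function.update_idem, ne_eq, Nat.reduceEqDiff, not_false_eq_true, Function.update_of_ne, hi, Function.update_apply]
        rw [if_neg (by (clear * - h2 a0 a7 a2 a4 a20 hk0 h0 h7 h20 hi hb hik; omega))]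
        exact h10 i hik
      · intro i hik
        simp only [run, B.step, Function.update_self, Function.update_idem, ne_eq, Nat.reduceEqDiff, not_false_eq_true, Function.update_of_ne, hi, Function.update_apply]
        by_cases hi' : n + i = k
        · rw [if_pos hi']; (clear * - h2 a0 a7 a2 a4 a20 h0 h7 h20 h3 hi hb hi'; omega)
        · rw [if_neg hi']; exact h10' i (by (clear * - h2 a0 a7 a2 a4 a20 h0 h7 h20 hi hb hik hi'; omega))
      · intro j hj9
        simp only [run, B.step, Function.update_self, Function.update_idem, ne_eq, Nat.reduceEqDiff, not_false_eq_true, Function.update_of_ne, hj9, hj j hj9]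
      · simp [run, B.step, hi]
      · simp [run, B.step, hb])
    s1 (by (clear * - h2 a0 a7 a2 a3 a4 a20; omega)) ⟨a0, a1, a7, a20, by omega, by intro i _; rw [aa], by
      intro i hi
      have : i = 0 := by omega
      subst this
      rw [aa]
      simpa using h10, by intro j _; rw [aa]⟩ a2 a4
  refine ⟨s2, _, .seq e0 (.seq e1 e2), ?_, b0, b1, b7, b20, b10,
    fun i hi => b10' i (by (clear * - h2 a0 a7 a2 a4 a20 b0 b7 hi; omega)), bj⟩
  rw [show n + m + 1 - (n + 1) = m by (clear * - h2 a0 a7 a2 a3 a4 a20 b0 b7; omega)] at ht2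
  (clear * - h2 a0 a7 a2 a4 a20 ht2 b0 b7; omega)

/-- Lists of the old vertices. -/
def adjA : Cmd := .seq (.blk [.const 2 0, .const 3 0, .copy 4 0])
  (.loop (.lt 2 7) (.seq (.blk [.load 9 5 2]) (.seq (.add 5 5 0)
    (.blk [.store 11 3 4, .inc 3, .store 11 3 5, .inc 3, .inc 4, .inc 2]))))

theorem adjA_spec (s : St) {n m : ℕ} (hn : s.r 0 = n) (h7 : s.r 7 = m)
    (hcap : ∀ p < m, s.a 9 p + n ≤ cap) :
    ∃ s' t, Ex R cap adjA s t s' ∧ t ≤ 9 * m + 4 ∧ s'.r 0 = n ∧ s'.r 1 = s.r 1 ∧
      s'.r 7 = m ∧ s'.r 20 = s.r 20 ∧ s'.r 3 = 2 * m ∧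
      (∀ p < m, s'.a 11 (2 * p) = n + p ∧ s'.a 11 (2 * p + 1) = n + s.a 9 p) ∧
      (∀ j, j ≠ 11 → s'.a j = s.a j) := by
  obtain ⟨s1, hs1⟩ : ∃ s1, s1 = run [.const 2 0, .const 3 0, .copy 4 0] s := ⟨_, rfl⟩
  have e1 : Ex R cap (.blk [.const 2 0, .const 3 0, .copy 4 0]) s 3 s1 := by
    rw [hs1]; exact Ex.blk _ _
  have h1 : s1.r 0 = n ∧ s1.r 1 = s.r 1 ∧ s1.r 7 = m ∧ s1.r 20 = s.r 20 ∧ s1.r 2 = 0 ∧
      s1.r 3 = 0 ∧ s1.r 4 = n ∧ s1.a = s.a := by
    subst hs1; simp [run, B.step, hn, h7]
  obtain ⟨a0, a1, a7, a20, a2, a3, a4, aa⟩ := h1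
  obtain ⟨s2, t2, e2, ht2, ⟨b0, b1, b20, b3, b4, b11, bj⟩, b2, b7⟩ :=
    for_rule (R := R) (cap := cap) (i := 2) (b := 7)
    (body := (.seq (.blk [.load 9 5 2]) (.seq (.add 5 5 0)
    (.blk [.store 11 3 4, .inc 3, .store 11 3 5, .inc 3, .inc 4, .inc 2])))) m 8 0
    (fun k s' => s'.r 0 = n ∧ s'.r 1 = s.r 1 ∧ s'.r 20 = s.r 20 ∧ s'.r 3 = 2 * k ∧
      s'.r 4 = n + k ∧
      (∀ p < k, s'.a 11 (2 * p) = n + p ∧ s'.a 11 (2 * p + 1) = n + s.a 9 p) ∧
      (∀ j, j ≠ 11 → s'.a j = s.a j))
    (by
      rintro k s' _ hk ⟨h0, h1, h20, h3, h4, h11, hj⟩ hi hb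
      have j9 := hj 9 (by decide)
      refine ⟨_, _, .seq (.blk _ _) (.seq (.add _ _ _ _ ?_) (.blk _ _)), ?_,
        ⟨?_, ?_, ?_, ?_, ?_, ?_, ?_⟩, ?_, ?_⟩
      · have := hcap k hk
        simp only [run, B.step, hi, j9, Function.update_self, ne_eq, OfNat.zero_ne_ofNat, not_false_eq_true, Function.update_of_ne, h0, ge_iff_le]
        omega
      · simp
      · simp only [run, B.step, Function.update_self, ne_eq, OfNat.zero_ne_ofNat, not_false_eq_true, Function.update_of_ne, h0, Function.update_idem, Nat.reduceEqDiff, Nat.succ_ne_self]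
      · simp only [run, B.step, Function.update_self, ne_eq, OfNat.zero_ne_ofNat, not_false_eq_true, Function.update_of_ne, Function.update_idem, Nat.reduceEqDiff, Nat.succ_ne_self, OfNat.one_ne_ofNat, h1]
      · simp [run, B.step, h20]
      · simp only [run, B.step, Function.update_self, ne_eq, OfNat.zero_ne_ofNat, not_false_eq_true, Function.update_of_ne, Function.update_idem, Nat.reduceEqDiff, h3, Nat.succ_ne_self]; (clear * -; omega)
      · simp only [run, B.step, Function.update_self, ne_eq, OfNat.zero_ne_ofNat, not_false_eq_true, Function.update_of_ne, Function.update_idem, Nat.reduceEqDiff, h4, Nat.succ_ne_self]; omega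
      · intro p hp
        simp only [run, B.step, hi, j9, Function.update_self, ne_eq, OfNat.zero_ne_ofNat, not_false_eq_true, Function.update_of_ne, h0, Function.update_idem, Nat.reduceEqDiff, h3, h4, Nat.succ_ne_self]
        simp only [Function.update_apply]
        by_cases hi' : p = k
        · subst hi'
          simp only [Nat.left_eq_add, one_ne_zero, ↓reduceIte, Nat.add_left_cancel_iff, true_and]; omega
        · obtain ⟨c1, c2⟩ := h11 p (by (clear * - a0 a4 h0 h4 hi hp hi'; omega))
          rw [if_neg (by (clear * - a0 a4 h0 h4 hi c1 c2; omega)), if_neg (by (clear * - a0 a4 h0 h4 hi hi' c1 c2; omega)), if_neg (by (clear * - a0 a4 h0 h4 hi hi' c1 c2; omega)), if_neg (by (clear * - a0 a4 h0 h4 hi c1 c2; omega))]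
          exact ⟨c1, c2⟩
      · intro j hj9
        simp only [run, B.step, Function.update_self, ne_eq, OfNat.zero_ne_ofNat, not_false_eq_true, Function.update_of_ne, Function.update_idem, Nat.reduceEqDiff, Nat.succ_ne_self, hj9, hj j hj9]
      · simp only [run, B.step, hi, Function.update_self, ne_eq, OfNat.zero_ne_ofNat, not_false_eq_true, Function.update_of_ne, Function.update_idem, Nat.reduceEqDiff, Nat.succ_ne_self, Nat.add_left_cancel_iff]
      · simp only [run, B.step, Function.update_self, ne_eq, OfNat.zero_ne_ofNat, not_false_eq_true, Function.update_of_ne, Function.update_idem, Nat.reduceEqDiff, Nat.succ_ne_self, hb])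
    s1 (by omega) ⟨a0, a1, a20, by omega, by omega, by intro i hi; omega,
      by intro j _; rw [aa]⟩ a2 a7
  refine ⟨s2, _, .seq e1 e2, ?_, b0, b1, b7, b20, b3, b11, bj⟩
  (clear * - h7 a0 a7 a4 ht2 b0 b4 b2 b7; omega)

/-- Lists of the new vertices. -/
def adjB : Cmd := .seq (.blk [.const 2 0])
  (.loop (.lt 2 7) (.seq (.blk [.load 8 5 2, .store 11 3 5, .inc 3, .load 5 5 2, .store 11 3 5,
    .inc 3, .load 9 5 2]) (.seq (.add 5 5 0) (.blk [.store 11 3 5, .inc 3, .inc 2]))))

theorem adjB_spec (s : St) {n m : ℕ} (hn : s.r 0 = n) (h7 : s.r 7 = m) (h3 : s.r 3 = 2 * m)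
    (hcap : ∀ p < m, s.a 9 p + n ≤ cap) :
    ∃ s' t, Ex R cap adjB s t s' ∧ t ≤ 12 * m + 2 ∧ s'.r 0 = n ∧ s'.r 1 = s.r 1 ∧
      s'.r 7 = m ∧ s'.r 20 = s.r 20 ∧ (∀ i < 2 * m, s'.a 11 i = s.a 11 i) ∧
      (∀ p < m, s'.a 11 (2 * m + 3 * p) = s.a 8 p ∧ s'.a 11 (2 * m + 3 * p + 1) = s.a 5 p ∧
        s'.a 11 (2 * m + 3 * p + 2) = n + s.a 9 p) ∧
      (∀ j, j ≠ 11 → s'.a j = s.a j) := by
  obtain ⟨s1, hs1⟩ : ∃ s1, s1 = run [.const 2 0] s := ⟨_, rfl⟩
  have e1 : Ex R cap (.blk [.const 2 0]) s 1 s1 := by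
    rw [hs1]; exact Ex.blk _ _
  have h1 : s1.r 0 = n ∧ s1.r 1 = s.r 1 ∧ s1.r 7 = m ∧ s1.r 20 = s.r 20 ∧ s1.r 2 = 0 ∧
      s1.r 3 = 2 * m ∧ s1.a = s.a := by
    subst hs1; simp only [run, B.step, ne_eq, OfNat.zero_ne_ofNat, not_false_eq_true, Function.update_of_ne, hn, OfNat.one_ne_ofNat, Nat.reduceEqDiff, h7, Function.update_self, Nat.succ_ne_self, h3, and_self]
  obtain ⟨a0, a1, a7, a20, a2, a3, aa⟩ := h1
  obtain ⟨s2, t2, e2, ht2, ⟨b0, b1, b20, b3, b11, b11', bj⟩, b2, b7⟩ :=
    for_rule (R := R) (cap := cap) (i := 2) (b := 7)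
    (body := (.seq (.blk [.load 8 5 2, .store 11 3 5, .inc 3, .load 5 5 2, .store 11 3 5,
    .inc 3, .load 9 5 2]) (.seq (.add 5 5 0) (.blk [.store 11 3 5, .inc 3, .inc 2])))) m 11 0
    (fun k s' => s'.r 0 = n ∧ s'.r 1 = s.r 1 ∧ s'.r 20 = s.r 20 ∧ s'.r 3 = 2 * m + 3 * k ∧
      (∀ i < 2 * m, s'.a 11 i = s.a 11 i) ∧
      (∀ p < k, s'.a 11 (2 * m + 3 * p) = s.a 8 p ∧ s'.a 11 (2 * m + 3 * p + 1) = s.a 5 p ∧
        s'.a 11 (2 * m + 3 * p + 2) = n + s.a 9 p) ∧
      (∀ j, j ≠ 11 → s'.a j = s.a j))
    (by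
      rintro k s' _ hk ⟨h0, h1, h20, h3, h11, h11', hj⟩ hi hb
      have j9 := hj 9 (by decide)
      have j8 := hj 8 (by decide)
      have j5 := hj 5 (by decide)
      refine ⟨_, _, .seq (.blk _ _) (.seq (.add _ _ _ _ ?_) (.blk _ _)), ?_,
        ⟨?_, ?_, ?_, ?_, ?_, ?_, ?_⟩, ?_, ?_⟩
      · have := hcap k hk
        simp only [run, B.step, hi, ne_eq, Nat.reduceEqDiff, not_false_eq_true, Function.update_of_ne, Function.update_self, Function.update_idem, j9, OfNat.zero_ne_ofNat, h0, ge_iff_le]
        omega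
      · simp
      · simp only [run, B.step, ne_eq, Nat.reduceEqDiff, not_false_eq_true, Function.update_of_ne, Function.update_self, Function.update_idem, OfNat.zero_ne_ofNat, h0]
      · simp only [run, B.step, ne_eq, Nat.reduceEqDiff, not_false_eq_true, Function.update_of_ne, Function.update_self, Function.update_idem, OfNat.zero_ne_ofNat, OfNat.one_ne_ofNat, h1]
      · simp only [run, B.step, ne_eq, Nat.reduceEqDiff, not_false_eq_true, Function.update_of_ne, Function.update_self, Function.update_idem, OfNat.zero_ne_ofNat, h20]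
      · simp only [run, B.step, ne_eq, Nat.reduceEqDiff, not_false_eq_true, Function.update_of_ne, h3, Function.update_self, Function.update_idem, OfNat.zero_ne_ofNat, Nat.succ_ne_self]; omega
      · intro i hlt
        simp only [run, B.step, hi, j8, ne_eq, Nat.reduceEqDiff, not_false_eq_true, Function.update_of_ne, h3, Function.update_self, j5, Function.update_idem, j9, OfNat.zero_ne_ofNat, h0]
        simp only [Function.update_apply]
        rw [if_neg (by omega), if_neg (by omega), if_neg (by omega)]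
        exact h11 i hlt
      · intro p hp
        simp only [run, B.step, hi, j8, ne_eq, Nat.reduceEqDiff, not_false_eq_true, Function.update_of_ne, h3, Function.update_self, j5, Function.update_idem, j9, OfNat.zero_ne_ofNat, h0]
        simp only [Function.update_apply]
        by_cases hi' : p = k
        · subst hi'
          simp only [Nat.left_eq_add, one_ne_zero, ↓reduceIte, Nat.add_left_cancel_iff, ite_eq_right_iff, Nat.add_right_cancel_iff, true_and]
          omega
        · obtain ⟨c1, c2, c3⟩ := h11' p (by omega)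
          refine ⟨?_, ?_, ?_⟩
          · rw [if_neg (by omega), if_neg (by omega), if_neg (by omega)]
            exact c1
          · rw [if_neg (by omega), if_neg (by omega), if_neg (by omega)]
            exact c2
          · rw [if_neg (by (clear * - hi hi'; omega)), if_neg (by omega), if_neg (by omega)]
            exact c3
      · intro j hj9
        simp [run, B.step, hj9, hj j hj9]
      · simp only [run, B.step, hi, ne_eq, Nat.reduceEqDiff, not_false_eq_true, Function.update_of_ne, Function.update_self, Function.update_idem, OfNat.zero_ne_ofNat, Nat.add_left_cancel_iff]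
      · simp only [run, B.step, ne_eq, Nat.reduceEqDiff, not_false_eq_true, Function.update_of_ne, Function.update_self, Function.update_idem, OfNat.zero_ne_ofNat, hb])
    s1 (by omega) ⟨a0, a1, a20, by omega, by intro i _; rw [aa], by intro i hi; omega,
      by intro j _; rw [aa]⟩ a2 a7
  refine ⟨s2, _, .seq e1 e2, ?_, b0, b1, b7, b20, b11, b11', bj⟩
  omega

end Vale.Agent.P305
end
end

section

section

/-! Monotonicity of `Solves`. -/

set_option autoImplicit false

namespace Vale.Agent.P305

theorem Solves.mono {P : Prog} {C C' : ∀ n : ℕ, SimpleGraph (Fin n) → Prop}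
    {T T' : ∀ n : ℕ, SimpleGraph (Fin n) → ℕ} (h : Solves P C T)
    (hC : ∀ n G, C' n G → C n G) (hT : ∀ n G, C' n G → T n G ≤ T' n G) : Solves P C' T' := by
  obtain ⟨k, hk⟩ := h
  refine ⟨k, fun n G hG L => ?_⟩
  obtain ⟨t, s, M, e, ht, hM, hr⟩ := hk n G (hC n G hG) L
  exact ⟨t, s, M, e, ht.trans (hT n G hG), hM, hr⟩

end Vale.Agent.P305
end
end

section

section

/-! Union-find with ranks: invariant, `find`, `union` on the L1 machine. -/

set_option autoImplicit false
set_option linter.unusedSimpArgs false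
set_option linter.unusedVariables false

namespace Vale.Agent.P305

open Function (update)
open L1

variable {R : List ℕ → (ℕ → ℕ) → ℕ → Prop} {cap : ℕ}

/-- Loop rule with an invariant depending on the time used so far. -/
theorem loop_rule_t {c : Test} {p : Cmd} (I : ℕ → St → Prop) (μ : St → ℕ)
    (hstep : ∀ τ s, I τ s → c.holds s.r →
      ∃ s' t, Ex R cap p s t s' ∧ I (τ + t + 1) s' ∧ μ s' < μ s) :
    ∀ τ s, I τ s → ∃ s' t, Ex R cap (.loop c p) s (t + 1) s' ∧ I (τ + t) s' ∧ ¬ c.holds s'.r := by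
  intro τ s
  induction hn : μ s using Nat.strong_induction_on generalizing s τ with
  | _ k ih =>
    intro hI
    by_cases hc : c.holds s.r
    · obtain ⟨s1, t1, hex, hI1, ht1⟩ := hstep τ s hI hc
      obtain ⟨s2, t2, hex2, hI2, hc2⟩ := ih (μ s1) (by omega) (τ + t1 + 1) s1 rfl hI1
      refine ⟨s2, t1 + t2 + 1, ?_, ?_, hc2⟩
      · have := Ex.loopStep hc hex hex2
        have e : t1 + (t2 + 1) + 1 = t1 + t2 + 1 + 1 := by omega
        rwa [e] at this
      · have e : τ + (t1 + t2 + 1) = τ + t1 + 1 + t2 := by omega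
        rw [e]; exact hI2
    · exact ⟨s, 0, .loopDone hc, hI, hc⟩

/-- Union-find structure on the domain `D`, with representative function `ρ`. -/
structure UFok (n : ℕ) (D : ℕ → Prop) (uf rk ρ : ℕ → ℕ) : Prop where
  lt : ∀ v, D v → v < n
  root : ∀ v, D v → D (ρ v) ∧ uf (ρ v) = ρ v ∧ ρ (ρ v) = ρ v
  fix : ∀ v, D v → uf v = v → ρ v = v
  step : ∀ v, D v → D (uf v) ∧ ρ (uf v) = ρ v
  rank : ∀ v, D v → uf v ≠ v → rk v < rk (uf v)
  rkle : ∀ v, D v → rk v ≤ rk (ρ v)
  size : ∀ r, D r → ρ r = r → ∃ S : Finset ℕ, (∀ v ∈ S, D v ∧ ρ v = r) ∧ 2 ^ rk r ≤ S.card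

section
variable {n : ℕ} {D : ℕ → Prop} {uf rk ρ : ℕ → ℕ}

theorem UFok.rank_le (h : UFok n D uf rk ρ) {v : ℕ} (hv : D v) : rk (ρ v) ≤ Nat.log 2 n := by
  obtain ⟨S, hS, hc⟩ := h.size (ρ v) (h.root v hv).1 (h.root v hv).2.2
  have : S.card ≤ n := by
    have : S ⊆ Finset.range n := fun x hx => Finset.mem_range.2 (h.lt x (hS x hx).1)
    simpa only [ge_iff_le, Finset.card_range] using Finset.card_le_card this
  exact Nat.le_log_of_pow_le (by norm_num) (hc.trans this)

/-- Adding a new singleton. -/
theorem UFok.add (h : UFok n D uf rk ρ) {w : ℕ} (hw : ¬ D w) (hn : w < n) :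
    UFok n (fun v => D v ∨ v = w) (update uf w w) (update rk w 0) (update ρ w w) := by
  have hne : ∀ v, D v → v ≠ w := fun v hv e => hw (e ▸ hv)
  constructor
  · rintro v (hv | rfl)
    exacts [h.lt v hv, hn]
  · rintro v (hv | rfl)
    · have := h.root v hv
      simp only [Function.update_of_ne (hne v hv), Function.update_of_ne (hne _ this.1)]
      exact ⟨Or.inl this.1, this.2⟩
    · simp
  · rintro v (hv | rfl) he
    · simp only [Function.update_of_ne (hne v hv)] at he ⊢; exact h.fix v hv he
    · simp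
  · rintro v (hv | rfl)
    · have := h.step v hv
      simp only [Function.update_of_ne (hne v hv), Function.update_of_ne (hne _ this.1)]
      exact ⟨Or.inl this.1, this.2⟩
    · simp
  · rintro v (hv | rfl) he
    · simp only [Function.update_of_ne (hne v hv)] at he ⊢
      simp only [Function.update_of_ne (hne _ (h.step v hv).1)]; exact h.rank v hv he
    · simp at he
  · rintro v (hv | rfl)
    · simp only [Function.update_of_ne (hne v hv), Function.update_of_ne (hne _ (h.root v hv).1)]
      exact h.rkle v hv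
    · simp
  · rintro r (hr | rfl) he
    · simp only [Function.update_of_ne (hne r hr)] at he ⊢
      obtain ⟨S, hS, hc⟩ := h.size r hr he
      refine ⟨S, fun v hv => ⟨Or.inl (hS v hv).1, ?_⟩, hc⟩
      simp only [Function.update_of_ne (hne v (hS v hv).1)]; exact (hS v hv).2
    · exact ⟨{r}, by simp, by simp⟩

def uRoot (rk : ℕ → ℕ) (p q : ℕ) : ℕ := if rk p < rk q then q else p
def uUF (uf rk : ℕ → ℕ) (p q : ℕ) : ℕ → ℕ :=
  if rk p < rk q then update uf p q else update uf q p
def uRK (rk : ℕ → ℕ) (p q : ℕ) : ℕ → ℕ :=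
  if rk p = rk q then update rk p (rk p + 1) else rk
def uρ (rk ρ : ℕ → ℕ) (p q : ℕ) : ℕ → ℕ := fun v =>
  if ρ v = p ∨ ρ v = q then uRoot rk p q else ρ v

theorem UFok.union (h : UFok n D uf rk ρ) {p q : ℕ} (hp : D p) (hq : D q) (hpp : ρ p = p)
    (hqq : ρ q = q) (hpq : p ≠ q) :
    UFok n D (uUF uf rk p q) (uRK rk p q) (uρ rk ρ p q) := by
  classical
  have hup : uf p = p := by have := (h.root p hp).2.1; rwa [hpp] at this
  have huq : uf q = q := by have := (h.root q hq).2.1; rwa [hqq] at this
  -- abstract lemma: linking root `a` below root `b`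
  have key : ∀ a b : ℕ, D a → D b → ρ a = a → ρ b = b → uf a = a → uf b = b → a ≠ b →
      ∀ rk' : ℕ → ℕ, (∀ v, v ≠ b → rk' v = rk v) → rk b ≤ rk' b → rk a < rk' b →
      (2 ^ rk' b ≤ 2 ^ rk a + 2 ^ rk b ∨ rk' b = rk b) →
      UFok n D (update uf a b) rk' (fun v => if ρ v = a ∨ ρ v = b then b else ρ v) := by
    intro a b ha hb haa hbb hua hub hab rk' hrk1 hrk2 hrk3 hrk4
    have hρ : ∀ v, ρ v ≠ a → (if ρ v = a ∨ ρ v = b then b else ρ v) = ρ v := by
      intro v hv
      by_cases hb' : ρ v = b
      · simp [hb']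
      · simp [hv, hb']
    have hρa : ∀ v, ρ v = a → (if ρ v = a ∨ ρ v = b then b else ρ v) = b := by
      intro v hv; simp [hv]
    constructor
    · exact h.lt
    · intro v hv
      by_cases hva : ρ v = a
      · rw [hρa v hva]
        refine ⟨hb, ?_, ?_⟩
        · rw [Function.update_of_ne (Ne.symm hab)]; exact hub
        · rw [hρ b (by rw [hbb]; exact Ne.symm hab)]; exact hbb
      · have hr := h.root v hv
        rw [hρ v hva]
        refine ⟨hr.1, ?_, ?_⟩
        · rw [Function.update_of_ne hva]; exact hr.2.1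
        · rw [hρ _ (by rw [hr.2.2]; exact hva)]; exact hr.2.2
    · intro v hv he
      by_cases hva : v = a
      · subst hva
        rw [Function.update_self] at he
        exact absurd he (Ne.symm hab)
      · rw [Function.update_of_ne hva] at he
        have := h.fix v hv he
        rw [hρ v (by rw [this]; exact hva)]; exact this
    · intro v hv
      by_cases hva : v = a
      · subst hva
        rw [Function.update_self]
        refine ⟨hb, ?_⟩
        rw [hρa v haa, hρ b (by rw [hbb]; exact Ne.symm hab)]; exact hbb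
      · rw [Function.update_of_ne hva]
        have := h.step v hv
        exact ⟨this.1, by simp only [this.2]⟩
    · intro v hv he
      by_cases hva : v = a
      · subst hva
        rw [Function.update_self]
        rw [hrk1 v hab]; exact hrk3
      · rw [Function.update_of_ne hva] at he ⊢
        have hvb : v ≠ b := fun e => he (e ▸ hub)
        have h1 := h.rank v hv he
        rw [hrk1 v hvb]
        by_cases hfb : uf v = b
        · rw [hfb] at h1 ⊢; omega
        · rw [hrk1 _ hfb]; exact h1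
    · intro v hv
      have h1 := h.rkle v hv
      by_cases hva : ρ v = a
      · rw [hρa v hva]
        rw [hva] at h1
        by_cases hvb : v = b
        · rw [hvb]
        · rw [hrk1 v hvb]; omega
      · rw [hρ v hva]
        by_cases hvb : v = b
        · subst hvb; rw [hbb]
        · rw [hrk1 v hvb]
          by_cases hr : ρ v = b
          · rw [hr] at h1 ⊢; omega
          · rw [hrk1 _ hr]; exact h1
    · intro r hr he
      by_cases hra : ρ r = a
      · rw [hρa r hra] at he
        subst he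
        exact absurd (hbb.symm.trans hra) (Ne.symm hab)
      · rw [hρ r hra] at he
        by_cases hrb : r = b
        · subst hrb
          obtain ⟨Sa, hSa, hca⟩ := h.size a ha haa
          obtain ⟨Sb, hSb, hcb⟩ := h.size r hr hbb
          have hdisj : Disjoint Sa Sb := by
            rw [Finset.disjoint_left]
            intro x hx hx'
            exact hab ((hSa x hx).2.symm.trans (hSb x hx').2)
          rcases hrk4 with h4 | h4
          · refine ⟨Sa ∪ Sb, ?_, ?_⟩
            · intro x hx
              rcases Finset.mem_union.1 hx with hx | hx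
              · exact ⟨(hSa x hx).1, hρa x (hSa x hx).2⟩
              · exact ⟨(hSb x hx).1, by simp [(hSb x hx).2]⟩
            · rw [Finset.card_union_of_disjoint hdisj]
              (clear * - hca hcb h4; omega)
          · refine ⟨Sb, ?_, by rw [h4]; exact hcb⟩
            intro x hx
            exact ⟨(hSb x hx).1, by simp [(hSb x hx).2]⟩
        · obtain ⟨S, hS, hc⟩ := h.size r hr he
          refine ⟨S, ?_, by rw [hrk1 r hrb]; exact hc⟩
          intro x hx
          have hx2 := (hS x hx).2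
          refine ⟨(hS x hx).1, ?_⟩
          rw [hρ x (by rw [hx2]; rw [he] at hra; exact hra)]; exact hx2
  unfold uUF uRK uρ uRoot
  by_cases hlt : rk p < rk q
  · have hne : rk p ≠ rk q := by omega
    simp only [hlt, if_true, hne, if_false]
    exact key p q hp hq hpp hqq hup huq hpq rk (fun _ _ => rfl) le_rfl hlt (Or.inr rfl)
  · simp only [hlt, if_false]
    by_cases he : rk p = rk q
    · simp only [he, if_true]
      have := key q p hq hp hqq hpp huq hup (Ne.symm hpq) (update rk p (rk q + 1))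
        (fun v hv => by rw [Function.update_of_ne hv]) (by rw [Function.update_self]; omega)
        (by rw [Function.update_self]; omega)
        (Or.inl (by rw [Function.update_self, he, pow_succ]; (clear * -; omega)))
      simpa [or_comm] using this
    · simp only [he, if_false]
      have := key q p hq hp hqq hpp huq hup (Ne.symm hpq) rk (fun _ _ => rfl) le_rfl (by omega)
        (Or.inr rfl)
      simpa [or_comm] using this

end

/-- `find`: register 75: vertex, replaced by its representative. Register 76 is used. -/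
def findC : Cmd :=
  .seq (.blk [.load 56 76 75]) (.loop (.ne 76 75) (.blk [.copy 75 76, .load 56 76 75]))

theorem find_spec {n : ℕ} {D : ℕ → Prop} {rk ρ : ℕ → ℕ} (s : St)
    (h : UFok n D (s.a 56) rk ρ) {v : ℕ} (hr : s.r 75 = v) (hv : D v) :
    ∃ t, Ex R cap findC s t ⟨update (update s.r 75 (ρ v)) 76 (ρ v), s.a⟩ ∧
      t ≤ 3 * (Nat.log 2 n + 1) + 2 := by
  have e1 := Ex.blk (R := R) (cap := cap) [.load 56 76 75] s
  obtain ⟨s', t, e, ⟨hD, hρ, h76, hreg, harr⟩, hc, ht⟩ := loop_rule (R := R) (cap := cap)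
    (c := .ne 76 75) (p := .blk [.copy 75 76, .load 56 76 75])
    (fun s' => D (s'.r 75) ∧ ρ (s'.r 75) = ρ v ∧ s'.r 76 = s.a 56 (s'.r 75) ∧
      (∀ k, k ≠ 75 → k ≠ 76 → s'.r k = s.r k) ∧ s'.a = s.a)
    (fun s' => 3 * (rk (ρ v) - rk (s'.r 75)))
    (by
      rintro s' ⟨hD, hρ, h76, hreg, harr⟩ hc
      simp only [Test.holds] at hc
      rw [h76] at hc
      have hstep := h.step _ hD
      have hrank := h.rank _ hD hc
      have hle := h.rkle _ hstep.1
      rw [hstep.2, hρ] at hle
      refine ⟨_, _, Ex.blk _ _, ?_, ?_⟩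
      · simp only [run, B.step, h76, harr, Function.update_self, ne_eq, Nat.reduceEqDiff, not_false_eq_true, Function.update_of_ne, hstep.1, hstep.2, hρ, and_true, true_and]
        intro k h1 h2
        simp [Function.update_apply, h1, h2, hreg k h1 h2]
      · simp only [List.length_cons, List.length_nil, zero_add, Nat.reduceAdd, run, B.step, h76, Function.update_self, ne_eq, Nat.reduceEqDiff, not_false_eq_true, Function.update_of_ne]
        omega)
    (run [.load 56 76 75] s)
    (by
      simp only [run, B.step, hr, ne_eq, Nat.reduceEqDiff, not_false_eq_true, Function.update_of_ne, hv, Function.update_self, and_true, true_and]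
      intro k h1 h2
      simp [h2])
  simp only [Test.holds, ne_eq, not_not] at hc
  have hroot : s'.r 75 = ρ v := by
    rw [h76] at hc
    rw [← hρ]; exact (h.fix _ hD hc).symm
  have hs' : s' = ⟨update (update s.r 75 (ρ v)) 76 (ρ v), s.a⟩ := by
    cases s' with
    | mk r a =>
      simp only at hroot hc hreg harr
      congr 1
      funext k
      by_cases h1 : k = 76
      · subst h1; simp [hc, hroot]
      · by_cases h2 : k = 75
        · subst h2; simp [hroot]
        · simp [h1, h2, hreg k h2 h1]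
  rw [hs'] at e
  refine ⟨_, Ex.seq e1 e, ?_⟩
  have := h.rank_le hv
  simp only [List.length_cons, List.length_nil]
  omega

/-- `baseOf`: register 75: vertex, replaced by the base of its class. -/
def baseC : Cmd := .seq findC (.blk [.load 58 75 75])

theorem base_spec {n : ℕ} {D : ℕ → Prop} {rk ρ : ℕ → ℕ} (s : St)
    (h : UFok n D (s.a 56) rk ρ) {v b : ℕ} (hr : s.r 75 = v) (hv : D v)
    (hb : s.a 58 (ρ v) = b) :
    ∃ t, Ex R cap baseC s t ⟨update (update s.r 75 b) 76 (ρ v), s.a⟩ ∧
      t ≤ 3 * (Nat.log 2 n + 1) + 3 := by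
  obtain ⟨t, e, ht⟩ := find_spec (R := R) (cap := cap) s h hr hv
  have e2 := Ex.blk (R := R) (cap := cap) [.load 58 75 75] ⟨update (update s.r 75 (ρ v)) 76 (ρ v), s.a⟩
  have hs' : run [.load 58 75 75] ⟨update (update s.r 75 (ρ v)) 76 (ρ v), s.a⟩ =
      ⟨update (update s.r 75 b) 76 (ρ v), s.a⟩ := by
    simp only [run, B.step]
    congr 1
    funext k
    by_cases h1 : k = 75
    · subst h1; simp [hb]
    · by_cases h2 : k = 76
      · subst h2; simp
      · simp only [ne_eq, Nat.reduceEqDiff, not_false_eq_true, Function.update_of_ne, Function.update_self, h1, h2]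
  rw [hs'] at e2
  refine ⟨_, Ex.seq e e2, ?_⟩
  simp only [List.length_cons, List.length_nil]; omega

/-- `union` of the distinct roots in registers 82, 83; new root in register 85. -/
def unionC : Cmd :=
  .seq (.blk [.load 57 86 82, .load 57 87 83])
    (.ite (.lt 86 87) (.blk [.store 56 82 83, .copy 85 83])
      (.seq (.ite (.eq 86 87) (.blk [.inc 86, .store 57 82 86]) (.blk []))
        (.blk [.store 56 83 82, .copy 85 82])))

theorem union_spec (s : St) {p q : ℕ} (hp : s.r 82 = p) (hq : s.r 83 = q) (hpq : p ≠ q) :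
    ∃ s' t, Ex R cap unionC s t s' ∧ t ≤ 8 ∧ s'.r 85 = uRoot (s.a 57) p q ∧
      (∀ k, k ∉ [85, 86, 87] → s'.r k = s.r k) ∧
      s'.a 56 = uUF (s.a 56) (s.a 57) p q ∧ s'.a 57 = uRK (s.a 57) p q ∧
      (∀ j, j ≠ 56 → j ≠ 57 → s'.a j = s.a j) := by
  have e1 := Ex.blk (R := R) (cap := cap) [.load 57 86 82, .load 57 87 83] s
  by_cases hlt : s.a 57 p < s.a 57 q
  · refine ⟨_, _, Ex.seq e1 (Ex.iteTrue ?_ (Ex.blk _ _)), ?_, ?_, ?_, ?_, ?_, ?_⟩
    · simpa [Test.holds, run, B.step, hp, hq] using hlt
    · simp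
    · simp only [run, B.step, hp, ne_eq, Nat.reduceEqDiff, not_false_eq_true, Function.update_of_ne, hq, Function.update_self, uRoot, hlt, ↓reduceIte]
    · intro k hk
      simp only [List.mem_cons, List.not_mem_nil, or_false, not_or] at hk
      simp only [run, B.step, ne_eq, Nat.reduceEqDiff, not_false_eq_true, Function.update_of_ne, hk]
    · simp only [run, B.step, hp, ne_eq, Nat.reduceEqDiff, not_false_eq_true, Function.update_of_ne, hq, Function.update_self, uUF, hlt, ↓reduceIte]
    · have : ¬ s.a 57 p = s.a 57 q := by omega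
      simp only [run, B.step, hp, ne_eq, Nat.reduceEqDiff, not_false_eq_true, Function.update_of_ne, hq, Nat.succ_ne_self, uRK, this, ↓reduceIte]
    · intro j h1 h2
      simp [run, B.step, Function.update_apply, h1]
  · by_cases he : s.a 57 p = s.a 57 q
    · refine ⟨_, _, Ex.seq e1 (Ex.iteFalse ?_ (Ex.seq (Ex.iteTrue ?_ (Ex.blk _ _)) (Ex.blk _ _))),
        ?_, ?_, ?_, ?_, ?_, ?_⟩
      · simpa only [Test.holds, run, B.step, hp, ne_eq, Nat.reduceEqDiff, not_false_eq_true, Function.update_of_ne,     hq, Function.update_self, not_lt] using hlt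
      · simpa [Test.holds, run, B.step, hp, hq] using he
      · simp
      · simp only [run, B.step, hp, he, ne_eq, Nat.reduceEqDiff, not_false_eq_true, Function.update_of_ne, hq, Function.update_self, uRoot, lt_self_iff_false, ↓reduceIte]
      · intro k hk
        simp only [List.mem_cons, List.not_mem_nil, or_false, not_or] at hk
        simp only [run, B.step, ne_eq, Nat.reduceEqDiff, not_false_eq_true, Function.update_of_ne, Function.update_self, hk]
      · simp only [run, B.step, hp, he, ne_eq, Nat.reduceEqDiff, not_false_eq_true, Function.update_of_ne, hq, Function.update_self, uUF, lt_self_iff_false, ↓reduceIte]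
      · simp [run, B.step, hp, hq, uRK, he]
      · intro j h1 h2
        simp only [run, B.step, ne_eq, Nat.reduceEqDiff, not_false_eq_true, Function.update_of_ne, Function.update_self, h1, h2]
    · refine ⟨_, _, Ex.seq e1 (Ex.iteFalse ?_ (Ex.seq (Ex.iteFalse ?_ (Ex.blk _ _)) (Ex.blk _ _))),
        ?_, ?_, ?_, ?_, ?_, ?_⟩
      · simpa only [Test.holds, run, B.step, hp, ne_eq, Nat.reduceEqDiff, not_false_eq_true, Function.update_of_ne,     hq, Function.update_self, not_lt] using hlt
      · simpa [Test.holds, run, B.step, hp, hq] using he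
      · simp
      · simp [run, B.step, hp, hq, uRoot, hlt]
      · intro k hk
        simp only [List.mem_cons, List.not_mem_nil, or_false, not_or] at hk
        simp [run, B.step, Function.update_apply, hk]
      · simp [run, B.step, hp, hq, uUF, hlt]
      · simp [run, B.step, uRK, he]
      · intro j h1 h2
        simp [run, B.step, Function.update_apply, h1]

end Vale.Agent.P305
end
end

section

section

/-! Alternating forests with blossoms: labels, paths, invariants. -/

set_option autoImplicit false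

namespace Vale.Agent.P305

/-- Label state: `lab v = 0` unlabelled, `1` outer by growth (or root), `2` inner, `3` inner turned
outer in a blossom with bridge `(ba v, bb v)`; `par` parent of inner vertices, `base` base of the
blossom of an outer vertex, `dep` depth. -/
structure BS where
  lab : ℕ → ℕ
  par : ℕ → ℕ
  ba : ℕ → ℕ
  bb : ℕ → ℕ
  base : ℕ → ℕ
  dep : ℕ → ℕ

def BS.Out (s : BS) (v : ℕ) : Prop := s.lab v = 1 ∨ s.lab v = 3

/-- Alternating path from `a` to `b`, given by its vertices in even positions except `b`. -/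
inductive AP (A : ℕ → ℕ → Prop) (m : ℕ → ℕ) : ℕ → List ℕ → ℕ → Prop
  | nil (v : ℕ) : AP A m v [] v
  | cons {v c t : ℕ} {L : List ℕ} (hv : m v ≠ v) (h : A (m v) c) (hL : AP A m c L t) :
      AP A m v (v :: L) t

/-- The path encoded by the labels. -/
inductive EL (m : ℕ → ℕ) (s : BS) : ℕ → ℕ → List ℕ → Prop
  | nil (v : ℕ) : EL m s v v []
  | tree {v t : ℕ} {L : List ℕ} (h1 : s.lab v = 1) (hm : m v ≠ v)
      (h : EL m s (s.par (m v)) t L) : EL m s v t (v :: L)
  | brid {v t : ℕ} {L1 L2 : List ℕ} (h3 : s.lab v = 3) (h1 : EL m s (s.ba v) (m v) L1)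
      (h2 : EL m s (s.bb v) t L2) : EL m s v t (v :: ((L1.map m).reverse ++ L2))

def ND (m : ℕ → ℕ) (L : List ℕ) : Prop := L.Nodup ∧ ∀ x ∈ L, m x ∉ L

theorem AP.append {A : ℕ → ℕ → Prop} {m : ℕ → ℕ} {a b c : ℕ} {L1 L2 : List ℕ}
    (h1 : AP A m a L1 b) (h2 : AP A m b L2 c) : AP A m a (L1 ++ L2) c := by
  induction h1 with
  | nil v => simpa using h2
  | cons hv h _ ih => exact AP.cons hv h (ih h2)

theorem AP.revmap {A : ℕ → ℕ → Prop} {m : ℕ → ℕ} (hs : ∀ {u v}, A u v → A v u)
    (hi : ∀ v, m (m v) = v) {a b : ℕ} {L : List ℕ} (h : AP A m a L b) :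
    ∀ {c : ℕ}, m b ≠ b → A a c → AP A m (m b) (m b :: (L.map m).reverse) c := by
  induction h with
  | nil v =>
    intro c hb hc
    refine AP.cons ?_ ?_ (AP.nil c)
    · rw [hi]; exact fun h => hb h.symm
    · rw [hi]; exact hc
  | @cons v d t L hv hd hL ih =>
    intro c hb hc
    have h1 := ih hb (hs hd)
    have h2 : AP A m (m v) [m v] c := by
      refine AP.cons ?_ ?_ (AP.nil c)
      · rw [hi]; exact fun h => hv h.symm
      · rw [hi]; exact hc
    have := h1.append h2
    simpa using this

theorem EL.append {m : ℕ → ℕ} {s : BS} {a b c : ℕ} {L1 L2 : List ℕ}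
    (h1 : EL m s a b L1) (h2 : EL m s b c L2) : EL m s a c (L1 ++ L2) := by
  induction h1 with
  | nil v => simpa using h2
  | tree h1 hm _ ih => exact EL.tree h1 hm (ih h2)
  | @brid v t L1 L2' h3 ha _ _ ih2 =>
    have := EL.brid h3 ha (ih2 h2)
    simpa using this

/-- Persistence of label paths when labels of outer vertices are not changed. -/
theorem EL.mono {m : ℕ → ℕ} {s s' : BS} {a b : ℕ} {L : List ℕ} (h : EL m s a b L)
    (h1 : ∀ y, s.lab y = 1 → s'.lab y = 1 ∧ (m y ≠ y → s'.par (m y) = s.par (m y)))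
    (h3 : ∀ y, s.lab y = 3 → s'.lab y = 3 ∧ s'.ba y = s.ba y ∧ s'.bb y = s.bb y) :
    EL m s' a b L := by
  induction h with
  | nil v => exact EL.nil v
  | tree hl hm _ ih =>
    refine EL.tree (h1 _ hl).1 hm ?_
    rw [(h1 _ hl).2 hm]; exact ih
  | brid hl _ _ ih1 ih2 =>
    obtain ⟨e1, e2, e3⟩ := h3 _ hl
    refine EL.brid e1 ?_ ?_
    · rw [e2]; exact ih1
    · rw [e3]; exact ih2

/-- The invariant of the forest search. `vs` is the set of vertices of the (sub)graph. -/
structure Inv (vs : ℕ → Prop) (A : ℕ → ℕ → Prop) (m : ℕ → ℕ) (s : BS) : Prop where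
  le3 : ∀ v, vs v → s.lab v ≤ 3
  vsl : ∀ v, s.lab v = 1 ∨ s.lab v = 2 ∨ s.lab v = 3 → vs v
  root : ∀ v, vs v → m v = v → s.lab v = 1 ∧ s.base v = v
  tmate : ∀ v, s.lab v = 1 → m v ≠ v → s.lab (m v) = 2 ∨ s.lab (m v) = 3
  imate : ∀ v, s.lab v = 2 ∨ s.lab v = 3 → s.lab (m v) = 1
  par : ∀ v, s.lab v = 2 ∨ s.lab v = 3 → A v (s.par v) ∧ s.Out (s.par v)
  br : ∀ v, s.lab v = 3 → A (s.ba v) (s.bb v) ∧ s.Out (s.ba v) ∧ s.Out (s.bb v)
  blab : ∀ v, s.Out v → s.lab (s.base v) = 1 ∧ s.base (s.base v) = s.base v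
  base3 : ∀ v, s.lab v = 3 → s.base (m v) = s.base v ∧ s.base v ≠ m v
  base2 : ∀ v, s.lab v = 2 → s.base (m v) = m v
  depp : ∀ v, s.lab v = 2 → s.dep (s.base (s.par v)) < s.dep (m v)
  dep0 : ∀ v, s.lab v = 1 → (s.dep v = 0 ↔ m v = v)
  path : ∀ v, s.Out v → ∃ L, EL m s v (s.base v) L ∧ ND m L ∧
    ∀ y ∈ L, s.Out y ∧ s.base y = s.base v ∧ y ≠ s.base v

section
variable {vs : ℕ → Prop} {A : ℕ → ℕ → Prop} {m : ℕ → ℕ} {s : BS}

theorem EL.toAP (hs : ∀ {u v}, A u v → A v u) (hM : Mat A m) (hI : Inv vs A m s) {a b : ℕ}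
    {L : List ℕ} (h : EL m s a b L) : AP A m a L b := by
  induction h with
  | nil v => exact AP.nil v
  | @tree v t L h1 hm _ ih =>
    have := hI.par (m v) (hI.tmate v h1 hm)
    exact AP.cons hm this.1 ih
  | @brid v t L1 L2 h3 _ _ ih1 ih2 =>
    have hv : m (m v) ≠ m v := by
      intro h
      rw [hM.inv] at h
      have h1 := hI.imate v (Or.inr h3)
      rw [← h] at h1
      omega
    have h1 := ih1.revmap hs hM.inv hv (hI.br v h3).1
    rw [hM.inv] at h1
    have := h1.append ih2
    simpa using this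

theorem Inv.mate_blossom (hM : Mat A m) (hI : Inv vs A m s) {y : ℕ} (hy : s.Out y)
    (hne : y ≠ s.base y) : m y ≠ y ∧ s.Out (m y) ∧ s.base (m y) = s.base y ∧ m y ≠ s.base y := by
  rcases hy with h1 | h3
  · have hmy : m y ≠ y := fun h => hne (hI.root y (hI.vsl y (Or.inl h1)) h).2.symm
    rcases hI.tmate y h1 hmy with h2 | h3
    · have := hI.base2 _ h2
      rw [hM.inv] at this
      exact absurd this.symm hne
    · have h := hI.base3 _ h3
      rw [hM.inv] at h
      refine ⟨hmy, Or.inr h3, h.1.symm, ?_⟩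
      intro h'
      have hb := (hI.blab y (Or.inl h1)).1
      rw [← h'] at hb
      omega
  · have h := hI.base3 _ h3
    have h1 := hI.imate y (Or.inr h3)
    have hmy : m y ≠ y := by intro h'; rw [h'] at h1; omega
    exact ⟨hmy, Or.inl h1, h.1, fun h' => h.2 h'.symm⟩

/-- Chains of bases. -/
inductive Ch (m : ℕ → ℕ) (s : BS) : ℕ → List ℕ → ℕ → Prop
  | nil (z : ℕ) : Ch m s z [] z
  | cons {x z : ℕ} {cs : List ℕ} (h2 : s.lab (m x) = 2)
      (h : Ch m s (s.base (s.par (m x))) cs z) : Ch m s x (x :: cs) z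

theorem Inv.out_par (hI : Inv vs A m s) {v : ℕ} (h : s.lab v = 2) : s.Out (s.par v) :=
  (hI.par v (Or.inl h)).2

/-- The path along a chain of bases. -/
theorem Inv.chain_path (hM : Mat A m) (hI : Inv vs A m s) {x z : ℕ} {cs : List ℕ}
    (hc : Ch m s x cs z) (hzb : s.base z = z) : ∀ v, s.Out v → s.base v = x → cs.Nodup → z ∉ cs →
      ∃ L, EL m s v z L ∧ ND m L ∧
        ∀ y ∈ L, s.Out y ∧ (s.base y ∈ cs ∨ s.base y = z) ∧ y ≠ z := by
  induction hc with
  | nil z =>
    intro v hv hb _ _
    obtain ⟨L, h1, h2, h3⟩ := hI.path v hv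
    refine ⟨L, hb ▸ h1, h2, fun y hy => ?_⟩
    obtain ⟨a, b, c⟩ := h3 y hy
    rw [hb] at b c
    exact ⟨a, Or.inr b, c⟩
  | @cons x z cs h2 hch ih =>
    intro v hv hb hnd hz
    obtain ⟨L0, hE0, hN0, hL0⟩ := hI.path v hv
    rw [hb] at hE0 hL0
    have hpar := hI.out_par h2
    obtain ⟨L', hE', hN', hL'⟩ := ih hzb _ hpar rfl (List.nodup_cons.1 hnd).2
      (fun h => hz (List.mem_cons_of_mem _ h))
    have hx1 : s.lab x = 1 := by
      have := (hI.blab v hv).1
      rwa [hb] at this
    have hxb : s.base x = x := by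
      have := (hI.blab v hv).2
      rwa [hb] at this
    have hmx : m x ≠ x := by intro h; rw [h] at h2; omega
    have hzx : x ≠ z := fun h => hz (h ▸ List.mem_cons_self)
    have hxcs : x ∉ cs := (List.nodup_cons.1 hnd).1
    have hx_notL' : x ∉ L' := by
      intro h
      rcases (hL' x h).2.1 with h' | h'
      · rw [hxb] at h'; exact hxcs h'
      · rw [hxb] at h'; exact hzx h'
    have hbase' : ∀ y ∈ L', s.base y ≠ x := by
      intro y hy h
      rcases (hL' y hy).2.1 with h' | h'
      · rw [h] at h'; exact hxcs h'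
      · rw [h] at h'; exact hzx h'
    refine ⟨L0 ++ (x :: L'), hE0.append (EL.tree hx1 hmx hE'), ⟨?_, ?_⟩, ?_⟩
    · rw [List.nodup_append]
      refine ⟨hN0.1, List.nodup_cons.2 ⟨hx_notL', hN'.1⟩, ?_⟩
      intro a ha b hb' hab
      subst hab
      rcases List.mem_cons.1 hb' with h | h
      · exact (hL0 a ha).2.2 h
      · exact hbase' a h (hL0 a ha).2.1
    · intro y hy hmy
      rcases List.mem_append.1 hy with hy | hy
      · -- y in L0
        have hyb := hL0 y hy
        have hne : y ≠ s.base y := by rw [hyb.2.1]; exact hyb.2.2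
        have hmb := hI.mate_blossom hM hyb.1 hne
        rw [hyb.2.1] at hmb
        rcases List.mem_append.1 hmy with h | h
        · exact hN0.2 y hy h
        · rcases List.mem_cons.1 h with h | h
          · exact hmb.2.2.2 h
          · exact hbase' _ h hmb.2.2.1
      · rcases List.mem_cons.1 hy with hy | hy
        · subst hy
          have hno : ¬ s.Out (m y) := by
            rintro (h | h) <;> omega
          rcases List.mem_append.1 hmy with h | h
          · exact hno (hL0 _ h).1
          · rcases List.mem_cons.1 h with h | h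
            · exact hmx h
            · exact hno (hL' _ h).1
        · rcases List.mem_append.1 hmy with h | h
          · have hyb := hL0 _ h
            have hne : m y ≠ s.base (m y) := by rw [hyb.2.1]; exact hyb.2.2
            have hmb := hI.mate_blossom hM hyb.1 hne
            rw [hM.inv, hyb.2.1] at hmb
            exact hbase' y hy hmb.2.2.1
          · rcases List.mem_cons.1 h with h | h
            · have : y = m x := by rw [← h, hM.inv]
              have hno : ¬ s.Out (m x) := by
                rintro (h | h) <;> omega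
              exact hno (this ▸ (hL' y hy).1)
            · exact hN'.2 y hy h
    · intro y hy
      rcases List.mem_append.1 hy with hy | hy
      · have h := hL0 y hy
        refine ⟨h.1, Or.inl ?_, ?_⟩
        · rw [h.2.1]; exact List.mem_cons_self
        · rintro rfl
          exact hzx (h.2.1 ▸ hzb)
      · rcases List.mem_cons.1 hy with hy | hy
        · subst hy
          exact ⟨Or.inl hx1, Or.inl (by rw [hxb]; exact List.mem_cons_self), hzx⟩
        · have h := hL' y hy
          exact ⟨h.1, h.2.1.imp (fun h => List.mem_cons_of_mem _ h) id, h.2.2⟩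

/-- Growing the forest from the outer vertex `u` over the edge `u v`, `v` unlabelled. -/
def BS.grow (s : BS) (m : ℕ → ℕ) (u v : ℕ) : BS where
  lab := fun y => if y = m v then 1 else if y = v then 2 else s.lab y
  par := fun y => if y = v then u else s.par y
  ba := s.ba
  bb := s.bb
  base := fun y => if y = m v then m v else s.base y
  dep := fun y => if y = m v then s.dep (s.base u) + 1 else s.dep y

theorem Inv.grow (hs : ∀ {u v}, A u v → A v u) (hvs : ∀ {u v}, A u v → vs u) (hM : Mat A m)
    (hI : Inv vs A m s) {u v : ℕ} (hu : s.Out u) (huv : A u v) (hv : s.lab v = 0) :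
    Inv vs A m (s.grow m u v) := by
  have hvv : vs v := hvs (hs huv)
  have hmv : m v ≠ v := by
    intro h
    have := (hI.root v hvv h).1
    omega
  have hvm : vs (m v) := hvs (hs (hM.adj v hmv))
  have hmm : m (m v) = v := hM.inv v
  have hm0 : s.lab (m v) = 0 := by
    have h3 := hI.le3 _ hvm
    by_contra h0
    have : s.lab (m v) = 1 ∨ s.lab (m v) = 2 ∨ s.lab (m v) = 3 := by omega
    rcases this with h | h
    · have := hI.tmate _ h (by rw [hmm]; exact fun h => hmv h.symm)
      rw [hmm] at this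
      omega
    · have := hI.imate _ h
      rw [hmm] at this
      omega
  have hne : ∀ y, s.lab y ≠ 0 → y ≠ v ∧ y ≠ m v := by
    intro y hy
    exact ⟨fun h => hy (h ▸ hv), fun h => hy (h ▸ hm0)⟩
  have hlab : ∀ y, s.lab y ≠ 0 → (s.grow m u v).lab y = s.lab y := by
    intro y hy
    simp [BS.grow, hne y hy]
  have hbase : ∀ y, s.lab y ≠ 0 → (s.grow m u v).base y = s.base y := by
    intro y hy
    simp [BS.grow, hne y hy]
  have hdep : ∀ y, s.lab y ≠ 0 → (s.grow m u v).dep y = s.dep y := by
    intro y hy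
    simp [BS.grow, hne y hy]
  have hpar : ∀ y, s.lab y ≠ 0 → (s.grow m u v).par y = s.par y := by
    intro y hy
    simp [BS.grow, hne y hy]
  have hlv : (s.grow m u v).lab v = 2 := by simp [BS.grow, Ne.symm hmv]
  have hlm : (s.grow m u v).lab (m v) = 1 := by simp [BS.grow]
  have hbm : (s.grow m u v).base (m v) = m v := by simp [BS.grow]
  have hout : ∀ y, s.Out y → (s.grow m u v).Out y := by
    intro y hy
    have : s.lab y ≠ 0 := by rcases hy with h | h <;> omega
    unfold BS.Out
    rw [hlab y this]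
    exact hy
  have hout0 : ∀ y, s.Out y → s.lab y ≠ 0 := by
    intro y hy; rcases hy with h | h <;> omega
  -- case distinction on labels of the new state
  have hcase : ∀ y, (y = m v) ∨ (y = v) ∨ (y ≠ m v ∧ y ≠ v ∧ (s.grow m u v).lab y = s.lab y) := by
    intro y
    by_cases h1 : y = m v
    · exact Or.inl h1
    · by_cases h2 : y = v
      · exact Or.inr (Or.inl h2)
      · exact Or.inr (Or.inr ⟨h1, h2, by simp [BS.grow, h1, h2]⟩)
  constructor
  · -- le3
    intro y hy
    rcases hcase y with h | h | ⟨_, _, h⟩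
    · rw [h, hlm]; omega
    · rw [h, hlv]; omega
    · rw [h]; exact hI.le3 y hy
  · -- vsl
    intro y hy
    rcases hcase y with h | h | ⟨_, _, h⟩
    · rw [h]; exact hvm
    · rw [h]; exact hvv
    · rw [h] at hy; exact hI.vsl y hy
  · -- root
    intro y hy hmy
    have h := hI.root y hy hmy
    have h0 : s.lab y ≠ 0 := by omega
    rw [hlab y h0, hbase y h0]; exact h
  · -- tmate
    intro y hy hmy
    rcases hcase y with h | h | ⟨_, _, h⟩
    · rw [h, hmm]; exact Or.inl hlv
    · rw [h] at hy; omega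
    · rw [h] at hy
      have := hI.tmate y hy hmy
      rw [hlab (m y) (by omega)]; exact this
  · -- imate
    intro y hy
    rcases hcase y with h | h | ⟨_, _, h⟩
    · rw [h, hlm] at hy; omega
    · rw [h]; exact hlm
    · rw [h] at hy
      have := hI.imate y hy
      rw [hlab (m y) (by omega)]; exact this
  · -- par
    intro y hy
    rcases hcase y with h | h | ⟨_, h2, h⟩
    · rw [h, hlm] at hy; omega
    · subst h
      have : (s.grow m u y).par y = u := by simp [BS.grow]
      rw [this]; exact ⟨hs huv, hout u hu⟩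
    · rw [h] at hy
      have := hI.par y hy
      rw [hpar y (by omega)]; exact ⟨this.1, hout _ this.2⟩
  · -- br
    intro y hy
    rcases hcase y with h | h | ⟨_, h2, h⟩
    · rw [h, hlm] at hy; omega
    · rw [h, hlv] at hy; omega
    · rw [h] at hy
      have := hI.br y hy
      exact ⟨this.1, hout _ this.2.1, hout _ this.2.2⟩
  · -- blab
    intro y hy
    rcases hcase y with h | h | ⟨_, h2, h⟩
    · rw [h, hbm]; exact ⟨hlm, hbm⟩
    · unfold BS.Out at hy; rw [h, hlv] at hy; omega
    · unfold BS.Out at hy; rw [h] at hy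
      have := hI.blab y hy
      rw [hbase y (hout0 y hy), hlab _ (by omega), hbase _ (by omega)]; exact this
  · -- base3
    intro y hy
    rcases hcase y with h | h | ⟨_, h2, h⟩
    · rw [h, hlm] at hy; omega
    · rw [h, hlv] at hy; omega
    · rw [h] at hy
      have h1 := hI.imate y (Or.inr hy)
      rw [hbase y (by omega), hbase (m y) (by omega)]; exact hI.base3 y hy
  · -- base2
    intro y hy
    rcases hcase y with h | h | ⟨_, h2, h⟩
    · rw [h, hlm] at hy; omega
    · rw [h]; exact hbm
    · rw [h] at hy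
      have h1 := hI.imate y (Or.inl hy)
      rw [hbase (m y) (by omega)]; exact hI.base2 y hy
  · -- depp
    intro y hy
    rcases hcase y with h | h | ⟨_, h2, h⟩
    · rw [h, hlm] at hy; omega
    · subst h
      have h1 : (s.grow m u y).par y = u := by simp [BS.grow]
      have h2 := hI.blab u hu
      rw [h1, hbase u (hout0 u hu), hdep _ (by omega)]
      simp only [BS.grow, ↓reduceIte, lt_add_iff_pos_right, Order.lt_one_iff]
    · rw [h] at hy
      have h1 := hI.imate y (Or.inl hy)
      have h2 := hI.par y (Or.inl hy)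
      have h3 := hI.blab _ h2.2
      rw [hpar y (by omega), hbase _ (hout0 _ h2.2), hdep _ (by omega), hdep _ (by omega)]
      exact hI.depp y hy
  · -- dep0
    intro y hy
    rcases hcase y with h | h | ⟨_, h2, h⟩
    · rw [h, hmm]
      constructor
      · intro h0; simp [BS.grow] at h0
      · intro h0; exact absurd h0.symm hmv
    · rw [h, hlv] at hy; omega
    · rw [h] at hy
      rw [hdep y (by omega)]; exact hI.dep0 y hy
  · -- path
    intro y hy
    rcases hcase y with h | h | ⟨_, h2, h⟩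
    · rw [h, hbm]
      exact ⟨[], EL.nil _, ⟨List.nodup_nil, by simp⟩, by simp⟩
    · unfold BS.Out at hy; rw [h, hlv] at hy; omega
    · unfold BS.Out at hy; rw [h] at hy
      obtain ⟨L, hE, hN, hL⟩ := hI.path y hy
      rw [hbase y (hout0 y hy)]
      refine ⟨L, hE.mono ?_ ?_, hN, ?_⟩
      · intro w hw
        refine ⟨by rw [hlab w (by omega)]; exact hw, fun hmw => ?_⟩
        have := hI.tmate w hw hmw
        exact hpar _ (by omega)
      · intro w hw
        exact ⟨by rw [hlab w (by omega)]; exact hw, rfl, rfl⟩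
      · intro w hw
        obtain ⟨a, b, c⟩ := hL w hw
        exact ⟨hout w a, by rw [hbase w (hout0 w a)]; exact b, c⟩

theorem Ch.split {x z : ℕ} {cs : List ℕ} (h : Ch m s x cs z) :
    ∀ c ∈ cs, ∃ p q, cs = p ++ c :: q ∧ Ch m s x p c ∧ Ch m s c (c :: q) z := by
  induction h with
  | nil z => simp
  | @cons x z cs h2 hch ih =>
    intro c hc
    by_cases hcx : c = x
    · subst hcx
      exact ⟨[], cs, rfl, Ch.nil _, Ch.cons h2 hch⟩
    · have : c ∈ cs := by
        rcases List.mem_cons.1 hc with h | h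
        · exact absurd h hcx
        · exact h
      obtain ⟨p, q, e, hp, hq⟩ := ih c this
      exact ⟨x :: p, q, by rw [e]; rfl, Ch.cons h2 hp, hq⟩

theorem Inv.chain_facts (hM : Mat A m) (hI : Inv vs A m s) {x z : ℕ} {cs : List ℕ} (h : Ch m s x cs z) :
    s.lab x = 1 → s.base x = x →
      (∀ c ∈ cs, s.lab c = 1 ∧ s.base c = c ∧ s.lab (m c) = 2 ∧ s.dep z < s.dep c) ∧
      s.lab z = 1 ∧ s.base z = z ∧ s.dep z ≤ s.dep x := by
  induction h with
  | nil z => intro h1 h2; exact ⟨by simp only [List.not_mem_nil, IsEmpty.forall_iff, implies_true], h1, h2, le_refl _⟩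
  | @cons x z cs h2 hch ih =>
    intro h1 hb
    have hp := hI.out_par h2
    have hbl := hI.blab _ hp
    obtain ⟨ha, hz1, hzb, hd⟩ := ih hbl.1 hbl.2
    have hdx : s.dep (s.base (s.par (m x))) < s.dep x := by
      have hd := hI.depp _ h2
      rwa [hM.inv] at hd
    refine ⟨?_, hz1, hzb, by omega⟩
    intro c hc
    rcases List.mem_cons.1 hc with h | h
    · subst h; exact ⟨h1, hb, h2, by omega⟩
    · exact ha c h

/-- Contracting the blossom of the edge `u v` with base `z`; `cu`, `cv` are the chains of bases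
from `u` resp. `v` to `z`. -/
def BS.contract (s : BS) (m : ℕ → ℕ) (u v : ℕ) (cu cv : List ℕ) (z : ℕ) : BS where
  lab := fun y => if m y ∈ cu ++ cv then 3 else s.lab y
  par := s.par
  ba := fun y => if m y ∈ cu then u else if m y ∈ cv then v else s.ba y
  bb := fun y => if m y ∈ cu then v else if m y ∈ cv then u else s.bb y
  base := fun y => if m y ∈ cu ++ cv ∨ s.base y ∈ cu ++ cv then z else s.base y
  dep := s.dep

/-- The path of a newly outer vertex, one side. -/
theorem Inv.new_path (hM : Mat A m) (hI : Inv vs A m s) {s' : BS} {u v : ℕ} {cu cv : List ℕ}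
    {z y : ℕ} (hu : s.Out u) (hv : s.Out v) (hcu : Ch m s (s.base u) cu z)
    (hcv : Ch m s (s.base v) cv z) (hnd : (cu ++ cv).Nodup) (hz : z ∉ cu ++ cv)
    (hy : m y ∈ cu)
    (hl1 : ∀ w, s.lab w = 1 → s'.lab w = 1) (hpar : s'.par = s.par)
    (hl3 : ∀ w, s.lab w = 3 → s'.lab w = 3 ∧ s'.ba w = s.ba w ∧ s'.bb w = s.bb w)
    (hy3 : s'.lab y = 3) (hba : s'.ba y = u) (hbb : s'.bb y = v)
    (hbz : ∀ w, (s.Out w ∧ (s.base w ∈ cu ++ cv ∨ s.base w = z)) ∨ m w ∈ cu ++ cv →
      s'.Out w ∧ s'.base w = z) :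
    ∃ L, EL m s' y z L ∧ ND m L ∧ ∀ w ∈ L, s'.Out w ∧ s'.base w = z ∧ w ≠ z := by
  have hub := hI.blab u hu
  have hvb := hI.blab v hv
  obtain ⟨fu, hz1, hzb, _⟩ := hI.chain_facts hM hcu hub.1 hub.2
  obtain ⟨fv, _, _, _⟩ := hI.chain_facts hM hcv hvb.1 hvb.2
  have hndu : cu.Nodup := (List.nodup_append.1 hnd).1
  have hndv : cv.Nodup := (List.nodup_append.1 hnd).2.1
  have hdisj : ∀ a ∈ cu, a ∉ cv := fun a ha hb => (List.nodup_append.1 hnd).2.2 a ha a hb rfl
  have hzu : z ∉ cu := fun h => hz (List.mem_append_left _ h)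
  have hzv : z ∉ cv := fun h => hz (List.mem_append_right _ h)
  obtain ⟨p, q, epq, hp, hq⟩ := hcu.split _ hy
  set c := m y with hc
  have hmc : m c = y := hM.inv y
  have hcf := fu c hy
  have hcp : c ∉ p := by
    intro h
    rw [epq] at hndu
    exact (List.nodup_append.1 hndu).2.2 c h c List.mem_cons_self rfl
  have hpn : p.Nodup := by rw [epq] at hndu; exact (List.nodup_append.1 hndu).1
  have hpcu : ∀ a ∈ p, a ∈ cu := fun a ha => by rw [epq]; exact List.mem_append_left _ ha
  obtain ⟨L1, hE1, hN1, hL1⟩ := hI.chain_path hM hp hcf.2.1 u hu rfl hpn hcp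
  obtain ⟨L2, hE2, hN2, hL2⟩ := hI.chain_path hM hcv hzb v hv rfl hndv hzv
  have hbase1 : ∀ a ∈ L1, s.base a ∈ cu := by
    intro a ha
    rcases (hL1 a ha).2.1 with h | h
    · exact hpcu _ h
    · rw [h]; exact hy
  have hbase2 : ∀ a ∈ L2, s.base a ∈ cv ∨ s.base a = z := fun a ha => (hL2 a ha).2.1
  have hyno : ¬ s.Out y := by
    have := hcf.2.2.1
    rw [hmc] at this
    rintro (h | h) <;> omega
  have hylab : s.lab y = 2 := by have := hcf.2.2.1; rwa [hmc] at this
  have hcy : c ≠ y := by intro h; rw [h] at hcf; omega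
  have hy1 : y ∉ L1 := fun h => hyno (hL1 y h).1
  have hy2 : y ∉ L2 := fun h => hyno (hL2 y h).1
  have hc1 : c ∉ L1 := fun h => (hL1 c h).2.2 rfl
  have hc2 : c ∉ L2 := by
    intro h
    rcases hbase2 c h with h | h
    · rw [hcf.2.1] at h; exact hdisj c hy h
    · rw [hcf.2.1] at h; exact hzu (h ▸ hy)
  -- mates of elements of L1
  have hm1 : ∀ a ∈ L1, (s.Out (m a) ∧ s.base (m a) ∈ cu) ∨ (s.lab (m a) = 2 ∧ a ∈ cu) := by
    intro a ha
    have h := hL1 a ha
    by_cases hab : a = s.base a
    · right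
      have : a ∈ cu := by rw [hab]; exact hbase1 a ha
      exact ⟨(fu a this).2.2.1, this⟩
    · left
      have := hI.mate_blossom hM h.1 hab
      exact ⟨this.2.1, by rw [this.2.2.1]; exact hbase1 a ha⟩
  have hdis12 : ∀ a ∈ L1, a ∉ L2 := by
    intro a ha hb
    rcases hbase2 a hb with h | h
    · exact hdisj _ (hbase1 a ha) h
    · exact hzu (h ▸ hbase1 a ha)
  have hm12 : ∀ a ∈ L1, m a ∉ L2 := by
    intro a ha hb
    rcases hm1 a ha with ⟨_, h⟩ | ⟨h, _⟩
    · rcases hbase2 _ hb with h' | h'
      · exact hdisj _ h h'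
      · exact hzu (h' ▸ h)
    · have := (hL2 _ hb).1
      rcases this with h' | h' <;> omega
  have minj : Function.Injective m := fun a b h => by rw [← hM.inv a, h, hM.inv]
  refine ⟨y :: ((L1.map m).reverse ++ L2), ?_, ⟨?_, ?_⟩, ?_⟩
  · refine EL.brid hy3 ?_ ?_
    · rw [hba]
      exact hE1.mono (fun w hw => ⟨hl1 w hw, fun _ => by rw [hpar]⟩) hl3
    · rw [hbb]
      exact hE2.mono (fun w hw => ⟨hl1 w hw, fun _ => by rw [hpar]⟩) hl3
  · rw [List.nodup_cons]
    refine ⟨?_, ?_⟩
    · intro h
      rcases List.mem_append.1 h with h | h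
      · obtain ⟨a, ha, e⟩ := List.mem_map.1 (List.mem_reverse.1 h)
        have : a = c := by rw [← hM.inv a, e]
        exact hc1 (this ▸ ha)
      · exact hy2 h
    · rw [List.nodup_append]
      refine ⟨List.nodup_reverse.2 (hN1.1.map minj), hN2.1, ?_⟩
      intro a ha b hb hab
      obtain ⟨a', ha', e⟩ := List.mem_map.1 (List.mem_reverse.1 ha)
      subst hab
      rw [← e] at hb
      exact hm12 a' ha' hb
  · intro w hw hmw
    rcases List.mem_cons.1 hw with hw | hw
    · subst hw
      rcases List.mem_cons.1 hmw with h | h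
      · exact hcy h
      · rcases List.mem_append.1 h with h | h
        · obtain ⟨a, ha, e⟩ := List.mem_map.1 (List.mem_reverse.1 h)
          have : a = w := minj e
          exact hy1 (this ▸ ha)
        · exact hc2 h
    · rcases List.mem_append.1 hw with hw | hw
      · obtain ⟨a, ha, e⟩ := List.mem_map.1 (List.mem_reverse.1 hw)
        have hmwa : m w = a := by rw [← e, hM.inv]
        rw [hmwa] at hmw
        rcases List.mem_cons.1 hmw with h | h
        · exact hy1 (h ▸ ha)
        · rcases List.mem_append.1 h with h | h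
          · obtain ⟨a', ha', e'⟩ := List.mem_map.1 (List.mem_reverse.1 h)
            exact hN1.2 a' ha' (e'.symm ▸ ha)
          · exact hdis12 a ha h
      · rcases List.mem_cons.1 hmw with h | h
        · have : w = c := by rw [← hM.inv w, h]
          exact hc2 (this ▸ hw)
        · rcases List.mem_append.1 h with h | h
          · obtain ⟨a, ha, e⟩ := List.mem_map.1 (List.mem_reverse.1 h)
            have : a = w := minj e
            exact hdis12 a ha (this ▸ hw)
          · exact hN2.2 w hw h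
  · intro w hw
    have key : ((s.Out w ∧ (s.base w ∈ cu ++ cv ∨ s.base w = z)) ∨ m w ∈ cu ++ cv) ∧ w ≠ z := by
      rcases List.mem_cons.1 hw with hw | hw
      · subst hw
        exact ⟨Or.inr (List.mem_append_left _ hy), fun h => by rw [h] at hylab; omega⟩
      · rcases List.mem_append.1 hw with hw | hw
        · obtain ⟨a, ha, e⟩ := List.mem_map.1 (List.mem_reverse.1 hw)
          rcases hm1 a ha with ⟨h1, h2⟩ | ⟨h1, h2⟩
          · rw [e] at h1 h2
            exact ⟨Or.inl ⟨h1, Or.inl (List.mem_append_left _ h2)⟩,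
              fun h => by rw [h, hzb] at h2; exact hzu h2⟩
          · rw [e] at h1
            refine ⟨Or.inr ?_, fun h => by rw [h] at h1; omega⟩
            rw [← e, hM.inv]; exact List.mem_append_left _ h2
        · have h := hL2 w hw
          exact ⟨Or.inl ⟨h.1, h.2.1.imp (fun h => List.mem_append_right _ h) id⟩, h.2.2⟩
    have := hbz w key.1
    exact ⟨this.1, this.2, key.2⟩

theorem Inv.contract (hs : ∀ {u v}, A u v → A v u) (hM : Mat A m) (hI : Inv vs A m s)
    {u v : ℕ} {cu cv : List ℕ} {z : ℕ} (hu : s.Out u) (hv : s.Out v) (huv : A u v)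
    (hcu : Ch m s (s.base u) cu z) (hcv : Ch m s (s.base v) cv z) (hnd : (cu ++ cv).Nodup)
    (hz : z ∉ cu ++ cv) : Inv vs A m (s.contract m u v cu cv z) := by
  have hub := hI.blab u hu
  have hvb := hI.blab v hv
  obtain ⟨fu, hz1, hzb, _⟩ := hI.chain_facts hM hcu hub.1 hub.2
  obtain ⟨fv, _, _, _⟩ := hI.chain_facts hM hcv hvb.1 hvb.2
  have f : ∀ c ∈ cu ++ cv, s.lab c = 1 ∧ s.base c = c ∧ s.lab (m c) = 2 ∧ s.dep z < s.dep c := by
    intro c hc
    rcases List.mem_append.1 hc with h | h
    · exact fu c h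
    · exact fv c h
  set s' := s.contract m u v cu cv z with hs'
  -- basic facts on the new labels
  have hnew : ∀ y, m y ∈ cu ++ cv → s.lab y = 2 := by
    intro y hy
    have := (f _ hy).2.2.1
    rwa [hM.inv] at this
  have hl_new : ∀ y, m y ∈ cu ++ cv → s'.lab y = 3 := by
    intro y hy; simp only [hs', BS.contract]; rw [if_pos hy]
  have hl_old : ∀ y, m y ∉ cu ++ cv → s'.lab y = s.lab y := by
    intro y hy; simp only [hs', BS.contract]; rw [if_neg hy]
  have hl_ne2 : ∀ y, s.lab y ≠ 2 → m y ∉ cu ++ cv := fun y hy h => hy (hnew y h)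
  have hb_new : ∀ y, m y ∈ cu ++ cv → s'.base y = z := by
    intro y hy; simp only [hs', BS.contract]; rw [if_pos (Or.inl hy)]
  have hb_in : ∀ y, s.base y ∈ cu ++ cv → s'.base y = z := by
    intro y hy; simp only [hs', BS.contract]; rw [if_pos (Or.inr hy)]
  have hb_out : ∀ y, m y ∉ cu ++ cv → s.base y ∉ cu ++ cv → s'.base y = s.base y := by
    intro y h1 h2
    simp only [hs', BS.contract]; rw [if_neg (by rintro (h | h); exacts [h1 h, h2 h])]
  have hb_z : ∀ y, m y ∉ cu ++ cv → s.base y = z → s'.base y = z := by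
    intro y h1 h2
    rw [hb_out y h1 (by rw [h2]; exact hz), h2]
  have hout : ∀ y, s.Out y → s'.Out y := by
    intro y hy
    have : s.lab y ≠ 2 := by rcases hy with h | h <;> omega
    unfold BS.Out
    rw [hl_old y (hl_ne2 y this)]; exact hy
  have hout2 : ∀ y, s.Out y → m y ∉ cu ++ cv := by
    intro y hy
    exact hl_ne2 y (by rcases hy with h | h <;> omega)
  have hzz : s'.base z = z := hb_z z (hout2 z (Or.inl hz1)) hzb
  have hzl : s'.lab z = 1 := by rw [hl_old z (hout2 z (Or.inl hz1))]; exact hz1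
  have hcases : ∀ y, m y ∈ cu ++ cv ∨ (m y ∉ cu ++ cv ∧ s'.lab y = s.lab y) := by
    intro y
    by_cases h : m y ∈ cu ++ cv
    · exact Or.inl h
    · exact Or.inr ⟨h, hl_old y h⟩
  have hbase_cases : ∀ y, s.Out y → (s.base y ∈ cu ++ cv ∧ s'.base y = z) ∨
      (s.base y ∉ cu ++ cv ∧ s'.base y = s.base y) := by
    intro y hy
    by_cases h : s.base y ∈ cu ++ cv
    · exact Or.inl ⟨h, hb_in y h⟩
    · exact Or.inr ⟨h, hb_out y (hout2 y hy) h⟩
  constructor
  · -- le3
    intro y hy
    rcases hcases y with h | ⟨_, h⟩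
    · rw [hl_new y h]
    · rw [h]; exact hI.le3 y hy
  · -- vsl
    intro y hy
    rcases hcases y with h | ⟨_, h⟩
    · exact hI.vsl y (Or.inr (Or.inl (hnew y h)))
    · rw [h] at hy; exact hI.vsl y hy
  · -- root
    intro y hy hmy
    have h := hI.root y hy hmy
    have ho : s.Out y := Or.inl h.1
    have hyn : y ∉ cu ++ cv := by
      intro h'
      have := (f y h').2.2.1
      rw [hmy] at this; omega
    refine ⟨by rw [hl_old y (hout2 y ho)]; exact h.1, ?_⟩
    rw [hb_out y (hout2 y ho) (by rw [h.2]; exact hyn)]; exact h.2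
  · -- tmate
    intro y hy hmy
    rcases hcases y with h | ⟨_, h⟩
    · rw [hl_new y h] at hy; omega
    · rw [h] at hy
      rcases hcases (m y) with h' | ⟨_, h'⟩
      · right; exact hl_new _ h'
      · rw [h']; exact hI.tmate y hy hmy
  · -- imate
    intro y hy
    have hy2 : s.lab y = 2 ∨ s.lab y = 3 := by
      rcases hcases y with h | ⟨_, h⟩
      · exact Or.inl (hnew y h)
      · rw [h] at hy; exact hy
    have h1 := hI.imate y hy2
    rw [hl_old (m y) (hout2 _ (Or.inl h1))]; exact h1
  · -- par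
    intro y hy
    have hy2 : s.lab y = 2 ∨ s.lab y = 3 := by
      rcases hcases y with h | ⟨_, h⟩
      · exact Or.inl (hnew y h)
      · rw [h] at hy; exact hy
    have := hI.par y hy2
    exact ⟨this.1, hout _ this.2⟩
  · -- br
    intro y hy
    by_cases h1 : m y ∈ cu
    · have e1 : s'.ba y = u := by simp only [hs', BS.contract, List.mem_append, h1, ↓reduceIte]
      have e2 : s'.bb y = v := by simp [hs', BS.contract, h1]
      rw [e1, e2]; exact ⟨huv, hout u hu, hout v hv⟩
    · by_cases h2 : m y ∈ cv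
      · have e1 : s'.ba y = v := by simp only [hs', BS.contract, List.mem_append, h1, ↓reduceIte, h2]
        have e2 : s'.bb y = u := by simp [hs', BS.contract, h1, h2]
        rw [e1, e2]; exact ⟨hs huv, hout v hv, hout u hu⟩
      · have e1 : s'.ba y = s.ba y := by simp [hs', BS.contract, h1, h2]
        have e2 : s'.bb y = s.bb y := by simp only [hs', BS.contract, List.mem_append, h1, ↓reduceIte, h2]
        have hn : m y ∉ cu ++ cv := by
          intro h; rcases List.mem_append.1 h with h | h
          exacts [h1 h, h2 h]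
        rw [hl_old y hn] at hy
        rw [e1, e2]
        have := hI.br y hy
        exact ⟨this.1, hout _ this.2.1, hout _ this.2.2⟩
  · -- blab
    intro y hy
    rcases hcases y with h | ⟨hn, h⟩
    · rw [hb_new y h]; exact ⟨hzl, hzz⟩
    · have hy' : s.Out y := by unfold BS.Out at hy ⊢; rw [h] at hy; exact hy
      rcases hbase_cases y hy' with ⟨_, e⟩ | ⟨hnb, e⟩
      · rw [e]; exact ⟨hzl, hzz⟩
      · have hb := hI.blab y hy'
        rw [e, hl_old _ (hout2 _ (Or.inl hb.1))]
        refine ⟨hb.1, ?_⟩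
        rw [hb_out _ (hout2 _ (Or.inl hb.1)) (by rw [hb.2]; exact hnb)]; exact hb.2
  · -- base3
    intro y hy
    rcases hcases y with h | ⟨hn, h⟩
    · have hb := f _ h
      rw [hb_new y h, hb_in (m y) (by rw [hb.2.1]; exact h)]
      exact ⟨rfl, fun e => hz (e ▸ h)⟩
    · rw [h] at hy
      have h1 := hI.imate y (Or.inr hy)
      have h3 := hI.base3 y hy
      rcases hbase_cases y (Or.inr hy) with ⟨hb, e⟩ | ⟨hnb, e⟩
      · rw [e, hb_in (m y) (by rw [h3.1]; exact hb)]
        refine ⟨rfl, fun e' => ?_⟩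
        have : s.base (m y) = z := by rw [← e']; exact hzb
        rw [h3.1] at this
        exact hz (this ▸ hb)
      · rw [e, hb_out (m y) (hout2 _ (Or.inl h1)) (by rw [h3.1]; exact hnb)]
        exact h3
  · -- base2
    intro y hy
    rcases hcases y with h | ⟨hn, h⟩
    · rw [hl_new y h] at hy; omega
    · rw [h] at hy
      have h1 := hI.imate y (Or.inl hy)
      have h2 := hI.base2 y hy
      rw [hb_out (m y) (hout2 _ (Or.inl h1)) (by rw [h2]; exact hn)]; exact h2
  · -- depp
    intro y hy
    rcases hcases y with h | ⟨hn, h⟩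
    · rw [hl_new y h] at hy; omega
    · rw [h] at hy
      have hp := hI.par y (Or.inl hy)
      have hd := hI.depp y hy
      show s.dep (s'.base (s.par y)) < s.dep (m y)
      rcases hbase_cases _ hp.2 with ⟨hb, e⟩ | ⟨hnb, e⟩
      · rw [e]; have := (f _ hb).2.2.2; omega
      · rw [e]; exact hd
  · -- dep0
    intro y hy
    rcases hcases y with h | ⟨hn, h⟩
    · rw [hl_new y h] at hy; omega
    · rw [h] at hy; exact hI.dep0 y hy
  · -- path
    have hl1 : ∀ w, s.lab w = 1 → s'.lab w = 1 := fun w hw => by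
      rw [hl_old w (hout2 w (Or.inl hw))]; exact hw
    have hl3 : ∀ w, s.lab w = 3 → s'.lab w = 3 ∧ s'.ba w = s.ba w ∧ s'.bb w = s.bb w := by
      intro w hw
      have hn := hout2 w (Or.inr hw)
      have h1 : m w ∉ cu := fun h => hn (List.mem_append_left _ h)
      have h2 : m w ∉ cv := fun h => hn (List.mem_append_right _ h)
      refine ⟨by rw [hl_old w hn]; exact hw, ?_, ?_⟩ <;> simp [hs', BS.contract, h1, h2]
    have hbz : ∀ w, (s.Out w ∧ (s.base w ∈ cu ++ cv ∨ s.base w = z)) ∨ m w ∈ cu ++ cv →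
        s'.Out w ∧ s'.base w = z := by
      rintro w (⟨h1, h2 | h2⟩ | h)
      · exact ⟨hout w h1, hb_in w h2⟩
      · exact ⟨hout w h1, hb_z w (hout2 w h1) h2⟩
      · exact ⟨Or.inr (hl_new w h), hb_new w h⟩
    intro y hy
    by_cases hyu : m y ∈ cu
    · have hyn : m y ∈ cu ++ cv := List.mem_append_left _ hyu
      obtain ⟨L, h1, h2, h3⟩ := hI.new_path hM hu hv hcu hcv hnd hz hyu hl1 rfl hl3
        (hl_new y hyn) (by simp only [hs', BS.contract, List.mem_append, hyu, ↓reduceIte]) (by simp [hs', BS.contract, hyu]) hbz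
      rw [hb_new y hyn]
      exact ⟨L, h1, h2, h3⟩
    · by_cases hyv : m y ∈ cv
      · have hyn : m y ∈ cu ++ cv := List.mem_append_right _ hyv
        have hnd' : (cv ++ cu).Nodup := by
          rw [List.nodup_append] at hnd ⊢
          exact ⟨hnd.2.1, hnd.1, fun a ha b hb e => hnd.2.2 b hb a ha e.symm⟩
        have hmem : ∀ a, a ∈ cv ++ cu ↔ a ∈ cu ++ cv := by
          intro a; simp only [List.mem_append]; exact or_comm
        obtain ⟨L, h1, h2, h3⟩ := hI.new_path (s' := s') hM hv hu hcv hcu hnd'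
          (by rw [hmem]; exact hz) hyv hl1 rfl hl3
          (hl_new y hyn) (by simp [hs', BS.contract, hyu, hyv])
          (by simp [hs', BS.contract, hyu, hyv])
          (by intro w hw; rw [hmem, hmem] at hw; exact hbz w hw)
        rw [hb_new y hyn]
        exact ⟨L, h1, h2, h3⟩
      · have hn : m y ∉ cu ++ cv := by
          intro h; rcases List.mem_append.1 h with h | h
          exacts [hyu h, hyv h]
        have hy' : s.Out y := by unfold BS.Out at hy ⊢; rwa [hl_old y hn] at hy
        have hmono : ∀ {a b : ℕ} {L : List ℕ}, EL m s a b L → EL m s' a b L := fun h =>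
          h.mono (fun w hw => ⟨hl1 w hw, fun _ => rfl⟩) hl3
        rcases hbase_cases y hy' with ⟨hb, e⟩ | ⟨hnb, e⟩
        · -- inside one of the contracted blossoms
          rw [e]
          have side : ∀ (cs : List ℕ) (x : ℕ), Ch m s x cs z → s.lab x = 1 → s.base x = x →
              cs.Nodup → z ∉ cs → (∀ a ∈ cs, a ∈ cu ++ cv) → s.base y ∈ cs →
              ∃ L, EL m s' y z L ∧ ND m L ∧ ∀ w ∈ L, s'.Out w ∧ s'.base w = z ∧ w ≠ z := by
            intro cs x hch hx1 hx2 hnd1 hz2 hsub hin
            obtain ⟨p, q, epq, hp, hq⟩ := hch.split _ hin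
            have hqn : (s.base y :: q).Nodup := by
              rw [epq] at hnd1; exact (List.nodup_append.1 hnd1).2.1
            have hqs : ∀ a ∈ s.base y :: q, a ∈ cs := fun a ha => by
              rw [epq]; exact List.mem_append_right _ ha
            obtain ⟨L, h1, h2, h3⟩ := hI.chain_path hM hq hzb y hy' rfl hqn
              (fun h => hz2 (hqs _ h))
            refine ⟨L, hmono h1, h2, fun w hw => ?_⟩
            have := h3 w hw
            have h4 := hbz w (Or.inl ⟨this.1, this.2.1.imp (fun h => hsub _ (hqs _ h)) id⟩)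
            exact ⟨h4.1, h4.2, this.2.2⟩
          rcases List.mem_append.1 hb with h | h
          · exact side cu _ hcu hub.1 hub.2 (List.nodup_append.1 hnd).1
              (fun h => hz (List.mem_append_left _ h)) (fun a ha => List.mem_append_left _ ha) h
          · exact side cv _ hcv hvb.1 hvb.2 (List.nodup_append.1 hnd).2.1
              (fun h => hz (List.mem_append_right _ h)) (fun a ha => List.mem_append_right _ ha) h
        · rw [e]
          obtain ⟨L, h1, h2, h3⟩ := hI.path y hy'
          refine ⟨L, hmono h1, h2, fun w hw => ?_⟩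
          obtain ⟨a, b, c⟩ := h3 w hw
          refine ⟨hout w a, ?_, c⟩
          rcases hbase_cases w a with ⟨hb', _⟩ | ⟨_, e'⟩
          · rw [b] at hb'; exact absurd hb' hnb
          · rw [e', b]

end

end Vale.Agent.P305
end
end

section

section

/-! Optimality of the matching when the forest search fails; augmentation along label paths. -/

set_option autoImplicit false

namespace Vale.Agent.P305

theorem even_card_of_inv (S : Finset ℕ) (f : ℕ → ℕ) (h1 : ∀ x ∈ S, f x ∈ S)
    (h2 : ∀ x ∈ S, f x ≠ x) (h3 : ∀ x ∈ S, f (f x) = x) : Even S.card := by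
  have : ∑ x ∈ S, (1 : ZMod 2) = 0 := by
    refine Finset.sum_involution (fun x _ => f x) ?_ ?_ ?_ ?_
    · intro x hx; decide
    · intro x hx _; exact h2 x hx
    · intro x hx; exact h1 x hx
    · intro x hx; exact h3 x hx
  rw [Finset.sum_const, nsmul_eq_mul, mul_one] at this
  exact (ZMod.natCast_eq_zero_iff_even).1 this

/-- The search is finished: outer vertices only see inner vertices and their own blossom. -/
def BS.Final (A : ℕ → ℕ → Prop) (s : BS) : Prop :=
  ∀ u v, s.Out u → A u v → s.lab v = 2 ∨ (s.Out v ∧ s.base u = s.base v)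

section
variable {vs : ℕ → Prop} {A : ℕ → ℕ → Prop} {m : ℕ → ℕ} {s : BS}

/-- Odd components: if `m'` is a matching, every blossom contains a vertex which `m'` leaves
exposed or joins to an inner vertex. -/
theorem Inv.exists_leaving {n : ℕ} (hn : ∀ v, vs v → v < n)
    (hM : Mat A m) (hI : Inv vs A m s) (hF : s.Final A) {m' : ℕ → ℕ} (hm' : Mat A m') {b : ℕ}
    (hb : s.lab b = 1) (hbb : s.base b = b) :
    ∃ y, s.Out y ∧ s.base y = b ∧ (m' y = y ∨ s.lab (m' y) = 2) := by
  classical
  by_contra hcon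
  push Not at hcon
  have hout_lt : ∀ y, s.Out y → y < n := by
    intro y hy
    exact hn y (hI.vsl y (by rcases hy with h | h <;> omega))
  let S := (Finset.range n).filter (fun y => s.Out y ∧ s.base y = b)
  have hS : ∀ y, y ∈ S ↔ s.Out y ∧ s.base y = b := by
    intro y
    simp only [S, Finset.mem_filter, Finset.mem_range]
    exact ⟨fun h => h.2, fun h => ⟨hout_lt y h.1, h⟩⟩
  have e1 : Even S.card := by
    refine even_card_of_inv S m' ?_ ?_ ?_
    · intro y hy
      rw [hS] at hy
      have h := hcon y hy.1 hy.2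
      have ha := hm'.adj y h.1
      rcases hF y (m' y) hy.1 ha with h' | h'
      · exact absurd h' h.2
      · rw [hS]; exact ⟨h'.1, h'.2 ▸ hy.2⟩
    · intro y hy
      rw [hS] at hy
      exact (hcon y hy.1 hy.2).1
    · intro y _; exact hm'.inv y
  have e2 : Even (S.erase b).card := by
    refine even_card_of_inv _ m ?_ ?_ ?_
    · intro y hy
      rw [Finset.mem_erase, hS] at hy
      have := hI.mate_blossom hM hy.2.1 (by rw [hy.2.2]; exact hy.1)
      rw [Finset.mem_erase, hS]
      rw [hy.2.2] at this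
      exact ⟨this.2.2.2, this.2.1, this.2.2.1⟩
    · intro y hy
      rw [Finset.mem_erase, hS] at hy
      exact (hI.mate_blossom hM hy.2.1 (by rw [hy.2.2]; exact hy.1)).1
    · intro y _; exact hM.inv y
  have hbS : b ∈ S := by rw [hS]; exact ⟨Or.inl hb, hbb⟩
  have := Finset.card_erase_add_one hbS
  rw [← this] at e1
  exact (Nat.even_add_one.1 e1) e2

theorem Inv.optimal {n : ℕ} (hn : ∀ v, vs v → v < n)
    (hvA : ∀ {u v}, A u v → vs u) (hM : Mat A m) (hI : Inv vs A m s) (hF : s.Final A) :
    IsMax n A m := by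
  classical
  refine ⟨hM, fun m' hm' => ?_⟩
  let Bs := (Finset.range n).filter (fun b => s.lab b = 1 ∧ s.base b = b)
  let I2 := (Finset.range n).filter (fun w => s.lab w = 2)
  let E := (Finset.range n).filter (fun v => vs v ∧ m v = v)
  let E' := (Finset.range n).filter (fun v => s.Out v ∧ m' v = v)
  let X := (Finset.range n).filter (fun v => ¬ vs v)
  have hlt : ∀ v, s.lab v = 1 ∨ s.lab v = 2 ∨ s.lab v = 3 → v < n := fun v h => hn v (hI.vsl v h)
  have c1 : E.card + I2.card ≤ Bs.card := by
    have minj : Function.Injective m := fun a b h => by rw [← hM.inv a, h, hM.inv]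
    have himg : (I2.image m).card = I2.card := Finset.card_image_of_injective _ minj
    have hdisj : Disjoint E (I2.image m) := by
      rw [Finset.disjoint_left]
      intro v hv hv'
      simp only [E, Finset.mem_filter, Finset.mem_range] at hv
      simp only [Finset.mem_image, Finset.mem_filter, Finset.mem_range, I2] at hv'
      obtain ⟨w, ⟨_, hw⟩, e⟩ := hv'
      have h1 := (hI.root v hv.2.1 hv.2.2).1
      have : w = v := by rw [← hM.inv w, e, hv.2.2]
      rw [this] at hw; omega
    rw [← himg, ← Finset.card_union_of_disjoint hdisj]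
    apply Finset.card_le_card
    intro v hv
    rcases Finset.mem_union.1 hv with hv | hv
    · simp only [E, Finset.mem_filter, Finset.mem_range] at hv
      simp only [Bs, Finset.mem_filter, Finset.mem_range]
      exact ⟨hv.1, hI.root v hv.2.1 hv.2.2⟩
    · simp only [I2, Finset.mem_image, Finset.mem_filter, Finset.mem_range] at hv
      obtain ⟨w, ⟨_, hw⟩, e⟩ := hv
      simp only [Bs, Finset.mem_filter, Finset.mem_range]
      have h1 := hI.imate w (Or.inl hw)
      rw [← e]
      exact ⟨hlt _ (Or.inl h1), h1, hI.base2 w hw⟩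
  have c2 : Bs.card ≤ E'.card + I2.card := by
    have hex : ∀ b ∈ Bs, ∃ y, s.Out y ∧ s.base y = b ∧ (m' y = y ∨ s.lab (m' y) = 2) := by
      intro b hb
      simp only [Bs, Finset.mem_filter, Finset.mem_range] at hb
      exact hI.exists_leaving hn hM hF hm' hb.2.1 hb.2.2
    choose! y hy using hex
    have : Bs.card ≤ (E' ∪ I2).card := by
      refine Finset.card_le_card_of_injOn (fun b => m' (y b)) ?_ ?_
      · intro b hb
        have h := hy b hb
        rw [Finset.mem_coe, Finset.mem_union]
        rcases h.2.2 with h' | h'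
        · left
          simp only [E', Finset.mem_filter, Finset.mem_range]
          rw [h']
          exact ⟨hlt _ (by rcases h.1 with h | h <;> omega), h.1, h'⟩
        · right
          simp only [I2, Finset.mem_filter, Finset.mem_range]
          exact ⟨hlt _ (Or.inr (Or.inl h')), h'⟩
      · intro b1 h1 b2 h2 e
        have e' : y b1 = y b2 := by
          have := congrArg m' e
          simpa only [hm'.inv] using this
        rw [← (hy b1 h1).2.1, ← (hy b2 h2).2.1, e']
    exact this.trans (Finset.card_union_le _ _)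
  have e1 : (exposed n m).card = E.card + X.card := by
    have hdisj : Disjoint E X := by
      rw [Finset.disjoint_left]
      intro v hv hv'
      simp only [E, Finset.mem_filter, Finset.mem_range] at hv
      simp only [X, Finset.mem_filter, Finset.mem_range] at hv'
      exact hv'.2 hv.2.1
    rw [← Finset.card_union_of_disjoint hdisj]
    congr 1
    ext v
    simp only [exposed, E, X, Finset.mem_union, Finset.mem_filter, Finset.mem_range]
    constructor
    · rintro ⟨h1, h2⟩
      by_cases h : vs v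
      · exact Or.inl ⟨h1, h, h2⟩
      · exact Or.inr ⟨h1, h⟩
    · rintro (⟨h1, _, h3⟩ | ⟨h1, h2⟩)
      · exact ⟨h1, h3⟩
      · refine ⟨h1, ?_⟩
        by_contra h
        exact h2 (hvA (hM.adj v h))
  have e2 : E'.card + X.card ≤ (exposed n m').card := by
    have hdisj : Disjoint E' X := by
      rw [Finset.disjoint_left]
      intro v hv hv'
      simp only [E', Finset.mem_filter, Finset.mem_range] at hv
      simp only [X, Finset.mem_filter, Finset.mem_range] at hv'
      exact hv'.2 (hI.vsl v (by rcases hv.2.1 with h | h <;> omega))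
    rw [← Finset.card_union_of_disjoint hdisj]
    apply Finset.card_le_card
    intro v hv
    simp only [exposed, E', X, Finset.mem_union, Finset.mem_filter, Finset.mem_range] at hv ⊢
    rcases hv with ⟨h1, _, h3⟩ | ⟨h1, h2⟩
    · exact ⟨h1, h3⟩
    · refine ⟨h1, ?_⟩
      by_contra h
      exact h2 (hvA (hm'.adj v h))
  omega

end

/-! ### Flipping -/

/-- `f` joins the vertices along the path `L`, `t` the other way round. -/
def Flp (m f : ℕ → ℕ) : List ℕ → ℕ → Prop
  | [], _ => True
  | a :: L, t => f (m a) = L.headD t ∧ f (L.headD t) = m a ∧ Flp m f L t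

theorem Flp.append {m f : ℕ → ℕ} {L1 L2 : List ℕ} {t : ℕ} (h1 : Flp m f L1 (L2.headD t))
    (h2 : Flp m f L2 t) : Flp m f (L1 ++ L2) t := by
  induction L1 with
  | nil => simpa using h2
  | cons a L ih =>
    obtain ⟨ha, hb, hc⟩ := h1
    have e : (L ++ L2).headD t = L.headD (L2.headD t) := by
      cases L <;> simp
    refine ⟨?_, ?_, ih hc⟩
    · show f (m a) = (L ++ L2).headD t
      rw [e]; exact ha
    · show f ((L ++ L2).headD t) = m a
      rw [e]; exact hb

theorem Flp.revmap {m f : ℕ → ℕ} (hi : ∀ v, m (m v) = v) {L : List ℕ} {b : ℕ} :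
    ∀ {t : ℕ}, Flp m f L b → f (L.headD b) = t → f t = L.headD b →
      Flp m f (m b :: (L.map m).reverse) t := by
  induction L with
  | nil =>
    intro t _ h1 h2
    simp only [List.headD_nil] at h1 h2
    simp only [Flp, hi, h1, List.map_nil, List.reverse_nil, List.headD_nil, h2, and_self]
  | cons a L ih =>
    intro t h h1 h2
    obtain ⟨ha, hb, hc⟩ := h
    simp only [List.headD_cons] at h1 h2
    have := ih hc hb ha
    have h3 : Flp m f [m a] t := by
      simp only [Flp, List.headD_nil, hi, h1, h2, and_self]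
    have h4 := Flp.append (L1 := m b :: (L.map m).reverse) (L2 := [m a]) (t := t)
      (by simpa using this) h3
    simpa using h4

theorem AP.headD {A : ℕ → ℕ → Prop} {m : ℕ → ℕ} {u t : ℕ} {L : List ℕ} (h : AP A m u L t) :
    L.headD t = u := by
  cases h <;> rfl

theorem EL.headD {m : ℕ → ℕ} {s : BS} {u t : ℕ} {L : List ℕ} (h : EL m s u t L) :
    L.headD t = u := by
  cases h <;> rfl

theorem AP.flip_ok {A : ℕ → ℕ → Prop} {m f : ℕ → ℕ} (hs : ∀ {u v}, A u v → A v u)
    {u t : ℕ} {L : List ℕ} (h : AP A m u L t) :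
    ∀ c, Flp m f L t → f u = c → f c = u → A u c → ∀ y, (y ∈ L ∨ y ∈ L.map m ∨ y = t) →
      f (f y) = y ∧ A y (f y) := by
  induction h with
  | nil v =>
    intro c _ h1 h2 h3 y hy
    have : y = v := by simpa using hy
    subst this
    rw [h1]; exact ⟨h2, h3⟩
  | @cons v d t L hv hd hL ih =>
    intro c hF h1 h2 h3 y hy
    obtain ⟨ha, hb, hc⟩ := hF
    rw [hL.headD] at ha hb
    have hyc : y = v ∨ y = m v ∨ (y ∈ L ∨ y ∈ L.map m ∨ y = t) := by
      simp only [List.mem_cons, List.map_cons] at hy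
      (clear * - hy; tauto)
    rcases hyc with h | h | h
    · subst h; rw [h1]; exact ⟨h2, h3⟩
    · subst h; rw [ha]; exact ⟨hb, hd⟩
    · exact ih (m v) hc hb ha (hs hd) y h

/-- Edges of the new matching along a label path. -/
inductive EE (m : ℕ → ℕ) (s : BS) : ℕ → ℕ → List (ℕ × ℕ) → Prop
  | nil (v : ℕ) : EE m s v v []
  | tree {v t : ℕ} {E : List (ℕ × ℕ)} (h1 : s.lab v = 1) (hm : m v ≠ v)
      (h : EE m s (s.par (m v)) t E) : EE m s v t ((m v, s.par (m v)) :: E)
  | brid {v t : ℕ} {E1 E2 : List (ℕ × ℕ)} (h3 : s.lab v = 3) (h1 : EE m s (s.ba v) (m v) E1)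
      (h2 : EE m s (s.bb v) t E2) : EE m s v t ((s.ba v, s.bb v) :: (E1 ++ E2))

/-- The edges are written to `f`. -/
def Wr (f : ℕ → ℕ) (E : List (ℕ × ℕ)) : Prop := ∀ e ∈ E, f e.1 = e.2 ∧ f e.2 = e.1

def ends (E : List (ℕ × ℕ)) : List ℕ := E.flatMap (fun e => [e.1, e.2])

/-- Augmentation: `f` is obtained from `m` by flipping along two disjoint paths to roots. -/
theorem augment_ok {n : ℕ} {A : ℕ → ℕ → Prop} {m f : ℕ → ℕ} (hG : Gr n A) (hM : Mat A m)
    {u v ru rv : ℕ} {Lu Lv : List ℕ} (hu : AP A m u Lu ru) (hv : AP A m v Lv rv)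
    (huv : A u v) (hru : m ru = ru) (hrv : m rv = rv) (hne : ru ≠ rv) (hrun : ru < n)
    (hrvn : rv < n)
    (hFu : Flp m f Lu ru) (hFv : Flp m f Lv rv) (h1 : f u = v) (h2 : f v = u)
    (hf : ∀ y, y ∉ Lu → y ∉ Lu.map m → y ≠ ru → y ∉ Lv → y ∉ Lv.map m → y ≠ rv → f y = m y) :
    Mat A f ∧ (exposed n f).card + 2 = (exposed n m).card := by
  classical
  have hs : ∀ {u v}, A u v → A v u := fun h => hG.symm h
  have ku := hu.flip_ok hs v hFu h1 h2 huv
  have kv := hv.flip_ok hs u hFv h2 h1 (hs huv)
  let P : ℕ → Prop := fun y => (y ∈ Lu ∨ y ∈ Lu.map m ∨ y = ru) ∨ (y ∈ Lv ∨ y ∈ Lv.map m ∨ y = rv)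
  have kP : ∀ y, P y → f (f y) = y ∧ A y (f y) := by
    rintro y (h | h)
    · exact ku y h
    · exact kv y h
  have kN : ∀ y, ¬ P y → f y = m y := by
    intro y hy
    simp only [P, not_or] at hy
    exact hf y hy.1.1 hy.1.2.1 hy.1.2.2 hy.2.1 hy.2.2.1 hy.2.2.2
  have hmem : ∀ (L : List ℕ) y, (m y ∈ L ∨ m y ∈ L.map m) → (y ∈ L ∨ y ∈ L.map m) := by
    rintro L y (h | h)
    · right; exact List.mem_map.2 ⟨m y, h, hM.inv y⟩
    · left
      obtain ⟨a, ha, e⟩ := List.mem_map.1 h
      have : a = y := by rw [← hM.inv a, e, hM.inv]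
      exact this ▸ ha
  have kC : ∀ y, ¬ P y → ¬ P (m y) := by
    intro y hy hp
    apply hy
    rcases hp with (h | h | h) | (h | h | h)
    · rcases hmem Lu y (Or.inl h) with h | h
      · exact Or.inl (Or.inl h)
      · exact Or.inl (Or.inr (Or.inl h))
    · rcases hmem Lu y (Or.inr h) with h | h
      · exact Or.inl (Or.inl h)
      · exact Or.inl (Or.inr (Or.inl h))
    · have : y = ru := by rw [← hM.inv y, h, hru]
      exact Or.inl (Or.inr (Or.inr this))
    · rcases hmem Lv y (Or.inl h) with h | h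
      · exact Or.inr (Or.inl h)
      · exact Or.inr (Or.inr (Or.inl h))
    · rcases hmem Lv y (Or.inr h) with h | h
      · exact Or.inr (Or.inl h)
      · exact Or.inr (Or.inr (Or.inl h))
    · have : y = rv := by rw [← hM.inv y, h, hrv]
      exact Or.inr (Or.inr (Or.inr this))
  have matched : ∀ {a t : ℕ} {L : List ℕ}, AP A m a L t → ∀ y ∈ L, m y ≠ y := by
    intro a t L h
    induction h with
    | nil v => simp
    | cons hv _ _ ih =>
      intro y hy
      rcases List.mem_cons.1 hy with h | h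
      · rw [h]; exact hv
      · exact ih y h
  refine ⟨⟨?_, ?_⟩, ?_⟩
  · intro y
    by_cases hy : P y
    · exact (kP y hy).1
    · rw [kN y hy, kN _ (kC y hy), hM.inv]
  · intro y hy
    by_cases h : P y
    · exact (kP y h).2
    · rw [kN y h] at hy ⊢; exact hM.adj y hy
  · have : exposed n m = insert ru (insert rv (exposed n f)) := by
      ext y
      simp only [exposed, Finset.mem_insert, Finset.mem_filter, Finset.mem_range]
      constructor
      · rintro ⟨hy1, hy2⟩
        by_cases hp : P y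
        · have hLu : y ∉ Lu := fun h => matched hu y h hy2
          have hLv : y ∉ Lv := fun h => matched hv y h hy2
          have hLu' : y ∉ Lu.map m := by
            intro h
            obtain ⟨a, ha, e⟩ := List.mem_map.1 h
            have : a = y := by rw [← hM.inv a, e, hy2]
            exact hLu (this ▸ ha)
          have hLv' : y ∉ Lv.map m := by
            intro h
            obtain ⟨a, ha, e⟩ := List.mem_map.1 h
            have : a = y := by rw [← hM.inv a, e, hy2]
            exact hLv (this ▸ ha)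
          simp only [P] at hp
          (clear * - hp hLu hLu' hLv hLv' hy1; tauto)
        · right; right
          exact ⟨hy1, by rw [kN y hp]; exact hy2⟩
      · rintro (h | h | ⟨hy1, hy2⟩)
        · rw [h]; exact ⟨hrun, hru⟩
        · rw [h]; exact ⟨hrvn, hrv⟩
        · refine ⟨hy1, ?_⟩
          by_cases hp : P y
          · have := (kP y hp).2
            rw [hy2] at this
            exact absurd this (hG.irr y)
          · rw [← kN y hp]; exact hy2
    have hrvf : rv ∉ exposed n f := by
      intro h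
      simp only [exposed, Finset.mem_filter] at h
      have := (kP rv (Or.inr (Or.inr (Or.inr rfl)))).2
      rw [h.2] at this
      exact hG.irr _ this
    have hruf : ru ∉ insert rv (exposed n f) := by
      intro h
      rcases Finset.mem_insert.1 h with h | h
      · exact hne h
      · simp only [exposed, Finset.mem_filter] at h
        have := (kP ru (Or.inl (Or.inr (Or.inr rfl)))).2
        rw [h.2] at this
        exact hG.irr _ this
    rw [this, Finset.card_insert_of_notMem hruf, Finset.card_insert_of_notMem hrvf]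

end Vale.Agent.P305
end
end

section

section

/-! Forest search on the L1 machine, part 1: merging one side of a blossom. -/

set_option autoImplicit false
set_option linter.unusedSimpArgs false
set_option linter.unusedVariables false

namespace Vale.Agent.P305

open Function (update)
open L1

variable {R : List ℕ → (ℕ → ℕ) → ℕ → Prop} {cap : ℕ}

/-- Union-find together with the base `τ v` of the class of `v`. -/
structure UFB (n : ℕ) (D : ℕ → Prop) (s : St) (ρ τ : ℕ → ℕ) : Prop where
  uf : UFok n D (s.a 56) (s.a 57) ρ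
  same : ∀ u v, D u → D v → (ρ u = ρ v ↔ τ u = τ v)
  bv : ∀ v, D v → s.a 58 (ρ v) = τ v
  tb : ∀ v, D v → D (τ v) ∧ τ (τ v) = τ v

/-- The queue `array 59`, entries below `qt`, lists the members of `D`. -/
structure Qu (D : ℕ → Prop) (q : ℕ → ℕ) (qt : ℕ) : Prop where
  mem : ∀ i < qt, D (q i)
  inj : ∀ i < qt, ∀ j < qt, q i = q j → i = j
  surj : ∀ v, D v → ∃ i < qt, q i = v

theorem Qu.push {D : ℕ → Prop} {q : ℕ → ℕ} {qt w : ℕ} (h : Qu D q qt) (hw : ¬ D w) :
    Qu (fun v => D v ∨ v = w) (update q qt w) (qt + 1) := by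
  constructor
  · intro i hi
    by_cases he : i = qt
    · subst he; simp
    · rw [Function.update_of_ne he]; exact Or.inl (h.mem i (by omega))
  · intro i hi j hj hij
    by_cases he : i = qt
    · by_cases hf : j = qt
      · omega
      · subst he
        rw [Function.update_self, Function.update_of_ne hf] at hij
        exact absurd (hij ▸ h.mem j (by omega)) hw
    · by_cases hf : j = qt
      · subst hf
        rw [Function.update_self, Function.update_of_ne he] at hij
        exact absurd (hij ▸ h.mem i (by omega)) hw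
      · rw [Function.update_of_ne he, Function.update_of_ne hf] at hij
        exact h.inj i (by omega) j (by omega) hij
  · rintro v (hv | rfl)
    · obtain ⟨i, hi, he⟩ := h.surj v hv
      exact ⟨i, by omega, by rw [Function.update_of_ne (by omega)]; exact he⟩
    · exact ⟨qt, by omega, by simp⟩

def sideRegs : List ℕ := [61, 71, 75, 76, 81, 82, 83, 84, 85, 86, 87, 90, 91]

def sideBody : Cmd :=
  .seq (.blk [.load 40 81 71, .store 51 81 69, .store 53 81 88, .store 54 81 89, .store 59 61 81,
    .inc 61, .store 56 81 81, .store 57 81 1, .copy 75 71])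
  (.seq findC
  (.seq (.blk [.copy 90 75, .load 52 75 81])
  (.seq findC
  (.seq (.blk [.copy 91 75, .load 58 84 75, .copy 82 90, .copy 83 81])
  (.seq unionC
  (.seq (.blk [.copy 82 85, .copy 83 91])
  (.seq unionC
    (.blk [.store 58 85 84, .copy 71 84]))))))))

theorem uRoot_or (rk : ℕ → ℕ) (p q : ℕ) : uRoot rk p q = p ∨ uRoot rk p q = q := by
  unfold uRoot; split
  · exact Or.inr rfl
  · exact Or.inl rfl

theorem sideBody_spec {n : ℕ} {D : ℕ → Prop} {ρ τ : ℕ → ℕ} (s : St) (hU : UFB n D s ρ τ)
    {x w y x' qt : ℕ} (h71 : s.r 71 = x) (hx : D x) (hxx : τ x = x) (hw : s.a 40 x = w)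
    (hwD : ¬ D w) (hwn : w < n) (hy : s.a 52 w = y) (hyD : D y) (hyx : τ y = x') (hne : x' ≠ x)
    (h1 : s.r 1 = 0) (h69 : s.r 69 = 3) (h61 : s.r 61 = qt) :
    ∃ s' t ρ', Ex R cap sideBody s t s' ∧ t ≤ 6 * (Nat.log 2 n + 1) + 39 ∧
      UFB n (fun v => D v ∨ v = w) s' ρ' (fun v => if v = w ∨ τ v = x then x' else τ v) ∧
      s'.r 71 = x' ∧ s'.r 61 = qt + 1 ∧ (∀ k, k ∉ sideRegs → s'.r k = s.r k) ∧
      s'.a 51 = update (s.a 51) w 3 ∧ s'.a 53 = update (s.a 53) w (s.r 88) ∧
      s'.a 54 = update (s.a 54) w (s.r 89) ∧ s'.a 59 = update (s.a 59) qt w ∧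
      (∀ j, j ∉ [51, 53, 54, 56, 57, 58, 59] → s'.a j = s.a j) := by
  -- block 1
  obtain ⟨s1, hs1⟩ : ∃ s1, s1 = run [.load 40 81 71, .store 51 81 69, .store 53 81 88,
    .store 54 81 89, .store 59 61 81, .inc 61, .store 56 81 81, .store 57 81 1, .copy 75 71] s :=
    ⟨_, rfl⟩
  have e1 : Ex R cap (.blk [.load 40 81 71, .store 51 81 69, .store 53 81 88,
    .store 54 81 89, .store 59 61 81, .inc 61, .store 56 81 81, .store 57 81 1, .copy 75 71]) s 9
    s1 := by rw [hs1]; exact Ex.blk _ _
  have A1 : s1.r 75 = x ∧ s1.r 81 = w ∧ s1.r 61 = qt + 1 ∧ s1.r 71 = x ∧ s1.r 1 = 0 ∧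
      (∀ k, k ∉ [81, 61, 75] → s1.r k = s.r k) ∧
      s1.a 51 = update (s.a 51) w 3 ∧ s1.a 53 = update (s.a 53) w (s.r 88) ∧
      s1.a 54 = update (s.a 54) w (s.r 89) ∧ s1.a 59 = update (s.a 59) qt w ∧
      s1.a 56 = update (s.a 56) w w ∧ s1.a 57 = update (s.a 57) w 0 ∧
      (∀ j, j ∉ [51, 53, 54, 56, 57, 59] → s1.a j = s.a j) := by
    subst hs1
    simp only [run, B.step, h71, hw, Function.update_self, ne_eq, Nat.reduceEqDiff, not_false_eq_true, Function.update_of_ne, h69, Nat.succ_ne_self, h61, OfNat.one_ne_ofNat, h1, Nat.add_left_cancel_iff, List.mem_cons, List.not_mem_nil, or_false, not_or, and_imp, true_and]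
    refine ⟨?_, ?_⟩
    · intro k hk1 hk2 hk3
      simp [hk1, hk2, hk3]
    · intro j a1 a2 a3 a4 a5 a6
      simp [a1, a2, a3, a4, a5, a6]
  obtain ⟨a75, a81, a61, a71, a1', areg, a51, a53, a54, a59, a56, a57, aarr⟩ := A1
  have hU1 : UFok n (fun v => D v ∨ v = w) (s1.a 56) (s1.a 57) (update ρ w w) := by
    rw [a56, a57]; exact hU.uf.add hwD hwn
  have hxw : x ≠ w := fun e => hwD (e ▸ hx)
  have hyw : y ≠ w := fun e => hwD (e ▸ hyD)
  -- find 1
  obtain ⟨t2, e2, ht2⟩ := find_spec (R := R) (cap := cap) s1 hU1 a75 (Or.inl hx)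
  rw [Function.update_of_ne hxw] at e2
  -- block 2
  obtain ⟨s3, hs3⟩ : ∃ s3, s3 = run [.copy 90 75, .load 52 75 81]
    ⟨update (update s1.r 75 (ρ x)) 76 (ρ x), s1.a⟩ := ⟨_, rfl⟩
  have e3 : Ex R cap (.blk [.copy 90 75, .load 52 75 81])
    ⟨update (update s1.r 75 (ρ x)) 76 (ρ x), s1.a⟩ 2 s3 := by rw [hs3]; exact Ex.blk _ _
  have A3 : s3.r 75 = y ∧ s3.r 90 = ρ x ∧ s3.r 81 = w ∧ s3.r 61 = qt + 1 ∧
      (∀ k, k ∉ [81, 61, 75, 76, 90] → s3.r k = s.r k) ∧ s3.a = s1.a := by
    subst hs3
    have := aarr 52 (by decide)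
    simp only [run, B.step, ne_eq, Nat.reduceEqDiff, not_false_eq_true, Function.update_of_ne, Function.update_self, a81, this, hy, a61, Nat.add_left_cancel_iff, List.mem_cons, List.not_mem_nil, or_false, not_or, and_imp, and_true, true_and]
    intro k k1 k2 k3 k4 k5
    simp [k3, k4, k5]
    exact areg k (by simp [k1, k2, k3])
  obtain ⟨b75, b90, b81, b61, breg, barr⟩ := A3
  -- find 2
  obtain ⟨t4, e4, ht4⟩ := find_spec (R := R) (cap := cap) s3 (by rw [barr]; exact hU1) b75
    (Or.inl hyD)
  rw [Function.update_of_ne hyw] at e4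
  -- block 3
  obtain ⟨s5, hs5⟩ : ∃ s5, s5 = run [.copy 91 75, .load 58 84 75, .copy 82 90, .copy 83 81]
    ⟨update (update s3.r 75 (ρ y)) 76 (ρ y), s3.a⟩ := ⟨_, rfl⟩
  have e5 : Ex R cap (.blk [.copy 91 75, .load 58 84 75, .copy 82 90, .copy 83 81])
    ⟨update (update s3.r 75 (ρ y)) 76 (ρ y), s3.a⟩ 4 s5 := by rw [hs5]; exact Ex.blk _ _
  have A5 : s5.r 91 = ρ y ∧ s5.r 84 = x' ∧ s5.r 82 = ρ x ∧ s5.r 83 = w ∧ s5.r 61 = qt + 1 ∧
      (∀ k, k ∉ [81, 61, 75, 76, 90, 91, 84, 82, 83] → s5.r k = s.r k) ∧ s5.a = s1.a := by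
    subst hs5
    have h58 := aarr 58 (by decide)
    have hb := hU.bv y hyD
    rw [hyx] at hb
    simp only [run, B.step, ne_eq, Nat.reduceEqDiff, not_false_eq_true, Function.update_of_ne, Function.update_self, barr, h58, hb, b90, b81, Nat.succ_ne_self, b61, Nat.add_left_cancel_iff, List.mem_cons, List.not_mem_nil, or_false, not_or, and_imp, and_true, true_and]
    intro k k1 k2 k3 k4 k5 k6 k7 k8 k9
    simp [k3, k4, k6, k7, k8, k9]
    exact breg k (by simp [k1, k2, k3, k4, k5])
  obtain ⟨c91, c84, c82, c83, c61, creg, carr⟩ := A5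
  -- union 1
  have hρx : D (ρ x) := (hU.uf.root x hx).1
  have hρy : D (ρ y) := (hU.uf.root y hyD).1
  have hρxw : ρ x ≠ w := fun e => hwD (e ▸ hρx)
  have hρyw : ρ y ≠ w := fun e => hwD (e ▸ hρy)
  have hρxy : ρ x ≠ ρ y := by
    intro e
    have := (hU.same x y hx hyD).1 e
    rw [hxx, hyx] at this
    exact hne this.symm
  obtain ⟨s6, t6, e6, ht6, u85, ureg, u56, u57, uarr⟩ := union_spec (R := R) (cap := cap) s5
    c82 c83 hρxw
  rw [carr] at u85 u56 u57 uarr
  set r1 := uRoot (s1.a 57) (ρ x) w with hr1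
  have hU2 : UFok n (fun v => D v ∨ v = w) (s6.a 56) (s6.a 57)
      (uρ (s1.a 57) (update ρ w w) (ρ x) w) := by
    rw [u56, u57]
    refine hU1.union (Or.inl hρx) (Or.inr rfl) ?_ (by simp) hρxw
    rw [Function.update_of_ne hρxw]; exact (hU.uf.root x hx).2.2
  set ρ2 := uρ (s1.a 57) (update ρ w w) (ρ x) w with hρ2
  -- block 4
  obtain ⟨s7, hs7⟩ : ∃ s7, s7 = run [.copy 82 85, .copy 83 91] s6 := ⟨_, rfl⟩
  have e7 : Ex R cap (.blk [.copy 82 85, .copy 83 91]) s6 2 s7 := by rw [hs7]; exact Ex.blk _ _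
  have A7 : s7.r 82 = r1 ∧ s7.r 83 = ρ y ∧ s7.r 84 = x' ∧ s7.r 61 = qt + 1 ∧
      (∀ k, k ∉ [81, 61, 75, 76, 90, 91, 84, 82, 83, 85, 86, 87] → s7.r k = s.r k) ∧
      s7.a = s6.a := by
    subst hs7
    have h91 := ureg 91 (by decide)
    have h84 := ureg 84 (by decide)
    have h61' := ureg 61 (by decide)
    simp only [run, B.step, u85, ne_eq, Nat.reduceEqDiff, not_false_eq_true, Function.update_of_ne, h91, c91, Function.update_self, Nat.succ_ne_self, h84, c84, h61', c61, Nat.add_left_cancel_iff, List.mem_cons, List.not_mem_nil, or_false, not_or, and_imp, and_true, true_and]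
    intro k k1 k2 k3 k4 k5 k6 k7 k8 k9 k10 k11 k12
    simp [k8, k9]
    rw [ureg k (by simp [k10, k11, k12])]
    exact creg k (by simp [k1, k2, k3, k4, k5, k6, k7, k8, k9])
  obtain ⟨d82, d83, d84, d61, dreg, darr⟩ := A7
  -- values of ρ2
  have hr1or : r1 = ρ x ∨ r1 = w := uRoot_or _ _ _
  have hr1y : r1 ≠ ρ y := by
    rcases hr1or with h | h
    · rw [h]; exact hρxy
    · rw [h]; exact Ne.symm hρyw
  have hρ2w : ρ2 w = r1 := by simp [hρ2, uρ, ← hr1]
  have hρ2x : ρ2 (ρ x) = r1 := by
    have : update ρ w w (ρ x) = ρ x := by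
      rw [Function.update_of_ne hρxw]; exact (hU.uf.root x hx).2.2
    simp [hρ2, uρ, this, ← hr1]
  have hρ2r : ρ2 r1 = r1 := by
    rcases hr1or with h | h
    · rw [h]; rw [hρ2x, h]
    · rw [h]; rw [hρ2w, h]
  have hρ2y : ρ2 (ρ y) = ρ y := by
    have : update ρ w w (ρ y) = ρ y := by
      rw [Function.update_of_ne hρyw]; exact (hU.uf.root y hyD).2.2
    simp only [hρ2, uρ, this]
    rw [if_neg]
    rintro (h | h)
    · exact hρxy h.symm
    · exact hρyw h
  have hDr1 : D r1 ∨ r1 = w := by
    rcases hr1or with h | h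
    · rw [h]; exact Or.inl hρx
    · exact Or.inr h
  -- union 2
  obtain ⟨s8, t8, e8, ht8, v85, vreg, v56, v57, varr⟩ := union_spec (R := R) (cap := cap) s7
    d82 d83 hr1y
  rw [darr] at v85 v56 v57 varr
  have hU3 : UFok n (fun v => D v ∨ v = w) (s8.a 56) (s8.a 57) (uρ (s6.a 57) ρ2 r1 (ρ y)) := by
    rw [v56, v57]
    exact hU2.union hDr1 (Or.inl hρy) hρ2r hρ2y hr1y
  set r2 := uRoot (s6.a 57) r1 (ρ y) with hr2
  set ρ3 := uρ (s6.a 57) ρ2 r1 (ρ y) with hρ3
  -- block 5
  obtain ⟨s9, hs9⟩ : ∃ s9, s9 = run [.store 58 85 84, .copy 71 84] s8 := ⟨_, rfl⟩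
  have e9 : Ex R cap (.blk [.store 58 85 84, .copy 71 84]) s8 2 s9 := by
    rw [hs9]; exact Ex.blk _ _
  have h84' := vreg 84 (by decide)
  have A9 : s9.r 71 = x' ∧ s9.r 61 = qt + 1 ∧
      (∀ k, k ∉ sideRegs → s9.r k = s.r k) ∧ s9.a 58 = update (s.a 58) r2 x' ∧
      (∀ j, j ≠ 58 → s9.a j = s8.a j) := by
    subst hs9
    have h61' := vreg 61 (by decide)
    have h58 : s8.a 58 = s.a 58 := by
      rw [varr 58 (by decide) (by decide), uarr 58 (by decide) (by decide), aarr 58 (by decide)]
    simp only [run, B.step, h58, v85, h84', d84, Function.update_self, ne_eq, Nat.reduceEqDiff, not_false_eq_true, Function.update_of_ne, h61', d61, Nat.add_left_cancel_iff, true_and]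
    refine ⟨?_, ?_⟩
    · intro k hk
      simp only [sideRegs, List.mem_cons, List.not_mem_nil, or_false, not_or] at hk
      obtain ⟨k1, k2, k3, k4, k5, k6, k7, k8, k9, k10, k11, k12, k13⟩ := hk
      simp [k2]
      rw [vreg k (by simp [k9, k10, k11])]
      exact dreg k (by simp [k1, k2, k3, k4, k5, k6, k7, k8, k9, k10, k11, k12, k13])
    · intro j hj
      simp [hj]
  obtain ⟨f71, f61, freg, f58, farr⟩ := A9
  -- the new representative function
  have hcls : ∀ v, (D v ∨ v = w) → (((v = w ∨ τ v = x) ∨ τ v = x') ∧ ρ3 v = r2) ∨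
      (v ≠ w ∧ τ v ≠ x ∧ τ v ≠ x' ∧ ρ3 v = ρ v ∧ ρ v ≠ r2 ∧ D v) := by
    intro v hv
    by_cases hvw : v = w
    · subst hvw
      left
      exact ⟨Or.inl (Or.inl rfl), by simp [hρ3, uρ, hρ2w, ← hr2]⟩
    · have hvD : D v := by
        rcases hv with h | h
        · exact h
        · exact absurd h hvw
      have hu : update ρ w w v = ρ v := Function.update_of_ne hvw _ _
      have hρvw : ρ v ≠ w := fun e => hwD (e ▸ (hU.uf.root v hvD).1)
      by_cases h1 : τ v = x
      · left
        have : ρ v = ρ x := (hU.same v x hvD hx).2 (by rw [h1, hxx])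
        have h2 : ρ2 v = r1 := by simp [hρ2, uρ, hu, this, ← hr1]
        exact ⟨Or.inl (Or.inr h1), by simp [hρ3, uρ, h2, ← hr2]⟩
      · have h1' : ρ v ≠ ρ x := by
          intro e
          have := (hU.same v x hvD hx).1 e
          rw [hxx] at this; exact h1 this
        have h2 : ρ2 v = ρ v := by
          simp only [hρ2, uρ, hu]
          rw [if_neg]
          rintro (h | h)
          · exact h1' h
          · exact hρvw h
        by_cases h3 : τ v = x'
        · left
          have : ρ v = ρ y := (hU.same v y hvD hyD).2 (by rw [h3, hyx])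
          exact ⟨Or.inr h3, by simp [hρ3, uρ, h2, this, ← hr2]⟩
        · right
          have h3' : ρ v ≠ ρ y := by
            intro e
            have := (hU.same v y hvD hyD).1 e
            rw [hyx] at this; exact h3 this
          have h4 : ρ v ≠ r1 := by
            rcases hr1or with h | h
            · rw [h]; exact h1'
            · rw [h]; exact hρvw
          refine ⟨hvw, h1, h3, ?_, ?_, hvD⟩
          · simp only [hρ3, uρ, h2]
            rw [if_neg]
            rintro (h | h)
            · exact h4 h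
            · exact h3' h
          · rcases uRoot_or (s6.a 57) r1 (ρ y) with h | h
            · rw [hr2, h]; exact h4
            · rw [hr2, h]; exact h3'
  have hτ : ∀ v, ((v = w ∨ τ v = x) ∨ τ v = x') →
      (if v = w ∨ τ v = x then x' else τ v) = x' := by
    rintro v (h | h)
    · rw [if_pos h]
    · by_cases h' : v = w ∨ τ v = x
      · rw [if_pos h']
      · rw [if_neg h']; exact h
  have hτ' : ∀ v, v ≠ w → τ v ≠ x → (if v = w ∨ τ v = x then x' else τ v) = τ v := by
    intro v h1 h2
    rw [if_neg]; rintro (h | h)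
    · exact h1 h
    · exact h2 h
  have hx'D : D x' := by have := (hU.tb y hyD).1; rwa [hyx] at this
  have hx'x' : τ x' = x' := by have := (hU.tb y hyD).2; rwa [hyx] at this
  have hx'w : x' ≠ w := fun e => hwD (e ▸ hx'D)
  refine ⟨s9, _, ρ3, .seq e1 (.seq e2 (.seq e3 (.seq e4 (.seq e5 (.seq e6 (.seq e7
    (.seq e8 e9))))))), ?_, ?_, f71, f61, freg, ?_, ?_, ?_, ?_, ?_⟩
  · omega
  · constructor
    · rw [farr 56 (by decide), farr 57 (by decide)]; exact hU3
    · intro u v hu hv
      rcases hcls u hu with ⟨cu, ru⟩ | ⟨u1, u2, u3, u4, u5, u6⟩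
      · rcases hcls v hv with ⟨cv, rv⟩ | ⟨v1, v2, v3, v4, v5, v6⟩
        · simp only [hτ u cu, hτ v cv, ru, rv]
        · simp only [hτ u cu, hτ' v v1 v2, ru, v4]
          exact ⟨fun e => absurd e.symm v5, fun e => absurd e.symm v3⟩
      · rcases hcls v hv with ⟨cv, rv⟩ | ⟨v1, v2, v3, v4, v5, v6⟩
        · simp only [hτ v cv, hτ' u u1 u2, rv, u4]
          exact ⟨fun e => absurd e u5, fun e => absurd e u3⟩
        · simp only [hτ' u u1 u2, hτ' v v1 v2, u4, v4]
          exact hU.same u v u6 v6
    · intro v hv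
      rw [f58]
      rcases hcls v hv with ⟨cv, rv⟩ | ⟨v1, v2, v3, v4, v5, v6⟩
      · simp only [hτ v cv, rv, Function.update_self]
      · simp only [hτ' v v1 v2, v4]
        rw [Function.update_of_ne v5]; exact hU.bv v v6
    · intro v hv
      rcases hcls v hv with ⟨cv, rv⟩ | ⟨v1, v2, v3, v4, v5, v6⟩
      · simp only [hτ v cv]
        exact ⟨Or.inl hx'D, by rw [hτ' x' hx'w (by rw [hx'x']; exact hne)]; exact hx'x'⟩
      · simp only [hτ' v v1 v2]
        have := hU.tb v v6
        refine ⟨Or.inl this.1, ?_⟩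
        rw [hτ' (τ v) (fun e => hwD (e ▸ this.1)) (by rw [this.2]; exact v2)]
        exact this.2
  · rw [farr 51 (by decide), varr 51 (by decide) (by decide), uarr 51 (by decide) (by decide)]
    exact a51
  · rw [farr 53 (by decide), varr 53 (by decide) (by decide), uarr 53 (by decide) (by decide)]
    exact a53
  · rw [farr 54 (by decide), varr 54 (by decide) (by decide), uarr 54 (by decide) (by decide)]
    exact a54
  · rw [farr 59 (by decide), varr 59 (by decide) (by decide), uarr 59 (by decide) (by decide)]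
    exact a59
  · intro j hj
    simp only [List.mem_cons, List.not_mem_nil, or_false, not_or] at hj
    obtain ⟨j1, j2, j3, j4, j5, j6, j7⟩ := hj
    rw [farr j j6, varr j j4 j5, uarr j j4 j5]
    exact aarr j (by simp [j1, j2, j3, j4, j5, j7])

end Vale.Agent.P305
end
end

section

section

/-! Forest search on the L1 machine, part 2: side loop and contraction. -/

set_option autoImplicit false
set_option linter.unusedSimpArgs false
set_option linter.unusedVariables false

namespace Vale.Agent.P305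

open Function (update)
open L1

variable {R : List ℕ → (ℕ → ℕ) → ℕ → Prop} {cap : ℕ}

/-- Chain of bases with respect to `τ` and the array `par`. -/
inductive ChT (m par τ : ℕ → ℕ) : ℕ → List ℕ → ℕ → Prop
  | nil (z : ℕ) : ChT m par τ z [] z
  | cons {x z : ℕ} {cs : List ℕ} (h : ChT m par τ (τ (par (m x))) cs z) :
      ChT m par τ x (x :: cs) z

theorem ChT.congr {m par τ τ' : ℕ → ℕ} {x z : ℕ} {cs : List ℕ} (h : ChT m par τ x cs z)
    (he : ∀ c ∈ cs, τ' (par (m c)) = τ (par (m c))) : ChT m par τ' x cs z := by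
  induction h with
  | nil z => exact ChT.nil z
  | @cons x z cs _ ih =>
    refine ChT.cons ?_
    rw [he x List.mem_cons_self]
    exact ih (fun c hc => he c (List.mem_cons_of_mem _ hc))

theorem ChT.next {m par τ : ℕ → ℕ} {x z : ℕ} {cs : List ℕ} (h : ChT m par τ x cs z) :
    ∀ c ∈ cs, τ (par (m c)) ∈ cs ∨ τ (par (m c)) = z := by
  induction h with
  | nil z => simp only [List.not_mem_nil, false_or, IsEmpty.forall_iff, implies_true]
  | @cons x z cs h ih =>
    intro c hc
    rcases List.mem_cons.1 hc with rfl | hc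
    · cases h with
      | nil => exact Or.inr rfl
      | cons h' => exact Or.inl (List.mem_cons_of_mem _ List.mem_cons_self)
    · rcases ih c hc with h | h
      · exact Or.inl (List.mem_cons_of_mem _ h)
      · exact Or.inr h

theorem ChT.not_self {m par τ : ℕ → ℕ} {x z : ℕ} {cs : List ℕ} (h : ChT m par τ x cs z)
    (hnd : cs.Nodup) (hz : z ∉ cs) : ∀ (y : ℕ) (cs' : List ℕ), cs = y :: cs' →
      τ (par (m y)) ≠ y := by
  intro y cs' e
  subst e
  cases h with
  | cons h' =>
    intro e
    have : τ (par (m x)) ∈ cs' ∨ τ (par (m x)) = z := by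
      cases h' with
      | nil => exact Or.inr rfl
      | cons h'' => exact Or.inl List.mem_cons_self
    rcases this with h | h
    · rw [e] at h; exact (List.nodup_cons.1 hnd).1 h
    · rw [e] at h; exact hz (h ▸ List.mem_cons_self)

def sideLoop : Cmd := .loop (.ne 71 80) sideBody

theorem sideLoop_spec {n : ℕ} {m : ℕ → ℕ} (hinj : ∀ a b, m a = m b → a = b) :
    ∀ (cs : List ℕ) (x z qt : ℕ) (D : ℕ → Prop) (ρ τ : ℕ → ℕ) (s : St), UFB n D s ρ τ →
      Qu D (s.a 59) qt → ChT m (s.a 52) τ x cs z → cs.Nodup → z ∉ cs → D z → τ z = z →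
      (∀ c ∈ cs, D c ∧ τ c = c ∧ ¬ D (m c) ∧ m c < n ∧ s.a 40 c = m c ∧ D (s.a 52 (m c))) →
      s.r 71 = x → s.r 80 = z → s.r 1 = 0 → s.r 69 = 3 → s.r 61 = qt →
    ∃ s' t D' ρ' τ', Ex R cap sideLoop s t s' ∧
      t ≤ (6 * (Nat.log 2 n + 1) + 40) * cs.length + 1 ∧ UFB n D' s' ρ' τ' ∧
      Qu D' (s'.a 59) (qt + cs.length) ∧ (∀ v, D' v ↔ D v ∨ v ∈ cs.map m) ∧
      (∀ v, D' v → τ' v = if v ∈ cs.map m ∨ τ v ∈ cs then z else τ v) ∧
      s'.r 61 = qt + cs.length ∧ (∀ k, k ∉ sideRegs → s'.r k = s.r k) ∧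
      s'.a 51 = (fun v => if v ∈ cs.map m then 3 else s.a 51 v) ∧
      s'.a 53 = (fun v => if v ∈ cs.map m then s.r 88 else s.a 53 v) ∧
      s'.a 54 = (fun v => if v ∈ cs.map m then s.r 89 else s.a 54 v) ∧
      (∀ j, j ∉ [51, 53, 54, 56, 57, 58, 59] → s'.a j = s.a j) ∧
      (∀ i < qt, s'.a 59 i = s.a 59 i) := by
  intro cs
  induction cs with
  | nil =>
    intro x z qt D ρ τ s hU hQ hch hnd hz hDz hτz hcs h71 h80 h1 h69 h61
    have hxz : x = z := by cases hch; rfl
    refine ⟨s, 1, D, ρ, τ, Ex.loopDone ?_, by simp, hU, by simpa using hQ, by simp, by simp,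
      by simpa using h61, fun _ _ => rfl, by simp, by simp, by simp, fun _ _ => rfl,
      fun _ _ => rfl⟩
    simp [Test.holds, h71, h80, hxz]
  | cons y cs ih =>
    intro x z qt D ρ τ s hU hQ hch hnd hz hDz hτz hcs h71 h80 h1 h69 h61
    have hxy : x = y := by cases hch; rfl
    subst hxy
    have hc := hcs x List.mem_cons_self
    have hne := hch.not_self hnd hz x cs rfl
    have hch' : ChT m (s.a 52) τ (τ (s.a 52 (m x))) cs z := by cases hch with | cons h => exact h
    have hxcs : x ∉ cs := (List.nodup_cons.1 hnd).1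
    have hzcs : z ∉ cs := fun h => hz (List.mem_cons_of_mem _ h)
    have hxz : x ≠ z := fun h => hz (h ▸ List.mem_cons_self)
    obtain ⟨s1, t1, ρ1, e1, ht1, hU1, g71, g61, greg, g51, g53, g54, g59, garr⟩ :=
      sideBody_spec (R := R) (cap := cap) s hU h71 hc.1 hc.2.1 hc.2.2.2.2.1 hc.2.2.1 hc.2.2.2.1
        rfl hc.2.2.2.2.2 rfl hne h1 h69 h61
    have hw : ∀ v, D v → v ≠ m x := fun v hv e => hc.2.2.1 (e ▸ hv)
    have g52 := garr 52 (by decide)
    have g40 := garr 40 (by decide)
    obtain ⟨s2, t2, D2, ρ2, τ2, e2, ht2, hU2, hQ2, hD2, hτ2, i61, ireg, i51, i53, i54, iarr, iqu⟩ :=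
      ih (τ (s.a 52 (m x))) z (qt + 1) (fun v => D v ∨ v = m x) ρ1
        (fun v => if v = m x ∨ τ v = x then τ (s.a 52 (m x)) else τ v) s1 hU1
        (by rw [g59]; exact hQ.push hc.2.2.1)
        (by
          rw [g52]
          refine hch'.congr ?_
          intro c hcc
          have hcc' := hcs c (List.mem_cons_of_mem _ hcc)
          rw [if_neg]
          rintro (h | h)
          · exact hw _ hcc'.2.2.2.2.2 h
          · rcases hch'.next c hcc with h' | h'
            · exact hxcs (h ▸ h')
            · exact hxz (h.symm.trans h'))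
        (List.nodup_cons.1 hnd).2 hzcs (Or.inl hDz)
        (by
          rw [if_neg]
          · exact hτz
          · rintro (h | h)
            · exact hw z hDz h
            · exact hxz (h.symm.trans hτz))
        (by
          intro c hcc
          have hcc' := hcs c (List.mem_cons_of_mem _ hcc)
          refine ⟨Or.inl hcc'.1, ?_, ?_, hcc'.2.2.2.1, by rw [g40]; exact hcc'.2.2.2.2.1,
            by rw [g52]; exact Or.inl hcc'.2.2.2.2.2⟩
          · rw [if_neg]
            · exact hcc'.2.1
            · rintro (h | h)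
              · exact hw c hcc'.1 h
              · rw [hcc'.2.1] at h; exact hxcs (h ▸ hcc)
          · rintro (h | h)
            · exact hcc'.2.2.1 h
            · have := hinj _ _ h
              exact hxcs (this ▸ hcc))
        g71 (by rw [greg 80 (by decide)]; exact h80) (by rw [greg 1 (by decide)]; exact h1)
        (by rw [greg 69 (by decide)]; exact h69) g61
    refine ⟨s2, t1 + t2 + 1, D2, ρ2, τ2, Ex.loopStep ?_ e1 e2, ?_, hU2, ?_, ?_, ?_, ?_, ?_, ?_, ?_,
      ?_, ?_, ?_⟩
    · simp [Test.holds, h71, h80, hxz]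
    · simp only [List.length_cons]
      have : (6 * (Nat.log 2 n + 1) + 40) * (cs.length + 1) =
        (6 * (Nat.log 2 n + 1) + 40) * cs.length + (6 * (Nat.log 2 n + 1) + 40) := by ring
      omega
    · rw [List.length_cons]
      have e : qt + (cs.length + 1) = qt + 1 + cs.length := by omega
      rw [e]; exact hQ2
    · intro v
      rw [hD2, List.map_cons, List.mem_cons]
      exact or_assoc
    · intro v hv
      rw [hτ2 v hv]
      by_cases hvx : v = m x ∨ τ v = x
      · have hR : (v ∈ (x :: cs).map m ∨ τ v ∈ x :: cs) := by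
          rcases hvx with h | h
          · exact Or.inl (by rw [h]; exact List.mem_map.2 ⟨x, List.mem_cons_self, rfl⟩)
          · exact Or.inr (by rw [h]; exact List.mem_cons_self)
        rw [if_pos hR]
        simp only [if_pos hvx]
        by_cases h2 : v ∈ cs.map m ∨ τ (s.a 52 (m x)) ∈ cs
        · rw [if_pos h2]
        · rw [if_neg h2]
          -- the next base is not in cs, so cs is empty and it is z
          cases hch' with
          | nil => rfl
          | cons h' => exact absurd (Or.inr List.mem_cons_self) h2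
      · simp only [if_neg hvx]
        have : (v ∈ (x :: cs).map m ∨ τ v ∈ x :: cs) ↔ (v ∈ cs.map m ∨ τ v ∈ cs) := by
          rw [List.map_cons, List.mem_cons, List.mem_cons]
          rw [not_or] at hvx
          simp only [hvx.1, hvx.2, false_or]
        simp only [this]
    · rw [i61, List.length_cons]; omega
    · intro k hk
      rw [ireg k hk, greg k hk]
    · rw [i51, g51]
      funext v
      by_cases hvx : v = m x
      · subst hvx; simp
      · by_cases h2 : v ∈ cs.map m
        · simp [h2]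
        · simp [h2, hvx]
    · rw [i53, g53, greg 88 (by decide)]
      funext v
      by_cases hvx : v = m x
      · subst hvx; simp
      · by_cases h2 : v ∈ cs.map m
        · simp [h2]
        · simp [h2, hvx]
    · rw [i54, g54, greg 89 (by decide)]
      funext v
      by_cases hvx : v = m x
      · subst hvx; simp
      · by_cases h2 : v ∈ cs.map m
        · simp [h2]
        · simp [h2, hvx]
    · intro j hj
      rw [iarr j hj, garr j hj]
    · intro i hi
      rw [iqu i (by omega), g59, Function.update_of_ne (by omega)]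

/-- The machine arrays represent the label state `β`. -/
structure Rep (n : ℕ) (m : ℕ → ℕ) (s : St) (β : BS) : Prop where
  mt : ∀ v < n, s.a 40 v = m v
  lab : ∀ v < n, s.a 51 v = β.lab v
  par : ∀ v < n, s.a 52 v = β.par v
  ba : ∀ v < n, s.a 53 v = β.ba v
  bb : ∀ v < n, s.a 54 v = β.bb v
  dep : ∀ v < n, s.a 55 v = β.dep v

/-- Complete machine invariant: labels, union-find and queue. -/
structure Good (n : ℕ) (m : ℕ → ℕ) (s : St) (β : BS) (ρ : ℕ → ℕ) (qt : ℕ) : Prop where
  rep : Rep n m s β
  ufb : UFB n β.Out s ρ β.base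
  qu : Qu β.Out (s.a 59) qt

theorem UFB.congr {n : ℕ} {D D' : ℕ → Prop} {s : St} {ρ τ τ' : ℕ → ℕ} (h : UFB n D s ρ τ)
    (hD : ∀ v, D' v ↔ D v) (hτ : ∀ v, D v → τ' v = τ v) : UFB n D' s ρ τ' := by
  have e : D' = D := funext fun v => propext (hD v)
  subst e
  refine ⟨h.uf, ?_, ?_, ?_⟩
  · intro u v hu hv
    rw [hτ u hu, hτ v hv]; exact h.same u v hu hv
  · intro v hv; rw [hτ v hv]; exact h.bv v hv
  · intro v hv
    have := h.tb v hv
    rw [hτ v hv, hτ _ this.1]; exact this

theorem Ch.toChT {vs : ℕ → Prop} {A : ℕ → ℕ → Prop} {m : ℕ → ℕ} {β : BS} {par : ℕ → ℕ}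
    {x z : ℕ} {cs : List ℕ} (h : Ch m β x cs z)
    (hp : ∀ c ∈ cs, par (m c) = β.par (m c)) : ChT m par β.base x cs z := by
  induction h with
  | nil z => exact ChT.nil z
  | @cons x z cs h2 _ ih =>
    refine ChT.cons ?_
    rw [hp x List.mem_cons_self]
    exact ih (fun c hc => hp c (List.mem_cons_of_mem _ hc))

theorem contract_ident {m : ℕ → ℕ} (hi : ∀ v, m (m v) = v) {β : BS} {u v z : ℕ}
    {cu cv : List ℕ} (hzv : z ∉ cv) {D4 D8 : ℕ → Prop} {τ4 τ8 : ℕ → ℕ}
    (hD4 : ∀ w, D4 w ↔ β.Out w ∨ w ∈ cu.map m)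
    (hτ4 : ∀ w, D4 w → τ4 w = if w ∈ cu.map m ∨ β.base w ∈ cu then z else β.base w)
    (hD8 : ∀ w, D8 w ↔ D4 w ∨ w ∈ cv.map m)
    (hτ8 : ∀ w, D8 w → τ8 w = if w ∈ cv.map m ∨ τ4 w ∈ cv then z else τ4 w) :
    (∀ w, (β.contract m u v cu cv z).Out w ↔ D8 w) ∧
    (∀ w, D8 w → (β.contract m u v cu cv z).base w = τ8 w) := by
  have hmm : ∀ w (cs : List ℕ), w ∈ cs.map m ↔ m w ∈ cs := by
    intro w cs
    constructor
    · intro h
      obtain ⟨c, hc, e⟩ := List.mem_map.1 h
      rw [← e, hi]; exact hc
    · intro h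
      exact List.mem_map.2 ⟨m w, h, hi w⟩
  constructor
  · intro w
    rw [hD8, hD4, hmm, hmm]
    unfold BS.Out BS.contract
    simp only
    by_cases h : m w ∈ cu ++ cv
    · rw [if_pos h]
      rw [List.mem_append] at h
      clear hD4 hτ4 hD8 hτ8 hmm
      exact ⟨fun _ => h.elim (fun h => Or.inl (Or.inr h)) Or.inr, fun _ => Or.inr rfl⟩
    · rw [if_neg h]
      rw [List.mem_append, not_or] at h
      clear hD4 hτ4 hD8 hτ8 hmm
      simp only [h.1, h.2, or_false]
  · intro w hw
    rw [hτ8 w hw]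
    simp only [BS.contract]
    have hw8 := (hD8 w).1 hw
    by_cases hwv : w ∈ cv.map m
    · rw [if_pos (Or.inl hwv), if_pos (Or.inl (List.mem_append_right _ ((hmm w cv).1 hwv)))]
    · have hw4 : D4 w := by rcases hw8 with h | h; exacts [h, absurd h hwv]
      have hwv' : m w ∉ cv := fun h => hwv ((hmm w cv).2 h)
      by_cases hwu : w ∈ cu.map m
      · have h4 : τ4 w = z := by rw [hτ4 w hw4, if_pos (Or.inl hwu)]
        have e2 : ¬(w ∈ cv.map m ∨ z ∈ cv) := by rintro (h | h); exacts [hwv h, hzv h]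
        rw [h4, if_neg e2, if_pos (Or.inl (List.mem_append_left _ ((hmm w cu).1 hwu)))]
      · have hwu' : m w ∉ cu := fun h => hwu ((hmm w cu).2 h)
        by_cases hbu : β.base w ∈ cu
        · have h4 : τ4 w = z := by rw [hτ4 w hw4, if_pos (Or.inr hbu)]
          have e2 : ¬(w ∈ cv.map m ∨ z ∈ cv) := by rintro (h | h); exacts [hwv h, hzv h]
          rw [h4, if_neg e2, if_pos (Or.inr (List.mem_append_left _ hbu))]
        · have h4 : τ4 w = β.base w := by
            rw [hτ4 w hw4, if_neg (by rintro (h | h); exacts [hwu h, hbu h])]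
          rw [h4]
          by_cases hbv : β.base w ∈ cv
          · rw [if_pos (Or.inr hbv), if_pos (Or.inr (List.mem_append_right _ hbv))]
          · have e2 : ¬(w ∈ cv.map m ∨ β.base w ∈ cv) := by
              rintro (h | h); exacts [hwv h, hbv h]
            have e3 : ¬(m w ∈ cu ++ cv ∨ β.base w ∈ cu ++ cv) := by
              rw [List.mem_append, List.mem_append]
              rintro ((h | h) | (h | h))
              exacts [hwu' h, hwv' h, hbu h, hbv h]
            rw [if_neg e2, if_neg e3]

/-- Contraction: registers 62 = u, 65 = v, 71 = z. -/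
def contractC : Cmd :=
  .seq (.blk [.copy 80 71, .copy 75 62])
  (.seq baseC
  (.seq (.blk [.copy 71 75, .copy 88 62, .copy 89 65])
  (.seq sideLoop
  (.seq (.blk [.copy 75 65])
  (.seq baseC
  (.seq (.blk [.copy 71 75, .copy 88 65, .copy 89 62])
    sideLoop))))))

def contractRegs : List ℕ := [61, 71, 75, 76, 80, 81, 82, 83, 84, 85, 86, 87, 88, 89, 90, 91]

theorem contractC_spec {n : ℕ} {vs : ℕ → Prop} {A : ℕ → ℕ → Prop} {m : ℕ → ℕ}
    (hvs : ∀ v, vs v → v < n) (hs : ∀ {u v}, A u v → A v u)
    (hM : Mat A m) (s : St) {β : BS} {ρ : ℕ → ℕ} {qt : ℕ} (hI : Inv vs A m β)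
    (hG : Good n m s β ρ qt) {u v z : ℕ} {cu cv : List ℕ} (hu : β.Out u) (hv : β.Out v)
    (huv : A u v) (hcu : Ch m β (β.base u) cu z) (hcv : Ch m β (β.base v) cv z)
    (hnd : (cu ++ cv).Nodup) (hz : z ∉ cu ++ cv)
    (h62 : s.r 62 = u) (h65 : s.r 65 = v) (h71 : s.r 71 = z) (h1 : s.r 1 = 0)
    (h69 : s.r 69 = 3) (h61 : s.r 61 = qt) :
    ∃ s' t ρ', Ex R cap contractC s t s' ∧
      t ≤ (6 * (Nat.log 2 n + 1) + 40) * (cu.length + cv.length) + 6 * (Nat.log 2 n + 1) + 20 ∧
      Good n m s' (β.contract m u v cu cv z) ρ' (qt + (cu.length + cv.length)) ∧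
      s'.r 61 = qt + (cu.length + cv.length) ∧ (∀ k, k ∉ contractRegs → s'.r k = s.r k) ∧
      (∀ j, j ∉ [51, 53, 54, 56, 57, 58, 59] → s'.a j = s.a j) ∧
      (∀ i < qt, s'.a 59 i = s.a 59 i) := by
  have minj : ∀ a b, m a = m b → a = b := fun a b h => by rw [← hM.inv a, h, hM.inv]
  have hub := hI.blab u hu
  have hvb := hI.blab v hv
  obtain ⟨fu, hz1, hzb, _⟩ := hI.chain_facts hM hcu hub.1 hub.2
  obtain ⟨fv, _, _, _⟩ := hI.chain_facts hM hcv hvb.1 hvb.2
  have hndu : cu.Nodup := (List.nodup_append.1 hnd).1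
  have hndv : cv.Nodup := (List.nodup_append.1 hnd).2.1
  have hdisj : ∀ a ∈ cu, a ∉ cv := fun a ha hb => (List.nodup_append.1 hnd).2.2 a ha a hb rfl
  have hzu : z ∉ cu := fun h => hz (List.mem_append_left _ h)
  have hzv : z ∉ cv := fun h => hz (List.mem_append_right _ h)
  have ltn : ∀ w, (β.lab w = 1 ∨ β.lab w = 2 ∨ β.lab w = 3) → w < n :=
    fun w hw => hvs w (hI.vsl w hw)
  have outn : ∀ w, β.Out w → w < n := fun w hw => ltn w (by rcases hw with h | h <;> omega)
  -- facts about chains
  have fall : ∀ c, (β.lab c = 1 ∧ β.base c = c ∧ β.lab (m c) = 2 ∧ β.dep z < β.dep c) →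
      β.Out c ∧ ¬ β.Out (m c) ∧ m c < n ∧ s.a 40 c = m c ∧ s.a 52 (m c) = β.par (m c) ∧
        β.Out (s.a 52 (m c)) := by
    rintro c ⟨h1, h2, h3, _⟩
    have hmn := ltn (m c) (Or.inr (Or.inl h3))
    refine ⟨Or.inl h1, ?_, hmn, hG.rep.mt c (ltn c (Or.inl h1)), hG.rep.par _ hmn, ?_⟩
    · rintro (h | h) <;> omega
    · rw [hG.rep.par _ hmn]; exact hI.out_par h3
  -- first part
  have e1 := Ex.blk (R := R) (cap := cap) [.copy 80 71, .copy 75 62] s
  obtain ⟨s1, hs1⟩ : ∃ s1, s1 = run [.copy 80 71, .copy 75 62] s := ⟨_, rfl⟩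
  rw [← hs1] at e1
  have A1 : s1.r 75 = u ∧ s1.r 80 = z ∧ (∀ k, k ∉ [80, 75] → s1.r k = s.r k) ∧ s1.a = s.a := by
    subst hs1
    simp only [run, B.step, h71, ne_eq, Nat.reduceEqDiff, not_false_eq_true, Function.update_of_ne, h62, Function.update_self, List.mem_cons, List.not_mem_nil, or_false, not_or, and_imp, and_true, true_and]
    intro k k1 k2; simp [k1, k2]
  obtain ⟨a75, a80, areg, aarr⟩ := A1
  obtain ⟨t2, e2, ht2⟩ := base_spec (R := R) (cap := cap) (b := β.base u) s1 (by rw [aarr]; exact hG.ufb.uf) a75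
    hu (by rw [aarr]; exact hG.ufb.bv u hu)
  obtain ⟨s3, hs3⟩ : ∃ s3, s3 = run [.copy 71 75, .copy 88 62, .copy 89 65]
    ⟨update (update s1.r 75 (β.base u)) 76 (ρ u), s1.a⟩ := ⟨_, rfl⟩
  have e3 : Ex R cap (.blk [.copy 71 75, .copy 88 62, .copy 89 65])
    ⟨update (update s1.r 75 (β.base u)) 76 (ρ u), s1.a⟩ 3 s3 := by rw [hs3]; exact Ex.blk _ _
  have A3 : s3.r 71 = β.base u ∧ s3.r 88 = u ∧ s3.r 89 = v ∧ s3.r 80 = z ∧
      (∀ k, k ∉ [71, 75, 76, 80, 88, 89] → s3.r k = s.r k) ∧ s3.a = s.a := by
    subst hs3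
    have q62 := areg 62 (by decide)
    have q65 := areg 65 (by decide)
    simp only [run, B.step, ne_eq, Nat.reduceEqDiff, not_false_eq_true, Function.update_of_ne, Function.update_self, aarr, q62, h62, q65, h65, a80, List.mem_cons, List.not_mem_nil, or_false, not_or, and_imp, and_true, true_and]
    intro k k1 k2 k3 k4 k5 k6
    simp [k1, k2, k3, k4, k5, k6]
    exact areg k (by simp [k2, k4])
  obtain ⟨b71, b88, b89, b80, breg, barr⟩ := A3
  obtain ⟨s4, t4, D4, ρ4, τ4, e4, ht4, hU4, hQ4, hD4, hτ4, i61, ireg, i51, i53, i54, iarr,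
      iqu⟩ :=
    sideLoop_spec (R := R) (cap := cap) (n := n) minj cu (β.base u) z qt β.Out ρ β.base s3
      (by
        refine ⟨?_, hG.ufb.same, ?_, hG.ufb.tb⟩
        · rw [barr]; exact hG.ufb.uf
        · rw [barr]; exact hG.ufb.bv)
      (by rw [barr]; exact hG.qu)
      (by
        rw [barr]
        exact hcu.toChT (vs := vs) (A := A) (fun c hc => (fall c (fu c hc)).2.2.2.2.1))
      hndu hzu (Or.inl hz1) hzb
      (by
        intro c hc
        have h := fall c (fu c hc)
        rw [barr]
        exact ⟨h.1, (fu c hc).2.1, h.2.1, h.2.2.1, h.2.2.2.1, h.2.2.2.2.2⟩)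
      b71 b80 (by rw [breg 1 (by decide)]; exact h1) (by rw [breg 69 (by decide)]; exact h69)
      (by rw [breg 61 (by decide)]; exact h61)
  -- second part
  have j62 : s4.r 62 = u := by rw [ireg 62 (by decide), breg 62 (by decide)]; exact h62
  have j65 : s4.r 65 = v := by rw [ireg 65 (by decide), breg 65 (by decide)]; exact h65
  have e5 := Ex.blk (R := R) (cap := cap) [.copy 75 65] s4
  obtain ⟨s5, hs5⟩ : ∃ s5, s5 = run [.copy 75 65] s4 := ⟨_, rfl⟩
  rw [← hs5] at e5
  have A5 : s5.r 75 = v ∧ (∀ k, k ∉ [75] → s5.r k = s4.r k) ∧ s5.a = s4.a := by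
    subst hs5
    simp only [run, B.step, j65, Function.update_self, List.mem_cons, List.not_mem_nil, or_false, and_true, true_and]
    intro k k1; simp [k1]
  obtain ⟨c75, creg, carr⟩ := A5
  have hvD4 : D4 v := (hD4 v).2 (Or.inl hv)
  have hτv : τ4 v = β.base v := by
    rw [hτ4 v hvD4, if_neg]
    rintro (h | h)
    · obtain ⟨c, hc, e⟩ := List.mem_map.1 h
      exact (fall c (fu c hc)).2.1 (e ▸ hv)
    · -- base v ∈ cu: impossible since base v ∈ cv or = z
      have : β.base v ∈ cv ∨ β.base v = z := by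
        cases hcv with
        | nil => exact Or.inr rfl
        | cons _ => exact Or.inl List.mem_cons_self
      rcases this with h' | h'
      · exact hdisj _ h h'
      · exact hzu (h' ▸ h)
  obtain ⟨t6, e6, ht6⟩ := base_spec (R := R) (cap := cap) (b := β.base v) s5 (by rw [carr]; exact hU4.uf) c75
    hvD4 (by rw [carr, hU4.bv v hvD4]; exact hτv)
  obtain ⟨s7, hs7⟩ : ∃ s7, s7 = run [.copy 71 75, .copy 88 65, .copy 89 62]
    ⟨update (update s5.r 75 (β.base v)) 76 (ρ4 v), s5.a⟩ := ⟨_, rfl⟩
  have e7 : Ex R cap (.blk [.copy 71 75, .copy 88 65, .copy 89 62])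
    ⟨update (update s5.r 75 (β.base v)) 76 (ρ4 v), s5.a⟩ 3 s7 := by rw [hs7]; exact Ex.blk _ _
  have A7 : s7.r 71 = β.base v ∧ s7.r 88 = v ∧ s7.r 89 = u ∧ s7.r 80 = z ∧
      (∀ k, k ∉ [71, 75, 76, 88, 89] → s7.r k = s4.r k) ∧ s7.a = s4.a := by
    subst hs7
    have q62 := creg 62 (by decide)
    have q65 := creg 65 (by decide)
    have q80 := creg 80 (by decide)
    have q80' := ireg 80 (by decide)
    simp only [run, B.step, ne_eq, Nat.reduceEqDiff, not_false_eq_true, Function.update_of_ne, Function.update_self, carr, q65, j65, q62, j62, q80, q80', b80, List.mem_cons, List.not_mem_nil, or_false, not_or, and_imp, and_true, true_and]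
    intro k k1 k2 k3 k4 k5
    simp [k1, k2, k3, k4, k5]
    exact creg k (by simp [k2])
  obtain ⟨d71, d88, d89, d80, dreg, darr⟩ := A7
  have i40 := iarr 40 (by decide)
  have i52 := iarr 52 (by decide)
  rw [barr] at i40 i52
  have hτc : ∀ w, β.Out w → β.base w ∉ cu → τ4 w = β.base w := by
    intro w hw hb
    rw [hτ4 w ((hD4 w).2 (Or.inl hw)), if_neg]
    rintro (h | h)
    · obtain ⟨c, hc, e⟩ := List.mem_map.1 h
      exact (fall c (fu c hc)).2.1 (e ▸ hw)
    · exact hb h
  have hcvT := hcv.toChT (vs := vs) (A := A) (par := s.a 52)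
    (fun c hc => (fall c (fv c hc)).2.2.2.2.1)
  have hnextv : ∀ c ∈ cv, β.base (s.a 52 (m c)) ∉ cu := by
    intro c hc h
    rcases hcvT.next c hc with h' | h'
    · exact hdisj _ h h'
    · exact hzu (h' ▸ h)
  obtain ⟨s8, t8, D8, ρ8, τ8, e8, ht8, hU8, hQ8, hD8, hτ8, k61, kreg, k51, k53, k54, karr,
      kqu⟩ :=
    sideLoop_spec (R := R) (cap := cap) (n := n) minj cv (β.base v) z (qt + cu.length) D4 ρ4 τ4 s7
      (by
        refine ⟨?_, hU4.same, ?_, hU4.tb⟩
        · rw [darr]; exact hU4.uf
        · rw [darr]; exact hU4.bv)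
      (by rw [darr]; exact hQ4)
      (by
        rw [darr, i52]
        refine hcvT.congr ?_
        intro c hc
        exact hτc _ (fall c (fv c hc)).2.2.2.2.2 (hnextv c hc))
      hndv hzv ((hD4 z).2 (Or.inl (Or.inl hz1)))
      (by rw [hτc z (Or.inl hz1) (by rw [hzb]; exact hzu)]; exact hzb)
      (by
        intro c hc
        have h := fall c (fv c hc)
        have hf := fv c hc
        rw [darr, i40, i52]
        refine ⟨(hD4 c).2 (Or.inl h.1), ?_, ?_, h.2.2.1, h.2.2.2.1, (hD4 _).2 (Or.inl h.2.2.2.2.2)⟩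
        · rw [hτc c h.1 (by rw [hf.2.1]; exact fun h' => hdisj c h' hc)]; exact hf.2.1
        · intro h'
          rcases (hD4 _).1 h' with h'' | h''
          · exact h.2.1 h''
          · obtain ⟨c', hc', e⟩ := List.mem_map.1 h''
            have := minj _ _ e
            exact hdisj c' hc' (this ▸ hc))
      d71 d80 (by rw [dreg 1 (by decide), ireg 1 (by decide), breg 1 (by decide)]; exact h1)
      (by rw [dreg 69 (by decide), ireg 69 (by decide), breg 69 (by decide)]; exact h69)
      (by rw [dreg 61 (by decide)]; exact i61)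
  -- identification with the abstract contraction
  have hmm : ∀ w (cs : List ℕ), w ∈ cs.map m ↔ m w ∈ cs := by
    intro w cs
    constructor
    · intro h
      obtain ⟨c, hc, e⟩ := List.mem_map.1 h
      rw [← e, hM.inv]; exact hc
    · intro h
      exact List.mem_map.2 ⟨m w, h, hM.inv w⟩
  obtain ⟨hOut', hbase'⟩ := contract_ident (u := u) (v := v) hM.inv hzv hD4 hτ4 hD8 hτ8
  refine ⟨s8, _, ρ8, .seq e1 (.seq e2 (.seq e3 (.seq e4 (.seq e5 (.seq e6 (.seq e7 e8)))))),
    ?_, ⟨?_, ?_, ?_⟩, ?_, ?_, ?_, ?_⟩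
  · simp only [List.length_cons, List.length_nil]
    have : (6 * (Nat.log 2 n + 1) + 40) * (cu.length + cv.length) =
      (6 * (Nat.log 2 n + 1) + 40) * cu.length + (6 * (Nat.log 2 n + 1) + 40) * cv.length := by
      ring
    omega
  · -- representation
    constructor
    · intro w hw
      rw [karr 40 (by decide), darr, i40]; exact hG.rep.mt w hw
    · intro w hw
      rw [k51, darr, i51, barr]
      simp only [hmm, BS.contract, List.mem_append]
      by_cases h1 : m w ∈ cv
      · simp [h1]
      · by_cases h2 : m w ∈ cu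
        · simp [h2]
        · simp [h1, h2, hG.rep.lab w hw]
    · intro w hw
      rw [karr 52 (by decide), darr, i52]; exact hG.rep.par w hw
    · intro w hw
      rw [k53, darr, i53, barr, d88, b88]
      simp only [BS.contract, hmm]
      by_cases h1 : m w ∈ cv
      · have h2 : m w ∉ cu := fun h => hdisj _ h h1
        simp [h1, h2]
      · by_cases h2 : m w ∈ cu
        · simp [h1, h2]
        · simp [h1, h2, hG.rep.ba w hw]
    · intro w hw
      rw [k54, darr, i54, barr, d89, b89]
      simp only [BS.contract, hmm]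
      by_cases h1 : m w ∈ cv
      · have h2 : m w ∉ cu := fun h => hdisj _ h h1
        simp [h1, h2]
      · by_cases h2 : m w ∈ cu
        · simp [h1, h2]
        · simp [h1, h2, hG.rep.bb w hw]
    · intro w hw
      rw [karr 55 (by decide), darr, iarr 55 (by decide), barr]; exact hG.rep.dep w hw
  · exact hU8.congr hOut' hbase'
  · have e : qt + (cu.length + cv.length) = qt + cu.length + cv.length := by omega
    rw [e]
    have : (β.contract m u v cu cv z).Out = D8 := funext fun w => propext (hOut' w)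
    rw [this]; exact hQ8
  · rw [k61]; omega
  · intro k hk
    have hk1 : k ∉ sideRegs := fun h =>
      hk ((by decide : ∀ x ∈ sideRegs, x ∈ contractRegs) k h)
    have hk2 : k ∉ [71, 75, 76, 88, 89] := fun h =>
      hk ((by decide : ∀ x ∈ [71, 75, 76, 88, 89], x ∈ contractRegs) k h)
    have hk3 : k ∉ [71, 75, 76, 80, 88, 89] := fun h =>
      hk ((by decide : ∀ x ∈ [71, 75, 76, 80, 88, 89], x ∈ contractRegs) k h)
    rw [kreg k hk1, dreg k hk2, ireg k hk1, breg k hk3]
  · intro j hj
    rw [karr j hj, darr, iarr j hj, barr]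
  · intro i hi
    rw [kqu i (by omega), darr, iqu i hi, barr]

end Vale.Agent.P305
end
end

section

section

/-! Forest search on the L1 machine, part 3: nearest common base of two chains; growth step. -/

set_option autoImplicit false
set_option linter.unusedSimpArgs false
set_option linter.unusedVariables false

namespace Vale.Agent.P305

open Function (update)
open L1

variable {R : List ℕ → (ℕ → ℕ) → ℕ → Prop} {cap : ℕ}

theorem Ch.snoc {m : ℕ → ℕ} {β : BS} {a x : ℕ} {cs : List ℕ} (h : Ch m β a cs x)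
    (h2 : β.lab (m x) = 2) : Ch m β a (cs ++ [x]) (β.base (β.par (m x))) := by
  induction h with
  | nil z => exact Ch.cons h2 (Ch.nil _)
  | @cons y z cs hy _ ih => exact Ch.cons hy (ih h2)

/-- Register 75: base, replaced by the next base. -/
def moveC : Cmd := .seq (.blk [.load 40 75 75, .load 52 75 75]) baseC

/-- One step of the walk of the two pointers 71, 72. -/
def lcaBody : Cmd :=
  .seq (.blk [.load 55 73 71, .load 55 74 72])
  (.ite (.lt 73 74)
    (.seq (.blk [.copy 75 72]) (.seq moveC (.blk [.copy 72 75])))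
    (.ite (.eq 73 1)
      (.blk [.copy 78 71, .copy 79 72, .copy 77 67, .copy 72 71])
      (.seq (.blk [.copy 75 71]) (.seq moveC (.blk [.copy 71 75])))))

def lcaLoop : Cmd := .loop (.ne 71 72) lcaBody

def lcaRegs : List ℕ := [71, 72, 73, 74, 75, 76, 77, 78, 79]

/-- The two partial chains. -/
structure LcaI (m : ℕ → ℕ) (β : BS) (a b x y : ℕ) (pu pv : List ℕ) : Prop where
  cu : Ch m β a pu x
  cv : Ch m β b pv y
  nd : (pu ++ pv).Nodup
  hu : ∀ p ∈ pu, β.dep x < β.dep p ∧ β.dep y ≤ β.dep p ∧ p ≠ y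
  hv : ∀ p ∈ pv, β.dep y < β.dep p ∧ β.dep x < β.dep p

theorem LcaI.moveY {m : ℕ → ℕ} {β : BS} {a b x y : ℕ} {pu pv : List ℕ}
    (h : LcaI m β a b x y pu pv) (h2 : β.lab (m y) = 2)
    (hd : β.dep (β.base (β.par (m y))) < β.dep y) (hxy : β.dep x < β.dep y) :
    LcaI m β a b x (β.base (β.par (m y))) pu (pv ++ [y]) := by
  refine ⟨h.cu, h.cv.snoc h2, ?_, ?_, ?_⟩
  · rw [← List.append_assoc, List.nodup_append]
    refine ⟨h.nd, by simp, ?_⟩
    intro p hp q hq e
    have : q = y := by simpa using hq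
    rw [this] at e
    subst e
    rcases List.mem_append.1 hp with h1 | h1
    · exact (h.hu p h1).2.2 rfl
    · exact absurd (h.hv p h1).1 (lt_irrefl _)
  · intro p hp
    have := h.hu p hp
    refine ⟨this.1, by omega, ?_⟩
    intro e; rw [← e] at hd; omega
  · intro p hp
    rcases List.mem_append.1 hp with h1 | h1
    · have := h.hv p h1
      exact ⟨by omega, this.2⟩
    · have : p = y := by simpa using h1
      subst this
      exact ⟨hd, hxy⟩

theorem LcaI.moveX {m : ℕ → ℕ} {β : BS} {a b x y : ℕ} {pu pv : List ℕ}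
    (h : LcaI m β a b x y pu pv) (h2 : β.lab (m x) = 2)
    (hd : β.dep (β.base (β.par (m x))) < β.dep x) (hxy : ¬ β.dep x < β.dep y) (hne : x ≠ y) :
    LcaI m β a b (β.base (β.par (m x))) y (pu ++ [x]) pv := by
  refine ⟨h.cu.snoc h2, h.cv, ?_, ?_, ?_⟩
  · have hp : List.Perm (pu ++ [x] ++ pv) (x :: (pu ++ pv)) := by
      rw [List.append_assoc]; exact List.perm_middle
    rw [hp.nodup_iff, List.nodup_cons]
    refine ⟨?_, h.nd⟩
    intro hx
    rcases List.mem_append.1 hx with h1 | h1
    · exact absurd (h.hu x h1).1 (lt_irrefl _)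
    · exact absurd (h.hv x h1).2 (lt_irrefl _)
  · intro p hp
    rcases List.mem_append.1 hp with h1 | h1
    · have := h.hu p h1
      exact ⟨by (clear * - hd this; omega), this.2.1, this.2.2⟩
    · have : p = x := by simpa using h1
      subst this
      exact ⟨hd, by omega, hne⟩
  · intro p hp
    have := h.hv p hp
    exact ⟨this.1, by omega⟩

theorem lcaLoop_spec {n : ℕ} {vs : ℕ → Prop} {A : ℕ → ℕ → Prop} {m : ℕ → ℕ}
    (hvs : ∀ v, vs v → v < n) (hM : Mat A m) (s : St) {β : BS} {ρ : ℕ → ℕ} {qt : ℕ}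
    (hI : Inv vs A m β) (hG : Good n m s β ρ qt) {a b : ℕ}
    (ha : β.lab a = 1 ∧ β.base a = a) (hb : β.lab b = 1 ∧ β.base b = b)
    (h71 : s.r 71 = a) (h72 : s.r 72 = b) (h1 : s.r 1 = 0) (h67 : s.r 67 = 1) (h77 : s.r 77 = 0) :
    ∃ s' t x y pu pv, Ex R cap lcaLoop s t s' ∧ LcaI m β a b x y pu pv ∧
      t ≤ (3 * (Nat.log 2 n + 1) + 20) * (pu.length + pv.length) + 20 ∧
      (∀ k, k ∉ lcaRegs → s'.r k = s.r k) ∧ s'.a = s.a ∧
      ((s'.r 77 = 0 ∧ x = y ∧ s'.r 71 = x) ∨
        (s'.r 77 = 1 ∧ x ≠ y ∧ β.dep x = 0 ∧ β.dep y = 0 ∧ s'.r 78 = x ∧ s'.r 79 = y)) := by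
  have ltn : ∀ w, (β.lab w = 1 ∨ β.lab w = 2 ∨ β.lab w = 3) → w < n :=
    fun w hw => hvs w (hI.vsl w hw)
  obtain ⟨s', t, e, ⟨x, y, pu, pv, hL, hreg, harr, hcase⟩, hc⟩ := loop_rule_t (R := R) (cap := cap)
    (c := .ne 71 72) (p := lcaBody)
    (fun τ s' => ∃ x y pu pv, LcaI m β a b x y pu pv ∧ (∀ k, k ∉ lcaRegs → s'.r k = s.r k) ∧
      s'.a = s.a ∧
      ((s'.r 77 = 0 ∧ s'.r 71 = x ∧ s'.r 72 = y ∧
          τ ≤ (3 * (Nat.log 2 n + 1) + 20) * (pu.length + pv.length)) ∨
        (s'.r 71 = s'.r 72 ∧ s'.r 77 = 1 ∧ x ≠ y ∧ β.dep x = 0 ∧ β.dep y = 0 ∧ s'.r 78 = x ∧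
          s'.r 79 = y ∧ τ ≤ (3 * (Nat.log 2 n + 1) + 20) * (pu.length + pv.length) + 15)))
    (fun s' => if s'.r 71 = s'.r 72 then 0 else β.dep (s'.r 71) + β.dep (s'.r 72) + 1)
    (by
      rintro τ s' ⟨x, y, pu, pv, hL, hreg, harr, hcase⟩ hc
      simp only [Test.holds] at hc
      rcases hcase with ⟨h77', h71', h72', hτ⟩ | ⟨he, _⟩
      swap
      · exact absurd he hc
      rw [h71', h72'] at hc
      obtain ⟨_, hx1, hxb, _⟩ := hI.chain_facts hM hL.cu ha.1 ha.2
      obtain ⟨_, hy1, hyb, _⟩ := hI.chain_facts hM hL.cv hb.1 hb.2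
      have hxn := ltn x (Or.inl hx1)
      have hyn := ltn y (Or.inl hy1)
      have e1 := Ex.blk (R := R) (cap := cap) [.load 55 73 71, .load 55 74 72] s'
      obtain ⟨s1, hs1⟩ : ∃ s1, s1 = run [.load 55 73 71, .load 55 74 72] s' := ⟨_, rfl⟩
      rw [← hs1] at e1
      have A1 : s1.r 73 = β.dep x ∧ s1.r 74 = β.dep y ∧ (∀ k, k ∉ [73, 74] → s1.r k = s'.r k) ∧
          s1.a = s.a := by
        subst hs1
        simp only [run, B.step, h71', harr, hG.rep.dep x hxn, ne_eq, Nat.reduceEqDiff, not_false_eq_true, Function.update_of_ne, h72', hG.rep.dep y hyn, Function.update_self, List.mem_cons, List.not_mem_nil, or_false, not_or, and_imp, and_true, true_and]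
        intro k k1 k2; simp [k1, k2]
      obtain ⟨a73, a74, areg, aarr⟩ := A1
      have hsub : ∀ k, k ∉ lcaRegs → s1.r k = s.r k := by
        intro k hk
        rw [areg k (fun h => hk ((by decide : ∀ x ∈ [73, 74], x ∈ lcaRegs) k h)), hreg k hk]
      have nx : ∀ w, β.lab w = 1 → β.base w = w → β.dep w ≠ 0 → β.lab (m w) = 2 ∧
          β.dep (β.base (β.par (m w))) < β.dep w := by
        intro w hw hwb hd
        have hmw : m w ≠ w := fun h => hd ((hI.dep0 w hw).2 h)
        have h2 : β.lab (m w) = 2 := by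
          rcases hI.tmate w hw hmw with h | h
          · exact h
          · have := hI.base3 _ h
            rw [hM.inv, hwb] at this
            exact absurd this.1.symm this.2
        have := hI.depp _ h2
        rw [hM.inv] at this
        exact ⟨h2, this⟩
      -- the move to the next base
      have key : ∀ w, β.lab w = 1 → ∀ s2 : St, s2.a = s.a → s2.r 75 = w → β.lab (m w) = 2 →
          ∃ t, Ex R cap moveC s2 t
            ⟨update (update s2.r 75 (β.base (β.par (m w)))) 76 (ρ (β.par (m w))), s.a⟩ ∧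
            t ≤ 3 * (Nat.log 2 n + 1) + 5 := by
        intro w hw s2 hs2 h75 h2
        have hmn := ltn (m w) (Or.inr (Or.inl h2))
        have e2 := Ex.blk (R := R) (cap := cap) [.load 40 75 75, .load 52 75 75] s2
        have hr : run [.load 40 75 75, .load 52 75 75] s2 = ⟨update s2.r 75 (β.par (m w)), s.a⟩ := by
          simp [run, B.step, hs2, h75, hG.rep.mt w (ltn w (Or.inl hw)), hG.rep.par (m w) hmn]
        rw [hr] at e2
        have hpo := hI.out_par h2
        obtain ⟨t3, e3, ht3⟩ := base_spec (R := R) (cap := cap) (b := β.base (β.par (m w)))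
          ⟨update s2.r 75 (β.par (m w)), s.a⟩ hG.ufb.uf (v := β.par (m w)) (by simp) hpo
          (hG.ufb.bv _ hpo)
        have e4 := Ex.seq e2 e3
        simp only [Function.update_idem] at e4
        exact ⟨_, e4, by simp only [List.length_cons, List.length_nil]; omega⟩
      by_cases hlt : β.dep x < β.dep y
      · -- move y
        obtain ⟨hy2, hyd⟩ := nx y hy1 hyb (by omega)
        have e2 := Ex.blk (R := R) (cap := cap) [.copy 75 72] s1
        obtain ⟨t3, e3, ht3⟩ := key y hy1 (run [.copy 75 72] s1) (by simp [run, B.step, aarr])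
          (by simp [run, B.step, areg 72 (by decide), h72']) hy2
        have e4 := Ex.blk (R := R) (cap := cap) [.copy 72 75]
          ⟨update (update (run [.copy 75 72] s1).r 75 (β.base (β.par (m y)))) 76
            (ρ (β.par (m y))), s.a⟩
        refine ⟨_, _, .seq e1 (.iteTrue (by simp only [Test.holds, a73, a74]; exact hlt)
          (.seq e2 (.seq e3 e4))), ⟨x, _, pu, _, hL.moveY hy2 hyd hlt, ?_, ?_, Or.inl ⟨?_, ?_, ?_, ?_⟩⟩,
          ?_⟩
        · intro k hk
          have hk' := hsub k hk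
          simp only [lcaRegs, List.mem_cons, List.not_mem_nil, or_false, not_or] at hk
          simp [run, B.step, hk, hk']
        · simp [run, B.step]
        · simp [run, B.step, areg 77 (by decide), h77']
        · simp [run, B.step, areg 71 (by decide), h71']
        · simp only [run, B.step, Function.update_idem, ne_eq, Nat.reduceEqDiff, not_false_eq_true, Function.update_of_ne, Function.update_self]
        · simp only [List.length_cons, List.length_nil, List.length_append]
          have : (3 * (Nat.log 2 n + 1) + 20) * (pu.length + (pv.length + (0 + 1))) =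
            (3 * (Nat.log 2 n + 1) + 20) * (pu.length + pv.length) + (3 * (Nat.log 2 n + 1) + 20) := by
            ring
          rw [this]; omega
        · simp only [run, B.step]
          simp only [Function.update_idem, ne_eq, Nat.reduceEqDiff, not_false_eq_true, Function.update_of_ne, Function.update_self, areg 71 (by decide), h71', h72', hc, ↓reduceIte, Order.lt_add_one_iff]
          split <;> omega
      · by_cases hx0 : β.dep x = 0
        · -- two roots
          have hy0 : β.dep y = 0 := by omega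
          have e2 := Ex.blk (R := R) (cap := cap)
            [.copy 78 71, .copy 79 72, .copy 77 67, .copy 72 71] s1
          refine ⟨_, _, .seq e1 (.iteFalse (by simp only [Test.holds, a73, a74]; exact hlt)
            (.iteTrue ?_ e2)), ⟨x, y, pu, pv, hL, ?_, ?_, Or.inr ⟨?_, ?_, hc, hx0, hy0, ?_, ?_, ?_⟩⟩,
            ?_⟩
          · simp only [Test.holds, a73, areg 1 (by decide), hreg 1 (by decide), h1, hx0]
          · intro k hk
            have hk' := hsub k hk
            simp only [lcaRegs, List.mem_cons, List.not_mem_nil, or_false, not_or] at hk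
            simp only [run, B.step, ne_eq, Nat.reduceEqDiff, not_false_eq_true, Function.update_of_ne, hk, hk']
          · simp [run, B.step, aarr]
          · simp [run, B.step]
          · simp only [run, B.step, ne_eq, Nat.reduceEqDiff, not_false_eq_true, Function.update_of_ne, areg 67 (by decide), hreg 67 (by decide), h67, Function.update_self]
          · simp [run, B.step, areg 71 (by decide), h71']
          · simp only [run, B.step, ne_eq, Nat.reduceEqDiff, not_false_eq_true, Function.update_of_ne, areg 72 (by decide), h72', Function.update_self]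
          · simp only [List.length_cons, List.length_nil]; omega
          · simp [run, B.step, h71', h72', hc]
        · -- move x
          obtain ⟨hx2, hxd⟩ := nx x hx1 hxb hx0
          have e2 := Ex.blk (R := R) (cap := cap) [.copy 75 71] s1
          obtain ⟨t3, e3, ht3⟩ := key x hx1 (run [.copy 75 71] s1) (by simp [run, B.step, aarr])
            (by simp [run, B.step, areg 71 (by decide), h71']) hx2
          have e4 := Ex.blk (R := R) (cap := cap) [.copy 71 75]
            ⟨update (update (run [.copy 75 71] s1).r 75 (β.base (β.par (m x)))) 76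
              (ρ (β.par (m x))), s.a⟩
          refine ⟨_, _, .seq e1 (.iteFalse (by simp only [Test.holds, a73, a74]; exact hlt)
            (.iteFalse ?_ (.seq e2 (.seq e3 e4)))), ⟨_, y, _, pv, hL.moveX hx2 hxd hlt hc, ?_, ?_,
            Or.inl ⟨?_, ?_, ?_, ?_⟩⟩, ?_⟩
          · simp only [Test.holds, a73, areg 1 (by decide), hreg 1 (by decide), h1]
            exact hx0
          · intro k hk
            have hk' := hsub k hk
            simp only [lcaRegs, List.mem_cons, List.not_mem_nil, or_false, not_or] at hk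
            simp [run, B.step, hk, hk']
          · simp [run, B.step]
          · simp [run, B.step, areg 77 (by decide), h77']
          · simp [run, B.step]
          · simp [run, B.step, areg 72 (by decide), h72']
          · simp only [List.length_cons, List.length_nil, List.length_append]
            have : (3 * (Nat.log 2 n + 1) + 20) * (pu.length + (0 + 1) + pv.length) =
              (3 * (Nat.log 2 n + 1) + 20) * (pu.length + pv.length) + (3 * (Nat.log 2 n + 1) + 20) := by
              ring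
            rw [this]; omega
          · simp only [run, B.step]
            simp only [Function.update_idem, ne_eq, Nat.reduceEqDiff, not_false_eq_true, Function.update_of_ne, Function.update_self, Nat.succ_ne_self, areg 72 (by decide), h72', h71', hc, ↓reduceIte, Order.lt_add_one_iff]
            split <;> omega)
    0 s (by
      refine ⟨a, b, [], [], ⟨Ch.nil _, Ch.nil _, by simp, by simp, by simp⟩, fun k _ => rfl, rfl, ?_⟩
      exact Or.inl ⟨h77, h71, h72, by simp⟩)
  refine ⟨s', t + 1, x, y, pu, pv, e, hL, ?_, hreg, harr, ?_⟩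
  · rcases hcase with h | h <;> omega
  · simp only [Test.holds, ne_eq, not_not] at hc
    rcases hcase with ⟨q77, q71, q72, _⟩ | ⟨_, q77, q1, q2, q3, q4, q5, _⟩
    · left
      exact ⟨q77, by rw [← q71, ← q72, hc], q71⟩
    · right
      exact ⟨q77, q1, q2, q3, q4, q5⟩

/-- Growth: register 62 = outer vertex `u`, register 65 = unlabelled neighbour `v`. -/
def growC : Cmd :=
  .seq (.blk [.copy 75 62])
  (.seq baseC
    (.blk [.load 55 73 75, .inc 73, .load 40 81 65, .store 52 65 62, .store 51 65 68,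
      .store 51 81 67, .store 55 81 73, .store 59 61 81, .inc 61, .store 56 81 81,
      .store 57 81 1, .store 58 81 81]))

def growRegs : List ℕ := [61, 73, 75, 76, 81]

theorem growC_spec {n : ℕ} {vs : ℕ → Prop} {A : ℕ → ℕ → Prop} {m : ℕ → ℕ}
    (hvs : ∀ v, vs v → v < n) (hvA : ∀ {u v}, A u v → vs u) (hs : ∀ {u v}, A u v → A v u)
    (hM : Mat A m) (s : St) {β : BS} {ρ : ℕ → ℕ} {qt : ℕ} (hI : Inv vs A m β)
    (hG : Good n m s β ρ qt) {u v : ℕ} (hu : β.Out u) (huv : A u v) (hv0 : β.lab v = 0)
    (h62 : s.r 62 = u) (h65 : s.r 65 = v) (h1 : s.r 1 = 0)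
    (h67 : s.r 67 = 1) (h68 : s.r 68 = 2) (h61 : s.r 61 = qt) :
    ∃ s' t ρ', Ex R cap growC s t s' ∧ t ≤ 3 * (Nat.log 2 n + 1) + 20 ∧
      Good n m s' (β.grow m u v) ρ' (qt + 1) ∧
      s'.r 61 = qt + 1 ∧ (∀ k, k ∉ growRegs → s'.r k = s.r k) ∧
      (∀ j, j ∉ [51, 52, 55, 56, 57, 58, 59] → s'.a j = s.a j) ∧
      (∀ i < qt, s'.a 59 i = s.a 59 i) := by
  have hvn : v < n := hvs v (hvA (hs huv))
  have hmv : m v ≠ v := by
    intro h
    have := (hI.root v (hvA (hs huv)) h).1
    omega
  have hmn : m v < n := hvs _ (hvA (hs (hM.adj v hmv)))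
  have hm0 : β.lab (m v) = 0 := by
    have h3 := hI.le3 _ (hvA (hs (hM.adj v hmv)))
    by_contra h0
    have : β.lab (m v) = 1 ∨ β.lab (m v) = 2 ∨ β.lab (m v) = 3 := by omega
    rcases this with h | h
    · have := hI.tmate _ h (by rw [hM.inv]; exact fun h => hmv h.symm)
      rw [hM.inv] at this
      omega
    · have := hI.imate _ h
      rw [hM.inv] at this
      omega
  have hno : ¬ β.Out (m v) := by rintro (h | h) <;> omega
  have hb := hI.blab u hu
  have hbn : β.base u < n := hvs _ (hI.vsl _ (Or.inl hb.1))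
  have e1 := Ex.blk (R := R) (cap := cap) [.copy 75 62] s
  obtain ⟨t2, e2, ht2⟩ := base_spec (R := R) (cap := cap) (b := β.base u) (run [.copy 75 62] s)
    (by simpa [run, B.step] using hG.ufb.uf) (v := u) (by simp [run, B.step, h62]) hu
    (by simpa [run, B.step] using hG.ufb.bv u hu)
  have e3 := Ex.blk (R := R) (cap := cap) [.load 55 73 75, .inc 73, .load 40 81 65, .store 52 65 62,
    .store 51 65 68, .store 51 81 67, .store 55 81 73, .store 59 61 81, .inc 61, .store 56 81 81,
      .store 57 81 1, .store 58 81 81] ⟨update (update (run [.copy 75 62] s).r 75 (β.base u)) 76 (ρ u),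
        (run [.copy 75 62] s).a⟩
  obtain ⟨s3, hs3⟩ : ∃ s3, s3 = run [.load 55 73 75, .inc 73, .load 40 81 65, .store 52 65 62,
    .store 51 65 68, .store 51 81 67, .store 55 81 73, .store 59 61 81, .inc 61, .store 56 81 81,
      .store 57 81 1, .store 58 81 81] ⟨update (update (run [.copy 75 62] s).r 75 (β.base u)) 76 (ρ u),
        (run [.copy 75 62] s).a⟩ := ⟨_, rfl⟩
  rw [← hs3] at e3
  have hmt := hG.rep.mt v hvn
  have hdp := hG.rep.dep _ hbn
  have A3 : s3.r 61 = qt + 1 ∧ (∀ k, k ∉ growRegs → s3.r k = s.r k) ∧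
      (∀ j, j ∉ [51, 52, 55, 56, 57, 58, 59] → s3.a j = s.a j) ∧
      s3.a 51 = update (update (s.a 51) v 2) (m v) 1 ∧ s3.a 52 = update (s.a 52) v u ∧
      s3.a 55 = update (s.a 55) (m v) (β.dep (β.base u) + 1) ∧
      s3.a 59 = update (s.a 59) qt (m v) ∧ s3.a 56 = update (s.a 56) (m v) (m v) ∧
      s3.a 57 = update (s.a 57) (m v) 0 ∧ s3.a 58 = update (s.a 58) (m v) (m v) := by
    subst hs3
    simp only [run, B.step]
    simp only [h62, Function.update_idem, ne_eq, Nat.reduceEqDiff, not_false_eq_true, Function.update_of_ne, Function.update_self, hdp, h65, hmt, h61, Nat.add_left_cancel_iff, List.mem_cons, List.not_mem_nil, or_false, not_or, h68, h67, Nat.succ_ne_self, OfNat.one_ne_ofNat, h1, and_imp, and_self, and_true, true_and]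
    refine ⟨?_, ?_⟩
    · intro k hk
      simp only [growRegs, List.mem_cons, List.not_mem_nil, or_false, not_or] at hk
      simp [Function.update_apply, hk]
    · intro j j1 j2 j3 j4 j5 j6 j7
      simp only [ne_eq, j6, not_false_eq_true, Function.update_of_ne, j5, j4, j7, j3, j1, j2]
  obtain ⟨k61, kreg, karr, k51, k52, k55, k59, k56, k57, k58⟩ := A3
  have hOut : ∀ w, (β.grow m u v).Out w ↔ (β.Out w ∨ w = m v) := by
    intro w
    unfold BS.Out BS.grow
    simp only
    by_cases h1 : w = m v
    · simp [h1]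
    · by_cases h2 : w = v
      · subst h2; simp [h1, hv0]
      · simp [h1, h2]
  have hne : ∀ w, β.Out w → w ≠ m v := fun w hw h => hno (h ▸ hw)
  refine ⟨s3, _, update ρ (m v) (m v), .seq e1 (.seq e2 e3), ?_, ⟨?_, ?_, ?_⟩, k61, kreg, karr,
    fun i hi => by rw [k59, Function.update_of_ne (by omega)]⟩
  · simp only [List.length_cons, List.length_nil]; (clear * - ht2; omega)
  · constructor
    · intro w hw
      rw [karr 40 (by decide)]; exact hG.rep.mt w hw
    · intro w hw
      rw [k51]
      simp only [BS.grow, Function.update_apply]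
      by_cases h1 : w = m v
      · simp [h1]
      · by_cases h2 : w = v
        · simp [h1, h2]
        · simp [h1, h2, hG.rep.lab w hw]
    · intro w hw
      rw [k52]
      simp only [BS.grow, Function.update_apply]
      by_cases h2 : w = v
      · simp [h2]
      · simp [h2, hG.rep.par w hw]
    · intro w hw
      rw [karr 53 (by decide)]; exact hG.rep.ba w hw
    · intro w hw
      rw [karr 54 (by decide)]; exact hG.rep.bb w hw
    · intro w hw
      rw [k55]
      simp only [BS.grow, Function.update_apply]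
      by_cases h2 : w = m v
      · simp [h2]
      · simp [h2, hG.rep.dep w hw]
  · have h1 := hG.ufb.uf.add hno hmn
    have hD : (β.grow m u v).Out = fun w => β.Out w ∨ w = m v :=
      funext fun w => propext (hOut w)
    have hbase : ∀ w, β.Out w → (β.grow m u v).base w = β.base w := by
      intro w hw
      simp [BS.grow, hne w hw]
    have hbm : (β.grow m u v).base (m v) = m v := by simp [BS.grow]
    have hρne : ∀ w, β.Out w → ρ w ≠ m v := fun w hw => hne _ (hG.ufb.uf.root w hw).1
    have hbne : ∀ w, β.Out w → β.base w ≠ m v := fun w hw => hne _ (hG.ufb.tb w hw).1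
    refine ⟨?_, ?_, ?_, ?_⟩
    · rw [k56, k57, hD]; exact h1
    · intro a b ha hb
      rcases (hOut a).1 ha with ha | ha
      · rcases (hOut b).1 hb with hb | hb
        · rw [Function.update_of_ne (hne a ha), Function.update_of_ne (hne b hb), hbase a ha,
            hbase b hb]
          exact hG.ufb.same a b ha hb
        · rw [hb, Function.update_of_ne (hne a ha), Function.update_self, hbase a ha, hbm]
          exact ⟨fun h => absurd h (hρne a ha), fun h => absurd h (hbne a ha)⟩
      · rcases (hOut b).1 hb with hb | hb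
        · rw [ha, Function.update_of_ne (hne b hb), Function.update_self, hbase b hb, hbm]
          exact ⟨fun h => absurd h.symm (hρne b hb), fun h => absurd h.symm (hbne b hb)⟩
        · rw [ha, hb]; simp
    · intro w hw
      rcases (hOut w).1 hw with hw | hw
      · rw [k58, Function.update_of_ne (hne w hw), Function.update_of_ne (hρne w hw), hbase w hw]
        exact hG.ufb.bv w hw
      · rw [hw, k58, Function.update_self, Function.update_self, hbm]
    · intro w hw
      rcases (hOut w).1 hw with hw | hw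
      · have := hG.ufb.tb w hw
        rw [hbase w hw, hbase _ this.1]
        exact ⟨(hOut _).2 (Or.inl this.1), this.2⟩
      · rw [hw, hbm]
        exact ⟨(hOut _).2 (Or.inr rfl), hbm⟩
  · have hD : (β.grow m u v).Out = fun w => β.Out w ∨ w = m v :=
      funext fun w => propext (hOut w)
    rw [hD, k59]
    exact hG.qu.push hno

end Vale.Agent.P305
end
end

section

section

/-! Forest search on the L1 machine, part 4: processing of one arc. -/

set_option autoImplicit false
set_option linter.unusedSimpArgs false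
set_option linter.unusedVariables false

namespace Vale.Agent.P305

open Function (update)
open L1

variable {R : List ℕ → (ℕ → ℕ) → ℕ → Prop} {cap : ℕ}

/-- `P` is a set of arcs that have been processed. -/
structure Pr (A : ℕ → ℕ → Prop) (P : ℕ → ℕ → Prop) (β : BS) : Prop where
  src : ∀ a b, P a b → β.Out a ∧ A a b
  lab : ∀ a b, P a b → β.lab b ≠ 0
  base : ∀ a b, P a b → P b a → β.base a = β.base b

/-- What persists of a label state. -/
structure Ext (β β' : BS) : Prop where
  out : ∀ w, β.Out w → β'.Out w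
  lab : ∀ w, β.lab w ≠ 0 → β'.lab w ≠ 0
  base : ∀ a b, β.Out a → β.Out b → β.base a = β.base b → β'.base a = β'.base b

theorem Ext.refl (β : BS) : Ext β β := ⟨fun _ h => h, fun _ h => h, fun _ _ _ _ h => h⟩

theorem Ext.trans {β β' β'' : BS} (h : Ext β β') (h' : Ext β' β'') : Ext β β'' :=
  ⟨fun w hw => h'.out w (h.out w hw), fun w hw => h'.lab w (h.lab w hw),
    fun a b ha hb e => h'.base a b (h.out a ha) (h.out b hb) (h.base a b ha hb e)⟩

theorem Pr.ext {A P : ℕ → ℕ → Prop} {β β' : BS} (h : Pr A P β) (e : Ext β β') : Pr A P β' :=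
  ⟨fun a b hab => ⟨e.out a (h.src a b hab).1, (h.src a b hab).2⟩,
    fun a b hab => e.lab b (h.lab a b hab),
    fun a b hab hba => e.base a b (h.src a b hab).1 (h.src b a hba).1 (h.base a b hab hba)⟩

theorem Pr.add {A P : ℕ → ℕ → Prop} {β : BS} (h : Pr A P β) {u v : ℕ} (hu : β.Out u)
    (huv : A u v) (hl : β.lab v ≠ 0) (hb : β.Out v → β.base u = β.base v) :
    Pr A (fun a b => P a b ∨ (a = u ∧ b = v)) β := by
  refine ⟨?_, ?_, ?_⟩
  · rintro a b (h1 | ⟨rfl, rfl⟩)
    · exact h.src a b h1
    · exact ⟨hu, huv⟩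
  · rintro a b (h1 | ⟨rfl, rfl⟩)
    · exact h.lab a b h1
    · exact hl
  · rintro a b (h1 | ⟨rfl, rfl⟩) (h2 | ⟨h3, h4⟩)
    · exact h.base a b h1 h2
    · subst h3; subst h4
      exact (hb (h.src _ _ h1).1).symm
    · exact hb (h.src _ _ h2).1
    · exact congrArg _ h4

theorem Ext.grow {vs : ℕ → Prop} {A : ℕ → ℕ → Prop} {m : ℕ → ℕ} {β : BS} (hM : Mat A m)
    (hI : Inv vs A m β) (hvA : ∀ {u v}, A u v → vs u) (hs : ∀ {u v}, A u v → A v u)
    {u v : ℕ} (huv : A u v) (hv0 : β.lab v = 0) : Ext β (β.grow m u v) := by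
  have hmv : m v ≠ v := by
    intro h
    have := (hI.root v (hvA (hs huv)) h).1
    omega
  have hm0 : β.lab (m v) = 0 := by
    have h3 := hI.le3 _ (hvA (hs (hM.adj v hmv)))
    by_contra h0
    have : β.lab (m v) = 1 ∨ β.lab (m v) = 2 ∨ β.lab (m v) = 3 := by omega
    rcases this with h | h
    · have := hI.tmate _ h (by rw [hM.inv]; exact fun h => hmv h.symm)
      rw [hM.inv] at this
      omega
    · have := hI.imate _ h
      rw [hM.inv] at this
      omega
  have hne : ∀ w, β.lab w ≠ 0 → w ≠ m v ∧ w ≠ v := by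
    intro w hw
    exact ⟨fun h => hw (h ▸ hm0), fun h => hw (h ▸ hv0)⟩
  have hne' : ∀ w, β.Out w → w ≠ m v ∧ w ≠ v := by
    intro w hw
    exact hne w (by rcases hw with h | h <;> omega)
  refine ⟨?_, ?_, ?_⟩
  · intro w hw
    unfold BS.Out BS.grow
    simp only [if_neg (hne' w hw).1, if_neg (hne' w hw).2]
    exact hw
  · intro w hw
    simp only [BS.grow, if_neg (hne w hw).1, if_neg (hne w hw).2]
    exact hw
  · intro a b ha hb e
    simp only [BS.grow, if_neg (hne' a ha).1, if_neg (hne' b hb).1]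
    exact e

theorem Ext.contract {m : ℕ → ℕ} {β : BS} (hi : ∀ v, m (m v) = v) {u v z : ℕ} {cu cv : List ℕ}
    (hc : ∀ c ∈ cu ++ cv, β.lab (m c) = 2) : Ext β (β.contract m u v cu cv z) := by
  have hno : ∀ w, β.Out w → m w ∉ cu ++ cv := by
    intro w hw h
    have := hc _ h
    rw [hi] at this
    rcases hw with h | h <;> omega
  refine ⟨?_, ?_, ?_⟩
  · intro w hw
    unfold BS.Out BS.contract
    simp only [if_neg (hno w hw)]
    exact hw
  · intro w hw
    simp only [BS.contract]
    split
    · decide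
    · exact hw
  · intro a b ha hb e
    have h1 : (m a ∈ cu ++ cv ∨ β.base a ∈ cu ++ cv) ↔ (m b ∈ cu ++ cv ∨ β.base b ∈ cu ++ cv) := by
      rw [e]
      constructor
      · rintro (h | h)
        exacts [absurd h (hno a ha), Or.inr h]
      · rintro (h | h)
        exacts [absurd h (hno b hb), Or.inr h]
    simp only [BS.contract]
    by_cases h2 : m a ∈ cu ++ cv ∨ β.base a ∈ cu ++ cv
    · rw [if_pos h2, if_pos (h1.1 h2)]
    · rw [if_neg h2, if_neg (fun h => h2 (h1.2 h)), e]

/-- Machine state of the search. -/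
structure Core (n : ℕ) (vs : ℕ → Prop) (A : ℕ → ℕ → Prop) (m : ℕ → ℕ) (s : St) (β : BS)
    (ρ : ℕ → ℕ) (qt : ℕ) : Prop where
  inv : Inv vs A m β
  good : Good n m s β ρ qt
  r1 : s.r 1 = 0
  r61 : s.r 61 = qt
  r67 : s.r 67 = 1
  r68 : s.r 68 = 2
  r69 : s.r 69 = 3
  l4 : ∀ v < n, ¬ vs v → β.lab v = 4

/-- Both end points are outer: find the common base, contract. -/
def outC : Cmd :=
  .seq (.blk [.copy 75 62])
  (.seq baseC
  (.seq (.blk [.copy 71 75, .copy 75 65])
  (.seq baseC
  (.seq (.blk [.copy 72 75])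
  (.seq lcaLoop
    (.ite (.eq 77 67) (.blk [.copy 63 64]) contractC))))))

def srArcBody : Cmd :=
  .seq (.blk [.load 5 65 63, .inc 63, .load 51 66 65])
  (.ite (.eq 66 1) growC
    (.ite (.eq 66 67) outC
      (.ite (.eq 66 69) outC (.blk []))))

def srArcRegs : List ℕ := [61, 63, 65, 66, 71, 72, 73, 74, 75, 76, 77, 78, 79, 80, 81, 82, 83, 84,
  85, 86, 87, 88, 89, 90, 91]

def srchArrs : List ℕ := [51, 52, 53, 54, 55, 56, 57, 58, 59]

/-- The search has found an augmenting path: end points of the bridge in registers 62, 65, roots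
in 78, 79. -/
def Found (m : ℕ → ℕ) (A : ℕ → ℕ → Prop) (β : BS) (s : St) : Prop :=
  ∃ u v x y pu pv, LcaI m β (β.base u) (β.base v) x y pu pv ∧ x ≠ y ∧ β.dep x = 0 ∧
    β.dep y = 0 ∧ β.Out u ∧ β.Out v ∧ A u v ∧ s.r 62 = u ∧ s.r 65 = v ∧ s.r 78 = x ∧ s.r 79 = y

theorem LcaI.len {n : ℕ} {vs : ℕ → Prop} {A : ℕ → ℕ → Prop} {m : ℕ → ℕ} {β : BS}
    (hvs : ∀ v, vs v → v < n) (hM : Mat A m) (hI : Inv vs A m β) {a b x y : ℕ}
    {pu pv : List ℕ} (h : LcaI m β a b x y pu pv) (ha : β.lab a = 1 ∧ β.base a = a)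
    (hb : β.lab b = 1 ∧ β.base b = b) : pu.length + pv.length ≤ n := by
  obtain ⟨fu, _⟩ := hI.chain_facts hM h.cu ha.1 ha.2
  obtain ⟨fv, _⟩ := hI.chain_facts hM h.cv hb.1 hb.2
  rw [← List.length_append]
  have : (pu ++ pv).toFinset ⊆ Finset.range n := by
    intro c hc
    rw [List.mem_toFinset, List.mem_append] at hc
    rw [Finset.mem_range]
    rcases hc with hc | hc
    · exact hvs c (hI.vsl c (Or.inl (fu c hc).1))
    · exact hvs c (hI.vsl c (Or.inl (fv c hc).1))
  have := Finset.card_le_card this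
  rwa [List.toFinset_card_of_nodup h.nd, Finset.card_range] at this

theorem outC_spec {n : ℕ} {vs : ℕ → Prop} {A : ℕ → ℕ → Prop} {m : ℕ → ℕ}
    (hvs : ∀ v, vs v → v < n) (hs : ∀ {u v}, A u v → A v u) (hvA : ∀ {u v}, A u v → vs u)
    (hM : Mat A m) (s : St) {β : BS} {ρ : ℕ → ℕ} {qt : ℕ} (hC : Core n vs A m s β ρ qt)
    {u v : ℕ} (hu : β.Out u) (hv : β.Out v) (huv : A u v)
    (h62 : s.r 62 = u) (h65 : s.r 65 = v) (h77 : s.r 77 = 0) :
    ∃ s' t, Ex R cap outC s t s' ∧ (∀ k, k ∉ srArcRegs → s'.r k = s.r k) ∧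
      (∀ j, j ∉ srchArrs → s'.a j = s.a j) ∧ (∀ i < qt, s'.a 59 i = s.a 59 i) ∧
      ((s'.r 77 = 0 ∧ s'.r 63 = s.r 63 ∧ ∃ β' ρ' qt', Core n vs A m s' β' ρ' qt' ∧ qt ≤ qt' ∧
          t + (9 * (Nat.log 2 n + 1) + 60) * qt ≤ (12 * (Nat.log 2 n + 1) + 60) +
            (9 * (Nat.log 2 n + 1) + 60) * qt' ∧ Ext β β' ∧ β'.Out v ∧ β'.base u = β'.base v) ∨
        (s'.r 77 = 1 ∧ s'.r 63 = s.r 64 ∧ Core n vs A m s' β ρ qt ∧
          t ≤ (12 * (Nat.log 2 n + 1) + 60) + (9 * (Nat.log 2 n + 1) + 60) * n ∧
          Found m A β s')) := by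
  have hub := hC.inv.blab u hu
  have hvb := hC.inv.blab v hv
  have e1 := Ex.blk (R := R) (cap := cap) [.copy 75 62] s
  obtain ⟨t2, e2, ht2⟩ := base_spec (R := R) (cap := cap) (b := β.base u) (run [.copy 75 62] s)
    (by simpa [run, B.step] using hC.good.ufb.uf) (v := u) (by simp [run, B.step, h62]) hu
    (by simpa [run, B.step] using hC.good.ufb.bv u hu)
  obtain ⟨s2, hs2⟩ : ∃ s2 : St, s2 = ⟨update (update (run [.copy 75 62] s).r 75 (β.base u)) 76 (ρ u),
        (run [.copy 75 62] s).a⟩ := ⟨_, rfl⟩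
  rw [← hs2] at e2
  have A2 : s2.r 75 = β.base u ∧ (∀ k, k ∉ [75, 76] → s2.r k = s.r k) ∧ s2.a = s.a := by
    subst hs2
    simp only [run, B.step, Function.update_idem, ne_eq, Nat.reduceEqDiff, not_false_eq_true, Function.update_of_ne, Function.update_self, List.mem_cons, List.not_mem_nil, or_false, not_or, and_imp, and_true, true_and]
    intro k k1 k2; simp [k1, k2]
  obtain ⟨a75, areg, aarr⟩ := A2
  have e3 := Ex.blk (R := R) (cap := cap) [.copy 71 75, .copy 75 65] s2
  obtain ⟨s3, hs3⟩ : ∃ s3, s3 = run [.copy 71 75, .copy 75 65] s2 := ⟨_, rfl⟩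
  rw [← hs3] at e3
  have A3 : s3.r 71 = β.base u ∧ s3.r 75 = v ∧ (∀ k, k ∉ [71, 75, 76] → s3.r k = s.r k) ∧
      s3.a = s.a := by
    subst hs3
    have := areg 65 (by decide)
    simp only [run, B.step, a75, aarr, ne_eq, Nat.reduceEqDiff, not_false_eq_true, Function.update_of_ne, this, h65, Function.update_self, List.mem_cons, List.not_mem_nil, or_false, not_or, and_imp, and_true, true_and]
    intro k k1 k2 k3
    simp [k1, k2]
    exact areg k (by simp [k2, k3])
  obtain ⟨b71, b75, breg, barr⟩ := A3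
  obtain ⟨t4, e4, ht4⟩ := base_spec (R := R) (cap := cap) (b := β.base v) s3
    (by rw [barr]; exact hC.good.ufb.uf) b75 hv (by rw [barr]; exact hC.good.ufb.bv v hv)
  have e5 := Ex.blk (R := R) (cap := cap) [.copy 72 75]
    ⟨update (update s3.r 75 (β.base v)) 76 (ρ v), s3.a⟩
  obtain ⟨s5, hs5⟩ : ∃ s5, s5 = run [.copy 72 75]
    ⟨update (update s3.r 75 (β.base v)) 76 (ρ v), s3.a⟩ := ⟨_, rfl⟩
  rw [← hs5] at e5
  have A5 : s5.r 71 = β.base u ∧ s5.r 72 = β.base v ∧ (∀ k, k ∉ [71, 72, 75, 76] → s5.r k = s.r k) ∧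
      s5.a = s.a := by
    subst hs5
    simp only [run, B.step, ne_eq, Nat.reduceEqDiff, not_false_eq_true, Function.update_of_ne, Function.update_self, barr, b71, List.mem_cons, List.not_mem_nil, or_false, not_or, and_imp, and_true, true_and]
    intro k k1 k2 k3 k4
    simp [k1, k2, k3, k4]
    exact breg k (by simp [k1, k3, k4])
  obtain ⟨c71, c72, creg, carr⟩ := A5
  have hG5 : Good n m s5 β ρ qt := by
    obtain ⟨⟨g1, g2, g3, g4, g5, g6⟩, ⟨g7, g8, g9, g10⟩, g11⟩ := hC.good
    exact ⟨⟨by rw [carr]; exact g1, by rw [carr]; exact g2, by rw [carr]; exact g3,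
      by rw [carr]; exact g4, by rw [carr]; exact g5, by rw [carr]; exact g6⟩,
      ⟨by rw [carr]; exact g7, g8, by rw [carr]; exact g9, g10⟩, by rw [carr]; exact g11⟩
  obtain ⟨s6, t6, x, y, pu, pv, e6, hL, ht6, dreg, darr, hcase⟩ :=
    lcaLoop_spec (R := R) (cap := cap) hvs hM s5 hC.inv hG5 hub hvb c71 c72
      (by rw [creg 1 (by decide)]; exact hC.r1) (by rw [creg 67 (by decide)]; exact hC.r67)
      (by rw [creg 77 (by decide)]; exact h77)
  have hG6 : Good n m s6 β ρ qt := by
    obtain ⟨⟨g1, g2, g3, g4, g5, g6⟩, ⟨g7, g8, g9, g10⟩, g11⟩ := hG5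
    exact ⟨⟨by rw [darr]; exact g1, by rw [darr]; exact g2, by rw [darr]; exact g3,
      by rw [darr]; exact g4, by rw [darr]; exact g5, by rw [darr]; exact g6⟩,
      ⟨by rw [darr]; exact g7, g8, by rw [darr]; exact g9, g10⟩, by rw [darr]; exact g11⟩
  have r6 : ∀ k, k ∉ lcaRegs → s6.r k = s.r k := by
    intro k hk
    rw [dreg k hk, creg k (fun h => hk ((by decide : ∀ x ∈ [71, 72, 75, 76], x ∈ lcaRegs) k h))]
  have hlen := hL.len hvs hM hC.inv hub hvb
  rcases hcase with ⟨q77, hxy, q71⟩ | ⟨q77, hne, hx0, hy0, q78, q79⟩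
  · -- contraction
    subst hxy
    have hz : x ∉ pu ++ pv := by
      intro h
      rcases List.mem_append.1 h with h | h
      · exact absurd (hL.hu x h).1 (lt_irrefl _)
      · exact absurd (hL.hv x h).2 (lt_irrefl _)
    obtain ⟨s7, t7, ρ', e7, ht7, hG7, h61, freg, farr, fqu⟩ :=
      contractC_spec (R := R) (cap := cap) hvs hs hM s6 hC.inv hG6 hu hv huv hL.cu hL.cv hL.nd hz
        (by rw [r6 62 (by decide)]; exact h62) (by rw [r6 65 (by decide)]; exact h65) q71
        (by rw [r6 1 (by decide)]; exact hC.r1) (by rw [r6 69 (by decide)]; exact hC.r69)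
        (by rw [r6 61 (by decide)]; exact hC.r61)
    obtain ⟨fu, hz1, hzb, _⟩ := hC.inv.chain_facts hM hL.cu hub.1 hub.2
    obtain ⟨fv, _, _, _⟩ := hC.inv.chain_facts hM hL.cv hvb.1 hvb.2
    have hcc : ∀ c ∈ pu ++ pv, β.lab (m c) = 2 := by
      intro c hc
      rcases List.mem_append.1 hc with h | h
      · exact (fu c h).2.2.1
      · exact (fv c h).2.2.1
    have hext := Ext.contract (u := u) (v := v) (z := x) hM.inv hcc
    have hbz : ∀ w, β.Out w → (β.base w ∈ pu ++ pv ∨ β.base w = x) →
        (β.contract m u v pu pv x).base w = x := by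
      intro w hw h
      simp only [BS.contract]
      by_cases h' : m w ∈ pu ++ pv ∨ β.base w ∈ pu ++ pv
      · rw [if_pos h']
      · rw [if_neg h']
        rcases h with h | h
        · exact absurd (Or.inr h) h'
        · exact h
    have hstart : ∀ a cs, Ch m β a cs x → a ∈ cs ∨ a = x := by
      intro a cs h
      cases h with
      | nil => exact Or.inr rfl
      | cons _ _ => exact Or.inl List.mem_cons_self
    have hbu := hbz u hu ((hstart _ _ hL.cu).imp (fun h => List.mem_append_left _ h) id)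
    have hbv := hbz v hv ((hstart _ _ hL.cv).imp (fun h => List.mem_append_right _ h) id)
    refine ⟨s7, _, .seq e1 (.seq e2 (.seq e3 (.seq e4 (.seq e5 (.seq e6 (.iteFalse ?_ e7)))))),
      ?_, ?_, (fun i hi => by rw [fqu i hi, darr, carr]), Or.inl ⟨?_, ?_, _, ρ', _, ⟨?_, hG7, ?_, h61, ?_, ?_, ?_, ?_⟩, by omega, ?_, hext,
        hext.out v hv, by rw [hbu, hbv]⟩⟩
    · simp only [Test.holds]
      rw [q77, r6 67 (by decide), hC.r67]; decide
    · intro k hk
      rw [freg k (fun h => hk ((by (clear * -; decide) : ∀ x ∈ contractRegs, x ∈ srArcRegs) k h)),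
        r6 k (fun h => hk ((by decide : ∀ x ∈ lcaRegs, x ∈ srArcRegs) k h))]
    · intro j hj
      rw [farr j (fun h => hj ((by decide : ∀ x ∈ [51, 53, 54, 56, 57, 58, 59], x ∈ srchArrs) j h)),
        darr, carr]
    · rw [freg 77 (by decide), q77]
    · rw [freg 63 (by decide), r6 63 (by decide)]
    · exact hC.inv.contract hs hM hu hv huv hL.cu hL.cv hL.nd hz
    · rw [freg 1 (by decide), r6 1 (by decide)]; exact hC.r1
    · rw [freg 67 (by decide), r6 67 (by decide)]; exact hC.r67
    · rw [freg 68 (by decide), r6 68 (by decide)]; exact hC.r68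
    · rw [freg 69 (by decide), r6 69 (by decide)]; exact hC.r69
    · intro w hw hvw
      have h4 := hC.l4 w hw hvw
      simp only [BS.contract]
      rw [if_neg]
      · exact h4
      · intro h
        have := hcc _ h
        rw [hM.inv] at this
        omega
    · simp only [List.length_cons, List.length_nil]
      have q1 : (9 * (Nat.log 2 n + 1) + 60) * (qt + (pu.length + pv.length)) =
        (9 * (Nat.log 2 n + 1) + 60) * qt + (3 * (Nat.log 2 n + 1) + 20) * (pu.length + pv.length) +
          (6 * (Nat.log 2 n + 1) + 40) * (pu.length + pv.length) := by ring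
      rw [q1]; omega
  · have e7 := Ex.blk (R := R) (cap := cap) [.copy 63 64] s6
    refine ⟨_, _, .seq e1 (.seq e2 (.seq e3 (.seq e4 (.seq e5 (.seq e6 (.iteTrue ?_ e7)))))),
      ?_, ?_, (fun i hi => by simp [run, B.step, darr, carr]), Or.inr ⟨?_, ?_, ⟨hC.inv, ?_, ?_, ?_, ?_, ?_, ?_, hC.l4⟩, ?_, u, v, x, y, pu, pv, hL,
        hne, hx0, hy0, hu, hv, huv, ?_, ?_, ?_, ?_⟩⟩
    · simp only [Test.holds]
      rw [q77, r6 67 (by decide), hC.r67]
    · intro k hk
      have h1 := r6 k (fun h => hk ((by decide : ∀ x ∈ lcaRegs, x ∈ srArcRegs) k h))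
      have h2 : k ≠ 63 := fun h => hk (h ▸ (by decide))
      simp [run, B.step, h2, h1]
    · intro j hj
      simp [run, B.step, darr, carr]
    · simp [run, B.step, q77]
    · simp [run, B.step, r6 64 (by decide)]
    · obtain ⟨⟨g1, g2, g3, g4, g5, g6⟩, ⟨g7, g8, g9, g10⟩, g11⟩ := hG6
      exact ⟨⟨g1, g2, g3, g4, g5, g6⟩, ⟨g7, g8, g9, g10⟩, g11⟩
    · simp [run, B.step, r6 1 (by decide), hC.r1]
    · simp [run, B.step, r6 61 (by decide), hC.r61]
    · simp [run, B.step, r6 67 (by decide), hC.r67]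
    · simp [run, B.step, r6 68 (by decide), hC.r68]
    · simp [run, B.step, r6 69 (by decide), hC.r69]
    · simp only [List.length_cons, List.length_nil]
      have q1 : (3 * (Nat.log 2 n + 1) + 20) * (pu.length + pv.length) ≤
        (9 * (Nat.log 2 n + 1) + 60) * n := Nat.mul_le_mul (by omega) hlen
      omega
    · simp [run, B.step, r6 62 (by decide), h62]
    · simp [run, B.step, r6 65 (by decide), h65]
    · simp [run, B.step, q78]
    · simp [run, B.step, q79]

theorem Core.congr {n : ℕ} {vs : ℕ → Prop} {A : ℕ → ℕ → Prop} {m : ℕ → ℕ} {s s' : St} {β : BS}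
    {ρ : ℕ → ℕ} {qt : ℕ} (h : Core n vs A m s β ρ qt) (ha : s'.a = s.a)
    (hr : ∀ k ∈ [1, 61, 67, 68, 69], s'.r k = s.r k) : Core n vs A m s' β ρ qt := by
  obtain ⟨g1, g2, g3, g4, g5⟩ := h.good.rep
  obtain ⟨g6, g7, g8, g9⟩ := h.good.ufb
  refine ⟨h.inv, ⟨?_, ?_, ?_⟩, ?_, ?_, ?_, ?_, ?_, h.l4⟩
  · constructor <;> rw [ha] <;> assumption
  · refine ⟨?_, g7, ?_, g9⟩ <;> rw [ha] <;> assumption
  · rw [ha]; exact h.good.qu
  · rw [hr 1 (by decide)]; exact h.r1
  · rw [hr 61 (by decide)]; exact h.r61
  · rw [hr 67 (by decide)]; exact h.r67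
  · rw [hr 68 (by decide)]; exact h.r68
  · rw [hr 69 (by decide)]; exact h.r69

theorem srArcBody_spec {n : ℕ} {vs : ℕ → Prop} {A : ℕ → ℕ → Prop} {m : ℕ → ℕ}
    (hvs : ∀ v, vs v → v < n) (hs : ∀ {u v}, A u v → A v u) (hvA : ∀ {u v}, A u v → vs u)
    (hM : Mat A m) (s : St) {β : BS} {ρ : ℕ → ℕ} {qt : ℕ} (hC : Core n vs A m s β ρ qt)
    {u v : ℕ} (hu : β.Out u) (h62 : s.r 62 = u) (hp : s.a 5 (s.r 63) = v) (hvn : v < n)
    (huv : vs v → A u v) (h77 : s.r 77 = 0) :
    ∃ s' t, Ex R cap srArcBody s t s' ∧ (∀ k, k ∉ srArcRegs → s'.r k = s.r k) ∧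
      (∀ j, j ∉ srchArrs → s'.a j = s.a j) ∧ (∀ i < qt, s'.a 59 i = s.a 59 i) ∧
      ((s'.r 77 = 0 ∧ s'.r 63 = s.r 63 + 1 ∧ ∃ β' ρ' qt', Core n vs A m s' β' ρ' qt' ∧ qt ≤ qt' ∧
          t + (9 * (Nat.log 2 n + 1) + 60) * qt ≤ (12 * (Nat.log 2 n + 1) + 80) +
            (9 * (Nat.log 2 n + 1) + 60) * qt' ∧ Ext β β' ∧ β'.lab v ≠ 0 ∧
            (β'.Out v → β'.base u = β'.base v)) ∨
        (s'.r 77 = 1 ∧ s'.r 63 = s.r 64 ∧ Core n vs A m s' β ρ qt ∧
          t ≤ (12 * (Nat.log 2 n + 1) + 80) + (9 * (Nat.log 2 n + 1) + 60) * n ∧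
          Found m A β s')) := by
  have e1 := Ex.blk (R := R) (cap := cap) [.load 5 65 63, .inc 63, .load 51 66 65] s
  obtain ⟨s1, hs1⟩ : ∃ s1, s1 = run [.load 5 65 63, .inc 63, .load 51 66 65] s := ⟨_, rfl⟩
  rw [← hs1] at e1
  have A1 : s1.r 65 = v ∧ s1.r 63 = s.r 63 + 1 ∧ s1.r 66 = β.lab v ∧
      (∀ k, k ∉ [63, 65, 66] → s1.r k = s.r k) ∧ s1.a = s.a := by
    subst hs1
    simp only [run, B.step, hp, ne_eq, Nat.reduceEqDiff, not_false_eq_true, Function.update_of_ne, Function.update_self, hC.good.rep.lab v hvn, Nat.add_left_cancel_iff, List.mem_cons, List.not_mem_nil, or_false, not_or, and_imp, and_true, true_and]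
    intro k k1 k2 k3; simp [k1, k2, k3]
  obtain ⟨a65, a63, a66, areg, aarr⟩ := A1
  have hC1 : Core n vs A m s1 β ρ qt := by
    refine hC.congr aarr ?_
    intro k hk
    exact areg k (fun h => (by decide : ∀ x ∈ [63, 65, 66], x ∉ [1, 61, 67, 68, 69]) k h hk)
  have hsub : ∀ k, k ∉ srArcRegs → s1.r k = s.r k := fun k hk =>
    areg k (fun h => hk ((by decide : ∀ x ∈ [63, 65, 66], x ∈ srArcRegs) k h))
  have a1 : s1.r 1 = 0 := hC1.r1
  have a67 : s1.r 67 = 1 := hC1.r67
  have a69 : s1.r 69 = 3 := hC1.r69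
  -- the branch doing nothing
  have skip : β.lab v ≠ 0 → ¬ β.Out v → ∃ s' t, Ex R cap srArcBody s t s' ∧
      (∀ k, k ∉ srArcRegs → s'.r k = s.r k) ∧ (∀ j, j ∉ srchArrs → s'.a j = s.a j) ∧
      (∀ i < qt, s'.a 59 i = s.a 59 i) ∧
      ((s'.r 77 = 0 ∧ s'.r 63 = s.r 63 + 1 ∧ ∃ β' ρ' qt', Core n vs A m s' β' ρ' qt' ∧ qt ≤ qt' ∧
          t + (9 * (Nat.log 2 n + 1) + 60) * qt ≤ (12 * (Nat.log 2 n + 1) + 80) +
            (9 * (Nat.log 2 n + 1) + 60) * qt' ∧ Ext β β' ∧ β'.lab v ≠ 0 ∧
            (β'.Out v → β'.base u = β'.base v)) ∨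
        (s'.r 77 = 1 ∧ s'.r 63 = s.r 64 ∧ Core n vs A m s' β ρ qt ∧
          t ≤ (12 * (Nat.log 2 n + 1) + 80) + (9 * (Nat.log 2 n + 1) + 60) * n ∧
          Found m A β s')) := by
    intro h0 hno
    have h1 : β.lab v ≠ 1 := fun h => hno (Or.inl h)
    have h3 : β.lab v ≠ 3 := fun h => hno (Or.inr h)
    refine ⟨_, _, .seq e1 (.iteFalse ?_ (.iteFalse ?_ (.iteFalse ?_ (Ex.blk _ _)))), hsub, ?_,
      (fun i hi => by simp [run, aarr]), Or.inl ⟨?_, ?_, β, ρ, qt, hC1, le_refl _, ?_, Ext.refl β, h0, fun h => absurd h hno⟩⟩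
    · simp only [Test.holds, a66, a1]; exact h0
    · simp only [Test.holds, a66, a67]; exact h1
    · simp only [Test.holds, a66, a69]; exact h3
    · intro j _
      simp [run, aarr]
    · simp only [run]; rw [areg 77 (by decide)]; exact h77
    · simp only [run]; exact a63
    · simp only [List.length_cons, List.length_nil]; omega
  -- the branch with an outer vertex
  have outer : β.Out v → A u v → ∃ s' t, Ex R cap srArcBody s t s' ∧
      (∀ k, k ∉ srArcRegs → s'.r k = s.r k) ∧ (∀ j, j ∉ srchArrs → s'.a j = s.a j) ∧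
      (∀ i < qt, s'.a 59 i = s.a 59 i) ∧
      ((s'.r 77 = 0 ∧ s'.r 63 = s.r 63 + 1 ∧ ∃ β' ρ' qt', Core n vs A m s' β' ρ' qt' ∧ qt ≤ qt' ∧
          t + (9 * (Nat.log 2 n + 1) + 60) * qt ≤ (12 * (Nat.log 2 n + 1) + 80) +
            (9 * (Nat.log 2 n + 1) + 60) * qt' ∧ Ext β β' ∧ β'.lab v ≠ 0 ∧
            (β'.Out v → β'.base u = β'.base v)) ∨
        (s'.r 77 = 1 ∧ s'.r 63 = s.r 64 ∧ Core n vs A m s' β ρ qt ∧
          t ≤ (12 * (Nat.log 2 n + 1) + 80) + (9 * (Nat.log 2 n + 1) + 60) * n ∧
          Found m A β s')) := by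
    intro hv hA
    obtain ⟨s2, t2, e2, breg, barr, bqu, hcase⟩ := outC_spec (R := R) (cap := cap) hvs hs hvA hM s1 hC1
      hu hv hA (by rw [areg 62 (by decide)]; exact h62) a65 (by rw [areg 77 (by decide)]; exact h77)
    have hex : ∃ t, Ex R cap srArcBody s t s2 ∧ t ≤ t2 + 6 := by
      rcases hv with h | h
      · refine ⟨_, .seq e1 (.iteFalse ?_ (.iteTrue ?_ e2)), ?_⟩
        · simp only [Test.holds, a66, a1]; omega
        · simp only [Test.holds, a66, a67]; exact h
        · simp only [List.length_cons, List.length_nil]; omega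
      · refine ⟨_, .seq e1 (.iteFalse ?_ (.iteFalse ?_ (.iteTrue ?_ e2))), ?_⟩
        · simp only [Test.holds, a66, a1]; omega
        · simp only [Test.holds, a66, a67]; omega
        · simp only [Test.holds, a66, a69]; exact h
        · simp only [List.length_cons, List.length_nil]; omega
    obtain ⟨t, et, ht⟩ := hex
    refine ⟨s2, t, et, fun k hk => by rw [breg k hk, hsub k hk], fun j hj => by rw [barr j hj, aarr],
      fun i hi => by rw [bqu i hi, aarr], ?_⟩
    rcases hcase with ⟨q77, q63, β', ρ', qt', hC', hq, ht', hext, hov, hbs⟩ | ⟨q77, q63, hC', ht', hF⟩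
    · refine Or.inl ⟨q77, by rw [q63, a63], β', ρ', qt', hC', hq, by omega, hext, ?_, fun _ => hbs⟩
      rcases hov with h | h <;> omega
    · refine Or.inr ⟨q77, by rw [q63, areg 64 (by decide)], hC', by omega, hF⟩
  by_cases hv : vs v
  · have hA := huv hv
    have h3 := hC.inv.le3 v hv
    have hcases : β.lab v = 0 ∨ β.lab v = 1 ∨ β.lab v = 2 ∨ β.lab v = 3 := by omega
    rcases hcases with h | h | h | h
    · -- growth
      obtain ⟨s2, t2, ρ', e2, ht2, hG2, b61, breg, barr, bqu⟩ := growC_spec (R := R) (cap := cap) hvs hvA hs hM s1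
        hC1.inv hC1.good hu hA h (by rw [areg 62 (by decide)]; exact h62) a65 a1 a67 hC1.r68 hC1.r61
      have hext := Ext.grow hM hC1.inv hvA hs hA h
      have hmv : m v ≠ v := by
        intro h'
        have := (hC.inv.root v hv h').1
        omega
      have hl2 : (β.grow m u v).lab v = 2 := by simp [BS.grow, Ne.symm hmv]
      have hinv : Inv vs A m (β.grow m u v) :=
        Inv.grow (vs := vs) (A := A) (m := m) (s := β) hs hvA hM hC1.inv hu hA h
      refine ⟨s2, _, .seq e1 (.iteTrue ?_ e2), ?_, ?_, (fun i hi => by rw [bqu i hi, aarr]), Or.inl ⟨?_, ?_, _, ρ', qt + 1,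
        ⟨hinv, hG2, ?_, b61, ?_, ?_, ?_, ?_⟩, by omega, ?_, hext, ?_, ?_⟩⟩
      · simp only [Test.holds, a66, a1]; exact h
      · intro k hk
        rw [breg k (fun h => hk ((by decide : ∀ x ∈ growRegs, x ∈ srArcRegs) k h)), hsub k hk]
      · intro j hj
        rw [barr j (fun h => hj ((by decide : ∀ x ∈ [51, 52, 55, 56, 57, 58, 59], x ∈ srchArrs) j h)),
          aarr]
      · rw [breg 77 (by decide), areg 77 (by decide)]; exact h77
      · rw [breg 63 (by decide)]; exact a63
      · rw [breg 1 (by decide)]; exact a1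
      · rw [breg 67 (by decide)]; exact a67
      · rw [breg 68 (by decide)]; exact hC1.r68
      · rw [breg 69 (by decide)]; exact a69
      · intro w hw hvw
        have h4 := hC.l4 w hw hvw
        have w1 : w ≠ v := fun e => hvw (e ▸ hv)
        have w2 : w ≠ m v := fun e => hvw (e ▸ hvA (hs (hM.adj v hmv)))
        simp [BS.grow, w1, w2, h4]
      · simp only [List.length_cons, List.length_nil]
        have : (9 * (Nat.log 2 n + 1) + 60) * (qt + 1) =
          (9 * (Nat.log 2 n + 1) + 60) * qt + (9 * (Nat.log 2 n + 1) + 60) := by ring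
        rw [this]; omega
      · rw [hl2]; decide
      · rintro (h' | h') <;> omega
    · exact outer (Or.inl h) hA
    · exact skip (by omega) (by rintro (h' | h') <;> omega)
    · exact outer (Or.inr h) hA
  · have h4 := hC.l4 v hvn hv
    exact skip (by omega) (by rintro (h' | h') <;> omega)

end Vale.Agent.P305
end
end

section

section

/-! Rematching along a label path on the L1 machine. -/

set_option autoImplicit false
set_option linter.unusedSimpArgs false
set_option linter.unusedVariables false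

namespace Vale.Agent.P305

open Function (update)
open L1

variable {R : List ℕ → (ℕ → ℕ) → ℕ → Prop} {cap : ℕ}

/-- Loop rule with time used so far and a ghost measure. -/
theorem loop_rule_g {c : Test} {p : Cmd} (I : ℕ → ℕ → St → Prop)
    (hstep : ∀ k τ s, I k τ s → c.holds s.r →
      ∃ s' t k', Ex R cap p s t s' ∧ I k' (τ + t + 1) s' ∧ k' < k) :
    ∀ k τ s, I k τ s → ∃ s' t k', Ex R cap (.loop c p) s (t + 1) s' ∧ I k' (τ + t) s' ∧
      ¬ c.holds s'.r := by
  intro k
  induction k using Nat.strong_induction_on with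
  | _ k ih =>
    intro τ s hI
    by_cases hc : c.holds s.r
    · obtain ⟨s1, t1, k1, hex, hI1, hk1⟩ := hstep k τ s hI hc
      obtain ⟨s2, t2, k2, hex2, hI2, hc2⟩ := ih k1 hk1 _ _ hI1
      refine ⟨s2, t1 + t2 + 1, k2, ?_, ?_, hc2⟩
      · have := Ex.loopStep hc hex hex2
        have e : t1 + (t2 + 1) + 1 = t1 + t2 + 1 + 1 := by omega
        rwa [e] at this
      · have e : τ + (t1 + t2 + 1) = τ + t1 + 1 + t2 := by omega
        rw [e]; exact hI2
    · exact ⟨s, 0, k, .loopDone hc, hI, hc⟩

/-- Edges of the new matching along a label path which does not return to its end. -/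
inductive EQ (m : ℕ → ℕ) (s : BS) : ℕ → ℕ → List (ℕ × ℕ) → Prop
  | nil (v : ℕ) : EQ m s v v []
  | tree {v t : ℕ} {E : List (ℕ × ℕ)} (hne : v ≠ t) (h1 : s.lab v = 1) (hm : m v ≠ v)
      (h : EQ m s (s.par (m v)) t E) : EQ m s v t ((m v, s.par (m v)) :: E)
  | brid {v t : ℕ} {E1 E2 : List (ℕ × ℕ)} (hne : v ≠ t) (h3 : s.lab v = 3)
      (h1 : EQ m s (s.ba v) (m v) E1)
      (h2 : EQ m s (s.bb v) t E2) : EQ m s v t ((s.ba v, s.bb v) :: (E1 ++ E2))

theorem EL.edgesQ {m : ℕ → ℕ} (hi : ∀ v, m (m v) = v) {s : BS} {u t : ℕ} {L : List ℕ}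
    (h : EL m s u t L) : L.Nodup → (∀ x ∈ L, m x ∉ L) → t ∉ L →
    ∃ E, EQ m s u t E ∧ (∀ f, Wr f E → Flp m f L t) ∧
      E.length = L.length ∧ (ends E).Perm (L.map m ++ (L ++ [t]).tail) := by
  induction h with
  | nil v => intro _ _ _; exact ⟨[], EQ.nil v, fun f _ => trivial, rfl, by simp [ends]⟩
  | @tree v t L h1 hm hL ih =>
    intro hnd hND ht
    obtain ⟨E, hE, hw, hl, hp⟩ := ih (List.nodup_cons.1 hnd).2
      (fun x hx hmx => hND x (List.mem_cons_of_mem _ hx) (List.mem_cons_of_mem _ hmx))
      (fun h => ht (List.mem_cons_of_mem _ h))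
    refine ⟨_, EQ.tree (fun e => ht (e ▸ List.mem_cons_self)) h1 hm hE, ?_, by simp [hl], ?_⟩
    · intro f hf
      have h0 := hf (m v, s.par (m v)) List.mem_cons_self
      refine ⟨?_, ?_, hw f (fun e he => hf e (List.mem_cons_of_mem _ he))⟩
      · rw [hL.headD]; exact h0.1
      · rw [hL.headD]; exact h0.2
    · have hd := hL.headD
      have e1 : (L ++ [t]) = s.par (m v) :: (L ++ [t]).tail := by
        rw [← hd]; cases L <;> simp
      have e2 : ends ((m v, s.par (m v)) :: E) = m v :: s.par (m v) :: ends E := by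
        simp [ends]
      rw [e2, List.map_cons, List.cons_append, List.cons_append, List.tail_cons]
      refine List.Perm.cons _ ?_
      conv_rhs => rw [e1]
      exact (hp.cons _).trans List.perm_middle.symm
  | @brid v t L1 L2 h3 hL1 hL2 ih1 ih2 =>
    intro hnd hND ht
    have hminj : Function.Injective m := fun a b h => by rw [← hi a, h, hi]
    have hmem1 : ∀ x ∈ L1, m x ∈ v :: ((L1.map m).reverse ++ L2) := by
      intro x hx
      refine List.mem_cons_of_mem _ (List.mem_append_left _ ?_)
      rw [List.mem_reverse]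
      exact List.mem_map.2 ⟨x, hx, rfl⟩
    have hmem2 : ∀ x ∈ L2, x ∈ v :: ((L1.map m).reverse ++ L2) := fun x hx =>
      List.mem_cons_of_mem _ (List.mem_append_right _ hx)
    have hnd' := (List.nodup_cons.1 hnd).2
    obtain ⟨E1, hE1, hw1, hl1, hp1⟩ := ih1
      (by
        have := (List.nodup_append.1 hnd').1
        rw [List.nodup_reverse] at this
        exact List.Nodup.of_map _ this)
      (fun x hx hmx => by
        have a1 := hmem1 x hx
        have a2 := hmem1 _ hmx
        exact hND _ a1 a2)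
      (fun h => by
        have := hmem1 _ h
        rw [hi] at this
        refine (List.nodup_cons.1 hnd).1 (List.mem_append_left _ ?_)
        rw [List.mem_reverse]
        exact List.mem_map.2 ⟨m v, h, hi v⟩)
    obtain ⟨E2, hE2, hw2, hl2, hp2⟩ := ih2 (List.nodup_append.1 hnd').2.1
      (fun x hx hmx => hND x (hmem2 x hx) (hmem2 _ hmx)) (fun h => ht (hmem2 _ h))
    refine ⟨_, EQ.brid (fun e => ht (e ▸ List.mem_cons_self)) h3 hE1 hE2, ?_, by simp [hl1, hl2],
      ?_⟩
    · intro f hf
      have h0 := hf (s.ba v, s.bb v) List.mem_cons_self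
      have hF1 := hw1 f (fun e he => hf e (List.mem_cons_of_mem _ (List.mem_append_left _ he)))
      have hF2 := hw2 f (fun e he => hf e (List.mem_cons_of_mem _ (List.mem_append_right _ he)))
      have h4 := Flp.revmap hi (t := s.bb v) hF1 (by rw [hL1.headD]; exact h0.1)
        (by rw [hL1.headD]; exact h0.2)
      rw [hi] at h4
      have h5 := Flp.append (L1 := v :: (L1.map m).reverse) (L2 := L2) (t := t)
        (by rw [hL2.headD]; exact h4) hF2
      simpa using h5
    · have e1 : (L1 ++ [m v]) = s.ba v :: (L1 ++ [m v]).tail := by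
        rw [← hL1.headD]; cases L1 <;> simp
      have e2 : (L2 ++ [t]) = s.bb v :: (L2 ++ [t]).tail := by
        rw [← hL2.headD]; cases L2 <;> simp
      have e3 : ends ((s.ba v, s.bb v) :: (E1 ++ E2)) =
          s.ba v :: s.bb v :: (ends E1 ++ ends E2) := by
        simp [ends]
      rw [e3]
      rw [List.perm_iff_count]
      intro a
      have c1 := (List.perm_iff_count.1 hp1) a
      have c2 := (List.perm_iff_count.1 hp2) a
      have c3 := congrArg (List.count a) e1
      have c4 := congrArg (List.count a) e2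
      have hmm : (L1.map m).map m = L1 := by
        rw [List.map_map]
        have : m ∘ m = id := by funext x; exact hi x
        rw [this, List.map_id]
      simp only [List.count_append, List.count_cons, List.map_cons, List.map_append,
        List.map_reverse, hmm, List.cons_append, List.append_assoc, List.tail_cons,
        List.count_reverse, List.count_nil] at c1 c2 c3 c4 ⊢
      omega

/-- Pending segments on the stack. -/
inductive Stk (m : ℕ → ℕ) (β : BS) (a b : ℕ → ℕ) : ℕ → List (ℕ × ℕ) → Prop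
  | nil : Stk m β a b 0 []
  | cons {k : ℕ} {E1 E2 : List (ℕ × ℕ)} (h1 : EQ m β (a k) (b k) E1) (h2 : Stk m β a b k E2) :
      Stk m β a b (k + 1) (E1 ++ E2)

theorem Stk.congr {m : ℕ → ℕ} {β : BS} {a b a' b' : ℕ → ℕ} {k : ℕ} {E : List (ℕ × ℕ)}
    (h : Stk m β a b k E) : (∀ i < k, a' i = a i) → (∀ i < k, b' i = b i) → Stk m β a' b' k E := by
  induction h with
  | nil => intro _ _; exact Stk.nil
  | @cons k E1 E2 h1 _ ih =>
    intro ha hb
    refine Stk.cons ?_ (ih (fun i hi => ha i (by omega)) (fun i hi => hb i (by omega)))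
    rw [ha k (by omega), hb k (by omega)]; exact h1

/-- Result of writing the edges `W` to `f0`. -/
structure Wrn (f0 f : ℕ → ℕ) (W : List (ℕ × ℕ)) : Prop where
  wr : Wr f W
  out : ∀ y, y ∉ ends W → f y = f0 y

theorem mem_ends {E : List (ℕ × ℕ)} {e : ℕ × ℕ} (h : e ∈ E) : e.1 ∈ ends E ∧ e.2 ∈ ends E := by
  unfold ends
  constructor
  · exact List.mem_flatMap.2 ⟨e, h, by simp⟩
  · exact List.mem_flatMap.2 ⟨e, h, by simp⟩

theorem ends_perm {E E' : List (ℕ × ℕ)} (h : E.Perm E') : (ends E).Perm (ends E') :=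
  h.flatMap_right _

theorem ends_append (E E' : List (ℕ × ℕ)) : ends (E ++ E') = ends E ++ ends E' := by
  simp [ends]

theorem ends_cons (a b : ℕ) (E : List (ℕ × ℕ)) : ends ((a, b) :: E) = a :: b :: ends E := by
  simp [ends]

theorem Wrn.add {f0 f : ℕ → ℕ} {W : List (ℕ × ℕ)} (h : Wrn f0 f W) {a b : ℕ}
    (hnd : (ends (W ++ [(a, b)])).Nodup) :
    Wrn f0 (update (update f a b) b a) (W ++ [(a, b)]) := by
  rw [ends_append, List.nodup_append] at hnd
  obtain ⟨h1, h2, h3⟩ := hnd
  have e : ends [(a, b)] = [a, b] := by simp [ends]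
  rw [e] at h2 h3
  have hab : a ≠ b := by simpa using h2
  have ha : ∀ y ∈ ends W, y ≠ a := fun y hy => h3 y hy a (by simp)
  have hb : ∀ y ∈ ends W, y ≠ b := fun y hy => h3 y hy b (by simp)
  constructor
  · intro x hx
    rcases List.mem_append.1 hx with hx | hx
    · have hm := mem_ends hx
      have hw := h.wr x hx
      rw [Function.update_of_ne (hb _ hm.1), Function.update_of_ne (ha _ hm.1),
        Function.update_of_ne (hb _ hm.2), Function.update_of_ne (ha _ hm.2)]
      exact hw
    · have : x = (a, b) := by simpa using hx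
      subst this
      simp only [Function.update_self, and_true]
      rw [Function.update_of_ne hab, Function.update_self]
  · intro y hy
    rw [ends_append, e] at hy
    have h1 : y ≠ a := fun h => hy (by simp [h])
    have h2 : y ≠ b := fun h => hy (by simp [h])
    rw [Function.update_of_ne h2, Function.update_of_ne h1]
    exact h.out y (fun h' => hy (List.mem_append_left _ h'))

def flipBody : Cmd :=
  .ite (.ne 92 93)
    (.seq (.blk [.load 51 95 92])
      (.ite (.eq 95 98)
        (.blk [.load 40 95 92, .load 52 96 95, .store 42 95 96, .store 42 96 95, .copy 92 96])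
        (.blk [.load 53 95 92, .load 54 96 92, .store 42 95 96, .store 42 96 95, .store 43 94 96,
          .store 44 94 93, .inc 94, .load 40 93 92, .copy 92 95])))
    (.ite (.eq 94 1) (.blk [.const 97 0]) (.blk [.dec 94, .load 43 92 94, .load 44 93 94]))

/-- Registers 92 = start, 93 = end of the label path; the new partners are written to array 42. -/
def flipC : Cmd :=
  .seq (.blk [.const 94 0, .const 97 1, .const 98 1]) (.loop (.ne 97 1) flipBody)

def flipRegs : List ℕ := [92, 93, 94, 95, 96, 97, 98]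

theorem Rep.congr {n : ℕ} {m : ℕ → ℕ} {s s' : St} {β : BS} (h : Rep n m s β)
    (ha : ∀ j ∈ [40, 51, 52, 53, 54, 55], s'.a j = s.a j) : Rep n m s' β := by
  obtain ⟨g1, g2, g3, g4, g5, g6⟩ := h
  refine ⟨?_, ?_, ?_, ?_, ?_, ?_⟩
  · rw [ha 40 (by decide)]; exact g1
  · rw [ha 51 (by decide)]; exact g2
  · rw [ha 52 (by decide)]; exact g3
  · rw [ha 53 (by decide)]; exact g4
  · rw [ha 54 (by decide)]; exact g5
  · rw [ha 55 (by decide)]; exact g6

theorem flipC_spec {n : ℕ} {vs : ℕ → Prop} {A : ℕ → ℕ → Prop} {m : ℕ → ℕ}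
    (hvs : ∀ v, vs v → v < n) (s : St) {β : BS} (hI : Inv vs A m β) (hR : Rep n m s β)
    {y b : ℕ} {E : List (ℕ × ℕ)} (hE : EQ m β y b E) (hnd : (ends E).Nodup)
    (h92 : s.r 92 = y) (h93 : s.r 93 = b) (h1 : s.r 1 = 0) :
    ∃ s' t, Ex R cap flipC s t s' ∧ t ≤ 20 * E.length + 10 ∧ Wrn (s.a 42) (s'.a 42) E ∧
      (∀ k, k ∉ flipRegs → s'.r k = s.r k) ∧ (∀ j, j ∉ [42, 43, 44] → s'.a j = s.a j) := by
  have ltn : ∀ w, (β.lab w = 1 ∨ β.lab w = 2 ∨ β.lab w = 3) → w < n :=
    fun w hw => hvs w (hI.vsl w hw)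
  have e1 := Ex.blk (R := R) (cap := cap) [.const 94 0, .const 97 1, .const 98 1] s
  obtain ⟨s1, hs1⟩ : ∃ s1, s1 = run [.const 94 0, .const 97 1, .const 98 1] s := ⟨_, rfl⟩
  rw [← hs1] at e1
  have A1 : s1.r 94 = 0 ∧ s1.r 97 = 1 ∧ s1.r 98 = 1 ∧ (∀ k, k ∉ [94, 97, 98] → s1.r k = s.r k) ∧
      s1.a = s.a := by
    subst hs1
    simp only [run, B.step, ne_eq, Nat.reduceEqDiff, not_false_eq_true, Function.update_of_ne, Function.update_self, List.mem_cons, List.not_mem_nil, or_false, not_or, and_imp, and_true, true_and]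
    intro k k1 k2 k3; simp [k1, k2, k3]
  obtain ⟨a94, a97, a98, areg, aarr⟩ := A1
  obtain ⟨s2, t2, k2, e2, ⟨h98, hreg, harr, W, Ec, Es, hperm, hW, hSt, hEc, hflag⟩, hc⟩ :=
    loop_rule_g (R := R) (cap := cap) (c := .ne 97 1) (p := flipBody)
    (fun k τ s' => s'.r 98 = 1 ∧ (∀ k, k ∉ flipRegs → s'.r k = s.r k) ∧
      (∀ j, j ∉ [42, 43, 44] → s'.a j = s.a j) ∧
      ∃ W Ec Es, (W ++ (Ec ++ Es)).Perm E ∧ Wrn (s.a 42) (s'.a 42) W ∧
        Stk m β (s'.a 43) (s'.a 44) (s'.r 94) Es ∧ EQ m β (s'.r 92) (s'.r 93) Ec ∧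
        ((s'.r 97 = 1 ∧ k = 2 * (Ec ++ Es).length + s'.r 94 + 1 ∧
            τ + 20 * (Ec ++ Es).length + 6 * s'.r 94 ≤ 20 * E.length) ∨
          (s'.r 97 = 0 ∧ k = 0 ∧ (Ec ++ Es) = [] ∧ τ ≤ 20 * E.length + 5)))
    (by
      rintro k τ s' ⟨h98, hreg, harr, W, Ec, Es, hperm, hW, hSt, hEc, hflag⟩ hc
      simp only [Test.holds] at hc
      have g1 : s'.r 1 = 0 := by rw [hreg 1 (by decide)]; exact h1
      rw [g1] at hc
      rcases hflag with ⟨h97, hk, hτ⟩ | ⟨h97, _⟩
      swap
      · exact absurd h97 hc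
      have hR' : Rep n m s' β := hR.congr (fun j hj =>
        harr j (fun h => (by decide : ∀ x ∈ [42, 43, 44], x ∉ [40, 51, 52, 53, 54, 55]) j h hj))
      have hnd' : (ends (W ++ (Ec ++ Es))).Nodup := (ends_perm hperm).nodup_iff.2 hnd
      obtain ⟨v, hv⟩ : ∃ v, v = s'.r 92 := ⟨_, rfl⟩
      obtain ⟨t, ht⟩ : ∃ t, t = s'.r 93 := ⟨_, rfl⟩
      obtain ⟨sp, hsp⟩ : ∃ sp, sp = s'.r 94 := ⟨_, rfl⟩
      rw [← hv, ← ht] at hEc
      rw [← hsp] at hSt hk hτ
      cases hEc with
      | nil =>
        cases hSt with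
        | nil =>
          -- finished
          refine ⟨_, _, 0, .iteFalse ?_ (.iteTrue ?_ (Ex.blk _ _)), ⟨?_, ?_, ?_, W, [], [],
            hperm, ?_, ?_, ?_, Or.inr ⟨?_, rfl, rfl, ?_⟩⟩, by omega⟩
          · simp only [Test.holds, ← hv, ← ht]; simp
          · simp only [Test.holds, ← hsp, g1]
          · simp [run, B.step, h98]
          · intro k hk'
            have h2 : k ≠ 97 := fun h => hk' (h ▸ (by decide))
            simp [run, B.step, h2, hreg k hk']
          · intro j hj
            simp [run, B.step, harr j hj]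
          · simpa [run, B.step] using hW
          · simp only [run, B.step]
            simp [← hsp]
            exact Stk.nil
          · simp only [run, B.step]
            simp [← hv, ← ht]
            exact EQ.nil v
          · simp [run, B.step]
          · simp only [List.length_cons, List.length_nil]; omega
        | @cons k0 E1 E2 hE1 hE2 =>
          -- pop
          refine ⟨_, _, 2 * (E1 ++ E2).length + k0 + 1, .iteFalse ?_ (.iteFalse ?_ (Ex.blk _ _)),
            ⟨?_, ?_, ?_, W, E1, E2, hperm, ?_, ?_, ?_, Or.inl ⟨?_, ?_, ?_⟩⟩, ?_⟩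
          · simp only [Test.holds, ← hv, ← ht]; simp
          · simp only [Test.holds, ← hsp, g1]; omega
          · simp only [run, B.step, Function.update_self, ne_eq, Nat.reduceEqDiff, not_false_eq_true, Function.update_of_ne, h98]
          · intro k hk'
            simp only [flipRegs, List.mem_cons, List.not_mem_nil, or_false, not_or] at hk'
            simp only [run, B.step, Function.update_self, ne_eq, Nat.reduceEqDiff, not_false_eq_true, Function.update_of_ne, hk', hreg k (by simp [flipRegs, hk'])]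
          · intro j hj
            simp [run, B.step, harr j hj]
          · simpa [run, B.step] using hW
          · simp only [run, B.step]
            simp only [← hsp, add_tsub_cancel_right, Function.update_self, ne_eq, Nat.reduceEqDiff, not_false_eq_true, Function.update_of_ne, Nat.succ_ne_self]
            exact hE2
          · simp only [run, B.step]
            simp only [← hsp, add_tsub_cancel_right, Function.update_self, ne_eq, Nat.reduceEqDiff, not_false_eq_true, Function.update_of_ne]
            exact hE1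
          · simp only [run, B.step, Function.update_self, ne_eq, Nat.reduceEqDiff, not_false_eq_true, Function.update_of_ne, h97]
          · simp [run, B.step, ← hsp]
          · simp only [List.length_cons, List.length_nil, run, B.step]
            simp only [List.nil_append] at hτ
            simp only [List.length_append, zero_add, Nat.reduceAdd, ← hsp, add_tsub_cancel_right, Function.update_self, ne_eq, Nat.reduceEqDiff, not_false_eq_true, Function.update_of_ne, Nat.succ_ne_self] at hτ ⊢
            omega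
          · simp only [List.nil_append] at hk
            (clear * - hsp hk; omega)
      | @tree _ _ E' hne hl1 hmv hE' =>
        have hvn := ltn v (Or.inl hl1)
        have hmn : m v < n := ltn (m v) (Or.inr (hI.tmate v hl1 hmv))
        have q1 : s'.a 51 v = 1 := by rw [hR'.lab v hvn]; exact hl1
        have q2 : s'.a 40 v = m v := hR'.mt v hvn
        have q3 : s'.a 52 (m v) = β.par (m v) := hR'.par _ hmn
        refine ⟨_, _, 2 * (E' ++ Es).length + sp + 1, .iteTrue ?_ (.seq (Ex.blk _ _)
          (.iteTrue ?_ (Ex.blk _ _))), ⟨?_, ?_, ?_, W ++ [(m v, β.par (m v))], E', Es, ?_, ?_, ?_,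
            ?_, Or.inl ⟨?_, ?_, ?_⟩⟩, ?_⟩
        · simp only [Test.holds, ← hv, ← ht]; exact hne
        · simp [Test.holds, run, B.step, ← hv, q1, h98]
        · simp [run, B.step, h98]
        · intro k hk'
          simp only [flipRegs, List.mem_cons, List.not_mem_nil, or_false, not_or] at hk'
          simp [run, B.step, hk', hreg k (by simp [flipRegs, hk'])]
        · intro j hj
          simp only [List.mem_cons, List.not_mem_nil, or_false, not_or] at hj
          simp [run, B.step, hj, harr j (by simp [hj])]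
        · have : (W ++ [(m v, β.par (m v))] ++ (E' ++ Es)) =
              (W ++ ((m v, β.par (m v)) :: E' ++ Es)) := by simp
          rw [this]; exact hperm
        · have hw := hW.add (a := m v) (b := β.par (m v)) (by
            have : W ++ ((m v, β.par (m v)) :: E' ++ Es) =
              (W ++ [(m v, β.par (m v))]) ++ (E' ++ Es) := by simp
            rw [this, ends_append] at hnd'
            exact (List.nodup_append.1 hnd').1)
          simp [run, B.step, ← hv, q2, q3]
          exact hw
        · simp only [run, B.step]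
          simp [← hsp]
          exact hSt
        · simp only [run, B.step]
          simp only [← hv, ne_eq, Nat.reduceEqDiff, not_false_eq_true, Function.update_of_ne, q2, Function.update_idem, Function.update_self, q3, Nat.succ_ne_self, ← ht]
          exact hE'
        · simp [run, B.step, h97]
        · simp [run, B.step, ← hsp]
        · simp only [List.length_cons, List.length_nil, run, B.step, List.length_append,
            List.cons_append] at hτ ⊢
          simp only [zero_add, Nat.reduceAdd, ne_eq, Nat.reduceEqDiff, not_false_eq_true, Function.update_of_ne, Function.update_idem, Function.update_self, ← hsp] at hτ ⊢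
          omega
        · simp only [List.length_cons, List.length_append, List.cons_append] at hk ⊢
          (clear * - hsp hk; omega)
      | @brid _ _ E1 E2 hne hl3 hE1 hE2 =>
        have hvn := ltn v (Or.inr (Or.inr hl3))
        have q1 : s'.a 51 v = 3 := by rw [hR'.lab v hvn]; exact hl3
        have q2 : s'.a 40 v = m v := hR'.mt v hvn
        have q3 : s'.a 53 v = β.ba v := hR'.ba _ hvn
        have q4 : s'.a 54 v = β.bb v := hR'.bb _ hvn
        refine ⟨_, _, 2 * (E1 ++ (E2 ++ Es)).length + (sp + 1) + 1, .iteTrue ?_ (.seq (Ex.blk _ _)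
          (.iteFalse ?_ (Ex.blk _ _))), ⟨?_, ?_, ?_, W ++ [(β.ba v, β.bb v)], E1, E2 ++ Es, ?_, ?_,
            ?_, ?_, Or.inl ⟨?_, ?_, ?_⟩⟩, ?_⟩
        · simp only [Test.holds, ← hv, ← ht]; exact hne
        · simp [Test.holds, run, B.step, ← hv, q1, h98]
        · simp only [run, B.step, ne_eq, Nat.reduceEqDiff, not_false_eq_true, Function.update_of_ne, Function.update_idem, Function.update_self, Nat.succ_ne_self, h98]
        · intro k hk'
          simp only [flipRegs, List.mem_cons, List.not_mem_nil, or_false, not_or] at hk'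
          simp only [run, B.step, ne_eq, Nat.reduceEqDiff, not_false_eq_true, Function.update_of_ne, Function.update_idem, Function.update_self, Nat.succ_ne_self, hk', hreg k (by simp [flipRegs, hk'])]
        · intro j hj
          simp only [List.mem_cons, List.not_mem_nil, or_false, not_or] at hj
          simp only [run, B.step, ne_eq, Nat.reduceEqDiff, not_false_eq_true, Function.update_of_ne, Function.update_idem, Function.update_self, Nat.succ_ne_self, hj, harr j (by simp [hj])]
        · have : (W ++ [(β.ba v, β.bb v)] ++ (E1 ++ (E2 ++ Es))) =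
              (W ++ ((β.ba v, β.bb v) :: (E1 ++ E2) ++ Es)) := by simp
          rw [this]; exact hperm
        · have hw := hW.add (a := β.ba v) (b := β.bb v) (by
            have : W ++ ((β.ba v, β.bb v) :: (E1 ++ E2) ++ Es) =
              (W ++ [(β.ba v, β.bb v)]) ++ (E1 ++ E2 ++ Es) := by simp
            rw [this, ends_append] at hnd'
            exact (List.nodup_append.1 hnd').1)
          simp only [run, B.step, ← hv, ne_eq, Nat.reduceEqDiff, not_false_eq_true, Function.update_of_ne, q3, Function.update_idem, q4, Function.update_self, Nat.succ_ne_self, q2]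
          exact hw
        · simp only [run, B.step]
          simp [← hsp, ← hv, ← ht, q4]
          refine Stk.cons ?_ (hSt.congr ?_ ?_)
          · simp only [Function.update_self]; exact hE2
          · intro i hi; rw [Function.update_of_ne (by omega)]
          · intro i hi; rw [Function.update_of_ne (by omega)]
        · simp only [run, B.step]
          simp only [← hv, ne_eq, Nat.reduceEqDiff, not_false_eq_true, Function.update_of_ne, q3, Function.update_idem, Function.update_self, Nat.succ_ne_self, ← ht, q2]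
          exact hE1
        · simp [run, B.step, h97]
        · simp only [List.length_append, run, B.step, ne_eq, Nat.reduceEqDiff, not_false_eq_true, Function.update_of_ne, Function.update_idem, Function.update_self, Nat.succ_ne_self, ← hsp, Nat.add_left_cancel_iff]
        · simp only [List.length_cons, List.length_nil, run, B.step, List.length_append,
            List.cons_append] at hτ ⊢
          simp only [zero_add, Nat.reduceAdd, ne_eq, Nat.reduceEqDiff, not_false_eq_true, Function.update_of_ne, Function.update_idem, ← hsp, Function.update_self, Nat.succ_ne_self] at hτ ⊢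
          omega
        · simp only [List.length_cons, List.length_append, List.cons_append] at hk ⊢
          omega)
    (2 * (E ++ []).length + 0 + 1) 0 s1 (by
      refine ⟨a98, ?_, ?_, [], E, [], by simp, ⟨?_, ?_⟩, ?_, ?_, Or.inl ⟨a97, ?_, ?_⟩⟩
      · intro k hk
        exact areg k (fun h => hk ((by decide : ∀ x ∈ [94, 97, 98], x ∈ flipRegs) k h))
      · intro j _; rw [aarr]
      · intro e he; simp at he
      · intro y _; rw [aarr]
      · rw [a94]; exact Stk.nil
      · rw [areg 92 (by decide), areg 93 (by decide), h92, h93]; exact hE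
      · rw [a94]
      · rw [a94]; simp)
  simp only [Test.holds, ne_eq, not_not] at hc
  rw [hreg 1 (by decide), h1] at hc
  rcases hflag with ⟨h97, _⟩ | ⟨h97, _, hnil, hτ⟩
  · omega
  · refine ⟨s2, _, .seq e1 e2, ?_, ?_, hreg, harr⟩
    · simp only [List.length_cons, List.length_nil]; omega
    · rw [hnil, List.append_nil] at hperm
      refine ⟨fun e he => hW.wr e (hperm.mem_iff.2 he), fun y hy => hW.out y (fun h => hy ?_)⟩
      exact (ends_perm hperm).mem_iff.1 h

end Vale.Agent.P305
end
end

section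

section

/-! Exposing another vertex of a blossom. -/

set_option autoImplicit false
set_option linter.unusedSimpArgs false
set_option linter.unusedVariables false

namespace Vale.Agent.P305

theorem AP.flip_ok' {A : ℕ → ℕ → Prop} {m f : ℕ → ℕ} (hs : ∀ {u v}, A u v → A v u)
    {u t : ℕ} {L : List ℕ} (h : AP A m u L t) :
    Flp m f L t → ∀ y, (y ∈ L.map m ∨ y ∈ (L ++ [t]).tail) → f (f y) = y ∧ A y (f y) := by
  induction h with
  | nil v => intro _ y hy; simp at hy
  | @cons v d t L hv hd hL ih =>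
    intro hF y hy
    obtain ⟨ha, hb, hc⟩ := hF
    rw [hL.headD] at ha hb
    have e : (L ++ [t]) = d :: (L ++ [t]).tail := by
      rw [← hL.headD]; cases L <;> simp
    rw [List.map_cons, List.mem_cons, List.cons_append, List.tail_cons, e, List.mem_cons] at hy
    have hyc : y = m v ∨ y = d ∨ (y ∈ L.map m ∨ y ∈ (L ++ [t]).tail) := by (clear * - ih hy hc; tauto)
    rcases hyc with h | h | h
    · subst h; rw [ha]; exact ⟨hb, hd⟩
    · subst h; rw [hb]; exact ⟨ha, hs hd⟩
    · exact ih hc y h

/-- What happens in the blossom `b` when its vertex `y` is exposed. -/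
structure ReCls (A : ℕ → ℕ → Prop) (β : BS) (b y : ℕ) (f : ℕ → ℕ) : Prop where
  cls : ∀ w, β.Out w → β.base w = b → w ≠ y → β.Out (f w) ∧ β.base (f w) = b ∧ f w ≠ y ∧
    f (f w) = w ∧ A w (f w)

theorem Inv.rematch {vs : ℕ → Prop} {A : ℕ → ℕ → Prop} {m : ℕ → ℕ} {β : BS}
    (hs : ∀ {u v}, A u v → A v u) (hM : Mat A m) (hI : Inv vs A m β) {y : ℕ} (hy : β.Out y) :
    ∃ (L : List ℕ) (E : List (ℕ × ℕ)), EQ m β y (β.base y) E ∧ (ends E).Nodup ∧
      E.length = L.length ∧ L.Nodup ∧ (∀ w ∈ L, β.Out w ∧ β.base w = β.base y) ∧ y ∉ ends E ∧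
      (∀ w ∈ ends E, β.Out w ∧ β.base w = β.base y) ∧
      ∀ f0 f, Wrn f0 f E → (∀ w, β.Out w → β.base w = β.base y → w ≠ β.base y → f0 w = m w) →
        ReCls A β (β.base y) y f := by
  obtain ⟨L, hL, ⟨hnd, hND⟩, hcl⟩ := hI.path y hy
  have hbL : β.base y ∉ L := fun h => (hcl _ h).2.2 rfl
  obtain ⟨E, hE, hw, hlen, hp⟩ := hL.edgesQ hM.inv hnd hND hbL
  have minj : Function.Injective m := fun a b h => by rw [← hM.inv a, h, hM.inv]
  have hmL : ∀ w ∈ L, β.Out (m w) ∧ β.base (m w) = β.base y ∧ m w ≠ β.base y := by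
    intro w hwL
    have h := hcl w hwL
    have := hI.mate_blossom hM h.1 (by rw [h.2.1]; exact h.2.2)
    rw [h.2.1] at this
    exact this.2
  have hbb := hI.blab y hy
  have hheadL : L ++ [β.base y] = y :: (L ++ [β.base y]).tail := by
    have := hL.headD
    cases L with
    | nil => simp at this ⊢; exact this
    | cons a L' => simp at this ⊢; exact this
  have htail : ∀ w, w ∈ (L ++ [β.base y]).tail → (w ∈ L ∨ w = β.base y) := by
    intro w hw'
    have : w ∈ L ++ [β.base y] := by rw [hheadL]; exact List.mem_cons_of_mem _ hw'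
    simpa using this
  have htail' : ∀ w, (w ∈ L ∨ w = β.base y) → w ≠ y → w ∈ (L ++ [β.base y]).tail := by
    intro w hw' hne
    have : w ∈ L ++ [β.base y] := by simpa using hw'
    rw [hheadL] at this
    rcases List.mem_cons.1 this with h | h
    · exact absurd h hne
    · exact h
  have hends : ∀ w, w ∈ ends E ↔ (w ∈ L.map m ∨ w ∈ (L ++ [β.base y]).tail) := by
    intro w; rw [hp.mem_iff, List.mem_append]
  have hndall : (L ++ [β.base y]).Nodup := by
    rw [List.nodup_append]
    exact ⟨hnd, by simp, fun a ha b hb e => hbL (by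
      have : b = β.base y := by simpa using hb
      rw [← this, ← e]; exact ha)⟩
  have hytail : y ∉ (L ++ [β.base y]).tail := by
    rw [hheadL] at hndall
    exact (List.nodup_cons.1 hndall).1
  have hyL : y ∈ L ∨ y = β.base y := by
    have : y ∈ L ++ [β.base y] := by rw [hheadL]; exact List.mem_cons_self
    simpa using this
  have hymap : y ∉ L.map m := by
    intro h
    obtain ⟨a, ha, e⟩ := List.mem_map.1 h
    rcases hyL with h' | h'
    · exact hND a ha (e.symm ▸ h')
    · exact (hmL a ha).2.2 (e.trans h')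
  have hyends : y ∉ ends E := by
    rw [hends]
    rintro (h | h)
    exacts [hymap h, hytail h]
  have hendscls : ∀ w ∈ ends E, β.Out w ∧ β.base w = β.base y := by
    intro w hw'
    rcases (hends w).1 hw' with h | h
    · obtain ⟨a, ha, e⟩ := List.mem_map.1 h
      have := hmL a ha
      rw [e] at this
      exact ⟨this.1, this.2.1⟩
    · rcases htail w h with h' | h'
      · exact ⟨(hcl w h').1, (hcl w h').2.1⟩
      · rw [h']; exact ⟨Or.inl hbb.1, hbb.2⟩
  refine ⟨L, E, hE, ?_, hlen, hnd, fun w hw' => ⟨(hcl w hw').1, (hcl w hw').2.1⟩, hyends, hendscls,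
    ?_⟩
  · rw [hp.nodup_iff, List.nodup_append]
    refine ⟨hnd.map minj, ?_, ?_⟩
    · rw [hheadL] at hndall
      exact (List.nodup_cons.1 hndall).2
    · intro a ha b hb e
      subst e
      obtain ⟨c, hc, e⟩ := List.mem_map.1 ha
      rcases htail a hb with h | h
      · exact hND c hc (e.symm ▸ h)
      · exact (hmL c hc).2.2 (e.trans h)
  · intro f0 f hW hf0
    have hFlp := hw f hW.wr
    have hAP := hL.toAP hs hM hI
    have hfl := hAP.flip_ok' hs hFlp
    -- partners in `E`
    have hpart : ∀ w ∈ ends E, f w ∈ ends E := by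
      intro w hw'
      unfold ends at hw'
      obtain ⟨e, he, hwe⟩ := List.mem_flatMap.1 hw'
      have h1 := hW.wr e he
      have h2 := mem_ends he
      have : w = e.1 ∨ w = e.2 := by simpa using hwe
      rcases this with h | h
      · rw [h, h1.1]; exact h2.2
      · rw [h, h1.2]; exact h2.1
    constructor
    intro w hw1 hw2 hwy
    by_cases hwE : w ∈ ends E
    · have h1 := hfl w ((hends w).1 hwE)
      have h2 := hpart w hwE
      exact ⟨(hendscls _ h2).1, (hendscls _ h2).2, fun h => hyends (h ▸ h2), h1.1, h1.2⟩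
    · have hwn := hwE
      rw [hends, not_or] at hwn
      have hwb : w ≠ β.base y := fun h => hwn.2 (htail' w (Or.inr h) hwy)
      have hwL : w ∉ L := fun h => hwn.2 (htail' w (Or.inl h) hwy)
      have hmb := hI.mate_blossom hM hw1 (by rw [hw2]; exact hwb)
      rw [hw2] at hmb
      have hmwE : m w ∉ ends E := by
        rw [hends]
        rintro (h | h)
        · obtain ⟨a, ha, e⟩ := List.mem_map.1 h
          exact hwL (minj e ▸ ha)
        · rcases htail _ h with h' | h'
          · exact hwn.1 (List.mem_map.2 ⟨m w, h', hM.inv w⟩)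
          · exact hmb.2.2.2 h'
      have e1 : f w = m w := by rw [hW.out w hwE, hf0 w hw1 hw2 hwb]
      have e2 : f (m w) = w := by
        rw [hW.out _ hmwE, hf0 _ hmb.2.1 hmb.2.2.1 hmb.2.2.2, hM.inv]
      refine ⟨e1 ▸ hmb.2.1, e1 ▸ hmb.2.2.1, ?_, by rw [e1]; exact e2, ?_⟩
      · rw [e1]
        intro h
        rcases hyL with h' | h'
        · exact hwn.1 (List.mem_map.2 ⟨y, h', by rw [← h, hM.inv]⟩)
        · exact hmb.2.2.2 (h.trans h')
      · rw [e1]; exact hM.adj w hmb.1

end Vale.Agent.P305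
end
end

section

section

/-! A certificate for maximum matchings (the easy direction of the Tutte-Berge formula). -/

set_option autoImplicit false

namespace Vale.Agent.P305

/-- `S` is a set of vertices, `π` a partition of the rest into parts without edges between them,
every part contains at most one vertex which `f` leaves exposed or joins to `S`. -/
theorem isMax_of_cert {n : ℕ} {A : ℕ → ℕ → Prop} {f : ℕ → ℕ} {ι : Type} (hG : Gr n A)
    (hM : Mat A f) (S : ℕ → Prop) (π : ℕ → ι)
    (h1 : ∀ u v, A u v → ¬ S u → ¬ S v → π u = π v)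
    (h2 : ∀ s, S s → f s ≠ s ∧ ¬ S (f s))
    (h3 : ∀ u v, u < n → v < n → ¬ S u → ¬ S v → (f u = u ∨ S (f u)) → (f v = v ∨ S (f v)) →
      π u = π v → u = v) : IsMax n A f := by
  classical
  refine ⟨hM, fun m' hm' => ?_⟩
  let Sp := (Finset.range n).filter (fun u => ¬ S u ∧ (f u = u ∨ S (f u)))
  let SS := (Finset.range n).filter (fun u => S u)
  have hSp : ∀ u, u ∈ Sp ↔ u < n ∧ ¬ S u ∧ (f u = u ∨ S (f u)) := by
    intro u; simp only [Sp, Finset.mem_filter, Finset.mem_range]
  have hSS : ∀ u, u ∈ SS ↔ u < n ∧ S u := by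
    intro u; simp only [SS, Finset.mem_filter, Finset.mem_range]
  have finj : Function.Injective f := fun a b h => by rw [← hM.inv a, h, hM.inv]
  have minj : Function.Injective m' := fun a b h => by rw [← hm'.inv a, h, hm'.inv]
  -- number of special vertices
  have c1 : (exposed n f).card + SS.card ≤ Sp.card := by
    have hdisj : Disjoint (exposed n f) (SS.image f) := by
      rw [Finset.disjoint_left]
      intro v hv hv'
      simp only [exposed, Finset.mem_filter, Finset.mem_range] at hv
      obtain ⟨s, hs, e⟩ := Finset.mem_image.1 hv'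
      have : f s = s := by
        have : s = v := by rw [← hM.inv s, e, hv.2]
        rw [this]; exact hv.2
      exact (h2 s ((hSS s).1 hs).2).1 this
    rw [← Finset.card_image_of_injective SS finj, ← Finset.card_union_of_disjoint hdisj]
    apply Finset.card_le_card
    intro v hv
    rw [hSp]
    rcases Finset.mem_union.1 hv with hv | hv
    · simp only [exposed, Finset.mem_filter, Finset.mem_range] at hv
      exact ⟨hv.1, fun h => (h2 v h).1 hv.2, Or.inl hv.2⟩
    · obtain ⟨s, hs, e⟩ := Finset.mem_image.1 hv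
      rw [hSS] at hs
      have := h2 s hs.2
      rw [← e]
      exact ⟨hM.lt hG hs.1, this.2, Or.inr (by rw [hM.inv]; exact hs.2)⟩
  -- the other matching
  have c2 : Sp.card ≤ (exposed n m' ∪ SS).card := by
    have hex : ∀ u ∈ Sp, ∃ y, y < n ∧ ¬ S y ∧ π y = π u ∧ (m' y = y ∨ S (m' y)) := by
      intro u hu
      rw [hSp] at hu
      by_contra hcon
      push Not at hcon
      let P := (Finset.range n).filter (fun y => ¬ S y ∧ π y = π u)
      have hP : ∀ y, y ∈ P ↔ y < n ∧ ¬ S y ∧ π y = π u := by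
        intro y; simp only [P, Finset.mem_filter, Finset.mem_range]
      have e1 : Even P.card := by
        refine even_card_of_inv P m' ?_ ?_ ?_
        · intro y hy
          rw [hP] at hy
          have h := hcon y hy.1 hy.2.1 hy.2.2
          have ha := hm'.adj y h.1
          rw [hP]
          exact ⟨hG.lt' ha, h.2, (h1 _ _ ha hy.2.1 h.2).symm.trans hy.2.2⟩
        · intro y hy
          rw [hP] at hy
          exact (hcon y hy.1 hy.2.1 hy.2.2).1
        · intro y _; exact hm'.inv y
      have e2 : Even (P.erase u).card := by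
        have hns : ∀ y, y ∈ P.erase u → f y ≠ y ∧ ¬ S (f y) := by
          intro y hy
          rw [Finset.mem_erase, hP] at hy
          by_contra hc
          have : f y = y ∨ S (f y) := by
            by_contra h'
            push Not at h'
            exact hc h'
          exact hy.1 (h3 y u hy.2.1 hu.1 hy.2.2.1 hu.2.1 this hu.2.2 hy.2.2.2)
        refine even_card_of_inv _ f ?_ ?_ ?_
        · intro y hy
          have h := hns y hy
          rw [Finset.mem_erase, hP] at hy
          have ha := hM.adj y h.1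
          rw [Finset.mem_erase, hP]
          refine ⟨?_, hG.lt' ha, h.2, (h1 _ _ ha hy.2.2.1 h.2).symm.trans hy.2.2.2⟩
          intro e
          have hyu : f u = y := by rw [← e, hM.inv]
          rcases hu.2.2 with h' | h'
          · exact hy.1 (hyu.symm.trans h')
          · rw [hyu] at h'; exact hy.2.2.1 h'
        · intro y hy; exact (hns y hy).1
        · intro y _; exact hM.inv y
      have huP : u ∈ P := (hP u).2 ⟨hu.1, hu.2.1, rfl⟩
      rw [← Finset.card_erase_add_one huP] at e1
      exact (Nat.even_add_one.1 e1) e2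
    choose! y hy using hex
    refine Finset.card_le_card_of_injOn (fun u => m' (y u)) ?_ ?_
    · intro u hu
      have h := hy u hu
      rw [Finset.mem_coe, Finset.mem_union]
      rcases h.2.2.2 with h' | h'
      · left
        simp only [exposed, Finset.mem_filter, Finset.mem_range]
        rw [h']
        exact ⟨h.1, h'⟩
      · right
        rw [hSS]
        exact ⟨hm'.lt hG h.1, h'⟩
    · intro a ha b hb e
      have ha' := (hSp a).1 ha
      have hb' := (hSp b).1 hb
      have e' : y a = y b := minj e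
      refine h3 a b ha'.1 hb'.1 ha'.2.1 hb'.2.1 ha'.2.2 hb'.2.2 ?_
      rw [← (hy a ha).2.2.1, ← (hy b hb).2.2.1, e']
  have c3 := Finset.card_union_le (exposed n m') SS
  omega

end Vale.Agent.P305
end
end

section

section

/-! Forest search on the L1 machine, part 5: loops, initialisation, result. -/

set_option autoImplicit false
set_option linter.unusedSimpArgs false
set_option linter.unusedVariables false

namespace Vale.Agent.P305

open Function (update)
open L1

variable {R : List ℕ → (ℕ → ℕ) → ℕ → Prop} {cap : ℕ}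

def srArcLoop : Cmd := .loop (.lt 63 64) srArcBody

/-- The constants of the time bounds. -/
def W1 (n : ℕ) : ℕ := 12 * (Nat.log 2 n + 1) + 80
def W2 (n : ℕ) : ℕ := 9 * (Nat.log 2 n + 1) + 60

theorem srArcLoop_spec {n : ℕ} {vs : ℕ → Prop} {A : ℕ → ℕ → Prop} {m : ℕ → ℕ}
    (hvs : ∀ v, vs v → v < n) (hs : ∀ {u v}, A u v → A v u) (hvA : ∀ {u v}, A u v → vs u)
    (hM : Mat A m) (s : St) {β : BS} {ρ : ℕ → ℕ} {qt : ℕ} (hC : Core n vs A m s β ρ qt)
    {u p0 e : ℕ} (hu : β.Out u) (h62 : s.r 62 = u) (h63 : s.r 63 = p0) (h64 : s.r 64 = e)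
    (hpe : p0 ≤ e) (hadj : ∀ p, p0 ≤ p → p < e → s.a 5 p < n ∧ (vs (s.a 5 p) → A u (s.a 5 p)))
    (h77 : s.r 77 = 0) {P : ℕ → ℕ → Prop} (hP : Pr A P β) :
    ∃ s' t, Ex R cap srArcLoop s t s' ∧ (∀ k, k ∉ srArcRegs → s'.r k = s.r k) ∧
      (∀ j, j ∉ srchArrs → s'.a j = s.a j) ∧ ∃ β' ρ' qt', Core n vs A m s' β' ρ' qt' ∧
        qt ≤ qt' ∧ (∀ i < qt, s'.a 59 i = s.a 59 i) ∧
      ((s'.r 77 = 0 ∧ t + W2 n * qt ≤ (W1 n + 1) * (e - p0) + W2 n * qt' + 1 ∧ Ext β β' ∧
          Pr A (fun a b => P a b ∨ (a = u ∧ A u b ∧ ∃ p, p0 ≤ p ∧ p < e ∧ s.a 5 p = b)) β') ∨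
        (s'.r 77 = 1 ∧ t + W2 n * qt ≤ (W1 n + 1) * (e - p0) + W2 n * (qt' + n) + 1 ∧
          Found m A β' s')) := by
  obtain ⟨s', t, ex, ⟨hreg, harr, hp1, hp2, β', ρ', qt', hC', hqq, hqu, hcase⟩, hc⟩ :=
    loop_rule_t (R := R) (cap := cap) (c := .lt 63 64) (p := srArcBody)
    (fun τ s' => (∀ k, k ∉ srArcRegs → s'.r k = s.r k) ∧ (∀ j, j ∉ srchArrs → s'.a j = s.a j) ∧
      p0 ≤ s'.r 63 ∧ s'.r 63 ≤ e ∧ ∃ β' ρ' qt', Core n vs A m s' β' ρ' qt' ∧
        qt ≤ qt' ∧ (∀ i < qt, s'.a 59 i = s.a 59 i) ∧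
      ((s'.r 77 = 0 ∧ τ + W2 n * qt ≤ (W1 n + 1) * (s'.r 63 - p0) + W2 n * qt' ∧ Ext β β' ∧
          Pr A (fun a b => P a b ∨
            (a = u ∧ A u b ∧ ∃ p, p0 ≤ p ∧ p < s'.r 63 ∧ s.a 5 p = b)) β') ∨
        (s'.r 63 = e ∧ s'.r 77 = 1 ∧
          τ + W2 n * qt ≤ (W1 n + 1) * (e - p0) + W2 n * (qt' + n) ∧ Found m A β' s')))
    (fun s' => e - s'.r 63)
    (by
      rintro τ s1 ⟨hreg, harr, hp1, hp2, β', ρ', qt', hC', hqq, hqu, hcase⟩ hc
      simp only [Test.holds] at hc
      rw [hreg 64 (by decide), h64] at hc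
      rcases hcase with ⟨q77, hτ, hext, hPr⟩ | ⟨he, _⟩
      swap
      · omega
      have hr62 : s1.r 62 = u := by rw [hreg 62 (by decide)]; exact h62
      have h5 : s1.a 5 = s.a 5 := harr 5 (by decide)
      obtain ⟨hvn, hvA'⟩ := hadj (s1.r 63) hp1 hc
      obtain ⟨s2, t2, e2, breg, barr, bqu, bcase⟩ := srArcBody_spec (R := R) (cap := cap) hvs hs hvA hM
        s1 hC' (hext.out u hu) hr62 (by rw [h5]) hvn hvA' q77
      have hreg2 : ∀ k, k ∉ srArcRegs → s2.r k = s.r k := fun k hk => by rw [breg k hk, hreg k hk]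
      have harr2 : ∀ j, j ∉ srchArrs → s2.a j = s.a j := fun j hj => by rw [barr j hj, harr j hj]
      have hqu2 : ∀ i < qt, s2.a 59 i = s.a 59 i := fun i hi => by
        rw [bqu i (by omega), hqu i hi]
      have hW1 : (12 * (Nat.log 2 n + 1) + 80) = W1 n := rfl
      have hW2 : (9 * (Nat.log 2 n + 1) + 60) = W2 n := rfl
      rcases bcase with ⟨q77', q63, β2, ρ2, qt2, hC2, hq2, ht2, hext2, hl2, hb2⟩ |
        ⟨q77', q63, hC2, ht2, hF⟩
      · rw [hW1, hW2] at ht2
        refine ⟨s2, t2, e2, ⟨hreg2, harr2, by omega, by omega, β2, ρ2, qt2, hC2, by omega, hqu2,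
          Or.inl ⟨q77', ?_, hext.trans hext2, ?_⟩⟩, ?_⟩
        · rw [q63]
          have : (W1 n + 1) * (s1.r 63 + 1 - p0) = (W1 n + 1) * (s1.r 63 - p0) + (W1 n + 1) := by
            rw [Nat.sub_add_comm hp1]; ring
          rw [this]; omega
        · have hPe := hPr.ext hext2
          by_cases hv : vs (s1.a 5 (s1.r 63))
          · have hA : A u (s1.a 5 (s1.r 63)) := by rw [h5] at hv ⊢; exact hvA' hv
            have hadd := hPe.add (hext2.out u (hext.out u hu)) (by rw [h5] at hA; exact hA)
              (by exact hl2) (by exact hb2)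
            rw [q63]
            refine ⟨?_, ?_, ?_⟩
            · intro a b hab
              apply hadd.src
              rcases hab with h | ⟨h1, h2, p, h3, h4, h5'⟩
              · exact Or.inl (Or.inl h)
              · by_cases hp : p = s1.r 63
                · right; subst hp; exact ⟨h1, h5'.symm⟩
                · left; right; exact ⟨h1, h2, p, h3, by (clear * - q63 h4 hp; omega), h5'⟩
            · intro a b hab
              apply hadd.lab a b
              rcases hab with h | ⟨h1, h2, p, h3, h4, h5'⟩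
              · exact Or.inl (Or.inl h)
              · by_cases hp : p = s1.r 63
                · right; subst hp; exact ⟨h1, h5'.symm⟩
                · left; right; exact ⟨h1, h2, p, h3, by omega, h5'⟩
            · have hmono : ∀ a b, (P a b ∨ (a = u ∧ A u b ∧ ∃ p, p0 ≤ p ∧ p < s1.r 63 + 1 ∧
                  s.a 5 p = b)) → (P a b ∨ (a = u ∧ A u b ∧ ∃ p, p0 ≤ p ∧ p < s1.r 63 ∧
                  s.a 5 p = b)) ∨ (a = u ∧ b = s.a 5 (s1.r 63)) := by
                rintro a b (h | ⟨h1, h2, p, h3, h4, h5'⟩)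
                · exact Or.inl (Or.inl h)
                · by_cases hp : p = s1.r 63
                  · right; subst hp; exact ⟨h1, h5'.symm⟩
                  · left; right; exact ⟨h1, h2, p, h3, by (clear * - q63 h4 hp; omega), h5'⟩
              intro a b hab hba
              exact hadd.base a b (hmono a b hab) (hmono b a hba)
          · have hmono : ∀ a b, (P a b ∨ (a = u ∧ A u b ∧ ∃ p, p0 ≤ p ∧ p < s1.r 63 + 1 ∧
                  s.a 5 p = b)) → (P a b ∨ (a = u ∧ A u b ∧ ∃ p, p0 ≤ p ∧ p < s1.r 63 ∧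
                  s.a 5 p = b)) := by
              rintro a b (h | ⟨h1, h2, p, h3, h4, h5'⟩)
              · exact Or.inl h
              · by_cases hp : p = s1.r 63
                · exfalso
                  subst hp
                  apply hv
                  rw [h5, h5']
                  exact hvA (hs h2)
                · right; exact ⟨h1, h2, p, h3, by omega, h5'⟩
            rw [q63]
            exact ⟨fun a b hab => hPe.src a b (hmono a b hab),
              fun a b hab => hPe.lab a b (hmono a b hab),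
              fun a b hab hba => hPe.base a b (hmono a b hab) (hmono b a hba)⟩
        · (clear * - hc q63; omega)
      · rw [hW1, hW2] at ht2
        have h64' : s1.r 64 = e := by rw [hreg 64 (by decide)]; exact h64
        rw [h64'] at q63
        refine ⟨s2, t2, e2, ⟨hreg2, harr2, by omega, by omega, β', ρ', qt', hC2, hqq, hqu2,
          Or.inr ⟨q63, q77', ?_, hF⟩⟩, ?_⟩
        · have h1 : (W1 n + 1) * (s1.r 63 - p0) + (W1 n + 1) ≤ (W1 n + 1) * (e - p0) := by
            have : (W1 n + 1) * (s1.r 63 - p0) + (W1 n + 1) = (W1 n + 1) * (s1.r 63 - p0 + 1) := by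
              ring
            rw [this]
            exact Nat.mul_le_mul_left _ (by (clear * - hpe hp1 hc q63 h64'; omega))
          have h2 : W2 n * (qt' + n) = W2 n * qt' + W2 n * n := by ring
          (clear * - hτ hW1 ht2 h1 h2; omega)
        · omega)
    0 s (by
      refine ⟨fun _ _ => rfl, fun _ _ => rfl, by omega, by omega, β, ρ, qt, hC, le_refl _,
        fun _ _ => rfl, Or.inl ⟨h77, by omega, Ext.refl β, ?_⟩⟩
      rw [h63]
      have hmono : ∀ a b, (P a b ∨ (a = u ∧ A u b ∧ ∃ p, p0 ≤ p ∧ p < p0 ∧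
                  s.a 5 p = b)) → P a b := by
        rintro a b (h | ⟨h1, h2, p, h3, h4, h5'⟩)
        · exact h
        · omega
      exact ⟨fun a b hab => hP.src a b (hmono a b hab),
              fun a b hab => hP.lab a b (hmono a b hab),
              fun a b hab hba => hP.base a b (hmono a b hab) (hmono b a hba)⟩)
  refine ⟨s', t + 1, ex, hreg, harr, β', ρ', qt', hC', hqq, hqu, ?_⟩
  simp only [Test.holds] at hc
  rw [hreg 64 (by decide), h64] at hc
  have he : s'.r 63 = e := by omega
  rcases hcase with ⟨q77, hτ, hext, hPr⟩ | ⟨_, q77, hτ, hF⟩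
  · rw [he] at hτ hPr
    exact Or.inl ⟨q77, by omega, hext, hPr⟩
  · exact Or.inr ⟨q77, by omega, hF⟩

def degsum (off q : ℕ → ℕ) (k : ℕ) : ℕ := ∑ i ∈ Finset.range k, (off (q i + 1) - off (q i))

theorem degsum_le {n : ℕ} {off q : ℕ → ℕ} {k : ℕ} (hq : ∀ i < k, q i < n)
    (hinj : ∀ i < k, ∀ j < k, q i = q j → i = j) (h0 : off 0 = 0)
    (hmono : ∀ v < n, off v ≤ off (v + 1)) : degsum off q k ≤ off n := by
  classical
  have h1 : degsum off q k =
      ∑ v ∈ (Finset.range k).image q, (off (v + 1) - off v) := by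
    rw [Finset.sum_image]
    · rfl
    · intro i hi j hj e
      simp only [Finset.coe_range, Set.mem_Iio] at hi hj
      exact hinj i hi j hj e
  have h2 : (Finset.range k).image q ⊆ Finset.range n := by
    intro v hv
    obtain ⟨i, hi, e⟩ := Finset.mem_image.1 hv
    rw [Finset.mem_range] at hi ⊢
    rw [← e]; exact hq i hi
  have h3 : ∀ j ≤ n, ∑ v ∈ Finset.range j, (off (v + 1) - off v) = off j := by
    intro j
    induction j with
    | zero => intro _; simp only [Finset.range_zero, Finset.sum_empty, h0]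
    | succ j ih =>
      intro hj
      rw [Finset.sum_range_succ, ih (by omega)]
      have := hmono j (by omega)
      omega
  rw [h1, ← h3 n le_rfl]
  exact Finset.sum_le_sum_of_subset h2

theorem Qu.le {n : ℕ} {D : ℕ → Prop} {q : ℕ → ℕ} {qt : ℕ} (h : Qu D q qt)
    (hn : ∀ v, D v → v < n) : qt ≤ n := by
  classical
  have h1 : ((Finset.range qt).image q).card = qt := by
    rw [Finset.card_image_of_injOn]
    · simp
    · intro i hi j hj e
      simp only [Finset.coe_range, Set.mem_Iio] at hi hj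
      exact h.inj i hi j hj e
  have h2 : (Finset.range qt).image q ⊆ Finset.range n := by
    intro v hv
    obtain ⟨i, hi, e⟩ := Finset.mem_image.1 hv
    rw [Finset.mem_range] at hi ⊢
    rw [← e]; exact hn _ (h.mem i hi)
  have := Finset.card_le_card h2
  rw [h1, Finset.card_range] at this
  exact this

theorem Found.congr {m : ℕ → ℕ} {A : ℕ → ℕ → Prop} {β : BS} {s s' : St} (h : Found m A β s)
    (hr : ∀ k ∈ [62, 65, 78, 79], s'.r k = s.r k) : Found m A β s' := by
  obtain ⟨u, v, x, y, pu, pv, h1, h2, h3, h4, h5, h6, h7, h8, h9, h10, h11⟩ := h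
  exact ⟨u, v, x, y, pu, pv, h1, h2, h3, h4, h5, h6, h7, by rw [hr 62 (by decide), h8],
    by rw [hr 65 (by decide), h9], by rw [hr 78 (by decide), h10], by rw [hr 79 (by decide), h11]⟩

def srVtxBody : Cmd :=
  .seq (.blk [.load 59 62 60, .inc 60, .load 4 63 62, .copy 64 62, .inc 64, .load 4 64 64])
  (.seq srArcLoop (.ite (.eq 77 67) (.blk [.copy 60 61]) (.blk [])))

def srVtxLoop : Cmd := .loop (.lt 60 61) srVtxBody

def srVtxRegs : List ℕ := [60, 62, 64, 61, 63, 65, 66, 71, 72, 73, 74, 75, 76, 77, 78, 79, 80, 81,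
  82, 83, 84, 85, 86, 87, 88, 89, 90, 91]

theorem srVtxLoop_spec {n : ℕ} {vs : ℕ → Prop} {A A0 : ℕ → ℕ → Prop} {m : ℕ → ℕ}
    (hvs : ∀ v, vs v → v < n) (hs : ∀ {u v}, A u v → A v u) (hvA : ∀ {u v}, A u v → vs u)
    (hG0 : Gr n A0) (hA : ∀ u v, A u v ↔ A0 u v ∧ vs u ∧ vs v)
    (hM : Mat A m) (s : St) (hcsr : CSR n A0 (s.a 4) (s.a 5)) {β : BS} {ρ : ℕ → ℕ} {qt : ℕ}
    (hC : Core n vs A m s β ρ qt) (h60 : s.r 60 = 0) (h77 : s.r 77 = 0) :
    ∃ s' t, Ex R cap srVtxLoop s t s' ∧ (∀ k, k ∉ srVtxRegs → s'.r k = s.r k) ∧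
      (∀ j, j ∉ srchArrs → s'.a j = s.a j) ∧
      t ≤ 12 * n + (W1 n + 1) * s.a 4 n + 2 * W2 n * n + 1 ∧
      ∃ β' ρ' qt', Core n vs A m s' β' ρ' qt' ∧
      ((s'.r 77 = 0 ∧ β'.Final A) ∨ (s'.r 77 = 1 ∧ Found m A β' s')) := by
  have outn : ∀ (β : BS), Inv vs A m β → ∀ v, β.Out v → v < n := fun β hI v hv =>
    hvs v (hI.vsl v (by rcases hv with h | h <;> omega))
  obtain ⟨s', t, ex, ⟨hreg, harr, β', ρ', qt', hC', hq60, hcase⟩, hc⟩ :=
    loop_rule_t (R := R) (cap := cap) (c := .lt 60 61) (p := srVtxBody)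
    (fun τ s' => (∀ k, k ∉ srVtxRegs → s'.r k = s.r k) ∧ (∀ j, j ∉ srchArrs → s'.a j = s.a j) ∧
      ∃ β' ρ' qt', Core n vs A m s' β' ρ' qt' ∧ s'.r 60 ≤ qt' ∧
      ((s'.r 77 = 0 ∧ Pr A (fun a b => A a b ∧ ∃ i < s'.r 60, s'.a 59 i = a) β' ∧
          τ ≤ 12 * s'.r 60 + (W1 n + 1) * degsum (s.a 4) (s'.a 59) (s'.r 60) + W2 n * qt') ∨
        (s'.r 77 = 1 ∧ s'.r 60 = qt' ∧ Found m A β' s' ∧
          τ ≤ 12 * n + (W1 n + 1) * s.a 4 n + W2 n * (n + n))))
    (fun s' => n - s'.r 60)
    (by
      rintro τ s1 ⟨hreg, harr, β', ρ', qt', hC', hq60, hcase⟩ hc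
      simp only [Test.holds] at hc
      have h61 := hC'.r61
      rw [h61] at hc
      rcases hcase with ⟨q77, hPr, hτ⟩ | ⟨_, he, _⟩
      swap
      · omega
      have hqtn := hC'.good.qu.le (outn β' hC'.inv)
      -- block
      obtain ⟨u, hu⟩ : ∃ u, u = s1.a 59 (s1.r 60) := ⟨_, rfl⟩
      have huo : β'.Out u := hu ▸ hC'.good.qu.mem _ hc
      have hun : u < n := outn β' hC'.inv u huo
      have h4 : s1.a 4 = s.a 4 := harr 4 (by decide)
      have h5 : s1.a 5 = s.a 5 := harr 5 (by decide)
      have e1 := Ex.blk (R := R) (cap := cap)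
        [.load 59 62 60, .inc 60, .load 4 63 62, .copy 64 62, .inc 64, .load 4 64 64] s1
      obtain ⟨s2, hs2⟩ : ∃ s2, s2 = run [.load 59 62 60, .inc 60, .load 4 63 62, .copy 64 62,
        .inc 64, .load 4 64 64] s1 := ⟨_, rfl⟩
      rw [← hs2] at e1
      have A2 : s2.r 62 = u ∧ s2.r 60 = s1.r 60 + 1 ∧ s2.r 63 = s.a 4 u ∧
          s2.r 64 = s.a 4 (u + 1) ∧ (∀ k, k ∉ [60, 62, 63, 64] → s2.r k = s1.r k) ∧
          s2.a = s1.a := by
        subst hs2
        simp only [run, B.step, ← hu, ne_eq, Nat.reduceEqDiff, not_false_eq_true, Function.update_of_ne, Function.update_self, h4, Function.update_idem, Nat.add_left_cancel_iff, List.mem_cons, List.not_mem_nil, or_false, not_or, and_imp, and_true, true_and]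
        intro k k1 k2 k3 k4; simp [k1, k2, k3, k4]
      obtain ⟨b62, b60, b63, b64, breg, barr⟩ := A2
      have hC2 : Core n vs A m s2 β' ρ' qt' := by
        refine hC'.congr barr ?_
        intro k hk
        exact breg k (fun h => (by decide : ∀ x ∈ [60, 62, 63, 64], x ∉ [1, 61, 67, 68, 69]) k h hk)
      obtain ⟨s3, t3, e3, creg, carr, β3, ρ3, qt3, hC3, hq3, hqu3, hcase3⟩ :=
        srArcLoop_spec (R := R) (cap := cap) hvs hs hvA hM s2 hC2 huo b62 b63 b64
          (hcsr.mono u hun)
          (by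
            intro p hp1 hp2
            have : A0 u (s.a 5 p) := (hcsr.mem u hun _).2 ⟨p, hp1, hp2, rfl⟩
            rw [barr, h5]
            refine ⟨hG0.lt' this, fun hv => (hA _ _).2 ⟨this, ?_, hv⟩⟩
            exact hC'.inv.vsl u (by rcases huo with h | h <;> omega))
          (by rw [breg 77 (by decide)]; exact q77) hPr
      have c60 : s3.r 60 = s1.r 60 + 1 := by rw [creg 60 (by decide), b60]
      have hqt3n := hC3.good.qu.le (outn β3 hC3.inv)
      have hdeg : degsum (s.a 4) (s3.a 59) (s1.r 60 + 1) =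
          degsum (s.a 4) (s1.a 59) (s1.r 60) + (s.a 4 (u + 1) - s.a 4 u) := by
        unfold degsum
        rw [Finset.sum_range_succ]
        congr 1
        · apply Finset.sum_congr rfl
          intro i hi
          rw [Finset.mem_range] at hi
          rw [hqu3 i (by omega), barr]
        · rw [hqu3 _ hc, barr, ← hu]
      have hsub : ∀ k, k ∉ srVtxRegs → s3.r k = s.r k := by
        intro k hk
        rw [creg k (fun h => hk ((by (clear * -; decide) : ∀ x ∈ srArcRegs, x ∈ srVtxRegs) k h)),
          breg k (fun h => hk ((by decide : ∀ x ∈ [60, 62, 63, 64], x ∈ srVtxRegs) k h)), hreg k hk]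
      have hsarr : ∀ j, j ∉ srchArrs → s3.a j = s.a j := fun j hj => by
        rw [carr j hj, barr, harr j hj]
      rcases hcase3 with ⟨r77, ht3, hext, hPr3⟩ | ⟨r77, ht3, hF⟩
      · refine ⟨s3, _, .seq e1 (.seq e3 (.iteFalse ?_ (Ex.blk [] _))), ⟨hsub, hsarr, β3, ρ3, qt3, hC3,
          by omega, Or.inl ⟨r77, ?_, ?_⟩⟩, ?_⟩
        · simp only [Test.holds]
          rw [r77, hC3.r67]; decide
        · have hmono : ∀ a b, (A a b ∧ ∃ i < s3.r 60, s3.a 59 i = a) →
              ((A a b ∧ ∃ i < s1.r 60, s1.a 59 i = a) ∨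
              (a = u ∧ A u b ∧ ∃ p, s.a 4 u ≤ p ∧ p < s.a 4 (u + 1) ∧ s2.a 5 p = b)) := by
            rintro a b ⟨hab, i, hi, hia⟩
            rw [c60] at hi
            rw [hqu3 i (by omega), barr] at hia
            by_cases hi' : i = s1.r 60
            · right
              have hau : a = u := by rw [← hia, hi', ← hu]
              subst hau
              obtain ⟨p, hp1, hp2, hp3⟩ := (hcsr.mem _ hun b).1 ((hA _ _).1 hab).1
              exact ⟨rfl, hab, p, hp1, hp2, by rw [barr, h5]; exact hp3⟩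
            · left
              exact ⟨hab, i, by omega, hia⟩
          exact ⟨fun a b hab => hPr3.src a b (hmono a b hab),
              fun a b hab => hPr3.lab a b (hmono a b hab),
              fun a b hab hba => hPr3.base a b (hmono a b hab) (hmono b a hba)⟩
        · rw [c60, hdeg]
          simp only [List.length_cons, List.length_nil]
          have : (W1 n + 1) * (degsum (s.a 4) (s1.a 59) (s1.r 60) + (s.a 4 (u + 1) - s.a 4 u)) =
            (W1 n + 1) * degsum (s.a 4) (s1.a 59) (s1.r 60) +
              (W1 n + 1) * (s.a 4 (u + 1) - s.a 4 u) := by ring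
          rw [this]; omega
        · omega
      · have e4 := Ex.blk (R := R) (cap := cap) [.copy 60 61] s3
        have hle := degsum_le (n := n) (off := s.a 4) (q := s3.a 59) (k := s1.r 60 + 1)
          (fun i hi => outn β3 hC3.inv _ (hC3.good.qu.mem i (by omega)))
          (fun i hi j hj e => hC3.good.qu.inj i (by omega) j (by omega) e) hcsr.off0 hcsr.mono
        rw [hdeg] at hle
        refine ⟨_, _, .seq e1 (.seq e3 (.iteTrue ?_ e4)), ⟨?_, ?_, β3, ρ3, qt3, ?_,
          ?_, Or.inr ⟨?_, ?_, ?_, ?_⟩⟩, ?_⟩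
        · simp only [Test.holds]
          rw [r77, hC3.r67]
        · intro k hk
          have h2 : k ≠ 60 := fun h => hk (h ▸ (by decide))
          simp [run, B.step, h2, hsub k hk]
        · intro j hj
          simp [run, B.step, hsarr j hj]
        · refine hC3.congr (by simp [run, B.step]) ?_
          intro k hk
          have h2 : k ≠ 60 := fun h => (by decide : 60 ∉ [1, 61, 67, 68, 69]) (h ▸ hk)
          simp [run, B.step, h2]
        · simp [run, B.step, hC3.r61]
        · simp [run, B.step, r77]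
        · simp [run, B.step, hC3.r61]
        · refine hF.congr ?_
          intro k hk
          have h2 : k ≠ 60 := fun h => (by decide : 60 ∉ [62, 65, 78, 79]) (h ▸ hk)
          simp [run, B.step, h2]
        · simp only [List.length_cons, List.length_nil]
          have h1 : (W1 n + 1) * degsum (s.a 4) (s1.a 59) (s1.r 60) +
            (W1 n + 1) * (s.a 4 (u + 1) - s.a 4 u) ≤ (W1 n + 1) * s.a 4 n := by
            rw [← Nat.mul_add]; exact Nat.mul_le_mul_left _ hle
          have h2 : W2 n * (qt3 + n) ≤ W2 n * (n + n) := Nat.mul_le_mul_left _ (by (clear * - hqt3n; omega))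
          omega
        · simp only [run, B.step, hC3.r61, Function.update_self]
          (clear * - hc h61 hqtn b60 hq3 c60 hqt3n; omega))
    0 s (by
      refine ⟨fun _ _ => rfl, fun _ _ => rfl, β, ρ, qt, hC, by omega, Or.inl ⟨h77, ?_, by omega⟩⟩
      rw [h60]
      refine ⟨?_, ?_, ?_⟩
      · rintro a b ⟨_, i, hi, _⟩; omega
      · rintro a b ⟨_, i, hi, _⟩; omega
      · rintro a b ⟨_, i, hi, _⟩; omega)
  have hqtn := hC'.good.qu.le (outn β' hC'.inv)
  simp only [Test.holds] at hc
  rw [hC'.r61] at hc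
  refine ⟨s', t + 1, ex, hreg, harr, ?_, β', ρ', qt', hC', ?_⟩
  · have h2 : 2 * W2 n * n = W2 n * (n + n) := by ring
    rw [h2]
    rcases hcase with ⟨_, _, hτ⟩ | ⟨_, _, _, hτ⟩
    · have hle := degsum_le (n := n) (off := s.a 4) (q := s'.a 59) (k := s'.r 60)
          (fun i hi => outn β' hC'.inv _ (hC'.good.qu.mem i (by omega)))
          (fun i hi j hj e => hC'.good.qu.inj i (by omega) j (by omega) e) hcsr.off0 hcsr.mono
      have h1 : (W1 n + 1) * degsum (s.a 4) (s'.a 59) (s'.r 60) ≤ (W1 n + 1) * s.a 4 n :=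
        Nat.mul_le_mul_left _ hle
      have h2 : W2 n * qt' ≤ W2 n * (n + n) := Nat.mul_le_mul_left _ (by omega)
      omega
    · omega
  · rcases hcase with ⟨q77, hPr, _⟩ | ⟨q77, _, hF, _⟩
    · refine Or.inl ⟨q77, ?_⟩
      have hall : ∀ a b, β'.Out a → A a b → (A a b ∧ ∃ i < s'.r 60, s'.a 59 i = a) := by
        intro a b ha hab
        obtain ⟨i, hi, e⟩ := hC'.good.qu.surj a ha
        exact ⟨hab, i, by omega, e⟩
      intro a b ha hab
      have h1 := hPr.lab a b (hall a b ha hab)
      have hvb : vs b := hvA (hs hab)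
      have h3 := hC'.inv.le3 b hvb
      have : β'.lab b = 2 ∨ β'.Out b := by unfold BS.Out; omega
      rcases this with h | h
      · exact Or.inl h
      · exact Or.inr ⟨h, hPr.base a b (hall a b ha hab) (hall b a h (hs hab))⟩
    · exact Or.inr ⟨q77, hF⟩

end Vale.Agent.P305
end
end

section

section

/-! Forest search on the L1 machine, part 6: initialisation and the complete search. -/

set_option autoImplicit false
set_option linter.unusedSimpArgs false
set_option linter.unusedVariables false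

namespace Vale.Agent.P305

open Function (update)
open L1

variable {R : List ℕ → (ℕ → ℕ) → ℕ → Prop} {cap : ℕ}

def srInitBody : Cmd :=
  .seq (.blk [.load 51 66 65])
  (.seq (.ite (.eq 66 1)
      (.seq (.blk [.load 40 70 65])
        (.ite (.eq 70 65)
          (.blk [.store 51 65 67, .store 55 65 1, .store 59 61 65, .inc 61, .store 56 65 65,
            .store 57 65 1, .store 58 65 65])
          (.blk [])))
      (.blk []))
    (.blk [.inc 65]))

def srInit : Cmd :=
  .seq (.blk [.const 67 1, .const 68 2, .const 69 3, .const 60 0, .const 61 0, .const 77 0,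
    .const 65 0])
  (.loop (.lt 65 0) srInitBody)

/-- The search. Needs: array 40 = matching, array 51 = 0 on the vertices of the subgraph, 4 on
the others. -/
def searchC : Cmd := .seq srInit srVtxLoop

def searchRegs : List ℕ := [60, 61, 62, 63, 64, 65, 66, 67, 68, 69, 70, 71, 72, 73, 74, 75, 76, 77,
  78, 79, 80, 81, 82, 83, 84, 85, 86, 87, 88, 89, 90, 91]

theorem srInit_spec {n : ℕ} {vs : ℕ → Prop} {A : ℕ → ℕ → Prop} {m : ℕ → ℕ}
    (hvs : ∀ v, vs v → v < n) (s : St) (h0 : s.r 0 = n) (h1 : s.r 1 = 0)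
    (hlab : ∀ v < n, (vs v ∧ s.a 51 v = 0) ∨ (¬ vs v ∧ s.a 51 v = 4))
    (hmt : ∀ v < n, s.a 40 v = m v) :
    ∃ s' t β qt, Ex R cap srInit s t s' ∧ t ≤ 15 * n + 10 ∧ Core n vs A m s' β id qt ∧
      s'.r 60 = 0 ∧ s'.r 77 = 0 ∧ (∀ k, k ∉ searchRegs → s'.r k = s.r k) ∧
      (∀ j, j ∉ srchArrs → s'.a j = s.a j) := by
  classical
  have e1 := Ex.blk (R := R) (cap := cap) [.const 67 1, .const 68 2, .const 69 3, .const 60 0,
    .const 61 0, .const 77 0, .const 65 0] s
  obtain ⟨s1, hs1⟩ : ∃ s1, s1 = run [.const 67 1, .const 68 2, .const 69 3, .const 60 0,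
    .const 61 0, .const 77 0, .const 65 0] s := ⟨_, rfl⟩
  rw [← hs1] at e1
  have A1 : s1.r 67 = 1 ∧ s1.r 68 = 2 ∧ s1.r 69 = 3 ∧ s1.r 60 = 0 ∧ s1.r 61 = 0 ∧ s1.r 77 = 0 ∧
      s1.r 65 = 0 ∧ (∀ k, k ∉ [67, 68, 69, 60, 61, 77, 65] → s1.r k = s.r k) ∧ s1.a = s.a := by
    subst hs1
    simp only [run, B.step, ne_eq, Nat.reduceEqDiff, not_false_eq_true, Function.update_of_ne, Function.update_self, List.mem_cons, List.not_mem_nil, or_false, not_or, and_imp, and_true, true_and]
    intro k k1 k2 k3 k4 k5 k6 k7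
    simp [k1, k2, k3, k4, k5, k6, k7]
  obtain ⟨a67, a68, a69, a60, a61, a77, a65, areg, aarr⟩ := A1
  obtain ⟨D, hD⟩ : ∃ D : ℕ → ℕ → Prop, D = fun i v => v < i ∧ vs v ∧ m v = v := ⟨_, rfl⟩
  obtain ⟨s2, t2, e2, I2, c2, ht2⟩ := loop_rule (R := R) (cap := cap) (c := .lt 65 0)
    (p := srInitBody)
    (fun s' => (s'.r 67 = 1 ∧ s'.r 68 = 2 ∧ s'.r 69 = 3 ∧ s'.r 60 = 0 ∧ s'.r 77 = 0) ∧
      (∀ k, k ∉ searchRegs → s'.r k = s.r k) ∧ (∀ j, j ∉ srchArrs → s'.a j = s.a j) ∧
      s'.r 65 ≤ n ∧ (∀ v, s'.a 51 v = if D (s'.r 65) v then 1 else s.a 51 v) ∧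
      (∀ v, s'.a 55 v = if D (s'.r 65) v then 0 else s.a 55 v) ∧
      UFok n (D (s'.r 65)) (s'.a 56) (s'.a 57) id ∧ (∀ v, D (s'.r 65) v → s'.a 58 v = v) ∧
      Qu (D (s'.r 65)) (s'.a 59) (s'.r 61))
    (fun s' => 13 * (n - s'.r 65))
    (by
      rintro s' ⟨⟨g67, g68, g69, g60, g77⟩, hreg, harr, hle, h51, h55, hUF, h58, hQ⟩ hc
      simp only [Test.holds] at hc
      have g0 : s'.r 0 = n := by rw [hreg 0 (by decide)]; exact h0
      have g1 : s'.r 1 = 0 := by rw [hreg 1 (by decide)]; exact h1
      rw [g0] at hc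
      obtain ⟨v, hv⟩ : ∃ v, v = s'.r 65 := ⟨_, rfl⟩
      rw [← hv] at hc hle h51 h55 hUF h58 hQ
      have hnD : ¬ D v v := by rw [hD]; rintro ⟨h, _⟩; exact absurd h (lt_irrefl _)
      have f1 := Ex.blk (R := R) (cap := cap) [.load 51 66 65] s'
      obtain ⟨u1, hu1⟩ : ∃ u1, u1 = run [.load 51 66 65] s' := ⟨_, rfl⟩
      rw [← hu1] at f1
      have B1 : u1.r 66 = s.a 51 v ∧ (∀ k, k ∉ [66] → u1.r k = s'.r k) ∧ u1.a = s'.a := by
        subst hu1
        have := h51 v
        rw [if_neg hnD] at this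
        simp only [run, B.step, ← hv, this, Function.update_self, List.mem_cons, List.not_mem_nil, or_false, and_true, true_and]
        intro k k1; simp [k1]
      obtain ⟨b66, breg, barr⟩ := B1
      by_cases hroot : vs v ∧ m v = v
      · -- a root
        have hl0 : s.a 51 v = 0 := by
          rcases hlab v hc with h | h
          · exact h.2
          · exact absurd hroot.1 h.1
        have hm40 : s'.a 40 v = v := by
          rw [harr 40 (by decide), hmt v hc]; exact hroot.2
        have f2 := Ex.blk (R := R) (cap := cap) [.load 40 70 65] u1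
        have f3 := Ex.blk (R := R) (cap := cap) [.store 51 65 67, .store 55 65 1, .store 59 61 65,
          .inc 61, .store 56 65 65, .store 57 65 1, .store 58 65 65] (run [.load 40 70 65] u1)
        have f4 := Ex.blk (R := R) (cap := cap) [.inc 65] (run [.store 51 65 67, .store 55 65 1,
          .store 59 61 65, .inc 61, .store 56 65 65, .store 57 65 1, .store 58 65 65]
          (run [.load 40 70 65] u1))
        obtain ⟨u4, hu4⟩ : ∃ u4, u4 = run [.inc 65] (run [.store 51 65 67, .store 55 65 1,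
          .store 59 61 65, .inc 61, .store 56 65 65, .store 57 65 1, .store 58 65 65]
          (run [.load 40 70 65] u1)) := ⟨_, rfl⟩
        rw [← hu4] at f4
        have r65 : u1.r 65 = v := by rw [breg 65 (by decide)]; exact hv.symm
        have r61 : u1.r 61 = s'.r 61 := breg 61 (by decide)
        have r67 : u1.r 67 = 1 := by rw [breg 67 (by decide)]; exact g67
        have r1 : u1.r 1 = 0 := by rw [breg 1 (by decide)]; exact g1
        have B4 : u4.r 65 = v + 1 ∧ u4.r 61 = s'.r 61 + 1 ∧
            (∀ k, k ∉ [66, 70, 61, 65] → u4.r k = s'.r k) ∧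
            u4.a 51 = update (s'.a 51) v 1 ∧ u4.a 55 = update (s'.a 55) v 0 ∧
            u4.a 59 = update (s'.a 59) (s'.r 61) v ∧ u4.a 56 = update (s'.a 56) v v ∧
            u4.a 57 = update (s'.a 57) v 0 ∧ u4.a 58 = update (s'.a 58) v v ∧
            (∀ j, j ∉ srchArrs → u4.a j = s'.a j) := by
          subst hu4
          simp only [run, B.step]
          simp only [r65, barr, hm40, ne_eq, Nat.reduceEqDiff, not_false_eq_true, Function.update_of_ne, r61, Function.update_self, Nat.add_left_cancel_iff, List.mem_cons, List.not_mem_nil, or_false, not_or, and_imp, r67, OfNat.one_ne_ofNat, r1, Nat.succ_ne_self, true_and]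
          refine ⟨?_, ?_⟩
          · intro k k1 k2 k3 k4
            simp [k2, k3, k4]
            exact breg k (by simp [k1])
          · intro j hj
            simp only [srchArrs, List.mem_cons, List.not_mem_nil, or_false, not_or] at hj
            simp [Function.update_apply, hj]
        obtain ⟨q65, q61, qreg, q51, q55, q59, q56, q57, q58, qarr⟩ := B4
        have hDs : D (v + 1) = fun w => D v w ∨ w = v := by
          funext w
          rw [hD]
          apply propext
          constructor
          · rintro ⟨h1, h2, h3⟩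
            by_cases hwv : w = v
            · exact Or.inr hwv
            · exact Or.inl ⟨by (clear * - hv hroot hm40 r65 q65 h1 h3 hwv; omega), h2, h3⟩
          · rintro (⟨h1, h2, h3⟩ | h)
            · exact ⟨by (clear * - hv hroot hm40 r65 q65 h1 h3; omega), h2, h3⟩
            · subst h; exact ⟨by omega, hroot.1, hroot.2⟩
        refine ⟨u4, _, .seq f1 (.seq (.iteTrue ?_ (.seq f2 (.iteTrue ?_ f3))) f4),
          ⟨⟨?_, ?_, ?_, ?_, ?_⟩, ?_, ?_, ?_, ?_, ?_, ?_, ?_, ?_⟩, ?_⟩
        · simp only [Test.holds]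
          rw [b66, hl0, r1]
        · simp [Test.holds, run, B.step, r65, barr, hm40]
        · rw [qreg 67 (by decide)]; exact g67
        · rw [qreg 68 (by decide)]; exact g68
        · rw [qreg 69 (by decide)]; exact g69
        · rw [qreg 60 (by decide)]; exact g60
        · rw [qreg 77 (by decide)]; exact g77
        · intro k hk
          rw [qreg k (fun h => hk ((by decide : ∀ x ∈ [66, 70, 61, 65], x ∈ searchRegs) k h)),
            hreg k hk]
        · intro j hj
          rw [qarr j hj, harr j hj]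
        · rw [q65]; omega
        · intro w
          rw [q65, hDs, q51]
          by_cases hwv : w = v
          · subst hwv; simp
          · rw [Function.update_of_ne hwv, h51 w]; simp [hwv]
        · intro w
          rw [q65, hDs, q55]
          by_cases hwv : w = v
          · subst hwv; simp
          · rw [Function.update_of_ne hwv, h55 w]; simp [hwv]
        · rw [q65, hDs, q56, q57]
          have := hUF.add hnD hc
          have e : update (id : ℕ → ℕ) v v = id := by
            funext x
            by_cases hx : x = v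
            · subst hx; simp
            · simp [hx]
          rw [e] at this
          exact this
        · intro w hw
          rw [q65, hDs] at hw
          rw [q58]
          by_cases hwv : w = v
          · subst hwv; simp
          · rw [Function.update_of_ne hwv]
            rcases hw with hw | hw
            · exact h58 w hw
            · exact absurd hw hwv
        · rw [q65, hDs, q59, q61]
          exact hQ.push hnD
        · rw [q65]
          simp only [List.length_cons, List.length_nil]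
          (clear * - g0 hc hv hroot hm40 r65 q65; omega)
      · -- not a root
        have hDs : D (v + 1) = D v := by
          funext w
          rw [hD]
          apply propext
          constructor
          · rintro ⟨h1, h2, h3⟩
            by_cases hwv : w = v
            · subst hwv; exact absurd ⟨h2, h3⟩ hroot
            · exact ⟨by omega, h2, h3⟩
          · rintro ⟨h1, h2, h3⟩
            exact ⟨by omega, h2, h3⟩
        -- the middle part only changes register 70
        have hmid : ∃ u3 t3, Ex R cap (.ite (.eq 66 1)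
            (.seq (.blk [.load 40 70 65])
              (.ite (.eq 70 65)
                (.blk [.store 51 65 67, .store 55 65 1, .store 59 61 65, .inc 61, .store 56 65 65,
                  .store 57 65 1, .store 58 65 65])
                (.blk [])))
            (.blk [])) u1 t3 u3 ∧ t3 ≤ 4 ∧ u3.a = s'.a ∧ (∀ k, k ∉ [66, 70] → u3.r k = s'.r k) := by
          rcases hlab v hc with h | h
          · have hmne : m v ≠ v := fun e => hroot ⟨h.1, e⟩
            have hm40 : s'.a 40 v = m v := by
              rw [harr 40 (by decide)]; exact hmt v hc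
            refine ⟨_, _, .iteTrue ?_ (.seq (Ex.blk _ _) (.iteFalse ?_ (Ex.blk _ _))), ?_, ?_, ?_⟩
            · simp only [Test.holds]
              rw [b66, h.2, breg 1 (by decide), g1]
            · simp [Test.holds, run, B.step, breg 65 (by decide), ← hv, barr, hm40, hmne]
            · simp
            · simp [run, B.step, barr]
            · intro k hk
              simp only [List.mem_cons, List.not_mem_nil, or_false, not_or] at hk
              simp [run, B.step, hk, breg k (by simp [hk])]
          · refine ⟨_, _, .iteFalse ?_ (Ex.blk _ _), ?_, ?_, ?_⟩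
            · simp only [Test.holds]
              rw [b66, h.2, breg 1 (by decide), g1]; decide
            · simp
            · simp [run, B.step, barr]
            · intro k hk
              simp only [List.mem_cons, List.not_mem_nil, or_false, not_or] at hk
              simp [run, B.step, breg k (by simp [hk])]
        obtain ⟨u3, t3, f3, ht3, u3a, u3r⟩ := hmid
        have f4 := Ex.blk (R := R) (cap := cap) [.inc 65] u3
        obtain ⟨u4, hu4⟩ : ∃ u4, u4 = run [.inc 65] u3 := ⟨_, rfl⟩
        rw [← hu4] at f4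
        have B4 : u4.r 65 = v + 1 ∧ (∀ k, k ∉ [66, 70, 65] → u4.r k = s'.r k) ∧ u4.a = s'.a := by
          subst hu4
          have := u3r 65 (by decide)
          simp only [run, B.step, this, ← hv, u3a, Function.update_self, Nat.add_left_cancel_iff, List.mem_cons, List.not_mem_nil, or_false, not_or, and_imp, and_true, true_and]
          intro k k1 k2 k3
          simp [k3]
          exact u3r k (by simp [k1, k2])
        obtain ⟨q65, qreg, qarr⟩ := B4
        refine ⟨u4, _, .seq f1 (.seq f3 f4),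
          ⟨⟨?_, ?_, ?_, ?_, ?_⟩, ?_, ?_, ?_, ?_, ?_, ?_, ?_, ?_⟩, ?_⟩
        · rw [qreg 67 (by decide)]; exact g67
        · rw [qreg 68 (by decide)]; exact g68
        · rw [qreg 69 (by decide)]; exact g69
        · rw [qreg 60 (by decide)]; exact g60
        · rw [qreg 77 (by decide)]; exact g77
        · intro k hk
          rw [qreg k (fun h => hk ((by decide : ∀ x ∈ [66, 70, 65], x ∈ searchRegs) k h)), hreg k hk]
        · intro j hj
          rw [qarr, harr j hj]
        · rw [q65]; omega
        · intro w; rw [q65, hDs, qarr]; exact h51 w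
        · intro w; rw [q65, hDs, qarr]; exact h55 w
        · rw [q65, hDs, qarr]; exact hUF
        · rw [q65, hDs, qarr]; exact h58
        · rw [q65, hDs, qarr, qreg 61 (by decide)]; exact hQ
        · rw [q65]
          simp only [List.length_cons, List.length_nil]
          (clear * - g0 hc hv ht3 q65; omega))
    s1 (by
      have hno : ∀ v, ¬ D 0 v := by intro v; rw [hD]; rintro ⟨h, _⟩; omega
      refine ⟨⟨a67, a68, a69, a60, a77⟩, ?_, fun j _ => by rw [aarr], ?_, ?_, ?_, ?_, ?_, ?_⟩
      · intro k hk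
        exact areg k (fun h => hk ((by decide : ∀ x ∈ [67, 68, 69, 60, 61, 77, 65],
          x ∈ searchRegs) k h))
      · rw [a65]; omega
      · intro v; rw [a65, if_neg (hno v), aarr]
      · intro v; rw [a65, if_neg (hno v), aarr]
      · rw [a65]
        exact ⟨fun v hv => absurd hv (hno v), fun v hv => absurd hv (hno v),
          fun v hv => absurd hv (hno v), fun v hv => absurd hv (hno v),
          fun v hv => absurd hv (hno v), fun v hv => absurd hv (hno v),
          fun v hv => absurd hv (hno v)⟩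
      · intro v hv; rw [a65] at hv; exact absurd hv (hno v)
      · rw [a65, a61]
        exact ⟨by intro i hi; omega, by intro i hi; omega, fun v hv => absurd hv (hno v)⟩)
  obtain ⟨⟨g67, g68, g69, g60, g77⟩, hreg, harr, hle, h51, h55, hUF, h58, hQ⟩ := I2
  simp only [Test.holds] at c2
  have g0 : s2.r 0 = n := by rw [hreg 0 (by decide)]; exact h0
  rw [g0] at c2
  have h65 : s2.r 65 = n := by omega
  rw [h65] at h51 h55 hUF h58 hQ
  have hDn : ∀ v, D n v ↔ vs v ∧ m v = v := by
    intro v; rw [hD]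
    exact ⟨fun h => h.2, fun h => ⟨hvs v h.1, h⟩⟩
  obtain ⟨β, hβ⟩ : ∃ β : BS, β = ⟨fun v => if v < n then s2.a 51 v else 4, s2.a 52, s2.a 53,
    s2.a 54, id, s2.a 55⟩ := ⟨_, rfl⟩
  have hbid : ∀ v, β.base v = v := fun v => by rw [hβ]; rfl
  have hl1 : ∀ v, D n v → β.lab v = 1 := by
    intro v hv
    have hvn := hvs v ((hDn v).1 hv).1
    rw [hβ]; simp only; rw [if_pos hvn, h51 v, if_pos hv]
  have hl2 : ∀ v, ¬ D n v → vs v → β.lab v = 0 := by
    intro v hv hvv
    have hvn := hvs v hvv
    rw [hβ]; simp only; rw [if_pos hvn, h51 v, if_neg hv]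
    rcases hlab v hvn with h | h
    · exact h.2
    · exact absurd hvv h.1
  have hl3 : ∀ v, ¬ vs v → β.lab v = 4 := by
    intro v hv
    rw [hβ]; simp only
    by_cases hvn : v < n
    · rw [if_pos hvn, h51 v, if_neg (fun h => hv ((hDn v).1 h).1)]
      rcases hlab v hvn with h | h
      · exact absurd h.1 hv
      · exact h.2
    · rw [if_neg hvn]
  have hlc : ∀ v, (D n v ∧ β.lab v = 1) ∨ (¬ D n v ∧ vs v ∧ β.lab v = 0) ∨
      (¬ vs v ∧ β.lab v = 4) := by
    intro v
    by_cases h : D n v
    · exact Or.inl ⟨h, hl1 v h⟩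
    · by_cases h' : vs v
      · exact Or.inr (Or.inl ⟨h, h', hl2 v h h'⟩)
      · exact Or.inr (Or.inr ⟨h', hl3 v h'⟩)
  have hOut : β.Out = D n := by
    funext v
    apply propext
    unfold BS.Out
    rcases hlc v with ⟨h1, h2⟩ | ⟨h1, _, h2⟩ | ⟨h1, h2⟩
    · exact ⟨fun _ => h1, fun _ => Or.inl h2⟩
    · exact ⟨fun h => by omega, fun h => absurd h h1⟩
    · exact ⟨fun h => by omega, fun h => absurd ((hDn v).1 h).1 h1⟩
  have hn23 : ∀ v, ¬ (β.lab v = 2 ∨ β.lab v = 3) := by
    intro v
    rcases hlc v with ⟨_, h2⟩ | ⟨_, _, h2⟩ | ⟨_, h2⟩ <;> omega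
  refine ⟨s2, 7 + t2, β, s2.r 61, .seq e1 e2, ?_, ⟨?_, ⟨?_, ?_, ?_⟩, ?_, rfl, g67, g68, g69,
    fun v _ hv => hl3 v hv⟩, g60, g77, hreg, harr⟩
  · simp only [a65] at ht2
    omega
  · constructor
    · intro v hv
      rcases hlc v with ⟨_, h2⟩ | ⟨_, _, h2⟩ | ⟨h1, h2⟩
      · omega
      · omega
      · exact absurd hv h1
    · intro v hv
      rcases hlc v with ⟨h1, _⟩ | ⟨_, _, h2⟩ | ⟨h1, h2⟩
      · exact ((hDn v).1 h1).1
      · omega
      · omega
    · intro v hv hm
      exact ⟨hl1 v ((hDn v).2 ⟨hv, hm⟩), hbid v⟩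
    · intro v hv hm
      rcases hlc v with ⟨h1, _⟩ | ⟨_, _, h2⟩ | ⟨h1, h2⟩
      · exact absurd ((hDn v).1 h1).2 hm
      · omega
      · omega
    · intro v hv; exact absurd hv (hn23 v)
    · intro v hv; exact absurd hv (hn23 v)
    · intro v hv; exact absurd (Or.inr hv) (hn23 v)
    · intro v hv
      rw [hbid v]
      rw [hOut] at hv
      exact ⟨hl1 v hv, hbid v⟩
    · intro v hv; exact absurd (Or.inr hv) (hn23 v)
    · intro v hv; exact absurd (Or.inl hv) (hn23 v)
    · intro v hv; exact absurd (Or.inl hv) (hn23 v)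
    · intro v hv
      rcases hlc v with ⟨h1, _⟩ | ⟨_, _, h2⟩ | ⟨h1, h2⟩
      · have hd : β.dep v = 0 := by
          rw [hβ]; simp only; rw [h55 v, if_pos h1]
        exact ⟨fun _ => ((hDn v).1 h1).2, fun _ => hd⟩
      · omega
      · omega
    · intro v hv
      rw [hbid v]
      exact ⟨[], EL.nil _, ⟨List.nodup_nil, by simp⟩, by simp⟩
  · refine ⟨?_, ?_, ?_, ?_, ?_, ?_⟩
    · intro v hv; rw [harr 40 (by decide)]; exact hmt v hv
    · intro v hv; rw [hβ]; simp only; rw [if_pos hv]
    · intro v hv; rw [hβ]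
    · intro v hv; rw [hβ]
    · intro v hv; rw [hβ]
    · intro v hv; rw [hβ]
  · rw [hOut]
    refine ⟨hUF, ?_, ?_, ?_⟩
    · intro u v _ _; rw [hbid, hbid]; rfl
    · intro v hv; rw [hbid]; exact h58 v hv
    · intro v hv; rw [hbid, hbid]; exact ⟨hv, rfl⟩
  · rw [hOut]; exact hQ
  · rw [hreg 1 (by decide)]; exact h1

/-- The near-linear forest search. -/
theorem searchC_spec {n : ℕ} {vs : ℕ → Prop} {A A0 : ℕ → ℕ → Prop} {m : ℕ → ℕ}
    (hvs : ∀ v, vs v → v < n) (hG0 : Gr n A0) (hA : ∀ u v, A u v ↔ A0 u v ∧ vs u ∧ vs v)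
    (hM : Mat A m) (s : St) (hcsr : CSR n A0 (s.a 4) (s.a 5)) (h0 : s.r 0 = n) (h1 : s.r 1 = 0)
    (hlab : ∀ v < n, (vs v ∧ s.a 51 v = 0) ∨ (¬ vs v ∧ s.a 51 v = 4))
    (hmt : ∀ v < n, s.a 40 v = m v) :
    ∃ s' t, Ex R cap searchC s t s' ∧ (∀ k, k ∉ searchRegs → s'.r k = s.r k) ∧
      (∀ j, j ∉ srchArrs → s'.a j = s.a j) ∧
      t ≤ 200 * (Nat.log 2 n + 1) * (n + s.a 4 n + 1) ∧
      ∃ β ρ qt, Core n vs A m s' β ρ qt ∧
      ((s'.r 77 = 0 ∧ β.Final A) ∨ (s'.r 77 = 1 ∧ Found m A β s')) := by
  have hs : ∀ {u v}, A u v → A v u := by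
    intro u v h
    rw [hA] at h ⊢
    exact ⟨hG0.symm h.1, h.2.2, h.2.1⟩
  have hvA : ∀ {u v}, A u v → vs u := fun {u v} h => ((hA u v).1 h).2.1
  obtain ⟨s1, t1, β1, qt1, e1, ht1, hC1, r60, r77, hreg1, harr1⟩ :=
    srInit_spec (R := R) (cap := cap) (A := A) hvs s h0 h1 hlab hmt
  obtain ⟨s2, t2, e2, hreg2, harr2, ht2, β2, ρ2, qt2, hC2, hcase⟩ :=
    srVtxLoop_spec (R := R) (cap := cap) hvs hs hvA hG0 hA hM s1
      (by rw [harr1 4 (by decide), harr1 5 (by decide)]; exact hcsr) hC1 r60 r77
  refine ⟨s2, _, .seq e1 e2, ?_, ?_, ?_, β2, ρ2, qt2, hC2, hcase⟩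
  · intro k hk
    rw [hreg2 k (fun h => hk ((by decide : ∀ x ∈ srVtxRegs, x ∈ searchRegs) k h)), hreg1 k hk]
  · intro j hj
    rw [harr2 j hj, harr1 j hj]
  · rw [harr1 4 (by decide)] at ht2
    unfold W1 W2 at ht2
    generalize Nat.log 2 n = l at *
    generalize s.a 4 n = m2 at *
    nlinarith only [ht1, ht2]

end Vale.Agent.P305
end
end

section

section

/-! The batch step on the L1 machine: a maximum matching of the bipartite graph which covers all
inner vertices (Mendelsohn and Dulmage). -/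

set_option autoImplicit false
set_option linter.unusedSimpArgs false
set_option linter.unusedVariables false

namespace Vale.Agent.P305

open Function (update)
open L1

variable {R : List ℕ → (ℕ → ℕ) → ℕ → Prop} {cap : ℕ}

/-- Exchange: `cur` takes the partner of `c`. -/
def exch (g : ℕ → ℕ) (cur c : ℕ) (v : ℕ) : ℕ :=
  if v = cur then c else if v = c then cur else if v = g c then v else g v

theorem exch_isMax {N : ℕ} {H : ℕ → ℕ → Prop} {g : ℕ → ℕ} (hG : Gr N H) (hg : IsMax N H g)
    {cur c : ℕ} (hcur : g cur = cur) (hc : H cur c) : IsMax N H (exch g cur c) := by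
  classical
  have hne : cur ≠ c := fun e => hG.irr cur (by rw [← e] at hc; exact hc)
  have hxcur : g c ≠ cur := fun e => hne (by
    have := hg.1.inv c
    rw [e, hcur] at this
    exact this)
  have hM : Mat H (exch g cur c) := by
    constructor
    · intro v
      unfold exch
      by_cases h1 : v = cur
      · rw [if_pos h1, if_neg (Ne.symm hne), if_pos rfl, h1]
      · rw [if_neg h1]
        by_cases h2 : v = c
        · rw [if_pos h2, if_pos rfl, h2]
        · rw [if_neg h2]
          by_cases h3 : v = g c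
          · rw [if_pos h3, if_neg h1, if_neg h2, if_pos h3]
          · rw [if_neg h3]
            have n1 : g v ≠ cur := fun e => h1 (by rw [← hg.1.inv v, e, hcur])
            have n2 : g v ≠ c := fun e => h3 (by rw [← hg.1.inv v, e])
            have n3 : g v ≠ g c := fun e => h2 (by rw [← hg.1.inv v, e, hg.1.inv])
            rw [if_neg n1, if_neg n2, if_neg n3, hg.1.inv]
    · intro v
      unfold exch
      by_cases h1 : v = cur
      · rw [if_pos h1, h1]; intro _; exact hc
      · rw [if_neg h1]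
        by_cases h2 : v = c
        · rw [if_pos h2, h2]; intro _; exact hG.symm hc
        · rw [if_neg h2]
          by_cases h3 : v = g c
          · rw [if_pos h3]; intro h; exact absurd rfl h
          · rw [if_neg h3]; exact hg.1.adj v
  refine ⟨hM, fun m' hm' => le_trans ?_ (hg.2 m' hm')⟩
  have hcn : cur < N := hG.lt hc
  refine Finset.card_le_card_of_injOn (fun v => if v = g c then cur else v) ?_ ?_
  · intro v hv
    simp only [exposed, Finset.coe_filter, Finset.mem_range] at hv ⊢
    have hv1 : v < N := hv.1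
    have hv2 : exch g cur c v = v := hv.2
    have h1 : v ≠ cur := by
      rintro rfl
      unfold exch at hv2
      rw [if_pos rfl] at hv2
      exact hne hv2.symm
    have h2 : v ≠ c := by
      rintro rfl
      unfold exch at hv2
      rw [if_neg h1, if_pos rfl] at hv2
      exact h1 hv2.symm
    show (if v = g c then cur else v) < N ∧ g (if v = g c then cur else v) = _
    by_cases h3 : v = g c
    · rw [if_pos h3]; exact ⟨hcn, hcur⟩
    · rw [if_neg h3]
      unfold exch at hv2
      rw [if_neg h1, if_neg h2, if_neg h3] at hv2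
      exact ⟨hv1, hv2⟩
  · intro a ha b hb hab
    simp only [exposed, Finset.coe_filter, Finset.mem_range] at ha hb
    have ha2 : exch g cur c a = a := ha.2
    have hb2 : exch g cur c b = b := hb.2
    have h1 : ∀ v, exch g cur c v = v → v ≠ cur := by
      rintro v hv rfl
      unfold exch at hv
      rw [if_pos rfl] at hv
      exact hne hv.symm
    simp only at hab
    by_cases h3 : a = g c
    · by_cases h4 : b = g c
      · rw [h3, h4]
      · rw [if_pos h3, if_neg h4] at hab
        exact absurd hab.symm (h1 b hb2)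
    · by_cases h4 : b = g c
      · rw [if_neg h3, if_pos h4] at hab
        exact absurd hab (h1 a ha2)
      · rw [if_neg h3, if_neg h4] at hab
        exact hab

def mdTest : Cmd :=
  .seq (.blk [.load 47 35 34, .load 41 36 34, .const 38 0])
    (.ite (.eq 35 39) (.ite (.eq 36 34) (.blk [.const 38 1]) (.blk [])) (.blk []))

theorem mdTest_spec (s : St) {cur k x : ℕ} (h34 : s.r 34 = cur) (hk : s.a 47 cur = k)
    (hx : s.a 41 cur = x) (h39 : s.r 39 = 2) :
    ∃ s' t, Ex R cap mdTest s t s' ∧ t ≤ 6 ∧ s'.a = s.a ∧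
      (∀ i, i ∉ [35, 36, 38] → s'.r i = s.r i) ∧
      ((s'.r 38 = 1 ∧ k = 2 ∧ x = cur) ∨ (s'.r 38 = 0 ∧ ¬ (k = 2 ∧ x = cur))) := by
  have f1 := Ex.blk (R := R) (cap := cap) [.load 47 35 34, .load 41 36 34, .const 38 0] s
  obtain ⟨u1, hu1⟩ : ∃ u1, u1 = run [.load 47 35 34, .load 41 36 34, .const 38 0] s := ⟨_, rfl⟩
  rw [← hu1] at f1
  have B1 : u1.r 35 = k ∧ u1.r 36 = x ∧ u1.r 38 = 0 ∧
      (∀ i, i ∉ [35, 36, 38] → u1.r i = s.r i) ∧ u1.a = s.a := by
    subst hu1
    simp only [run_cons, B.step, h34, hk, ne_eq, Nat.reduceEqDiff, not_false_eq_true, Function.update_of_ne, hx, run_nil, Function.update_self, List.mem_cons, List.not_mem_nil, or_false, not_or, and_imp, and_true, true_and]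
    intro i k1 k2 k3; simp [k1, k2, k3]
  obtain ⟨b35, b36, b38, breg, barr⟩ := B1
  have g34 : u1.r 34 = cur := by rw [breg 34 (by decide)]; exact h34
  have g39 : u1.r 39 = 2 := by rw [breg 39 (by decide)]; exact h39
  by_cases hk2 : k = 2
  · by_cases hxc : x = cur
    · refine ⟨_, _, .seq f1 (.iteTrue ?_ (.iteTrue ?_ (Ex.blk _ _))), ?_, ?_, ?_, Or.inl ⟨?_, hk2, hxc⟩⟩
      · simp only [Test.holds, b35, g39]; exact hk2
      · simp only [Test.holds, b36, g34]; exact hxc
      · simp
      · simp [run_cons, run_nil, B.step, barr]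
      · intro i hi
        have := hi
        simp only [List.mem_cons, List.not_mem_nil, or_false, not_or] at hi
        simp [run_cons, run_nil, B.step, hi, breg i this]
      · simp [run_cons, run_nil, B.step]
    · refine ⟨_, _, .seq f1 (.iteTrue ?_ (.iteFalse ?_ (Ex.blk [] u1))), ?_, barr, breg,
        Or.inr ⟨b38, fun h => hxc h.2⟩⟩
      · simp only [Test.holds, b35, g39]; exact hk2
      · simp only [Test.holds, b36, g34]; exact hxc
      · simp
  · refine ⟨_, _, .seq f1 (.iteFalse ?_ (Ex.blk [] u1)), ?_, barr, breg,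
        Or.inr ⟨b38, fun h => hk2 h.1⟩⟩
    · simp only [Test.holds, b35, g39]; exact hk2
    · simp

def mdStep : Cmd :=
  .seq (.blk [.load 40 35 34])
  (.seq (.add 35 35 0)
  (.seq (.blk [.load 41 36 35, .store 41 35 34, .store 41 34 35])
  (.seq (.ite (.ne 36 35) (.blk [.store 41 36 36, .copy 34 36]) (.blk [])) mdTest)))

def mdBody : Cmd :=
  .seq (.blk [.copy 34 33])
  (.seq mdTest
  (.seq (.loop (.eq 38 37) mdStep) (.blk [.inc 33])))

def mdC : Cmd := .seq (.blk [.const 33 0, .const 37 1, .const 39 2]) (.loop (.lt 33 0) mdBody)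

def mdRegs : List ℕ := [33, 34, 35, 36, 37, 38, 39]

/-- Data for the exchange phase. -/
structure MDat (n : ℕ) (H : ℕ → ℕ → Prop) (kd m : ℕ → ℕ) : Prop where
  gr : Gr (2 * n) H
  mlt : ∀ a < n, kd a = 2 → m a < n
  edge : ∀ a < n, kd a = 2 → H a (n + m a)
  minj : ∀ a b, m a = m b → a = b
  bip : ∀ u v, H u v → n ≤ u → v < n

open Classical in
/-- The number of inner vertices not matched as in `m`. -/
noncomputable def unsat (n : ℕ) (kd m a41 : ℕ → ℕ) : ℕ :=
  ((Finset.range n).filter (fun a => kd a = 2 ∧ a41 a ≠ n + m a)).card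

theorem mdC_spec {n : ℕ} {H : ℕ → ℕ → Prop} {kd m g : ℕ → ℕ} (s : St) (hD : MDat n H kd m)
    (hg : IsMax (2 * n) H g) (h0 : s.r 0 = n) (h1 : s.r 1 = 0) (hcap : 2 * n ≤ cap)
    (h41 : ∀ v < 2 * n, s.a 41 v = g v) (h47 : ∀ v < n, s.a 47 v = kd v)
    (h40 : ∀ v < n, s.a 40 v = m v) :
    ∃ s' t g', Ex R cap mdC s t s' ∧ t ≤ 40 * n + 10 ∧ IsMax (2 * n) H g' ∧
      (∀ a < n, kd a = 2 → g' a ≠ a) ∧ (∀ v < 2 * n, s'.a 41 v = g' v) ∧
      (∀ k, k ∉ mdRegs → s'.r k = s.r k) ∧ (∀ j, j ≠ 41 → s'.a j = s.a j) := by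
  classical
  have e1 := Ex.blk (R := R) (cap := cap) [.const 33 0, .const 37 1, .const 39 2] s
  obtain ⟨s1, hs1⟩ : ∃ s1, s1 = run [.const 33 0, .const 37 1, .const 39 2] s := ⟨_, rfl⟩
  rw [← hs1] at e1
  have A1 : s1.r 33 = 0 ∧ s1.r 37 = 1 ∧ s1.r 39 = 2 ∧ (∀ k, k ∉ [33, 37, 39] → s1.r k = s.r k) ∧
      s1.a = s.a := by
    subst hs1
    simp only [run_cons, B.step, run_nil, ne_eq, Nat.reduceEqDiff, not_false_eq_true, Function.update_of_ne, Function.update_self, List.mem_cons, List.not_mem_nil, or_false, not_or, and_imp, and_true, true_and]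
    intro k k1 k2 k3; simp [k1, k2, k3]
  obtain ⟨a33, a37, a39, areg, aarr⟩ := A1
  obtain ⟨s2, t2, e2, ⟨hreg, harr, h37, h39, hle, g', hg', h41', hcov⟩, hc, ht2⟩ :=
    loop_rule (R := R) (cap := cap) (c := .lt 33 0) (p := mdBody)
    (fun s' => (∀ k, k ∉ mdRegs → s'.r k = s.r k) ∧ (∀ j, j ≠ 41 → s'.a j = s.a j) ∧
      s'.r 37 = 1 ∧ s'.r 39 = 2 ∧ s'.r 33 ≤ n ∧ ∃ g', IsMax (2 * n) H g' ∧
        (∀ v < 2 * n, s'.a 41 v = g' v) ∧ (∀ a < s'.r 33, kd a = 2 → g' a ≠ a))
    (fun s' => 20 * unsat n kd m (s'.a 41) + 12 * (n - s'.r 33))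
    (by
      rintro s' ⟨hreg, harr, h37, h39, hle, g', hg', h41', hcov⟩ hc
      simp only [Test.holds] at hc
      have g0 : s'.r 0 = n := by rw [hreg 0 (by decide)]; exact h0
      rw [g0] at hc
      obtain ⟨a, ha⟩ : ∃ a, a = s'.r 33 := ⟨_, rfl⟩
      rw [← ha] at hc hle hcov
      have g47 : ∀ v < n, s'.a 47 v = kd v := fun v hv => by rw [harr 47 (by decide)]; exact h47 v hv
      have g40 : ∀ v < n, s'.a 40 v = m v := fun v hv => by rw [harr 40 (by decide)]; exact h40 v hv
      have f1 := Ex.blk (R := R) (cap := cap) [.copy 34 33] s'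
      obtain ⟨u1, hu1⟩ : ∃ u1, u1 = run [.copy 34 33] s' := ⟨_, rfl⟩
      rw [← hu1] at f1
      have B1 : u1.r 34 = a ∧ (∀ i, i ∉ [34] → u1.r i = s'.r i) ∧ u1.a = s'.a := by
        subst hu1
        simp only [run_cons, B.step, ← ha, run_nil, Function.update_self, List.mem_cons, List.not_mem_nil, or_false, and_true, true_and]
        intro i k1; simp [k1]
      obtain ⟨b34, breg, barr⟩ := B1
      obtain ⟨u2, t2, f2, ht2, c2a, creg, cflag⟩ := mdTest_spec (R := R) (cap := cap)
        (k := kd a) (x := g' a) u1 b34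
        (by rw [barr]; exact g47 a hc) (by rw [barr]; exact h41' a (by omega))
        (by rw [breg 39 (by decide)]; exact h39)
      -- the inner loop
      obtain ⟨u3, t3, f3, ⟨dreg, darr, d37, d39, G, cur, hcurn, hd34, hG, hdG, hGcov, dflag⟩, hdc,
        ht3⟩ := loop_rule (R := R) (cap := cap) (c := .eq 38 37) (p := mdStep)
        (fun u => (∀ i, i ∉ [34, 35, 36, 38] → u.r i = s'.r i) ∧ (∀ j, j ≠ 41 → u.a j = s'.a j) ∧
          u.r 37 = 1 ∧ u.r 39 = 2 ∧ ∃ G cur, cur < n ∧ u.r 34 = cur ∧ IsMax (2 * n) H G ∧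
            (∀ v < 2 * n, u.a 41 v = G v) ∧
            (∀ a' < a + 1, kd a' = 2 → G a' ≠ a' ∨ a' = cur) ∧
            ((u.r 38 = 1 ∧ kd cur = 2 ∧ G cur = cur) ∨
              (u.r 38 = 0 ∧ ¬ (kd cur = 2 ∧ G cur = cur))))
        (fun u => 20 * unsat n kd m (u.a 41))
        (by
          rintro u ⟨ureg, uarr, u37, u39, G, cur, hcurn, u34, hG, huG, hGcov, uflag⟩ huc
          simp only [Test.holds] at huc
          rw [u37] at huc
          rcases uflag with ⟨_, hk2, hGc⟩ | ⟨u38, _⟩
          swap
          · omega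
          have u40 : u.a 40 cur = m cur := by rw [uarr 40 (by decide)]; exact g40 cur hcurn
          have hmc := hD.mlt cur hcurn hk2
          have hedge := hD.edge cur hcurn hk2
          have r0 : u.r 0 = n := by rw [ureg 0 (by decide)]; exact g0
          obtain ⟨c, hcdef⟩ : ∃ c, c = n + m cur := ⟨_, rfl⟩
          rw [← hcdef] at hedge
          have hcn : c < 2 * n := by omega
          have hcc : cur ≠ c := by omega
          obtain ⟨x, hx⟩ : ∃ x, x = G c := ⟨_, rfl⟩
          have q1 := Ex.blk (R := R) (cap := cap) [.load 40 35 34] u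
          obtain ⟨v1, hv1⟩ : ∃ v1, v1 = run [.load 40 35 34] u := ⟨_, rfl⟩
          rw [← hv1] at q1
          have C1 : v1.r 35 = m cur ∧ (∀ i, i ∉ [35] → v1.r i = u.r i) ∧ v1.a = u.a := by
            subst hv1
            simp only [run_cons, B.step, u34, u40, run_nil, Function.update_self, List.mem_cons, List.not_mem_nil, or_false, and_true, true_and]
            intro i k1; simp [k1]
          obtain ⟨v35, v1r, v1a⟩ := C1
          have q2 : Ex R cap (.add 35 35 0) v1 1 ⟨update v1.r 35 (v1.r 35 + v1.r 0), v1.a⟩ :=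
            Ex.add 35 35 0 v1 (by rw [v35, v1r 0 (by decide), r0]; omega)
          have q3 := Ex.blk (R := R) (cap := cap)
            [.load 41 36 35, .store 41 35 34, .store 41 34 35]
            ⟨update v1.r 35 (v1.r 35 + v1.r 0), v1.a⟩
          obtain ⟨v3, hv3⟩ : ∃ v3, v3 = run [.load 41 36 35, .store 41 35 34, .store 41 34 35]
            ⟨update v1.r 35 (v1.r 35 + v1.r 0), v1.a⟩ := ⟨_, rfl⟩
          rw [← hv3] at q3
          have C3 : v3.r 35 = c ∧ v3.r 36 = x ∧ v3.r 34 = cur ∧
              (∀ i, i ∉ [35, 36] → v3.r i = u.r i) ∧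
              v3.a 41 = update (update (u.a 41) c cur) cur c ∧
              (∀ j, j ≠ 41 → v3.a j = u.a j) := by
            subst hv3
            have e0 := v1r 0 (by decide)
            have e34 := v1r 34 (by decide)
            have ec : m cur + n = c := by omega
            simp only [v35, e0, r0, ec, v1a, run_cons, B.step, Function.update_self, huG c hcn, ← hx, ne_eq, Nat.reduceEqDiff, not_false_eq_true, Function.update_of_ne, e34, u34, Function.update_idem, run_nil, List.mem_cons, List.not_mem_nil, or_false, not_or, and_imp, true_and]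
            refine ⟨?_, ?_⟩
            · intro i k1 k2; simp [k1, k2]; exact v1r i (by simp [k1])
            · intro j hj; simp [hj]
          obtain ⟨w35, w36, w34, wreg, w41, warr⟩ := C3
          -- the conditional
          have hite : ∃ v4 t4 cur', Ex R cap (.ite (.ne 36 35)
              (.blk [.store 41 36 36, .copy 34 36]) (.blk [])) v3 t4 v4 ∧ t4 ≤ 3 ∧
              v4.r 34 = cur' ∧ cur' < n ∧ (∀ i, i ∉ [34, 35, 36] → v4.r i = u.r i) ∧
              (∀ v < 2 * n, v4.a 41 v = exch G cur c v) ∧ (∀ j, j ≠ 41 → v4.a j = u.a j) ∧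
              (cur' = cur ∨ (cur' = x ∧ x ≠ c)) ∧ (x ≠ c → cur' = x) := by
            by_cases hxc : x = c
            · refine ⟨_, _, cur, .iteFalse ?_ (Ex.blk [] v3), by simp, ?_, hcurn, ?_, ?_, ?_,
                Or.inl rfl, fun h => absurd hxc h⟩
              · simp only [Test.holds, w36, w35]; simp [hxc]
              · simpa [run_nil] using w34
              · intro i hi
                simp only [run_nil]
                exact wreg i (fun h => hi ((by decide : ∀ x ∈ [35, 36], x ∈ [34, 35, 36]) i h))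
              · intro v hv
                simp only [run_nil]
                rw [w41]
                unfold exch
                simp only [Function.update_apply]
                by_cases h1 : v = cur
                · rw [if_pos h1, if_pos h1]
                · rw [if_neg h1, if_neg h1]
                  by_cases h2 : v = c
                  · rw [if_pos h2, if_pos h2]
                  · rw [if_neg h2, if_neg h2, if_neg (by rw [← hx, hxc]; exact h2)]
                    exact huG v hv
              · intro j hj; simp only [run_nil]; exact warr j hj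
            · have hGcc : G c ≠ c := by rw [← hx]; exact hxc
              have hxn : x < n := by
                rw [hx]; exact hD.bip c (G c) (hG.1.adj c hGcc) (by (clear * - g0 u40 r0 hcdef v35; omega))
              refine ⟨_, _, x, .iteTrue ?_ (Ex.blk _ _), by simp, ?_, hxn, ?_, ?_, ?_,
                Or.inr ⟨rfl, hxc⟩, fun _ => rfl⟩
              · simp only [Test.holds, w36, w35]; exact hxc
              · simp [run_cons, run_nil, B.step, w36]
              · intro i hi
                simp only [List.mem_cons, List.not_mem_nil, or_false, not_or] at hi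
                simp [run_cons, run_nil, B.step, hi, wreg i (by simp [hi])]
              · intro v hv
                simp only [run_cons, run_nil, B.step]
                simp only [Function.update_apply, if_true, w36, w41]
                unfold exch
                rw [← hx]
                by_cases h3 : v = x
                · have n1 : v ≠ cur := by
                    intro e
                    have : G x = c := by rw [hx, hG.1.inv]
                    rw [← h3, e, hGc] at this
                    exact hcc this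
                  have n2 : v ≠ c := by rw [h3]; exact hxc
                  rw [if_pos h3, if_neg n1, if_neg n2, if_pos h3, h3]
                · rw [if_neg h3]
                  by_cases h1 : v = cur
                  · rw [if_pos h1, if_pos h1]
                  · rw [if_neg h1, if_neg h1]
                    by_cases h2 : v = c
                    · rw [if_pos h2, if_pos h2]
                    · rw [if_neg h2, if_neg h2, if_neg h3]
                      exact huG v hv
              · intro j hj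
                simp [run_cons, run_nil, B.step, hj, warr j hj]
          obtain ⟨v4, t4, cur', q4, ht4, z34, hcur'n, zreg, z41, zarr, hcc1, hcc2⟩ := hite
          obtain ⟨v5, t5, q5, ht5, y5a, yreg, yflag⟩ := mdTest_spec (R := R) (cap := cap)
            (k := kd cur') (x := exch G cur c cur') v4 z34
            (by rw [zarr 47 (by decide), uarr 47 (by decide)]; exact g47 cur' hcur'n)
            (z41 cur' (by omega)) (by rw [zreg 39 (by decide)]; exact u39)
          have hGm := exch_isMax hD.gr hG hGc hedge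
          refine ⟨v5, _, .seq q1 (.seq q2 (.seq q3 (.seq q4 q5))), ⟨?_, ?_, ?_, ?_,
            exch G cur c, cur', hcur'n, ?_, hGm, ?_, ?_, yflag⟩, ?_⟩
          · intro i hi
            rw [yreg i (fun h => hi ((by decide : ∀ x ∈ [35, 36, 38], x ∈ [34, 35, 36, 38]) i h)),
              zreg i (fun h => hi ((by decide : ∀ x ∈ [34, 35, 36], x ∈ [34, 35, 36, 38]) i h)),
              ureg i hi]
          · intro j hj; rw [y5a, zarr j hj, uarr j hj]
          · rw [yreg 37 (by decide), zreg 37 (by decide)]; exact u37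
          · rw [yreg 39 (by decide), zreg 39 (by decide)]; exact u39
          · rw [yreg 34 (by decide)]; exact z34
          · rw [y5a]; exact z41
          · intro a' ha' hk'
            by_cases h1 : a' = cur
            · left
              unfold exch
              rw [if_pos h1, h1]; exact Ne.symm hcc
            · have h2 : a' ≠ c := by omega
              by_cases h3 : a' = G c
              · right
                rw [← hx] at h3
                have : x ≠ c := fun e => h2 (h3.trans e)
                rw [hcc2 this, h3]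
              · left
                unfold exch
                rw [if_neg h1, if_neg h2, if_neg h3]
                rcases hGcov a' ha' hk' with h4 | h4
                · exact h4
                · exact absurd h4 h1
          · -- potential
            have hlt : unsat n kd m (v5.a 41) < unsat n kd m (u.a 41) := by
              unfold unsat
              apply Finset.card_lt_card
              rw [Finset.ssubset_iff_of_subset]
              · refine ⟨cur, ?_, ?_⟩
                · simp only [Finset.mem_filter, Finset.mem_range]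
                  refine ⟨hcurn, hk2, ?_⟩
                  rw [huG cur (by omega), hGc]; (clear * - g0 hcurn u34 hGc u40 r0 hcdef v35 w35 w34; omega)
                · simp only [Finset.mem_filter, Finset.mem_range, not_and, not_not]
                  intro _ _
                  rw [y5a, z41 cur (by omega)]
                  unfold exch
                  rw [if_pos rfl, hcdef]
              · intro w hw
                simp only [Finset.mem_filter, Finset.mem_range] at hw ⊢
                obtain ⟨w1, w2, w3⟩ := hw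
                refine ⟨w1, w2, ?_⟩
                rw [y5a, z41 w (by omega)] at w3
                rw [huG w (by omega)]
                unfold exch at w3
                by_cases h1 : w = cur
                · rw [if_pos h1, h1] at w3; exact absurd hcdef w3
                · have h2 : w ≠ c := by omega
                  rw [if_neg h1, if_neg h2] at w3
                  by_cases h3 : w = G c
                  · have : G w = c := by rw [h3, hG.1.inv]
                    rw [this, hcdef]
                    intro e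
                    have : m cur = m w := by (clear * - g0 r0 hcdef v35 e; omega)
                    exact h1 (hD.minj _ _ this).symm
                  · rw [if_neg h3] at w3; exact w3
            simp only [List.length_cons, List.length_nil]
            (clear * - ht4 ht5 hlt; omega))
        u2 (by
          refine ⟨?_, ?_, ?_, ?_, g', a, hc, ?_, hg', ?_, ?_, cflag⟩
          · intro i hi
            rw [creg i (fun h => hi ((by decide : ∀ x ∈ [35, 36, 38], x ∈ [34, 35, 36, 38]) i h)),
              breg i (fun h => hi ((by decide : ∀ x ∈ [34], x ∈ [34, 35, 36, 38]) i h))]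
          · intro j _; rw [c2a, barr]
          · rw [creg 37 (by decide), breg 37 (by decide)]; exact h37
          · rw [creg 39 (by decide), breg 39 (by decide)]; exact h39
          · rw [creg 34 (by decide)]; exact b34
          · rw [c2a, barr]; exact h41'
          · intro a' ha' hk'
            by_cases h : a' = a
            · exact Or.inr h
            · exact Or.inl (hcov a' (by (clear * - ha b34 ha' h; omega)) hk'))
      simp only [Test.holds] at hdc
      rw [d37] at hdc
      have f4 := Ex.blk (R := R) (cap := cap) [.inc 33] u3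
      refine ⟨_, _, .seq f1 (.seq f2 (.seq f3 f4)), ⟨?_, ?_, ?_, ?_, ?_, G, hG, ?_, ?_⟩, ?_⟩
      · intro k hk
        have h33 : k ≠ 33 := by rintro rfl; exact hk (by decide)
        simp [run_cons, run_nil, B.step, h33]
        rw [dreg k (fun h => hk ((by decide : ∀ x ∈ [34, 35, 36, 38], x ∈ mdRegs) k h)), hreg k hk]
      · intro j hj
        simp [run_cons, run_nil, B.step, darr j hj, harr j hj]
      · simp [run_cons, run_nil, B.step, d37]
      · simp [run_cons, run_nil, B.step, d39]
      · simp [run_cons, run_nil, B.step, dreg 33 (by decide), ← ha]; omega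
      · intro v hv
        simp [run_cons, run_nil, B.step, hdG v hv]
      · intro a' ha' hk'
        simp [run_cons, run_nil, B.step, dreg 33 (by decide), ← ha] at ha'
        rcases dflag with ⟨h38, _⟩ | ⟨_, hno⟩
        · exact absurd h38 hdc
        · rcases hGcov a' (by omega) hk' with h | h
          · exact h
          · intro e
            exact hno ⟨by rw [← h]; exact hk', by rw [← h]; exact e⟩
      · simp only [run_cons, run_nil, B.step, List.length_cons, List.length_nil]
        rw [c2a, barr] at ht3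
        simp only [zero_add, dreg 33 (by decide), ← ha, Function.update_self]
        omega)
    s1 (by
      refine ⟨?_, fun j _ => by rw [aarr], a37, a39, by omega, g, hg, ?_, ?_⟩
      · intro k hk
        exact areg k (fun h => hk ((by decide : ∀ x ∈ [33, 37, 39], x ∈ mdRegs) k h))
      · rw [aarr]; exact h41
      · intro a ha; omega)
  simp only [Test.holds] at hc
  rw [hreg 0 (by decide), h0] at hc
  refine ⟨s2, _, g', .seq e1 e2, ?_, hg', ?_, h41', hreg, harr⟩
  · have hu : unsat n kd m (s1.a 41) ≤ n := by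
      unfold unsat
      refine (Finset.card_filter_le _ _).trans ?_
      simp
    simp only [List.length_cons, List.length_nil]
    omega
  · intro a ha; exact hcov a (by omega)

end Vale.Agent.P305
end
end

section

section

/-! Augmentation along the two label paths found by the search. Theory. -/

set_option autoImplicit false
set_option linter.unusedSimpArgs false
set_option linter.unusedVariables false

namespace Vale.Agent.P305

open Function (update)

theorem exists_wrn (f0 : ℕ → ℕ) (E : List (ℕ × ℕ)) : (ends E).Nodup → ∃ f, Wrn f0 f E := by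
  induction E using List.reverseRecOn with
  | nil => intro _; exact ⟨f0, fun e he => by simp at he, fun _ _ => rfl⟩
  | append_singleton E e ih =>
    intro hnd
    have h := hnd
    rw [ends_append, List.nodup_append] at h
    obtain ⟨f, hf⟩ := ih h.1
    exact ⟨_, hf.add (a := e.1) (b := e.2) hnd⟩

theorem Inv.side {vs : ℕ → Prop} {A : ℕ → ℕ → Prop} {m : ℕ → ℕ} {β : BS}
    (hM : Mat A m) (hI : Inv vs A m β) {u x : ℕ} {pu : List ℕ} (hu : β.Out u)
    (hcu : Ch m β (β.base u) pu x) (hnd : pu.Nodup) (hx : x ∉ pu) (hdx : β.dep x = 0) :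
    ∃ L E, EL m β u x L ∧ EQ m β u x E ∧ E.length = L.length ∧ (∀ f, Wr f E → Flp m f L x) ∧
      (u :: ends E).Perm (L.map m ++ (L ++ [x])) ∧ (L.map m ++ (L ++ [x])).Nodup ∧ m x = x ∧
      β.lab x = 1 ∧
      (∀ w ∈ L.map m ++ (L ++ [x]), (β.Out w ∧ (β.base w ∈ pu ∨ β.base w = x)) ∨
        (β.lab w = 2 ∧ m w ∈ pu)) := by
  have hub := hI.blab u hu
  obtain ⟨fu, hx1, hxb, _⟩ := hI.chain_facts hM hcu hub.1 hub.2
  have hmx : m x = x := (hI.dep0 x hx1).1 hdx
  obtain ⟨L, hL, ⟨hnL, hND⟩, hcl⟩ := hI.chain_path hM hcu hxb u hu rfl hnd hx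
  have hxL : x ∉ L := fun h => (hcl x h).2.2 rfl
  obtain ⟨E, hE, hw, hlen, hp⟩ := hL.edgesQ hM.inv hnL hND hxL
  have minj : Function.Injective m := fun a b h => by rw [← hM.inv a, h, hM.inv]
  have hhead : L ++ [x] = u :: (L ++ [x]).tail := by
    have := hL.headD
    cases L with
    | nil => simp at this ⊢; exact this
    | cons a L' => simp at this ⊢; exact this
  have hxmL : x ∉ L.map m := by
    intro h
    obtain ⟨a, ha, e⟩ := List.mem_map.1 h
    have : a = x := by rw [← hM.inv a, e, hmx]
    exact hxL (this ▸ ha)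
  refine ⟨L, E, hL, hE, hlen, hw, ?_, ?_, hmx, hx1, ?_⟩
  · have h1 := hp.cons u
    have h2 : (u :: (L.map m ++ (L ++ [x]).tail)).Perm (L.map m ++ (u :: (L ++ [x]).tail)) :=
      List.perm_middle.symm
    rw [← hhead] at h2
    exact h1.trans h2
  · rw [List.nodup_append]
    refine ⟨hnL.map minj, ?_, ?_⟩
    · rw [List.nodup_append]
      exact ⟨hnL, by simp, fun a ha b hb e => hxL (by
        have : b = x := by simpa using hb
        rw [← this, ← e]; exact ha)⟩
    · intro a ha b hb e
      subst e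
      obtain ⟨c, hc, e⟩ := List.mem_map.1 ha
      rcases List.mem_append.1 hb with h | h
      · exact hND c hc (e.symm ▸ h)
      · have : a = x := by simpa using h
        exact hxmL (this ▸ ha)
  · intro w hw'
    rcases List.mem_append.1 hw' with h | h
    · obtain ⟨c, hc, e⟩ := List.mem_map.1 h
      have hcc := hcl c hc
      by_cases hcb : c = β.base c
      · -- a base of the chain
        have hcp : c ∈ pu := by
          rcases hcc.2.1 with h' | h'
          · rw [← hcb] at h'; exact h'
          · rw [← hcb] at h'; exact absurd h' hcc.2.2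
        right
        rw [← e]
        exact ⟨(fu c hcp).2.2.1, by rw [hM.inv]; exact hcp⟩
      · left
        have := hI.mate_blossom hM hcc.1 hcb
        rw [e] at this
        exact ⟨this.2.1, by rw [this.2.2.1]; exact hcc.2.1⟩
    · rcases List.mem_append.1 h with h | h
      · left
        exact ⟨(hcl w h).1, (hcl w h).2.1⟩
      · have : w = x := by simpa using h
        left
        rw [this]
        exact ⟨Or.inl hx1, Or.inr hxb⟩

theorem Inv.aug {n : ℕ} {vs : ℕ → Prop} {A : ℕ → ℕ → Prop} {m : ℕ → ℕ} {β : BS}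
    (hvs : ∀ v, vs v → v < n) (hG : Gr n A) (hM : Mat A m) (hI : Inv vs A m β)
    {u v x y : ℕ} {pu pv : List ℕ} (hL : LcaI m β (β.base u) (β.base v) x y pu pv)
    (hne : x ≠ y) (hdx : β.dep x = 0) (hdy : β.dep y = 0) (hu : β.Out u) (hv : β.Out v)
    (huv : A u v) :
    ∃ Eu Ev, EQ m β u x Eu ∧ EQ m β v y Ev ∧ (ends ((u, v) :: (Eu ++ Ev))).Nodup ∧
      Eu.length + Ev.length ≤ n ∧
      ∀ f, Wrn m f ((u, v) :: (Eu ++ Ev)) → Mat A f ∧
        (exposed n f).card + 2 = (exposed n m).card := by
  have hndu : pu.Nodup := (List.nodup_append.1 hL.nd).1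
  have hndv : pv.Nodup := (List.nodup_append.1 hL.nd).2.1
  have hxu : x ∉ pu := fun h => absurd (hL.hu x h).1 (lt_irrefl _)
  have hyv : y ∉ pv := fun h => absurd (hL.hv y h).1 (lt_irrefl _)
  have hxv : x ∉ pv := fun h => absurd (hL.hv x h).2 (lt_irrefl _)
  have hyu : y ∉ pu := fun h => (hL.hu y h).2.2 rfl
  have hdisj : ∀ a ∈ pu, a ∉ pv := fun a ha hb =>
    (List.nodup_append.1 hL.nd).2.2 a ha a hb rfl
  obtain ⟨Lu, Eu, hLu, hEu, hlu, hwu, hpu, hnu, hmx, hx1, hcu⟩ :=
    hI.side hM hu hL.cu hndu hxu hdx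
  obtain ⟨Lv, Ev, hLv, hEv, hlv, hwv, hpv, hnv, hmy, hy1, hcv⟩ :=
    hI.side hM hv hL.cv hndv hyv hdy
  have minj : ∀ a b, m a = m b → a = b := fun a b h => by rw [← hM.inv a, h, hM.inv]
  have hcross : ∀ w ∈ Lu.map m ++ (Lu ++ [x]), w ∉ Lv.map m ++ (Lv ++ [y]) := by
    intro w h1 h2
    rcases hcu w h1 with ⟨a1, a2⟩ | ⟨a1, a2⟩
    · rcases hcv w h2 with ⟨b1, b2⟩ | ⟨b1, b2⟩
      · rcases a2 with a2 | a2
        · rcases b2 with b2 | b2
          · exact hdisj _ a2 b2
          · exact hyu (b2 ▸ a2)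
        · rcases b2 with b2 | b2
          · exact hxv (a2 ▸ b2)
          · exact hne (a2.symm.trans b2)
      · rcases a1 with a1 | a1 <;> omega
    · rcases hcv w h2 with ⟨b1, b2⟩ | ⟨b1, b2⟩
      · rcases b1 with b1 | b1 <;> omega
      · exact hdisj _ a2 b2
  have hperm : (ends ((u, v) :: (Eu ++ Ev))).Perm
      ((Lu.map m ++ (Lu ++ [x])) ++ (Lv.map m ++ (Lv ++ [y]))) := by
    rw [ends_cons, ends_append]
    have h1 : (u :: v :: (ends Eu ++ ends Ev)).Perm ((u :: ends Eu) ++ (v :: ends Ev)) := by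
      rw [List.cons_append]
      exact (List.perm_middle.symm).cons u
    exact h1.trans (hpu.append hpv)
  have hnd : (ends ((u, v) :: (Eu ++ Ev))).Nodup := by
    rw [hperm.nodup_iff, List.nodup_append]
    exact ⟨hnu, hnv, fun a ha b hb e => hcross a ha (e ▸ hb)⟩
  have hltn : ∀ w ∈ ends ((u, v) :: (Eu ++ Ev)), w < n := by
    intro w hw
    rw [hperm.mem_iff, List.mem_append] at hw
    rcases hw with hw | hw
    · rcases hcu w hw with ⟨a1, _⟩ | ⟨a1, _⟩
      · exact hvs w (hI.vsl w (by rcases a1 with h | h <;> omega))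
      · exact hvs w (hI.vsl w (by omega))
    · rcases hcv w hw with ⟨a1, _⟩ | ⟨a1, _⟩
      · exact hvs w (hI.vsl w (by rcases a1 with h | h <;> omega))
      · exact hvs w (hI.vsl w (by omega))
  have hxn : x < n := hvs x (hI.vsl x (Or.inl hx1))
  have hyn : y < n := hvs y (hI.vsl y (Or.inl hy1))
  refine ⟨Eu, Ev, hEu, hEv, hnd, ?_, ?_⟩
  · have h1 : (ends ((u, v) :: (Eu ++ Ev))).toFinset ⊆ Finset.range n := by
      intro w hw
      rw [List.mem_toFinset] at hw
      exact Finset.mem_range.2 (hltn w hw)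
    have h2 := Finset.card_le_card h1
    rw [List.toFinset_card_of_nodup hnd, Finset.card_range] at h2
    have h3 : ∀ E : List (ℕ × ℕ), (ends E).length = 2 * E.length := by
      intro E
      induction E with
      | nil => rfl
      | cons e E ih =>
        obtain ⟨a, b⟩ := e
        rw [ends_cons]
        simp only [List.length_cons, ih]
        omega
    rw [h3] at h2
    simp only [List.length_cons, List.length_append] at h2
    omega
  · intro f hf
    have hs : ∀ {u v}, A u v → A v u := fun h => hG.symm h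
    have hfuv := hf.wr (u, v) List.mem_cons_self
    have hWu : Wr f Eu := fun e he => hf.wr e (List.mem_cons_of_mem _ (List.mem_append_left _ he))
    have hWv : Wr f Ev := fun e he => hf.wr e (List.mem_cons_of_mem _ (List.mem_append_right _ he))
    refine augment_ok hG hM (hLu.toAP hs hM hI) (hLv.toAP hs hM hI) huv hmx hmy hne hxn hyn
      (hwu f hWu) (hwv f hWv) hfuv.1 hfuv.2 ?_
    intro w h1 h2 h3 h4 h5 h6
    refine hf.out w ?_
    rw [hperm.mem_iff]
    simp only [List.mem_append, List.mem_singleton]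
    (clear * - hfuv h2 h1 h3 h5 h4 h6; tauto)

theorem Found.not_max {n : ℕ} {vs : ℕ → Prop} {A : ℕ → ℕ → Prop} {m : ℕ → ℕ} {β : BS}
    (hvs : ∀ v, vs v → v < n) (hG : Gr n A) (hmax : IsMax n A m) (hI : Inv vs A m β) {s : L1.St}
    (h : Found m A β s) : False := by
  obtain ⟨u, v, x, y, pu, pv, hL, hne, hdx, hdy, hu, hv, huv, _⟩ := h
  obtain ⟨Eu, Ev, _, _, hnd, _, hf⟩ := hI.aug hvs hG hmax.1 hL hne hdx hdy hu hv huv
  obtain ⟨f, hW⟩ := exists_wrn m _ hnd
  have h1 := hf f hW
  have h2 := hmax.2 f h1.1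
  omega

end Vale.Agent.P305
end
end

section

section

/-! A vertex cover certifying a maximum matching of a bipartite graph. -/

set_option autoImplicit false

namespace Vale.Agent.P305

variable {n : ℕ} {A : ℕ → ℕ → Prop}

/-- Vertex covers inside `{0, …, n-1}`. -/
def IsCover (n : ℕ) (A : ℕ → ℕ → Prop) (S : Finset ℕ) : Prop :=
  S ⊆ Finset.range n ∧ ∀ u v, A u v → u ∈ S ∨ v ∈ S

theorem exists_min_cover (hG : Gr n A) :
    ∃ S, IsCover n A S ∧ ∀ S', IsCover n A S' → S.card ≤ S'.card := by
  classical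
  have hex : ∃ k, ∃ S, IsCover n A S ∧ S.card = k :=
    ⟨_, Finset.range n, ⟨subset_rfl, fun u v h => Or.inl (Finset.mem_range.2 (hG.lt h))⟩, rfl⟩
  obtain ⟨S, hS, hcard⟩ := Nat.find_spec hex
  refine ⟨S, hS, fun S' hS' => ?_⟩
  rw [hcard]
  exact Nat.find_min' hex ⟨S', hS', rfl⟩

/-- In a minimum vertex cover every side can be matched out of the cover. -/
theorem cover_side (hG : Gr n A) {c : ℕ → Bool} (hc : ∀ u v, A u v → c u ≠ c v) {S : Finset ℕ}
    (hS : IsCover n A S) (hmin : ∀ S', IsCover n A S' → S.card ≤ S'.card) (b : Bool) :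
    ∃ f : ℕ → ℕ, (∀ x ∈ S, c x = b → A x (f x) ∧ f x ∉ S) ∧
      ∀ x ∈ S, ∀ y ∈ S, c x = b → c y = b → f x = f y → x = y := by
  classical
  have hall := (Finset.all_card_le_biUnion_card_iff_exists_injective
    (fun x : {x : ℕ // x ∈ S ∧ c x = b} =>
      (Finset.range n).filter (fun w => A x w ∧ w ∉ S))).1 (by
    intro X
    by_contra hlt
    push Not at hlt
    set Y := X.biUnion (fun x : {x : ℕ // x ∈ S ∧ c x = b} =>
      (Finset.range n).filter (fun w => A x w ∧ w ∉ S)) with hY
    set X' : Finset ℕ := X.image Subtype.val with hX'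
    have hXc : X'.card = X.card := Finset.card_image_of_injective _ Subtype.val_injective
    have hXS : X' ⊆ S := by
      intro x hx
      rw [hX', Finset.mem_image] at hx
      obtain ⟨y, _, rfl⟩ := hx
      exact y.2.1
    have hcov : IsCover n A ((S \ X') ∪ Y) := by
      have hside : ∀ u v, A u v → u ∈ S → u ∈ (S \ X') ∪ Y ∨ v ∈ (S \ X') ∪ Y := by
        intro u v huv hu
        by_cases huX : u ∈ X'
        · right
          rw [hX', Finset.mem_image] at huX
          obtain ⟨x, hxX, rfl⟩ := huX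
          by_cases hv : v ∈ S
          · refine Finset.mem_union_left _ (Finset.mem_sdiff.2 ⟨hv, fun hvX => ?_⟩)
            rw [hX', Finset.mem_image] at hvX
            obtain ⟨y, _, hy⟩ := hvX
            have h1 := x.2.2
            have h2 := y.2.2
            rw [hy] at h2
            exact hc _ _ huv (by rw [h1, h2])
          · refine Finset.mem_union_right _ (Finset.mem_biUnion.2 ⟨x, hxX, ?_⟩)
            rw [Finset.mem_filter, Finset.mem_range]
            exact ⟨hG.lt' huv, huv, hv⟩
        · left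
          exact Finset.mem_union_left _ (Finset.mem_sdiff.2 ⟨hu, huX⟩)
      refine ⟨?_, fun u v huv => ?_⟩
      · intro x hx
        rcases Finset.mem_union.1 hx with hx | hx
        · exact hS.1 (Finset.mem_sdiff.1 hx).1
        · obtain ⟨y, _, hy⟩ := Finset.mem_biUnion.1 hx
          exact (Finset.mem_filter.1 hy).1
      · rcases hS.2 u v huv with h | h
        · exact hside u v huv h
        · exact (hside v u (hG.symm huv) h).symm
    have h1 := hmin _ hcov
    have h2 := Finset.card_union_le (S \ X') Y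
    have h3 := Finset.card_sdiff_add_card_eq_card hXS
    omega)
  obtain ⟨f, hinj, hf⟩ := hall
  refine ⟨fun x => if h : x ∈ S ∧ c x = b then f ⟨x, h⟩ else 0, ?_, ?_⟩
  · intro x hx hb
    have hxb : x ∈ S ∧ c x = b := ⟨hx, hb⟩
    beta_reduce
    rw [dif_pos hxb]
    have := hf ⟨x, hxb⟩
    rw [Finset.mem_filter] at this
    exact this.2
  · intro x hx y hy hb hb' hxy
    have hxb : x ∈ S ∧ c x = b := ⟨hx, hb⟩
    have hyb : y ∈ S ∧ c y = b := ⟨hy, hb'⟩
    beta_reduce at hxy
    rw [dif_pos hxb, dif_pos hyb] at hxy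
    exact congrArg Subtype.val (hinj hxy)

/-- König's theorem: a maximum matching of a bipartite graph has a vertex cover consisting of one
endpoint of every matching edge. -/
theorem konig (hG : Gr n A) {c : ℕ → Bool} (hc : ∀ u v, A u v → c u ≠ c v) {m : ℕ → ℕ}
    (hm : IsMax n A m) :
    ∃ S : Finset ℕ, S ⊆ Finset.range n ∧ (∀ u v, A u v → u ∈ S ∨ v ∈ S) ∧
      ∀ v ∈ S, m v ≠ v ∧ m v ∉ S := by
  classical
  obtain ⟨S, hS, hmin⟩ := exists_min_cover hG
  refine ⟨S, hS.1, hS.2, ?_⟩
  -- the cover is matched out of itself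
  choose f hf hfinj using fun b => cover_side hG hc hS hmin b
  set h : ℕ → ℕ := fun x => f (c x) x with hh
  have h1 : ∀ x ∈ S, A x (h x) ∧ h x ∉ S := fun x hx => hf (c x) x hx rfl
  have hinj : ∀ x ∈ S, ∀ y ∈ S, h x = h y → x = y := by
    intro x hx y hy hxy
    have hcx := hc _ _ (h1 x hx).1
    have hcy := hc _ _ (h1 y hy).1
    rw [hxy] at hcx
    have hcc : c x = c y :=
      (by decide : ∀ a b z : Bool, a ≠ z → b ≠ z → a = b) _ _ _ hcx hcy
    have := hfinj (c x) x hx y hy rfl hcc.symm
    apply this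
    have hxy' : f (c x) x = f (c y) y := hxy
    rw [hxy', hcc]
  -- the matching
  set m0 : ℕ → ℕ := fun v => if v ∈ S then h v else
    if hv : ∃ x ∈ S, h x = v then hv.choose else v with hm0
  have e1 : ∀ v ∈ S, m0 v = h v := by
    intro v hv
    rw [hm0]
    beta_reduce
    rw [if_pos hv]
  have e2 : ∀ v ∈ S, m0 (h v) = v := by
    intro v hv
    have hex : ∃ x ∈ S, h x = h v := ⟨v, hv, rfl⟩
    rw [hm0]
    beta_reduce
    rw [if_neg (h1 v hv).2, dif_pos hex]
    exact hinj _ hex.choose_spec.1 _ hv hex.choose_spec.2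
  have e3 : ∀ v, v ∉ S → (¬ ∃ x ∈ S, h x = v) → m0 v = v := by
    intro v hv hv'
    rw [hm0]
    beta_reduce
    rw [if_neg hv, dif_neg hv']
  have hmat : Mat A m0 := by
    constructor
    · intro v
      by_cases hv : v ∈ S
      · rw [e1 v hv, e2 v hv]
      · by_cases hv' : ∃ x ∈ S, h x = v
        · obtain ⟨x, hx, rfl⟩ := hv'
          rw [e2 x hx, e1 x hx]
        · rw [e3 v hv hv', e3 v hv hv']
    · intro v hne
      by_cases hv : v ∈ S
      · rw [e1 v hv]; exact (h1 v hv).1
      · by_cases hv' : ∃ x ∈ S, h x = v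
        · obtain ⟨x, hx, rfl⟩ := hv'
          rw [e2 x hx]
          exact hG.symm (h1 x hx).1
        · exact absurd (e3 v hv hv') hne
  have hcard := hm.2 m0 hmat
  -- count
  have k1 : (exposed n m0).card + 2 * S.card ≤ n := by
    have hdis1 : Disjoint (exposed n m0) S := by
      rw [Finset.disjoint_left]
      intro x hx hxS
      simp only [exposed, Finset.mem_filter] at hx
      rw [e1 x hxS] at hx
      have := (h1 x hxS).1
      rw [hx.2] at this
      exact hG.irr x this
    have hdis2 : Disjoint (exposed n m0 ∪ S) (S.image h) := by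
      rw [Finset.disjoint_left]
      intro x hx hx'
      obtain ⟨y, hy, rfl⟩ := Finset.mem_image.1 hx'
      rcases Finset.mem_union.1 hx with hx | hx
      · simp only [exposed, Finset.mem_filter] at hx
        rw [e2 y hy] at hx
        exact (h1 y hy).2 (by rw [← hx.2]; exact hy)
      · exact (h1 y hy).2 hx
    have himg : (S.image h).card = S.card :=
      Finset.card_image_of_injOn (fun x hx y hy hxy => hinj x hx y hy hxy)
    have hsub : exposed n m0 ∪ S ∪ S.image h ⊆ Finset.range n := by
      intro x hx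
      rcases Finset.mem_union.1 hx with hx | hx
      · rcases Finset.mem_union.1 hx with hx | hx
        · exact (Finset.mem_filter.1 hx).1
        · exact hS.1 hx
      · obtain ⟨y, hy, rfl⟩ := Finset.mem_image.1 hx
        exact Finset.mem_range.2 (hG.lt' (h1 y hy).1)
    have := Finset.card_le_card hsub
    rw [Finset.card_union_of_disjoint hdis2, Finset.card_union_of_disjoint hdis1, himg,
      Finset.card_range] at this
    (clear * - this; omega)
  -- matched vertices of m
  set U := S.filter (fun v => m v ≠ v) with hU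
  have k2 : n ≤ (exposed n m).card + (U ∪ U.image m).card := by
    have hsub : Finset.range n ⊆ exposed n m ∪ (U ∪ U.image m) := by
      intro v hv
      by_cases hv' : m v = v
      · exact Finset.mem_union_left _ (Finset.mem_filter.2 ⟨hv, hv'⟩)
      · apply Finset.mem_union_right
        rcases hS.2 _ _ (hm.1.adj v hv') with h2 | h2
        · exact Finset.mem_union_left _ (Finset.mem_filter.2 ⟨h2, hv'⟩)
        · apply Finset.mem_union_right
          refine Finset.mem_image.2 ⟨m v, Finset.mem_filter.2 ⟨h2, ?_⟩, hm.1.inv v⟩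
          rw [hm.1.inv]
          exact fun h3 => hv' h3.symm
    have := Finset.card_le_card hsub
    rw [Finset.card_range] at this
    exact this.trans (Finset.card_union_le _ _)
  have k3 : (U ∪ U.image m).card + (U ∩ U.image m).card = U.card + (U.image m).card :=
    Finset.card_union_add_card_inter _ _
  have k4 : (U.image m).card ≤ U.card := Finset.card_image_le
  have k5 : U.card ≤ S.card := Finset.card_filter_le _ _
  have k6 : U.card = S.card := by omega
  have k7 : (U ∩ U.image m).card = 0 := by (clear * - hcard k1 k2 k3 k4 k6; omega)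
  have k8 : U = S := Finset.eq_of_subset_of_card_le (Finset.filter_subset _ _) (by omega)
  intro v hv
  have hvU : v ∈ U := by rw [k8]; exact hv
  refine ⟨(Finset.mem_filter.1 hvU).2, fun hmv => ?_⟩
  rw [Finset.card_eq_zero] at k7
  have : m v ∈ U ∩ U.image m := by
    rw [Finset.mem_inter, k8]
    exact ⟨hmv, Finset.mem_image.2 ⟨v, by rw [← k8]; exact hvU, rfl⟩⟩
  rw [k7] at this
  exact absurd this (Finset.notMem_empty _)

end Vale.Agent.P305
end
end

section

section

/-! From a maximum matching of the bipartite double cover to a matching of the graph: theory. -/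

set_option autoImplicit false

namespace Vale.Agent.P305

/-- Adjacency of the bipartite double cover. -/
def HD (n : ℕ) (A : ℕ → ℕ → Prop) (a b : ℕ) : Prop :=
  (a < n ∧ n ≤ b ∧ A a (b - n)) ∨ (n ≤ a ∧ b < n ∧ A b (a - n))

theorem HD.gr {n : ℕ} {A : ℕ → ℕ → Prop} (hG : Gr n A) : Gr (2 * n) (HD n A) where
  symm := by
    rintro u v (⟨h1, h2, h3⟩ | ⟨h1, h2, h3⟩)
    · exact Or.inr ⟨h2, h1, h3⟩
    · exact Or.inl ⟨h2, h1, h3⟩
  irr := by
    rintro u (⟨h1, h2, _⟩ | ⟨h1, h2, _⟩) <;> omega
  lt := by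
    rintro u v (⟨h1, h2, h3⟩ | ⟨h1, h2, h3⟩)
    · (clear * - h1; omega)
    · have := hG.lt' h3
      omega

/-- The bipartite double cover. -/
def dcG (n : ℕ) (A : ℕ → ℕ → Prop) : SimpleGraph (Fin (2 * n)) where
  Adj u v := HD n A u v
  symm := ⟨by
    rintro u v (⟨h1, h2, h3⟩ | ⟨h1, h2, h3⟩)
    · exact Or.inr ⟨h2, h1, h3⟩
    · exact Or.inl ⟨h2, h1, h3⟩⟩
  loopless := ⟨by
    rintro u (⟨h1, h2, _⟩ | ⟨h1, h2, _⟩) <;> omega⟩

theorem natAdj_dcG {n : ℕ} {A : ℕ → ℕ → Prop} (hG : Gr n A) : natAdj (dcG n A) = HD n A := by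
  funext u v
  apply propext
  constructor
  · rintro ⟨_, _, h⟩; exact h
  · intro h
    exact ⟨(HD.gr hG).lt h, (HD.gr hG).lt' h, h⟩

theorem dcG_bip (n : ℕ) (A : ℕ → ℕ → Prop) : (dcG n A).IsBipartite := by
  refine ⟨SimpleGraph.Coloring.mk (fun v => if (v : ℕ) < n then (0 : Fin 2) else 1) ?_⟩
  intro u v h
  have h' : HD n A u v := h
  rcases h' with ⟨h1, h2, _⟩ | ⟨h1, h2, _⟩
  · rw [if_pos h1, if_neg (by omega)]; decide
  · rw [if_neg (by omega), if_pos h2]; decide

theorem csr_dc {n : ℕ} {A : ℕ → ℕ → Prop} {off adj off' adj' : ℕ → ℕ} (hG : Gr n A)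
    (h : CSR n A off adj) (h1 : ∀ i < n, off' i = off i)
    (h2 : ∀ i ≤ n, off' (n + i) = off n + off i)
    (h3 : ∀ p < off n, adj' p = n + adj p) (h4 : ∀ p < off n, adj' (off n + p) = adj p) :
    CSR (2 * n) (HD n A) off' adj' := by
  have hle : ∀ v < n, off (v + 1) ≤ off n := fun v hv => h.mono' (by omega) le_rfl
  have hoff1 : ∀ v < n, off' (v + 1) = off (v + 1) := by
    intro v hv
    by_cases hv' : v + 1 < n
    · exact h1 _ hv'
    · have h5 := h2 0 (by omega)
      rw [h.off0] at h5
      rw [show v + 1 = n + 0 by omega, h5]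
      simp
  have hcase : ∀ v < 2 * n, v < n ∨ ∃ w < n, v = n + w := by
    intro v hv
    by_cases hv' : v < n
    · exact Or.inl hv'
    · exact Or.inr ⟨v - n, by omega, by omega⟩
  refine ⟨?_, ?_, ?_, ?_⟩
  · by_cases hn : n = 0
    · have h5 := h2 0 (by omega)
      subst hn
      simp [h.off0] at h5
      exact h5
    · rw [h1 0 (by omega), h.off0]
  · intro v hv
    rcases hcase v hv with hv' | ⟨w, hw, rfl⟩
    · rw [hoff1 v hv', h1 v hv']; exact h.mono v hv'
    · rw [show n + w + 1 = n + (w + 1) by ring, h2 _ (by omega), h2 _ (by omega)]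
      have := h.mono w hw
      omega
  · intro v hv u
    rcases hcase v hv with hv' | ⟨w, hw, rfl⟩
    · rw [hoff1 v hv', h1 v hv']
      constructor
      · rintro (⟨_, a2, a3⟩ | ⟨a1, _, _⟩)
        · obtain ⟨p, hp1, hp2, hp3⟩ := (h.mem v hv' (u - n)).1 a3
          have := hle v hv'
          exact ⟨p, hp1, hp2, by rw [h3 p (by omega), hp3]; omega⟩
        · omega
      · rintro ⟨p, hp1, hp2, hp3⟩
        have := hle v hv'
        rw [h3 p (by omega)] at hp3
        refine Or.inl ⟨hv', by omega, (h.mem v hv' _).2 ⟨p, hp1, hp2, by omega⟩⟩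
    · rw [show n + w + 1 = n + (w + 1) by ring, h2 _ (by omega), h2 _ (by omega)]
      have hw' := hle w hw
      constructor
      · rintro (⟨a1, _, _⟩ | ⟨_, a2, a3⟩)
        · omega
        · rw [show n + w - n = w by omega] at a3
          obtain ⟨p, hp1, hp2, hp3⟩ := (h.mem w hw u).1 (hG.symm a3)
          exact ⟨off n + p, by omega, by omega, by rw [h4 p (by omega), hp3]⟩
      · rintro ⟨p, hp1, hp2, hp3⟩
        have h5 := h4 (p - off n) (by omega)
        rw [show off n + (p - off n) = p by omega] at h5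
        have h6 : A w u := (h.mem w hw u).2 ⟨p - off n, by omega, by omega, by omega⟩
        refine Or.inr ⟨by omega, hG.lt' h6, ?_⟩
        rw [show n + w - n = w by omega]
        exact hG.symm h6
  · intro v hv p q
    rcases hcase v hv with hv' | ⟨w, hw, rfl⟩
    · rw [hoff1 v hv', h1 v hv']
      intro hp1 hp2 hq1 hq2 e
      have := hle v hv'
      rw [h3 p (by omega), h3 q (by omega)] at e
      exact h.inj v hv' p q hp1 hp2 hq1 hq2 (by omega)
    · rw [show n + w + 1 = n + (w + 1) by ring, h2 _ (by omega), h2 _ (by omega)]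
      have hw' := hle w hw
      intro hp1 hp2 hq1 hq2 e
      have h5 := h4 (p - off n) (by omega)
      rw [show off n + (p - off n) = p by omega] at h5
      have h6 := h4 (q - off n) (by omega)
      rw [show off n + (q - off n) = q by omega] at h6
      have := h.inj w hw (p - off n) (q - off n) (by omega) (by omega) (by omega) (by omega)
        (by omega)
      omega

/-- Partner functions of the double cover, seen as partial injections. -/
structure PI (n : ℕ) (A : ℕ → ℕ → Prop) (g : ℕ → ℕ) : Prop where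
  out : ∀ v < n, g v = v ∨ ∃ w < n, g v = n + w ∧ A v w
  inn : ∀ w < n, g (n + w) = n + w ∨ ∃ v < n, g (n + w) = v ∧ A v w
  arc : ∀ v < n, ∀ w < n, (g v = n + w ↔ g (n + w) = v)

theorem Mat.toPI {n : ℕ} {A : ℕ → ℕ → Prop} (hG : Gr n A) {g : ℕ → ℕ} (h : Mat (HD n A) g) :
    PI n A g where
  out := by
    intro v hv
    by_cases hg : g v = v
    · exact Or.inl hg
    · rcases h.adj v hg with ⟨_, a2, a3⟩ | ⟨a1, _, _⟩
      · have := hG.lt' a3
        exact Or.inr ⟨g v - n, this, by omega, a3⟩
      · omega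
  inn := by
    intro w hw
    by_cases hg : g (n + w) = n + w
    · exact Or.inl hg
    · rcases h.adj _ hg with ⟨a1, _, _⟩ | ⟨_, a2, a3⟩
      · omega
      · rw [show n + w - n = w by omega] at a3
        exact Or.inr ⟨g (n + w), a2, rfl, a3⟩
  arc := by
    intro v hv w hw
    constructor
    · intro e; rw [← e, h.inv]
    · intro e; rw [← e, h.inv]

/-- Number of vertices without out-arc against the number of exposed vertices of a matching. -/
theorem card_out_le {n : ℕ} {A : ℕ → ℕ → Prop} (hG : Gr n A) {g : ℕ → ℕ}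
    (h : IsMax (2 * n) (HD n A) g) {m : ℕ → ℕ} (hm : Mat A m) :
    ((Finset.range n).filter (fun v => g v = v)).card ≤ (exposed n m).card := by
  have hPI := h.1.toPI hG
  -- the matching of the double cover given by `m`
  set g' : ℕ → ℕ := fun x => if x < n then (if m x = x then x else n + m x) else
    if x < 2 * n then (if m (x - n) = x - n then x else m (x - n)) else x with hg'
  have hlt : ∀ v < n, m v < n := fun v hv => hm.lt hG hv
  have hM : Mat (HD n A) g' := by
    constructor
    · intro v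
      simp only [hg']
      by_cases hv : v < n
      · have := hlt v hv
        by_cases hmv : m v = v
        · simp [hv, hmv]
        · have e1 : m (m v) ≠ m v := fun e => hmv (by
            have := hm.inv v
            rw [e] at this; exact this)
          rw [if_pos hv, if_neg hmv, if_neg (by omega), if_pos (by omega),
            show n + m v - n = m v by omega, if_neg e1, hm.inv]
      · by_cases hv2 : v < 2 * n
        · have := hlt (v - n) (by omega)
          by_cases hmv : m (v - n) = v - n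
          · rw [if_neg hv, if_pos hv2, if_pos hmv, if_neg hv, if_pos hv2, if_pos hmv]
          · have e1 : m (m (v - n)) ≠ m (v - n) := fun e => hmv (by
              have := hm.inv (v - n)
              rw [e] at this; exact this)
            rw [if_neg hv, if_pos hv2, if_neg hmv, if_pos this, if_neg e1, hm.inv]
            omega
        · simp [hv, hv2]
    · intro v
      simp only [hg']
      by_cases hv : v < n
      · by_cases hmv : m v = v
        · simp [hv, hmv]
        · rw [if_pos hv, if_neg hmv]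
          intro _
          refine Or.inl ⟨hv, by omega, ?_⟩
          rw [show n + m v - n = m v by omega]
          exact hm.adj v hmv
      · by_cases hv2 : v < 2 * n
        · by_cases hmv : m (v - n) = v - n
          · rw [if_neg hv, if_pos hv2, if_pos hmv]; intro h; exact absurd rfl h
          · rw [if_neg hv, if_pos hv2, if_neg hmv]
            intro _
            exact Or.inr ⟨by omega, hlt _ (by omega), hG.symm (hm.adj _ hmv)⟩
        · rw [if_neg hv, if_neg hv2]; intro h; exact absurd rfl h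
  have h1 := h.2 g' hM
  -- count left and right sides
  have split : ∀ f : ℕ → ℕ, (exposed (2 * n) f).card =
      ((Finset.range n).filter (fun v => f v = v)).card +
      ((Finset.range n).filter (fun v => f (n + v) = n + v)).card := by
    intro f
    have e : exposed (2 * n) f = ((Finset.range n).filter (fun v => f v = v)) ∪
        ((Finset.range n).filter (fun v => f (n + v) = n + v)).map (addLeftEmbedding n) := by
      ext x
      simp only [exposed, Finset.mem_filter, Finset.mem_range, Finset.mem_union, Finset.mem_map,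
        addLeftEmbedding_apply]
      constructor
      · rintro ⟨h1, h2⟩
        by_cases hx : x < n
        · exact Or.inl ⟨hx, h2⟩
        · exact Or.inr ⟨x - n, ⟨by omega, by rw [show n + (x - n) = x by omega]; exact h2⟩,
            by omega⟩
      · rintro (⟨h1, h2⟩ | ⟨y, ⟨h1, h2⟩, rfl⟩)
        · exact ⟨by omega, h2⟩
        · exact ⟨by omega, h2⟩
    rw [e, Finset.card_union_of_disjoint, Finset.card_map]
    rw [Finset.disjoint_left]
    intro x hx hx'
    simp only [Finset.mem_filter, Finset.mem_range, Finset.mem_map, addLeftEmbedding_apply] at hx hx'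
    obtain ⟨y, _, hy⟩ := hx'
    omega
  have hL : ((Finset.range n).filter (fun v => g' v = v)) = exposed n m := by
    ext x
    simp only [exposed, Finset.mem_filter, Finset.mem_range, hg']
    constructor
    · rintro ⟨hx, h⟩
      refine ⟨hx, ?_⟩
      by_contra hne
      rw [if_pos hx, if_neg hne] at h
      omega
    · rintro ⟨hx, h⟩
      exact ⟨hx, by rw [if_pos hx, if_pos h]⟩
  have hR : ((Finset.range n).filter (fun v => g' (n + v) = n + v)) = exposed n m := by
    ext x
    simp only [exposed, Finset.mem_filter, Finset.mem_range, hg']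
    constructor
    · rintro ⟨hx, h⟩
      refine ⟨hx, ?_⟩
      rw [if_neg (by omega), if_pos (by omega), show n + x - n = x by omega] at h
      by_contra hne
      rw [if_neg hne] at h
      have := hlt x hx
      omega
    · rintro ⟨hx, h⟩
      refine ⟨hx, ?_⟩
      rw [if_neg (by omega), if_pos (by omega), show n + x - n = x by omega, if_pos h]
  -- both sides of `g` have the same number of exposed vertices
  have hLR : ((Finset.range n).filter (fun v => g v ≠ v)).card =
      ((Finset.range n).filter (fun v => g (n + v) ≠ n + v)).card := by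
    apply Finset.card_bij (fun v _ => g v - n)
    · intro v hv
      rw [Finset.mem_filter, Finset.mem_range] at hv ⊢
      rcases hPI.out v hv.1 with h | ⟨w, hw, e, _⟩
      · exact absurd h hv.2
      · rw [e, show n + w - n = w by omega]
        refine ⟨hw, ?_⟩
        rw [(hPI.arc v hv.1 w hw).1 e]
        omega
    · intro v hv w hw e
      rw [Finset.mem_filter, Finset.mem_range] at hv hw
      rcases hPI.out v hv.1 with h | ⟨v', hv', e1, _⟩
      · exact absurd h hv.2
      · rcases hPI.out w hw.1 with h | ⟨w', hw', e2, _⟩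
        · exact absurd h hw.2
        · have : v' = w' := by omega
          subst this
          rw [← (hPI.arc v hv.1 v' hv').1 e1, ← (hPI.arc w hw.1 v' hw').1 e2]
    · intro w hw
      rw [Finset.mem_filter, Finset.mem_range] at hw
      rcases hPI.inn w hw.1 with h | ⟨v, hv, e, _⟩
      · exact absurd h hw.2
      · have e2 := (hPI.arc v hv w hw.1).2 e
        refine ⟨v, ?_, by rw [e2]; omega⟩
        rw [Finset.mem_filter, Finset.mem_range]
        exact ⟨hv, by omega⟩
  have c1 := Finset.card_filter_add_card_filter_not (s := Finset.range n) (fun v => g v = v)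
  have c2 := Finset.card_filter_add_card_filter_not (s := Finset.range n)
    (fun v => g (n + v) = n + v)
  rw [split g, split g', hL, hR] at h1
  simp only [Finset.card_range] at c1 c2
  have hLR' : ((Finset.range n).filter (fun v => ¬ g v = v)).card =
      ((Finset.range n).filter (fun v => ¬ g (n + v) = n + v)).card := hLR
  omega

end Vale.Agent.P305
end
end

section

section

/-! From a maximum matching of the bipartite double cover to a matching of the graph: the final
matching and the count of exposed vertices. -/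

set_option autoImplicit false

namespace Vale.Agent.P305

/-- The result of the walks: `P` parity of the position, `C` number of the cycle (`0` on paths),
`I` position, `O c = 1` iff `c` is the number of an odd cycle. -/
structure Cyc (n : ℕ) (g P C I O : ℕ → ℕ) : Prop where
  p12 : ∀ v < n, P v = 1 ∨ P v = 2
  par2 : ∀ w < n, P w = 2 → g (n + w) ≠ n + w
  same : ∀ v < n, ∀ w < n, g v = n + w → C v = C w
  even : ∀ v < n, ∀ w < n, g v = n + w → O (C v) ≠ 1 → P v ≠ P w
  full : ∀ v < n, O (C v) = 1 → g v ≠ v ∧ g (n + v) ≠ n + v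
  odd : ∀ v < n, ∀ w < n, g v = n + w → O (C v) = 1 → (I w = I v + 1 ∧ P w ≠ P v) ∨
    (I w = 0 ∧ P w = 1 ∧ P v = 1 ∧ ∀ x < n, C x = C v → I x ≤ I v)
  inj : ∀ v < n, ∀ w < n, O (C v) = 1 → C v = C w → I v = I w → v = w
  le : ∀ v < n, C v ≤ n

/-- The state of the pairing: `T c = 1` iff the odd cycle `c` is unpaired, `D c` the vertex of the
cycle that is not matched inside the cycle, `Y c` its partner. -/
structure Prg (n : ℕ) (A : ℕ → ℕ → Prop) (C O T D Y : ℕ → ℕ) : Prop where
  dsg : ∀ c ≤ n, O c = 1 → D c < n ∧ C (D c) = c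
  tt : ∀ c ≤ n, O c = 1 → (T c = 1 ∧ Y c = D c) ∨ (T c = 0 ∧ ∃ c' ≤ n, c' ≠ c ∧ O c' = 1 ∧
    T c' = 0 ∧ Y c = D c' ∧ Y c' = D c ∧ A (D c) (D c'))
  tO : ∀ c ≤ n, T c = 1 → O c = 1

/-- `1`: matched with the successor, `2`: with the predecessor, `0`: neither. -/
def kd1 (g P C I O D : ℕ → ℕ) (v : ℕ) : ℕ :=
  if O (C v) = 1 then
    if v = D (C v) then 0 else if (P v = P (D (C v)) ↔ I (D (C v)) ≤ I v) then 2 else 1
  else if P v = 2 then 2 else if g v = v then 0 else 1

/-- The final matching. -/
def fm (n : ℕ) (g P C I O D Y : ℕ → ℕ) (v : ℕ) : ℕ :=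
  if n ≤ v then v else
  if kd1 g P C I O D v = 2 then g (n + v) else
  if kd1 g P C I O D v = 1 then g v - n else
  if O (C v) = 1 then Y (C v) else v

variable {n : ℕ} {A : ℕ → ℕ → Prop} {g P C I O T D Y : ℕ → ℕ}

theorem kd1_le (v : ℕ) : kd1 g P C I O D v = 0 ∨ kd1 g P C I O D v = 1 ∨
    kd1 g P C I O D v = 2 := by
  unfold kd1; split_ifs <;> simp

theorem Cyc.kd_out (h : Cyc n g P C I O) {v : ℕ} (hv : v < n) (hk : kd1 g P C I O D v = 1) :
    g v ≠ v := by
  unfold kd1 at hk
  by_cases h1 : O (C v) = 1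
  · exact (h.full v hv h1).1
  · rw [if_neg h1] at hk
    intro e
    rw [if_pos e] at hk
    split_ifs at hk
    all_goals omega

theorem Cyc.kd_in (h : Cyc n g P C I O) {v : ℕ} (hv : v < n) (hk : kd1 g P C I O D v = 2) :
    g (n + v) ≠ n + v := by
  unfold kd1 at hk
  by_cases h1 : O (C v) = 1
  · exact (h.full v hv h1).2
  · rw [if_neg h1] at hk
    apply h.par2 v hv
    by_contra e
    rw [if_neg e] at hk
    split_ifs at hk
    all_goals omega

/-- The arithmetic of an odd cycle with distinguished vertex `u`. -/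
theorem kd_odd {u v w Pu Pv Pw Iu Iv Iw : ℕ} (hne : v ≠ w) (pu : Pu = 1 ∨ Pu = 2)
    (pv : Pv = 1 ∨ Pv = 2) (pw : Pw = 1 ∨ Pw = 2) (i1 : Iw = Iu → w = u) (i2 : v = u → Iv = Iu)
    (i3 : w = u → Iw = Iu) (i4 : v = u → Pv = Pu) (i5 : w = u → Pw = Pu)
    (hodd : (Iw = Iv + 1 ∧ Pw ≠ Pv) ∨ (Iw = 0 ∧ Pw = 1 ∧ Pv = 1 ∧ Iu ≤ Iv)) :
    (if v = u then 0 else if (Pv = Pu ↔ Iu ≤ Iv) then 2 else 1) = 1 ↔
    (if w = u then 0 else if (Pw = Pu ↔ Iu ≤ Iw) then 2 else 1) = 2 := by
  by_cases hv : v = u
  · have hw : ¬ w = u := fun e => hne (hv.trans e.symm)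
    have e1 := i2 hv
    have e2 := i4 hv
    have e3 : ¬ Iw = Iu := fun e => hw (i1 e)
    rw [if_pos hv, if_neg hw, if_neg]
    · omega
    · rintro ⟨h1, h2⟩
      rcases hodd with ⟨o1, o2⟩ | ⟨o1, o2, o3, o4⟩
      · have := h2 (by omega)
        omega
      · have := h1 (by omega)
        omega
  · rw [if_neg hv]
    by_cases hw : w = u
    · have e1 := i3 hw
      have e2 := i5 hw
      rw [if_pos hw, if_pos]
      · omega
      · rcases hodd with ⟨o1, o2⟩ | ⟨o1, o2, o3, o4⟩
        · constructor <;> intro e <;> omega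
        · constructor <;> intro e <;> omega
    · have e3 : ¬ Iw = Iu := fun e => hw (i1 e)
      rw [if_neg hw]
      have key : (Pv = Pu ↔ Iu ≤ Iv) ↔ ¬ (Pw = Pu ↔ Iu ≤ Iw) := by
        rcases hodd with ⟨o1, o2⟩ | ⟨o1, o2, o3, o4⟩
        · have h3 : Iu ≤ Iv ↔ Iu ≤ Iw := by
            constructor <;> intro e <;> omega
          have h4 : Pv = Pu ↔ ¬ Pw = Pu := by
            constructor <;> intro e <;> omega
          rw [h3, h4]
          by_cases a : Pw = Pu <;> by_cases b : Iu ≤ Iw <;> simp [a, b]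
        · have h3 : Iu ≤ Iv ↔ True := by simp [o4]
          have h5 : Iu ≤ Iw ↔ False := iff_of_false (by omega) id
          have h4 : Pv = Pu ↔ Pw = Pu := by
            constructor <;> intro e <;> omega
          rw [h3, h5, h4]
          by_cases a : Pw = Pu <;> simp [a]
      by_cases hk : (Pv = Pu ↔ Iu ≤ Iv)
      · rw [if_pos hk, if_neg (key.1 hk)]
        simp
      · rw [if_neg hk]
        have : (Pw = Pu ↔ Iu ≤ Iw) := by
          by_contra h
          exact hk (key.2 h)
        rw [if_pos this]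
        simp

theorem Cyc.kd_arc (h : Cyc n g P C I O) (hA : PI n A g) (hirr : ∀ u, ¬ A u u)
    (hd : ∀ c ≤ n, O c = 1 → D c < n ∧ C (D c) = c) {v w : ℕ}
    (hv : v < n) (hw : w < n) (hvw : g v = n + w) :
    kd1 g P C I O D v = 1 ↔ kd1 g P C I O D w = 2 := by
  have hC := h.same v hv w hw hvw
  have hne : v ≠ w := by
    rintro rfl
    rcases hA.out v hv with e | ⟨w', _, e, e2⟩
    · omega
    · have : w' = v := by omega
      subst this
      exact hirr _ e2
  by_cases hO : O (C v) = 1
  · have hO' : O (C w) = 1 := hC ▸ hO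
    obtain ⟨hu, hCu⟩ := hd (C v) (h.le v hv) hO
    have hodd := h.odd v hv w hw hvw hO
    unfold kd1
    rw [if_pos hO, if_pos hO', ← hC]
    refine kd_odd hne (h.p12 _ hu) (h.p12 _ hv) (h.p12 _ hw)
      (fun e => h.inj w hw _ hu hO' (by rw [← hC, hCu]) e) (fun e => by rw [← e])
      (fun e => by rw [← e]) (fun e => by rw [← e]) (fun e => by rw [← e]) ?_
    rcases hodd with o | ⟨o1, o2, o3, o4⟩
    · exact Or.inl o
    · exact Or.inr ⟨o1, o2, o3, o4 _ hu hCu⟩
  · have hO' : ¬ O (C w) = 1 := hC ▸ hO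
    unfold kd1
    rw [if_neg hO, if_neg hO']
    have hp := h.even v hv w hw hvw hO
    have pv := h.p12 v hv
    have pw := h.p12 w hw
    have hg : g v ≠ v := by omega
    rw [if_neg hg]
    by_cases h2 : P v = 2
    · rw [if_pos h2, if_neg (show ¬ P w = 2 by omega)]
      split_ifs <;> simp
    · rw [if_neg h2, if_pos (show P w = 2 by omega)]
      simp

/-- The final matching is a matching. -/
theorem Cyc.mat (h : Cyc n g P C I O) (hA : PI n A g) (hG : Gr n A) (hP : Prg n A C O T D Y) :
    Mat A (fm n g P C I O D Y) := by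
  have karc := fun {v w : ℕ} (hv : v < n) (hw : w < n) (e : g v = n + w) =>
    h.kd_arc hA hG.irr hP.dsg hv hw e
  -- the three kinds
  have f2 : ∀ v < n, kd1 g P C I O D v = 2 → ∃ u < n, fm n g P C I O D Y v = u ∧ A u v ∧
      g u = n + v := by
    intro v hv hk
    rcases hA.inn v hv with e | ⟨u, hu, e, e2⟩
    · exact absurd e (h.kd_in hv hk)
    · refine ⟨u, hu, ?_, e2, (hA.arc u hu v hv).2 e⟩
      unfold fm
      rw [if_neg (by omega), if_pos hk, e]
  have f1 : ∀ v < n, kd1 g P C I O D v = 1 → ∃ w < n, fm n g P C I O D Y v = w ∧ A v w ∧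
      g v = n + w := by
    intro v hv hk
    rcases hA.out v hv with e | ⟨w, hw, e, e2⟩
    · exact absurd e (h.kd_out hv hk)
    · refine ⟨w, hw, ?_, e2, e⟩
      unfold fm
      rw [if_neg (by omega), if_neg (by omega), if_pos hk, e]
      omega
  have f0 : ∀ v < n, kd1 g P C I O D v = 0 → fm n g P C I O D Y v =
      if O (C v) = 1 then Y (C v) else v := by
    intro v hv hk
    unfold fm
    rw [if_neg (by omega), if_neg (by omega), if_neg (by omega)]
  have k0 : ∀ c ≤ n, O c = 1 → kd1 g P C I O D (D c) = 0 := by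
    intro c hc hO
    have := (hP.dsg c hc hO).2
    unfold kd1
    rw [this, if_pos hO, if_pos rfl]
  have k0' : ∀ v < n, kd1 g P C I O D v = 0 → O (C v) = 1 → v = D (C v) := by
    intro v hv hk hO
    unfold kd1 at hk
    rw [if_pos hO] at hk
    split_ifs at hk with h1
    exact h1
  have fout : ∀ v, ¬ v < n → fm n g P C I O D Y v = v := by
    intro v hv; unfold fm; rw [if_pos (by omega)]
  constructor
  · intro v
    by_cases hv : v < n
    · rcases kd1_le (g := g) (P := P) (C := C) (I := I) (O := O) (D := D) v with hk | hk | hk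
      · have e := f0 v hv hk
        by_cases hO : O (C v) = 1
        · rw [if_pos hO] at e
          have hvD := k0' v hv hk hO
          rcases hP.tt (C v) (h.le v hv) hO with ⟨_, e2⟩ | ⟨_, c', hc', _, hO', _, e2, e3, _⟩
          · rw [e2, ← hvD] at e
            rw [e, e]
          · rw [e2] at e
            rw [e, f0 _ (hP.dsg c' hc' hO').1 (k0 c' hc' hO'), (hP.dsg c' hc' hO').2, if_pos hO',
              e3, ← hvD]
        · rw [if_neg hO] at e
          rw [e, e]
      · obtain ⟨w, hw, e, _, e2⟩ := f1 v hv hk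
        obtain ⟨u, hu, e3, _, e4⟩ := f2 w hw ((karc hv hw e2).1 hk)
        rw [e, e3, ← (hA.arc u hu w hw).1 e4, (hA.arc v hv w hw).1 e2]
      · obtain ⟨u, hu, e, _, e2⟩ := f2 v hv hk
        obtain ⟨w, hw, e3, _, e4⟩ := f1 u hu ((karc hu hv e2).2 hk)
        rw [e, e3]
        omega
    · rw [fout v hv, fout v hv]
  · intro v hne
    by_cases hv : v < n
    · rcases kd1_le (g := g) (P := P) (C := C) (I := I) (O := O) (D := D) v with hk | hk | hk
      · have e := f0 v hv hk
        by_cases hO : O (C v) = 1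
        · rw [if_pos hO] at e
          have hvD := k0' v hv hk hO
          rcases hP.tt (C v) (h.le v hv) hO with ⟨_, e2⟩ | ⟨_, c', hc', _, hO', _, e2, e3, e4⟩
          · rw [e2, ← hvD] at e
            exact absurd e hne
          · rw [e2] at e
            rw [e]
            rw [← hvD] at e4
            exact e4
        · rw [if_neg hO] at e
          exact absurd e hne
      · obtain ⟨w, hw, e, e2, _⟩ := f1 v hv hk
        rw [e]; exact e2
      · obtain ⟨u, hu, e, e2, _⟩ := f2 v hv hk
        rw [e]; exact hG.symm e2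
    · exact absurd (fout v hv) hne

/-- The number of exposed vertices of the final matching. -/
theorem Cyc.card (h : Cyc n g P C I O) (hA : PI n A g) (hP : Prg n A C O T D Y) :
    (exposed n (fm n g P C I O D Y)).card ≤ ((Finset.range n).filter (fun v => g v = v)).card +
      ((Finset.range (n + 1)).filter (fun c => T c = 1)).card := by
  have hsub : exposed n (fm n g P C I O D Y) ⊆ ((Finset.range n).filter (fun v => g v = v)) ∪
      ((Finset.range (n + 1)).filter (fun c => T c = 1)).image D := by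
    intro v hv
    simp only [exposed, Finset.mem_filter, Finset.mem_range] at hv
    obtain ⟨hv, e⟩ := hv
    rw [Finset.mem_union]
    rcases kd1_le (g := g) (P := P) (C := C) (I := I) (O := O) (D := D) v with hk | hk | hk
    · unfold fm at e
      rw [if_neg (by omega), if_neg (by omega), if_neg (by omega)] at e
      by_cases hO : O (C v) = 1
      · rw [if_pos hO] at e
        right
        have hvD : v = D (C v) := by
          unfold kd1 at hk
          rw [if_pos hO] at hk
          split_ifs at hk with h1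
          exact h1
        rw [Finset.mem_image]
        refine ⟨C v, ?_, hvD.symm⟩
        rw [Finset.mem_filter, Finset.mem_range]
        refine ⟨by have := h.le v hv; omega, ?_⟩
        rcases hP.tt (C v) (h.le v hv) hO with ⟨e2, _⟩ | ⟨_, c', hc', hne, hO', _, e2, _, _⟩
        · exact e2
        · exfalso
          rw [e, hvD] at e2
          have h1 := (hP.dsg c' hc' hO').2
          have h2 := (hP.dsg (C v) (h.le v hv) hO).2
          rw [← e2, ← hvD] at h1
          exact hne h1.symm
      · left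
        rw [Finset.mem_filter, Finset.mem_range]
        refine ⟨hv, ?_⟩
        unfold kd1 at hk
        rw [if_neg hO] at hk
        split_ifs at hk with h1 h2
        exact h2
    · exfalso
      rcases hA.out v hv with e2 | ⟨w, hw, e2, _⟩
      · exact h.kd_out hv hk e2
      · unfold fm at e
        rw [if_neg (by omega), if_neg (by omega), if_pos hk, e2] at e
        have hwv : w = v := by omega
        subst hwv
        -- an arc from `v` to itself is impossible: its kind would be both 1 and 2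
        have h1 := h.kd_out hv hk
        rcases hA.out w hv with e3 | ⟨w', _, e3, e4⟩
        · omega
        · have h5 : w' = w := by omega
          have := h.same w hv w hv e2
          rcases h.p12 w hv with p | p
          all_goals
            by_cases hO : O (C w) = 1
            · rcases h.odd w hv w hv e2 hO with ⟨o1, _⟩ | ⟨o1, o2, o3, o4⟩
              · omega
              · unfold kd1 at hk
                rw [if_pos hO] at hk
                obtain ⟨hu, hCu⟩ := hP.dsg (C w) (h.le w hv) hO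
                have h6 := o4 _ hu hCu
                have h7 := h.inj w hv _ hu hO hCu.symm (by omega)
                rw [if_pos h7] at hk
                omega
            · exact h.even w hv w hv e2 hO rfl
    · exfalso
      rcases hA.inn v hv with e2 | ⟨u, hu, e2, _⟩
      · exact h.kd_in hv hk e2
      · unfold fm at e
        rw [if_neg (by omega), if_pos hk, e2] at e
        subst e
        have e3 := (hA.arc u hu u hu).2 e2
        by_cases hO : O (C u) = 1
        · rcases h.odd u hv u hv e3 hO with ⟨o1, _⟩ | ⟨o1, o2, o3, o4⟩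
          · omega
          · unfold kd1 at hk
            rw [if_pos hO] at hk
            obtain ⟨hu, hCu⟩ := hP.dsg (C u) (h.le u hv) hO
            have h6 := o4 _ hu hCu
            have h7 := h.inj u hv _ hu hO hCu.symm (by omega)
            rw [if_pos h7] at hk
            omega
        · exact h.even u hv u hv e3 hO rfl
  calc (exposed n (fm n g P C I O D Y)).card ≤ _ := Finset.card_le_card hsub
    _ ≤ _ := Finset.card_union_le _ _
    _ ≤ _ := Nat.add_le_add_left Finset.card_image_le _

/-- A vertex set that induces a non-bipartite graph. -/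
def OddSet (A : ℕ → ℕ → Prop) (S : ℕ → Prop) : Prop :=
  ¬ ∃ χ : ℕ → Bool, ∀ u v, S u → S v → A u v → χ u ≠ χ v

/-- A closed walk of odd length. -/
theorem oddSet_of_walk {A : ℕ → ℕ → Prop} {S : ℕ → Prop} (f : ℕ → ℕ) {k : ℕ} (hk : k % 2 = 1)
    (hS : ∀ i ≤ k, S (f i)) (hf : ∀ i < k, A (f i) (f (i + 1))) (h0 : f k = f 0) :
    OddSet A S := by
  rintro ⟨χ, hχ⟩
  have key : ∀ i ≤ k, χ (f i) = if i % 2 = 0 then χ (f 0) else !χ (f 0) := by
    intro i
    induction i with
    | zero => intro _; simp
    | succ i ih =>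
      intro hi
      have h1 := ih (by omega)
      have h2 := hχ _ _ (hS i (by omega)) (hS (i + 1) hi) (hf i (by omega))
      rcases Nat.mod_two_eq_zero_or_one i with h3 | h3
      · rw [if_pos h3] at h1
        rw [if_neg (by omega)]
        rw [h1] at h2
        revert h2
        cases χ (f 0) <;> cases χ (f (i + 1)) <;> simp
      · rw [if_neg (by omega)] at h1
        rw [if_pos (by omega)]
        rw [h1] at h2
        revert h2
        cases χ (f 0) <;> cases χ (f (i + 1)) <;> simp
  have h1 := key k le_rfl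
  rw [if_neg (by omega), h0] at h1
  cases h2 : χ (f 0) <;> rw [h2] at h1 <;> simp at h1

end Vale.Agent.P305
end
end

section

section

/-! Walking along the partial injection given by a matching of the double cover. -/

set_option autoImplicit false

namespace Vale.Agent.P305

open Function (update)
open L1

variable {R : List ℕ → (ℕ → ℕ) → ℕ → Prop} {cap : ℕ}

/-- The walk: start in register 50, number in 51, current vertex 52, parities 53, 54,
position 55, last vertex 56. -/
def wkBody : Cmd :=
  .seq (.blk [.store 42 52 53, .store 43 52 51, .store 44 52 55, .copy 56 52, .copy 58 53,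
    .copy 53 54, .copy 54 58, .inc 55, .load 41 57 52])
  (.ite (.eq 57 52) (.blk [.const 59 0])
    (.seq (.blk [.sub 52 57 0]) (.ite (.eq 52 50) (.blk [.const 59 0]) (.blk []))))

def wkC : Cmd :=
  .seq (.blk [.copy 52 50, .const 53 1, .const 54 2, .const 55 0, .const 59 1])
    (.loop (.ne 59 1) wkBody)

def wkRegs : List ℕ := [52, 53, 54, 55, 56, 57, 58, 59]

/-- The vertices of the walk. -/
def wf (n : ℕ) (g : ℕ → ℕ) (s i : ℕ) : ℕ := (fun v => g v - n)^[i] s

theorem wf_zero (n : ℕ) (g : ℕ → ℕ) (s : ℕ) : wf n g s 0 = s := rfl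

theorem wf_succ (n : ℕ) (g : ℕ → ℕ) (s i : ℕ) : wf n g s (i + 1) = g (wf n g s i) - n :=
  Function.iterate_succ_apply' _ _ _

/-- What is known about the first `k` vertices of the walk. -/
structure Wk (n : ℕ) (g : ℕ → ℕ) (P0 C0 I0 P C I : ℕ → ℕ) (s id k : ℕ) : Prop where
  lt : ∀ i < k, wf n g s i < n
  p0 : ∀ i < k, P0 (wf n g s i) = 0
  p : ∀ i < k, P (wf n g s i) = 1 + i % 2
  c : ∀ i < k, C (wf n g s i) = id
  i : ∀ i < k, I (wf n g s i) = i
  arc : ∀ i, i + 1 < k → g (wf n g s i) = n + wf n g s (i + 1)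
  out : ∀ v, (∀ i < k, wf n g s i ≠ v) → P v = P0 v ∧ C v = C0 v ∧ I v = I0 v

variable {n : ℕ} {A : ℕ → ℕ → Prop} {g P0 C0 I0 P C I : ℕ → ℕ} {s id k : ℕ}

theorem Wk.inj (h : Wk n g P0 C0 I0 P C I s id k) {i j : ℕ} (hi : i < k) (hj : j < k)
    (e : wf n g s i = wf n g s j) : i = j := by
  have h1 := h.i i hi
  rw [e, h.i j hj] at h1
  exact h1.symm

theorem Wk.le (h : Wk n g P0 C0 I0 P C I s id k) : k ≤ n := by
  have h1 : ((Finset.range k).image (wf n g s)) ⊆ Finset.range n := by
    intro x hx
    obtain ⟨i, hi, rfl⟩ := Finset.mem_image.1 hx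
    exact Finset.mem_range.2 (h.lt i (Finset.mem_range.1 hi))
  have h2 := Finset.card_le_card h1
  rw [Finset.card_image_of_injOn, Finset.card_range, Finset.card_range] at h2
  · exact h2
  · intro i hi j hj e
    exact h.inj (Finset.mem_range.1 hi) (Finset.mem_range.1 hj) e

/-- The number of unvisited vertices. -/
def unv (n : ℕ) (P : ℕ → ℕ) : ℕ := ((Finset.range n).filter (fun v => P v = 0)).card

theorem Wk.unv (h : Wk n g P0 C0 I0 P C I s id k) : unv n P + k = unv n P0 := by
  have e : ((Finset.range n).filter (fun v => P0 v = 0)) =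
      ((Finset.range n).filter (fun v => P v = 0)) ∪ (Finset.range k).image (wf n g s) := by
    ext v
    rw [Finset.mem_union, Finset.mem_filter, Finset.mem_filter, Finset.mem_image]
    constructor
    · rintro ⟨h1, h2⟩
      by_cases hv : ∃ i < k, wf n g s i = v
      · obtain ⟨i, hi, e⟩ := hv
        exact Or.inr ⟨i, Finset.mem_range.2 hi, e⟩
      · have := h.out v (fun i hi e => hv ⟨i, hi, e⟩)
        exact Or.inl ⟨h1, by rw [this.1]; exact h2⟩
    · rintro (⟨h1, h2⟩ | ⟨i, hi, rfl⟩)
      · refine ⟨h1, ?_⟩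
        have : ∀ i < k, wf n g s i ≠ v := by
          rintro i hi rfl
          rw [h.p i hi] at h2
          (clear * - h2; omega)
        rw [← (h.out v this).1]; exact h2
      · rw [Finset.mem_range] at hi
        exact ⟨Finset.mem_range.2 (h.lt i hi), h.p0 i hi⟩
  have hd : Disjoint ((Finset.range n).filter (fun v => P v = 0))
      ((Finset.range k).image (wf n g s)) := by
    rw [Finset.disjoint_left]
    intro v h1 h2
    obtain ⟨i, hi, rfl⟩ := Finset.mem_image.1 h2
    have h3 := (Finset.mem_filter.1 h1).2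
    rw [h.p i (Finset.mem_range.1 hi)] at h3
    omega
  unfold P305.unv
  rw [e, Finset.card_union_of_disjoint hd, Finset.card_image_of_injOn, Finset.card_range]
  intro i hi j hj e
  exact h.inj (Finset.mem_range.1 hi) (Finset.mem_range.1 hj) e

theorem Wk.snoc (h : Wk n g P0 C0 I0 P C I s id k) (h1 : wf n g s k < n)
    (h2 : P0 (wf n g s k) = 0) (h3 : ∀ i < k, wf n g s i ≠ wf n g s k)
    (h4 : 0 < k → g (wf n g s (k - 1)) = n + wf n g s k) :
    Wk n g P0 C0 I0 (update P (wf n g s k) (1 + k % 2)) (update C (wf n g s k) id)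
      (update I (wf n g s k) k) s id (k + 1) where
  lt := by
    intro i hi
    rcases Nat.lt_succ_iff_lt_or_eq.1 hi with h' | rfl
    · exact h.lt i h'
    · exact h1
  p0 := by
    intro i hi
    rcases Nat.lt_succ_iff_lt_or_eq.1 hi with h' | rfl
    · exact h.p0 i h'
    · exact h2
  p := by
    intro i hi
    rcases Nat.lt_succ_iff_lt_or_eq.1 hi with h' | rfl
    · rw [Function.update_of_ne (h3 i h')]; exact h.p i h'
    · rw [Function.update_self]
  c := by
    intro i hi
    rcases Nat.lt_succ_iff_lt_or_eq.1 hi with h' | rfl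
    · rw [Function.update_of_ne (h3 i h')]; exact h.c i h'
    · rw [Function.update_self]
  i := by
    intro i hi
    rcases Nat.lt_succ_iff_lt_or_eq.1 hi with h' | rfl
    · rw [Function.update_of_ne (h3 i h')]; exact h.i i h'
    · rw [Function.update_self]
  arc := by
    intro i hi
    by_cases hik : i + 1 < k
    · exact h.arc i hik
    · have : k = i + 1 := by omega
      subst this
      exact h4 (by omega)
  out := by
    intro v hv
    have h5 : v ≠ wf n g s k := fun e => hv k (by omega) e.symm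
    rw [Function.update_of_ne h5, Function.update_of_ne h5, Function.update_of_ne h5]
    exact h.out v (fun i hi => hv i (by omega))

theorem wk_spec (hA : PI n A g) (hirr : ∀ u, ¬ A u u) (σ : St) (h0 : σ.r 0 = n) (h1 : σ.r 1 = 0)
    (hs : σ.r 50 = s) (hid : σ.r 51 = id) (hsn : s < n) (hg : ∀ v < n, σ.a 41 v = g v)
    (hPC : ∀ v < n, ∀ w < n, g v = n + w → σ.a 42 v = 0 → σ.a 42 w = 0)
    (hPs : σ.a 42 s = 0) :
    ∃ σ' t k, Ex R cap wkC σ t σ' ∧ t ≤ 18 * k + 6 ∧ 1 ≤ k ∧
      Wk n g (σ.a 42) (σ.a 43) (σ.a 44) (σ'.a 42) (σ'.a 43) (σ'.a 44) s id k ∧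
      σ'.r 53 = 1 + k % 2 ∧ σ'.r 56 = wf n g s (k - 1) ∧
      (g (wf n g s (k - 1)) = wf n g s (k - 1) ∨ g (wf n g s (k - 1)) = n + s) ∧
      (∀ r, r ∉ wkRegs → σ'.r r = σ.r r) ∧ (∀ j, j ∉ [42, 43, 44] → σ'.a j = σ.a j) := by
  have e1 := Ex.blk (R := R) (cap := cap)
    [.copy 52 50, .const 53 1, .const 54 2, .const 55 0, .const 59 1] σ
  obtain ⟨σ1, hσ1⟩ : ∃ σ1, σ1 = run [.copy 52 50, .const 53 1, .const 54 2, .const 55 0,
    .const 59 1] σ := ⟨_, rfl⟩
  rw [← hσ1] at e1
  have A1 : σ1.r 52 = s ∧ σ1.r 53 = 1 ∧ σ1.r 54 = 2 ∧ σ1.r 55 = 0 ∧ σ1.r 59 = 1 ∧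
      (∀ r, r ∉ wkRegs → σ1.r r = σ.r r) ∧ σ1.a = σ.a := by
    subst hσ1
    simp only [run_cons, B.step, hs, run_nil, ne_eq, Nat.reduceEqDiff, not_false_eq_true, Function.update_of_ne, Function.update_self, wkRegs, List.mem_cons, List.not_mem_nil, or_false, not_or, and_imp, and_true, true_and]
    intro r r1 r2 r3 r4 r5 r6 r7 r8
    simp [r1, r2, r3, r4, r5, r6, r7, r8]
  obtain ⟨b52, b53, b54, b55, b59, breg, barr⟩ := A1
  obtain ⟨σ2, t2, e2, ⟨k, hW, c53, c54, c55, cgo, creg, carr⟩, hc, ht⟩ := loop_rule (R := R)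
    (cap := cap) (c := .ne 59 1) (p := wkBody)
    (fun σ' => ∃ k, Wk n g (σ.a 42) (σ.a 43) (σ.a 44) (σ'.a 42) (σ'.a 43) (σ'.a 44) s id k ∧
      σ'.r 53 = 1 + k % 2 ∧ σ'.r 54 = 2 - k % 2 ∧ σ'.r 55 = k ∧
      ((σ'.r 59 = 1 ∧ σ'.r 52 = wf n g s k ∧ wf n g s k < n ∧ σ.a 42 (wf n g s k) = 0 ∧
        (∀ i < k, wf n g s i ≠ wf n g s k) ∧ (0 < k → g (wf n g s (k - 1)) = n + wf n g s k)) ∨
       (σ'.r 59 = 0 ∧ 1 ≤ k ∧ σ'.r 56 = wf n g s (k - 1) ∧
        (g (wf n g s (k - 1)) = wf n g s (k - 1) ∨ g (wf n g s (k - 1)) = n + s))) ∧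
      (∀ r, r ∉ wkRegs → σ'.r r = σ.r r) ∧ (∀ j, j ∉ [42, 43, 44] → σ'.a j = σ.a j))
    (fun σ' => 18 * (n - σ'.r 55))
    (by
      rintro σ' ⟨k, hW, c53, c54, c55, cgo, creg, carr⟩ hc
      simp only [Test.holds] at hc
      rw [creg 1 (by decide), h1] at hc
      rcases cgo with ⟨_, c52, hlt, hp0, hnew, harc⟩ | ⟨c59, _⟩
      swap
      · exact absurd c59 hc
      have hW' := hW.snoc hlt hp0 hnew harc
      have hkn := hW'.le
      set v := wf n g s k with hv
      have f1 := Ex.blk (R := R) (cap := cap) [.store 42 52 53, .store 43 52 51, .store 44 52 55,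
        .copy 56 52, .copy 58 53, .copy 53 54, .copy 54 58, .inc 55, .load 41 57 52] σ'
      obtain ⟨u1, hu1⟩ : ∃ u1, u1 = run [.store 42 52 53, .store 43 52 51, .store 44 52 55,
        .copy 56 52, .copy 58 53, .copy 53 54, .copy 54 58, .inc 55, .load 41 57 52] σ' := ⟨_, rfl⟩
      rw [← hu1] at f1
      have c51 : σ'.r 51 = id := by rw [creg 51 (by decide)]; exact hid
      have B1 : u1.r 52 = v ∧ u1.r 53 = 1 + (k + 1) % 2 ∧ u1.r 54 = 2 - (k + 1) % 2 ∧
          u1.r 55 = k + 1 ∧ u1.r 56 = v ∧ u1.r 57 = g v ∧ u1.r 59 = σ'.r 59 ∧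
          (∀ r, r ∉ wkRegs → u1.r r = σ'.r r) ∧
          u1.a 42 = update (σ'.a 42) v (1 + k % 2) ∧ u1.a 43 = update (σ'.a 43) v id ∧
          u1.a 44 = update (σ'.a 44) v k ∧ (∀ j, j ∉ [42, 43, 44] → u1.a j = σ'.a j) := by
        subst hu1
        simp only [run_cons, run_nil, B.step]
        have c41 : σ'.a 41 = σ.a 41 := carr 41 (by decide)
        refine ⟨by simp only [c52, ne_eq, Nat.reduceEqDiff, not_false_eq_true, Function.update_of_ne, Function.update_self, Nat.succ_ne_self], by simp only [ne_eq, Nat.reduceEqDiff, not_false_eq_true, Function.update_of_ne, c54, Function.update_self, Nat.succ_ne_self]; omega, by simp only [ne_eq, Nat.reduceEqDiff, not_false_eq_true, Function.update_of_ne, c53, Function.update_self, Nat.succ_ne_self]; omega, by simp only [ne_eq, Nat.reduceEqDiff, not_false_eq_true, Function.update_of_ne, Function.update_self, Nat.succ_ne_self, c55, Nat.add_left_cancel_iff],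
          by simp only [c52, ne_eq, Nat.reduceEqDiff, not_false_eq_true, Function.update_of_ne, Function.update_self, Nat.succ_ne_self], by simp only [c52, ne_eq, Nat.reduceEqDiff, not_false_eq_true, Function.update_of_ne, Function.update_self, Nat.succ_ne_self, c41, hg v hlt], by simp only [ne_eq, Nat.reduceEqDiff, not_false_eq_true, Function.update_of_ne, Function.update_self, Nat.succ_ne_self], ?_, ?_, ?_, ?_, ?_⟩
        · intro r hr
          simp only [wkRegs, List.mem_cons, List.not_mem_nil, or_false, not_or] at hr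
          simp only [ne_eq, Nat.reduceEqDiff, not_false_eq_true, Function.update_of_ne, Function.update_self, Nat.succ_ne_self, hr]
        · simp [c52, c53]
        · simp [c52, c51]
        · simp [c52, c55]
        · intro j hj
          simp only [List.mem_cons, List.not_mem_nil, or_false, not_or] at hj
          simp [hj]
      obtain ⟨d52, d53, d54, d55, d56, d57, d59, dreg, d42, d43, d44, darr⟩ := B1
      rw [← d42, ← d43, ← d44] at hW'
      have dreg' : ∀ r, r ∉ wkRegs → u1.r r = σ.r r := fun r hr => by rw [dreg r hr, creg r hr]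
      have darr' : ∀ j, j ∉ [42, 43, 44] → u1.a j = σ.a j := fun j hj => by
        rw [darr j hj, carr j hj]
      by_cases hgv : g v = v
      · -- end of a path
        refine ⟨_, _, .seq f1 (.iteTrue ?_ (Ex.blk _ _)), ⟨k + 1, ?_, ?_, ?_, ?_,
          Or.inr ⟨?_, by (clear * - c55 d53 d55; omega), ?_, ?_⟩, ?_, ?_⟩, ?_⟩
        · simp only [Test.holds]; rw [d57, d52, hgv]
        · simp only [run_cons, run_nil, B.step]; exact hW'
        · simp only [run_cons, B.step, run_nil, ne_eq, Nat.reduceEqDiff, not_false_eq_true, Function.update_of_ne, d53, Nat.add_left_cancel_iff]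
        · simp [run_cons, run_nil, B.step, d54]
        · simp [run_cons, run_nil, B.step, d55]
        · simp [run_cons, run_nil, B.step]
        · simp only [run_cons, B.step, run_nil, ne_eq, Nat.reduceEqDiff, not_false_eq_true, Function.update_of_ne, d56, add_tsub_cancel_right]
          exact hv
        · rw [Nat.add_sub_cancel]; exact Or.inl hgv
        · intro r hr
          have hr' := hr
          simp only [wkRegs, List.mem_cons, List.not_mem_nil, or_false, not_or] at hr'
          simp [run_cons, run_nil, B.step, hr', dreg' r hr]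
        · intro j hj
          simp only [run_cons, run_nil, B.step]; exact darr' j hj
        · simp only [List.length_cons, List.length_nil, zero_add, Nat.reduceAdd, run_cons, B.step, run_nil, ne_eq, Nat.reduceEqDiff, not_false_eq_true, Function.update_of_ne, d55, c55]
          omega
      · obtain ⟨w, hw, hgw, hAvw⟩ : ∃ w < n, g v = n + w ∧ A v w :=
          (hA.out v hlt).resolve_left hgv
        have hvw : v ≠ w := by rintro rfl; exact hirr _ hAvw
        have hfw : wf n g s (k + 1) = w := by rw [wf_succ, ← hv, hgw]; (clear * -; omega)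
        have f2 := Ex.blk (R := R) (cap := cap) [.sub 52 57 0] u1
        obtain ⟨u2, hu2⟩ : ∃ u2, u2 = run [.sub 52 57 0] u1 := ⟨_, rfl⟩
        rw [← hu2] at f2
        have B2 : u2.r 52 = w ∧ (∀ r, r ≠ 52 → u2.r r = u1.r r) ∧ u2.a = u1.a := by
          subst hu2
          simp only [run_cons, run_nil, B.step]
          refine ⟨?_, ?_, trivial⟩
          · simp only [d57, hgw, dreg' 0 (by decide), h0, add_tsub_cancel_left, Function.update_self]
          · intro r hr; simp only [ne_eq, hr, not_false_eq_true, Function.update_of_ne]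
        obtain ⟨g52, greg, garr⟩ := B2
        by_cases hws : w = s
        · refine ⟨_, _, .seq f1 (.iteFalse ?_ (.seq f2 (.iteTrue ?_ (Ex.blk _ _)))),
            ⟨k + 1, ?_, ?_, ?_, ?_, Or.inr ⟨?_, by omega, ?_, ?_⟩, ?_, ?_⟩, ?_⟩
          · simp only [Test.holds]; rw [d57, d52]; exact hgv
          · simp only [Test.holds]
            rw [g52, greg 50 (by decide), dreg' 50 (by decide), hs, hws]
          · simp only [run_cons, run_nil, B.step]; rw [garr]; exact hW'
          · simp [run_cons, run_nil, B.step, greg, d53]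
          · simp [run_cons, run_nil, B.step, greg, d54]
          · simp [run_cons, run_nil, B.step, greg, d55]
          · simp [run_cons, run_nil, B.step]
          · simp only [run_cons, B.step, run_nil, ne_eq, Nat.reduceEqDiff, not_false_eq_true, Function.update_of_ne, greg, d56, add_tsub_cancel_right]
            exact hv
          · rw [Nat.add_sub_cancel]; right; rw [← hv, hgw, hws]
          · intro r hr
            have hr' := hr
            simp only [wkRegs, List.mem_cons, List.not_mem_nil, or_false, not_or] at hr'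
            simp [run_cons, run_nil, B.step, hr', greg, dreg' r hr]
          · intro j hj
            simp only [run_cons, run_nil, B.step]; rw [garr]; exact darr' j hj
          · simp only [List.length_cons, List.length_nil, zero_add, Nat.reduceAdd, run_cons, B.step, run_nil, ne_eq, Nat.reduceEqDiff, not_false_eq_true, Function.update_of_ne, greg, d55, c55]
            (clear * - c55 hkn d53 d55 hgw hfw g52; omega)
        · refine ⟨_, _, .seq f1 (.iteFalse ?_ (.seq f2 (.iteFalse ?_ (Ex.blk _ _)))),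
            ⟨k + 1, ?_, ?_, ?_, ?_, Or.inl ⟨?_, ?_, ?_, ?_, ?_, ?_⟩, ?_, ?_⟩, ?_⟩
          · simp only [Test.holds]; rw [d57, d52]; exact hgv
          · simp only [Test.holds]
            rw [g52, greg 50 (by decide), dreg' 50 (by decide), hs]
            exact hws
          · simp only [run_nil]; rw [garr]; exact hW'
          · simp [run_nil, greg, d53]
          · simp only [run_nil, ne_eq, Nat.reduceEqDiff, not_false_eq_true, greg, d54]
          · simp [run_nil, greg, d55]
          · simp only [run_nil]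
            rw [greg 59 (by decide), d59]
            assumption
          · simp only [run_nil]; rw [g52, hfw]
          · rw [hfw]; exact hw
          · rw [hfw]; exact hPC v hlt w hw hgw hp0
          · intro i hi e
            rw [hfw] at e
            rcases Nat.lt_succ_iff_lt_or_eq.1 hi with h' | rfl
            · rcases i with _ | j
              · rw [wf_zero] at e; exact hws e.symm
              · have h5 := hW.arc j h'
                rw [e] at h5
                have h6 := (hA.arc _ (hW.lt j (by (clear * - c55 d53 d55 h'; omega))) w hw).1 h5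
                have h7 := (hA.arc v hlt w hw).1 hgw
                exact hnew j (by (clear * - c55 d53 d55 h'; omega)) (h6.symm.trans h7)
            · exact hvw e
          · intro _
            rw [Nat.add_sub_cancel, hfw]; exact hgw
          · intro r hr
            have hr' := hr
            simp only [wkRegs, List.mem_cons, List.not_mem_nil, or_false, not_or] at hr'
            simp only [run_nil]
            rw [greg r (by simp [hr']), dreg' r hr]
          · intro j hj
            simp only [run_nil]; rw [garr]; exact darr' j hj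
          · simp only [List.length_cons, List.length_nil, zero_add, Nat.reduceAdd, run_nil, ne_eq, Nat.reduceEqDiff, not_false_eq_true, greg, d55, c55]
            (clear * - c55 hkn d53 d55 hgw hfw g52; omega))
    σ1 (by
      refine ⟨0, ?_, by rw [b53], by rw [b54], b55, Or.inl ⟨b59, ?_, ?_, ?_, ?_, ?_⟩, breg, ?_⟩
      · rw [barr]
        exact ⟨fun i hi => by omega, fun i hi => by omega, fun i hi => by omega,
          fun i hi => by omega, fun i hi => by omega, fun i hi => by omega,
          fun v _ => ⟨rfl, rfl, rfl⟩⟩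
      · rw [b52, wf_zero]
      · rw [wf_zero]; exact hsn
      · rw [wf_zero]; exact hPs
      · intro i hi; omega
      · intro h; omega
      · intro j _; rw [barr])
  simp only [Test.holds] at hc
  rw [creg 1 (by decide), h1] at hc
  have hz : σ2.r 59 = 0 := by
    by_contra h
    exact hc h
  rcases cgo with ⟨h59, _⟩ | ⟨_, hk1, c56, hend⟩
  · omega
  have hkn := hW.le
  refine ⟨σ2, _, k, .seq e1 e2, ?_, hk1, hW, c53, c56, hend, creg, carr⟩
  rw [b55, c55] at ht
  simp only [List.length_cons, List.length_nil]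
  (clear * - h0 b52 c55 ht hend hkn; omega)

end Vale.Agent.P305
end
end

section

section

/-! The state of the walks: theory. -/

set_option autoImplicit false

namespace Vale.Agent.P305

/-- What is known about the visited vertices (`P v ≠ 0`). -/
structure PV (n : ℕ) (A : ℕ → ℕ → Prop) (g P C I O : ℕ → ℕ) (b : ℕ) : Prop where
  cl : ∀ v < n, ∀ w < n, g v = n + w → (P v = 0 ↔ P w = 0)
  p12 : ∀ v < n, P v ≠ 0 → P v = 1 ∨ P v = 2
  par2 : ∀ w < n, P w = 2 → g (n + w) ≠ n + w
  same : ∀ v < n, ∀ w < n, P v ≠ 0 → g v = n + w → C v = C w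
  even : ∀ v < n, ∀ w < n, P v ≠ 0 → g v = n + w → O (C v) ≠ 1 → P v ≠ P w
  full : ∀ v < n, P v ≠ 0 → O (C v) = 1 → g v ≠ v ∧ g (n + v) ≠ n + v
  odd : ∀ v < n, ∀ w < n, P v ≠ 0 → g v = n + w → O (C v) = 1 →
    (I w = I v + 1 ∧ P w ≠ P v) ∨
    (I w = 0 ∧ P w = 1 ∧ P v = 1 ∧ ∀ x < n, P x ≠ 0 → C x = C v → I x ≤ I v)
  inj : ∀ v < n, ∀ w < n, P v ≠ 0 → P w ≠ 0 → O (C v) = 1 → C v = C w → I v = I w → v = w
  le : ∀ v < n, P v ≠ 0 → C v ≤ b
  walk : ∀ c ≤ n, O c = 1 → ∃ s k, k % 2 = 1 ∧
    (∀ i ≤ k, wf n g s i < n ∧ P (wf n g s i) ≠ 0 ∧ C (wf n g s i) = c) ∧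
    (∀ i < k, A (wf n g s i) (wf n g s (i + 1))) ∧ wf n g s k = wf n g s 0
  oz : ∀ c ≤ n, b < c → O c ≠ 1

variable {n : ℕ} {A : ℕ → ℕ → Prop} {g P0 C0 I0 P C I O O' : ℕ → ℕ} {s id k b b' : ℕ}

theorem PI.eq_arc (hA : PI n A g) {v v' w : ℕ} (hv : v < n) (hv' : v' < n) (hw : w < n)
    (e : g v = n + w) (e' : g v' = n + w) : v = v' := by
  rw [← (hA.arc v hv w hw).1 e, ← (hA.arc v' hv' w hw).1 e']

/-- The arcs inside and outside of the walk. -/
theorem Wk.arcs (hA : PI n A g) (h : Wk n g P0 C0 I0 P C I s id k) (hk : 1 ≤ k) (hsn : s < n)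
    (hend : (g (wf n g s (k - 1)) = wf n g s (k - 1) ∧ g (n + s) = n + s) ∨
      g (wf n g s (k - 1)) = n + s) {v w : ℕ} (hv : v < n) (hw : w < n) (e : g v = n + w) :
    ((∀ i < k, wf n g s i ≠ v) ∧ (∀ i < k, wf n g s i ≠ w)) ∨
    (∃ i, i + 1 < k ∧ v = wf n g s i ∧ w = wf n g s (i + 1)) ∨
    (v = wf n g s (k - 1) ∧ w = s ∧ g (wf n g s (k - 1)) = n + s) := by
  by_cases h1 : ∃ i < k, wf n g s i = v
  · obtain ⟨i, hi, rfl⟩ := h1
    by_cases hik : i + 1 < k
    · have := h.arc i hik
      exact Or.inr (Or.inl ⟨i, hik, rfl, by omega⟩)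
    · have : i = k - 1 := by omega
      subst this
      rcases hend with ⟨h2, _⟩ | h2
      · have := h.lt _ hi
        omega
      · exact Or.inr (Or.inr ⟨rfl, by omega, h2⟩)
  · have h1' : ∀ i < k, wf n g s i ≠ v := fun i hi e => h1 ⟨i, hi, e⟩
    by_cases h2 : ∃ i < k, wf n g s i = w
    · obtain ⟨i, hi, rfl⟩ := h2
      rcases i with _ | j
      · rw [wf_zero] at *
        rcases hend with ⟨_, h3⟩ | h3
        · have := (hA.arc v hv s hsn).1 e
          (clear * - hv e h3 this; omega)
        · exact absurd (hA.eq_arc (h.lt _ (by omega)) hv hsn h3 e) (h1' _ (by omega))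
      · exact absurd (hA.eq_arc (h.lt j (by (clear * - hi; omega))) hv hw (h.arc j hi) e) (h1' j (by omega))
    · exact Or.inl ⟨h1', fun i hi e => h2 ⟨i, hi, e⟩⟩

theorem Wk.cases (h : Wk n g P0 C0 I0 P C I s id k) (v : ℕ) :
    (∃ i < k, v = wf n g s i ∧ P v = 1 + i % 2 ∧ C v = id ∧ I v = i ∧ v < n ∧ P0 v = 0) ∨
    ((∀ i < k, wf n g s i ≠ v) ∧ P v = P0 v ∧ C v = C0 v ∧ I v = I0 v) := by
  by_cases h1 : ∃ i < k, wf n g s i = v
  · obtain ⟨i, hi, rfl⟩ := h1
    exact Or.inl ⟨i, hi, rfl, h.p i hi, h.c i hi, h.i i hi, h.lt i hi, h.p0 i hi⟩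
  · have h1' : ∀ i < k, wf n g s i ≠ v := fun i hi e => h1 ⟨i, hi, e⟩
    exact Or.inr ⟨h1', h.out v h1'⟩

theorem PV.add (hV : PV n A g P0 C0 I0 O b) (hA : PI n A g)
    (h : Wk n g P0 C0 I0 P C I s id k) (hk : 1 ≤ k) (hsn : s < n)
    (hend : (g (wf n g s (k - 1)) = wf n g s (k - 1) ∧ g (n + s) = n + s ∧ O' id ≠ 1) ∨
      (g (wf n g s (k - 1)) = n + s ∧ (O' id = 1 ↔ k % 2 = 1)))
    (hO : ∀ c, c ≠ id → O' c = O c)
    (hO2 : O' id = O id ∨ ∀ v < n, P0 v ≠ 0 → C0 v ≠ id)
    (hsep : O' id = 1 → ∀ v < n, P0 v ≠ 0 → C0 v ≠ id)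
    (hb : b ≤ b') (hidb : id ≤ b') : PV n A g P C I O' b' := by
  have hend' : (g (wf n g s (k - 1)) = wf n g s (k - 1) ∧ g (n + s) = n + s) ∨
      g (wf n g s (k - 1)) = n + s := by
    rcases hend with ⟨h1, h2, _⟩ | ⟨h1, _⟩
    · exact Or.inl ⟨h1, h2⟩
    · exact Or.inr h1
  have arcs := fun {v w : ℕ} (hv : v < n) (hw : w < n) (e : g v = n + w) =>
    h.arcs hA hk hsn hend' hv hw e
  have hOO : ∀ v < n, P0 v ≠ 0 → O' (C0 v) = O (C0 v) := by
    intro v hv hP
    by_cases hc : C0 v = id
    · rcases hO2 with h1 | h1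
      · rw [hc]; exact h1
      · exact absurd hc (h1 v hv hP)
    · exact hO _ hc
  have hs0 := h.p 0 (by omega)
  have hsC := h.c 0 (by omega)
  have hsI := h.i 0 (by omega)
  rw [wf_zero] at hs0 hsC hsI
  constructor
  · -- cl
    intro v hv w hw e
    rcases arcs hv hw e with ⟨h1, h2⟩ | ⟨i, hi, rfl, rfl⟩ | ⟨rfl, rfl, _⟩
    · rw [(h.out v h1).1, (h.out w h2).1]; exact hV.cl v hv w hw e
    · rw [h.p i (by omega), h.p _ hi]; (clear * -; omega)
    · rw [h.p _ (by omega), hs0]; omega
  · -- p12
    intro v hv hP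
    rcases h.cases v with ⟨i, _, _, e, _⟩ | ⟨_, e, _⟩
    · omega
    · rw [e] at hP ⊢; exact hV.p12 v hv hP
  · -- par2
    intro w hw hP
    rcases h.cases w with ⟨i, hi, rfl, e, _⟩ | ⟨_, e, _⟩
    · rcases i with _ | j
      · omega
      · have h1 := h.arc j hi
        have h2 := (hA.arc _ (h.lt j (by omega)) _ hw).1 h1
        have h3 := h.lt j (by omega)
        omega
    · rw [e] at hP; exact hV.par2 w hw hP
  · -- same
    intro v hv w hw hP e
    rcases arcs hv hw e with ⟨h1, h2⟩ | ⟨i, hi, rfl, rfl⟩ | ⟨rfl, rfl, _⟩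
    · rw [(h.out v h1).2.1, (h.out w h2).2.1]
      rw [(h.out v h1).1] at hP
      exact hV.same v hv w hw hP e
    · rw [h.c i (by omega), h.c _ hi]
    · rw [h.c _ (by omega), hsC]
  · -- even
    intro v hv w hw hP e hOc
    rcases arcs hv hw e with ⟨h1, h2⟩ | ⟨i, hi, rfl, rfl⟩ | ⟨rfl, rfl, hcl⟩
    · rw [(h.out v h1).1] at hP ⊢
      rw [(h.out w h2).1]
      rw [(h.out v h1).2.1, hOO v hv hP] at hOc
      exact hV.even v hv w hw hP e hOc
    · rw [h.p i (by omega), h.p _ hi]; omega
    · rw [h.c _ (by omega)] at hOc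
      rcases hend with ⟨h1, _⟩ | ⟨_, h2⟩
      · have := h.lt (k - 1) (by omega)
        omega
      · rw [h.p _ (by omega), hs0]
        have : ¬ k % 2 = 1 := fun h3 => hOc (h2.2 h3)
        (clear * - hk this; omega)
  · -- full
    intro v hv hP hOc
    rcases h.cases v with ⟨i, hi, rfl, _, e, _⟩ | ⟨_, e, e2, _⟩
    · rw [e] at hOc
      rcases hend with ⟨_, _, h1⟩ | ⟨hcl, _⟩
      · exact absurd hOc h1
      · constructor
        · by_cases hik : i + 1 < k
          · have := h.arc i hik; omega
          · have : i = k - 1 := by omega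
            subst this; omega
        · rcases i with _ | j
          · rw [wf_zero] at *
            have h2 := (hA.arc _ (h.lt (k - 1) (by omega)) _ hsn).1 hcl
            have := h.lt (k - 1) (by omega)
            omega
          · have h2 := (hA.arc _ (h.lt j (by omega)) _ hv).1 (h.arc j hi)
            have := h.lt j (by omega)
            omega
    · rw [e] at hP
      rw [e2, hOO v hv hP] at hOc
      exact hV.full v hv hP hOc
  · -- odd
    intro v hv w hw hP e hOc
    rcases arcs hv hw e with ⟨h1, h2⟩ | ⟨i, hi, rfl, rfl⟩ | ⟨rfl, rfl, hcl⟩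
    · have o1 := h.out v h1
      have o2 := h.out w h2
      rw [o1.1] at hP
      have hOc' := hOc
      rw [o1.2.1, hOO v hv hP] at hOc'
      rcases hV.odd v hv w hw hP e hOc' with h3 | ⟨h3, h4, h5, h6⟩
      · left; rw [o1.1, o1.2.2, o2.1, o2.2.2]; exact h3
      · right
        refine ⟨by rw [o2.2.2]; exact h3, by rw [o2.1]; exact h4, by rw [o1.1]; exact h5, ?_⟩
        intro x hx hPx hCx
        rcases h.cases x with ⟨i, hi, _, _, e3, _⟩ | ⟨_, e3, e4, e5⟩
        · exfalso
          rw [e3, o1.2.1] at hCx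
          rw [o1.2.1, ← hCx] at hOc
          exact hsep hOc v hv hP hCx.symm
        · rw [e5, o1.2.2]
          exact h6 x hx (by rw [← e3]; exact hPx) (by rw [← e4, ← o1.2.1]; exact hCx)
    · left
      rw [h.p i (by omega), h.p _ hi, h.i i (by omega), h.i _ hi]
      omega
    · right
      rw [h.c _ (by omega)] at hOc
      rcases hend with ⟨h1, _⟩ | ⟨_, h2⟩
      · have := h.lt (k - 1) (by omega)
        omega
      · have hk2 := h2.1 hOc
        refine ⟨hsI, by rw [hs0], by rw [h.p _ (by omega)]; (clear * - hk hk2; omega), ?_⟩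
        intro x hx hPx hCx
        rw [h.c _ (by (clear * - hk hk2; omega))] at hCx
        rcases h.cases x with ⟨i, hi, _, _, _, e3, _⟩ | ⟨_, e3, e4, e5⟩
        · rw [e3, h.i _ (by (clear * - hk hk2; omega))]; (clear A C0 I0 O b b' hV hA hO hO2 hsep hb hidb hOO hw h hsn hend' arcs hs0 hsC hsI hv hP e hcl hx hPx hCx; omega)
        · exact absurd (e4 ▸ hCx) (hsep hOc x hx (by rw [← e3]; exact hPx))
  · -- inj
    intro v hv w hw hPv hPw hOc hC hI
    rcases h.cases v with ⟨i, hi, rfl, _, e1, e2, _⟩ | ⟨_, e1, e2, e3⟩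
    · rcases h.cases w with ⟨j, hj, rfl, _, e3, e4, _⟩ | ⟨_, e3, e4, e5⟩
      · rw [e2, e4] at hI; rw [hI]
      · exfalso
        rw [e1] at hOc hC
        exact hsep hOc w hw (by rw [← e3]; exact hPw) (by rw [← e4, ← hC])
    · rcases h.cases w with ⟨j, hj, rfl, _, e4, _⟩ | ⟨_, e4, e5, e6⟩
      · exfalso
        rw [hC, e4] at hOc
        exact hsep hOc v hv (by rw [← e1]; exact hPv) (by rw [← e2, hC, e4])
      · rw [e1] at hPv
        rw [e4] at hPw
        rw [e2, hOO v hv hPv] at hOc
        exact hV.inj v hv w hw hPv hPw hOc (by rw [← e2, hC, e5]) (by rw [← e3, hI, e6])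
  · -- le
    intro v hv hP
    rcases h.cases v with ⟨i, _, _, _, e, _⟩ | ⟨_, e, e2, _⟩
    · (clear * - hidb hsC e; omega)
    · rw [e] at hP; rw [e2]; exact (hV.le v hv hP).trans hb
  · -- walk
    intro c hc hOc
    by_cases hcid : c = id
    · subst hcid
      rcases hend with ⟨_, _, h1⟩ | ⟨hcl, h2⟩
      · exact absurd hOc h1
      · have hk2 := h2.1 hOc
        have hfk : wf n g s k = s := by
          rw [show k = (k - 1) + 1 by omega, wf_succ, hcl]; (clear * -; omega)
        have hin : ∀ i ≤ k, wf n g s i < n ∧ P (wf n g s i) ≠ 0 ∧ C (wf n g s i) = c := by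
          intro i hi
          by_cases hik : i < k
          · exact ⟨h.lt i hik, by rw [h.p i hik]; omega, h.c i hik⟩
          · have : i = k := by omega
            subst this
            rw [hfk]
            exact ⟨hsn, by rw [hs0]; omega, hsC⟩
        refine ⟨s, k, hk2, hin, ?_, by rw [hfk, wf_zero]⟩
        intro i hi
        have harc : g (wf n g s i) = n + wf n g s (i + 1) := by
          by_cases hik : i + 1 < k
          · exact h.arc i hik
          · have : i = k - 1 := by omega
            subst this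
            rw [show k - 1 + 1 = k by omega, hfk]; exact hcl
        rcases hA.out _ (h.lt i hi) with e | ⟨w, hw, e, e2⟩
        · have := h.lt i hi
          (clear * - hcl hfk harc e this; omega)
        · have : w = wf n g s (i + 1) := by (clear * - hcl hfk harc e; omega)
          rw [← this]; exact e2
    · rw [hO c hcid] at hOc
      obtain ⟨s', k', h1, h2, h3, h4⟩ := hV.walk c hc hOc
      refine ⟨s', k', h1, ?_, h3, h4⟩
      intro i hi
      obtain ⟨a1, a2, a3⟩ := h2 i hi
      rcases h.cases (wf n g s' i) with ⟨j, _, _, _, _, _, _, e⟩ | ⟨_, e1, e2, _⟩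
      · exact absurd e a2
      · exact ⟨a1, by rw [e1]; exact a2, by rw [e2]; exact a3⟩
  · -- oz
    intro c hc hbc
    rw [hO c (by omega)]
    exact hV.oz c hc (by omega)

/-- When all vertices are visited. -/
theorem PV.cyc (h : PV n A g P C I O b) (hb : b ≤ n) (hall : ∀ v < n, P v ≠ 0) :
    Cyc n g P C I O where
  p12 := fun v hv => h.p12 v hv (hall v hv)
  par2 := h.par2
  same := fun v hv w hw e => h.same v hv w hw (hall v hv) e
  even := fun v hv w hw e hO => h.even v hv w hw (hall v hv) e hO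
  full := fun v hv hO => h.full v hv (hall v hv) hO
  odd := by
    intro v hv w hw e hO
    rcases h.odd v hv w hw (hall v hv) e hO with h1 | ⟨h1, h2, h3, h4⟩
    · exact Or.inl h1
    · exact Or.inr ⟨h1, h2, h3, fun x hx hC => h4 x hx (hall x hx) hC⟩
  inj := fun v hv w hw hO hC hI => h.inj v hv w hw (hall v hv) (hall w hw) hO hC hI
  le := fun v hv => (h.le v hv (hall v hv)).trans hb

/-- In the second pass every unvisited vertex has a successor. -/
theorem PV.has_out (h : PV n A g P C I O b) (hA : PI n A g)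
    (hN : ∀ w < n, g (n + w) = n + w → P w ≠ 0) {v : ℕ} (hv : v < n) (hP : P v = 0) :
    g v ≠ v := by
  classical
  set U := (Finset.range n).filter (fun v => P v = 0) with hU
  have hmem : ∀ w, w ∈ U ↔ w < n ∧ P w = 0 := by
    intro w; rw [hU, Finset.mem_filter, Finset.mem_range]
  have hpred : ∀ w ∈ U, g (n + w) ∈ U ∧ g (g (n + w)) = n + w := by
    intro w hw
    rw [hmem] at hw
    rcases hA.inn w hw.1 with e | ⟨u, hu, e, _⟩
    · exact absurd hw.2 (hN w hw.1 e)
    · have e2 := (hA.arc u hu w hw.1).2 e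
      rw [e, hmem]
      exact ⟨⟨hu, (h.cl u hu w hw.1 e2).2 hw.2⟩, e2⟩
  have hinj : Set.InjOn (fun w => g (n + w)) (U : Set ℕ) := by
    intro a ha b hb e
    have h1 := (hpred a ha).2
    have h2 := (hpred b hb).2
    simp only at e
    rw [e, h2] at h1
    omega
  have himg : U.image (fun w => g (n + w)) = U := by
    apply Finset.eq_of_subset_of_card_le
    · intro x hx
      obtain ⟨w, hw, rfl⟩ := Finset.mem_image.1 hx
      exact (hpred w hw).1
    · rw [Finset.card_image_of_injOn hinj]
  have hvU : v ∈ U := (hmem v).2 ⟨hv, hP⟩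
  rw [← himg] at hvU
  obtain ⟨w, hw, e⟩ := Finset.mem_image.1 hvU
  have h1 := (hpred w hw).2
  rw [e] at h1
  omega

end Vale.Agent.P305
end
end

section

section

/-! The two passes of the walks. -/

set_option autoImplicit false
set_option linter.unusedSimpArgs false

namespace Vale.Agent.P305

open Function (update)
open L1

variable {R : List ℕ → (ℕ → ℕ) → ℕ → Prop} {cap : ℕ}

def iniC : Cmd :=
  .seq (.blk [.const 61 0, .copy 62 0, .inc 62])
  (.loop (.lt 61 62) (.blk [.store 42 61 1, .store 43 61 1, .store 45 61 1, .store 46 61 1,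
    .inc 61]))

theorem iniC_spec (σ : St) {n : ℕ} (h0 : σ.r 0 = n) (h1 : σ.r 1 = 0) :
    ∃ σ' t, Ex R cap iniC σ t σ' ∧ t ≤ 6 * n + 10 ∧ (∀ i ≤ n, σ'.a 42 i = 0) ∧
      (∀ i ≤ n, σ'.a 43 i = 0) ∧ (∀ i ≤ n, σ'.a 45 i = 0) ∧ (∀ i ≤ n, σ'.a 46 i = 0) ∧
      (∀ r, r ∉ [61, 62] → σ'.r r = σ.r r) ∧ (∀ j, j ∉ [42, 43, 45, 46] → σ'.a j = σ.a j) := by
  have e1 := Ex.blk (R := R) (cap := cap) [.const 61 0, .copy 62 0, .inc 62] σ
  obtain ⟨σ1, hσ1⟩ : ∃ σ1, σ1 = run [.const 61 0, .copy 62 0, .inc 62] σ := ⟨_, rfl⟩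
  rw [← hσ1] at e1
  have A1 : σ1.r 61 = 0 ∧ σ1.r 62 = n + 1 ∧ (∀ r, r ∉ [61, 62] → σ1.r r = σ.r r) ∧
      σ1.a = σ.a := by
    subst hσ1
    simp only [run_cons, B.step, ne_eq, OfNat.zero_ne_ofNat, not_false_eq_true, Function.update_of_ne, h0, Function.update_self, Function.update_idem, run_nil, Nat.reduceEqDiff, Nat.add_left_cancel_iff, List.mem_cons, List.not_mem_nil, or_false, not_or, and_imp, and_true, true_and]
    intro r r1 r2
    simp [r1, r2]
  obtain ⟨b61, b62, breg, barr⟩ := A1
  obtain ⟨σ2, t2, e2, ht2, ⟨c1, creg, carr⟩, _, _⟩ := for_rule (R := R) (cap := cap)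
    (i := 61) (b := 62)
    (body := .blk [.store 42 61 1, .store 43 61 1, .store 45 61 1, .store 46 61 1, .inc 61])
    (n + 1) 5 0
    (fun k σ' => (∀ i < k, σ'.a 42 i = 0 ∧ σ'.a 43 i = 0 ∧ σ'.a 45 i = 0 ∧ σ'.a 46 i = 0) ∧
      (∀ r, r ∉ [61, 62] → σ'.r r = σ.r r) ∧ (∀ j, j ∉ [42, 43, 45, 46] → σ'.a j = σ.a j))
    (by
      rintro k σ' _ hk ⟨ha, hr, hj⟩ h61 h62
      have g1 : σ'.r 1 = 0 := by rw [hr 1 (by decide)]; exact h1
      refine ⟨_, _, Ex.blk _ _, ?_, ⟨?_, ?_, ?_⟩, ?_, ?_⟩
      · simp
      · intro i hi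
        simp only [run_cons, run_nil, B.step]
        by_cases hik : i = k
        · subst hik; simp [h61, g1]
        · have := ha i (by omega)
          simp only [h61, ne_eq, Nat.succ_ne_self, not_false_eq_true, Function.update_of_ne, Nat.reduceEqDiff, Function.update_self, hik, this, and_self]
      · intro r hr'
        simp only [run_cons, run_nil, B.step]
        have h61' : r ≠ 61 := by rintro rfl; exact hr' (by decide)
        simp [h61', hr r hr']
      · intro j hj'
        simp only [run_cons, run_nil, B.step]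
        simp only [List.mem_cons, List.not_mem_nil, or_false, not_or] at hj'
        simp [hj', hj j (by simp [hj'])]
      · simp [run_cons, run_nil, B.step, h61]
      · simp only [run_cons, B.step, ne_eq, Nat.succ_ne_self, not_false_eq_true, Function.update_of_ne, Nat.reduceEqDiff, run_nil, h62, Nat.add_left_cancel_iff])
    σ1 (by omega) ⟨fun i hi => by omega, breg, fun j _ => by rw [barr]⟩ b61 b62
  refine ⟨σ2, _, .seq e1 e2, ?_, fun i hi => (c1 i (by omega)).1,
    fun i hi => (c1 i (by omega)).2.1, fun i hi => (c1 i (by omega)).2.2.1,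
    fun i hi => (c1 i (by omega)).2.2.2, creg, carr⟩
  simp only [List.length_cons, List.length_nil]
  omega

/-- First pass: walks from the vertices without predecessor. -/
def p1Body : Cmd :=
  .seq (.blk [.load 41 63 62])
  (.seq (.ite (.eq 63 62) (.seq (.blk [.copy 50 61]) wkC) (.blk []))
    (.blk [.inc 61, .inc 62]))

def p1C : Cmd := .seq (.blk [.const 61 0, .copy 62 0, .const 51 0]) (.loop (.lt 61 0) p1Body)

def p1Regs : List ℕ := [50, 51, 52, 53, 54, 55, 56, 57, 58, 59, 61, 62, 63]

theorem wkRegs_sub : ∀ x ∈ wkRegs, x ∈ p1Regs := by decide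

variable {n : ℕ} {A : ℕ → ℕ → Prop} {g : ℕ → ℕ}

theorem p1C_spec (hA : PI n A g) (hirr : ∀ u, ¬ A u u) (σ : St) (h0 : σ.r 0 = n)
    (h1 : σ.r 1 = 0) (hg : ∀ v < 2 * n, σ.a 41 v = g v)
    (hV : PV n A g (σ.a 42) (σ.a 43) (σ.a 44) (σ.a 45) 0)
    (hP : ∀ v < n, σ.a 42 v = 0) (hO : σ.a 45 0 = 0) :
    ∃ σ' t, Ex R cap p1C σ t σ' ∧
      PV n A g (σ'.a 42) (σ'.a 43) (σ'.a 44) (σ'.a 45) 0 ∧
      (∀ w < n, g (n + w) = n + w → σ'.a 42 w ≠ 0) ∧
      t + 18 * unv n (σ'.a 42) ≤ 30 * n + 10 ∧
      (∀ r, r ∉ p1Regs → σ'.r r = σ.r r) ∧ (∀ j, j ∉ [42, 43, 44] → σ'.a j = σ.a j) := by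
  have e1 := Ex.blk (R := R) (cap := cap) [.const 61 0, .copy 62 0, .const 51 0] σ
  obtain ⟨σ1, hσ1⟩ : ∃ σ1, σ1 = run [.const 61 0, .copy 62 0, .const 51 0] σ := ⟨_, rfl⟩
  rw [← hσ1] at e1
  have A1 : σ1.r 61 = 0 ∧ σ1.r 62 = n ∧ σ1.r 51 = 0 ∧
      (∀ r, r ∉ p1Regs → σ1.r r = σ.r r) ∧ σ1.a = σ.a := by
    subst hσ1
    simp only [run_cons, run_nil, B.step]
    refine ⟨by simp, by simp [h0], by simp, ?_, trivial⟩
    intro r hr
    simp only [p1Regs, List.mem_cons, List.not_mem_nil, or_false, not_or] at hr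
    simp [hr]
  obtain ⟨b61, b62, b51, breg, barr⟩ := A1
  obtain ⟨σ2, t2, e2, ⟨c61, c62, c51, cV, cN, cM, creg, carr⟩, hc, ht⟩ := loop_rule (R := R)
    (cap := cap) (c := .lt 61 0) (p := p1Body)
    (fun σ' => σ'.r 61 ≤ n ∧ σ'.r 62 = n + σ'.r 61 ∧ σ'.r 51 = 0 ∧
      PV n A g (σ'.a 42) (σ'.a 43) (σ'.a 44) (σ'.a 45) 0 ∧
      (∀ w < σ'.r 61, g (n + w) = n + w → σ'.a 42 w ≠ 0) ∧
      (∀ w < n, g (n + w) = n + w → σ'.a 42 w ≠ 0 → w < σ'.r 61) ∧
      (∀ r, r ∉ p1Regs → σ'.r r = σ.r r) ∧ (∀ j, j ∉ [42, 43, 44] → σ'.a j = σ.a j))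
    (fun σ' => 18 * unv n (σ'.a 42) + 12 * (n - σ'.r 61))
    (by
      rintro σ' ⟨c61, c62, c51, cV, cN, cM, creg, carr⟩ hc
      simp only [Test.holds] at hc
      rw [creg 0 (by decide), h0] at hc
      set v := σ'.r 61 with hv
      have c0 : σ'.r 0 = n := by rw [creg 0 (by decide), h0]
      have c1 : σ'.r 1 = 0 := by rw [creg 1 (by decide), h1]
      have c41 : ∀ x < 2 * n, σ'.a 41 x = g x := by
        intro x hx; rw [carr 41 (by decide)]; exact hg x hx
      have f1 := Ex.blk (R := R) (cap := cap) [.load 41 63 62] σ'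
      obtain ⟨u1, hu1⟩ : ∃ u1, u1 = run [.load 41 63 62] σ' := ⟨_, rfl⟩
      rw [← hu1] at f1
      have B1 : u1.r 63 = g (n + v) ∧ (∀ r, r ≠ 63 → u1.r r = σ'.r r) ∧ u1.a = σ'.a := by
        subst hu1
        simp only [run_cons, run_nil, B.step]
        refine ⟨?_, ?_, trivial⟩
        · simp [c62, c41 (n + v) (by omega)]
        · intro r hr; simp [hr]
      obtain ⟨d63, dreg, darr⟩ := B1
      by_cases hgv : g (n + v) = n + v
      · -- a start
        have hPv : σ'.a 42 v = 0 := by
          by_contra h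
          exact absurd (cM v hc hgv h) (lt_irrefl _)
        have f2 := Ex.blk (R := R) (cap := cap) [.copy 50 61] u1
        obtain ⟨u2, hu2⟩ : ∃ u2, u2 = run [.copy 50 61] u1 := ⟨_, rfl⟩
        rw [← hu2] at f2
        have B2 : u2.r 50 = v ∧ (∀ r, r ≠ 50 → u2.r r = u1.r r) ∧ u2.a = σ'.a := by
          subst hu2
          simp only [run_cons, run_nil, B.step]
          refine ⟨?_, ?_, darr⟩
          · simp [dreg 61]; exact hv.symm
          · intro r hr; simp [hr]
        obtain ⟨g50, greg, garr⟩ := B2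
        have greg' : ∀ r, r ≠ 50 → r ≠ 63 → u2.r r = σ'.r r := fun r h1 h2 => by
          rw [greg r h1, dreg r h2]
        obtain ⟨u3, t3, k, f3, ht3, hk1, hW, _, _, hend, kreg, karr⟩ := wk_spec (R := R)
          (cap := cap) (id := 0) hA hirr u2 (by rw [greg' 0 (by decide) (by decide), c0])
          (by rw [greg' 1 (by decide) (by decide), c1]) g50
          (by rw [greg' 51 (by decide) (by decide), c51]) hc
          (by intro x hx; rw [garr]; exact c41 x (by omega))
          (by
            intro x hx w hw e h2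
            rw [garr] at h2 ⊢
            exact (cV.cl x hx w hw e).1 h2)
          (by rw [garr]; exact hPv)
        rw [garr] at hW
        have harr : ∀ j, j ∉ [42, 43, 44] → u3.a j = σ.a j := fun j hj => by
          rw [karr j hj, garr, carr j hj]
        have hend' : g (wf n g v (k - 1)) = wf n g v (k - 1) := by
          rcases hend with h | h
          · exact h
          · have h2 := (hA.arc _ (hW.lt (k - 1) (by omega)) v hc).1 h
            have := hW.lt (k - 1) (by omega)
            omega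
        have hV' := cV.add (O' := u3.a 45) hA hW hk1 hc
          (Or.inl ⟨hend', hgv, by rw [harr 45 (by decide), hO]; decide⟩)
          (fun c _ => by rw [harr 45 (by decide), carr 45 (by decide)])
          (Or.inl (by rw [harr 45 (by decide), carr 45 (by decide)]))
          (fun h => by rw [harr 45 (by decide), hO] at h; omega) (le_refl 0) (le_refl 0)
        have hunv := hW.unv
        have k61 : u3.r 61 = v := by
          rw [kreg 61 (by decide), greg' 61 (by decide) (by decide)]
        have k62 : u3.r 62 = n + v := by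
          rw [kreg 62 (by decide), greg' 62 (by decide) (by decide), c62]
        have k51 : u3.r 51 = 0 := by
          rw [kreg 51 (by decide), greg' 51 (by decide) (by decide), c51]
        refine ⟨_, _, .seq f1 (.seq (.iteTrue ?_ (.seq f2 f3)) (Ex.blk _ _)),
          ⟨?_, ?_, ?_, ?_, ?_, ?_, ?_, ?_⟩, ?_⟩
        · simp only [Test.holds]; rw [d63, dreg 62 (by decide), c62]; exact hgv
        · simp [run_cons, run_nil, B.step, k61]; omega
        · simp only [run_cons, B.step, k61, ne_eq, Nat.succ_ne_self, not_false_eq_true, Function.update_of_ne, k62, run_nil, Function.update_self, Nat.reduceEqDiff]; omega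
        · simp [run_cons, run_nil, B.step, k51]
        · simp only [run_cons, run_nil, B.step]; exact hV'
        · intro w hw e
          simp [run_cons, run_nil, B.step, k61] at hw
          simp only [run_cons, run_nil, B.step]
          rcases hW.cases w with ⟨i, hi, _, e2, _⟩ | ⟨hw', e2, _⟩
          · rw [e2]; omega
          · have hwv : w ≠ v := fun h => hw' 0 (by omega) (by rw [wf_zero]; exact h.symm)
            rw [e2]
            exact cN w (by (clear * - b62 c62 c0 hgv g50 k61 k62 e hw hwv; omega)) e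
        · intro w hw e hPw
          simp only [run_cons, run_nil, B.step] at hPw
          simp [run_cons, run_nil, B.step, k61]
          rcases hW.cases w with ⟨i, hi, e2, _⟩ | ⟨_, e2, _⟩
          · rcases i with _ | j
            · rw [wf_zero] at e2; (clear * - b62 c62 c0 hgv g50 k61 k62 e e2; omega)
            · have h3 := hW.arc j hi
              rw [← e2] at h3
              have h4 := (hA.arc _ (hW.lt j (by omega)) w hw).1 h3
              have := hW.lt j (by omega)
              (clear * - b62 c62 c0 hgv g50 k61 k62 e e2 h3 h4 this; omega)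
          · rw [e2] at hPw
            have := cM w hw e hPw
            (clear * - b62 c62 c0 hgv g50 k61 k62 e this; omega)
        · intro r hr
          have hr' := hr
          simp only [p1Regs, List.mem_cons, List.not_mem_nil, or_false, not_or] at hr'
          simp only [run_cons, run_nil, B.step]
          rw [Function.update_of_ne (by simp [hr']), Function.update_of_ne (by simp [hr']),
            kreg r (fun h => hr (wkRegs_sub r h)), greg' r (by simp [hr']) (by simp [hr']), creg r hr]
        · intro j hj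
          simp only [run_cons, run_nil, B.step]; exact harr j hj
        · simp only [List.length_cons, List.length_nil, zero_add, Nat.reduceAdd, run_cons, B.step, k61, ne_eq, Nat.succ_ne_self, not_false_eq_true, Function.update_of_ne, run_nil, Nat.reduceEqDiff, Function.update_self]
          omega
      · refine ⟨_, _, .seq f1 (.seq (.iteFalse ?_ (Ex.blk _ _)) (Ex.blk _ _)),
          ⟨?_, ?_, ?_, ?_, ?_, ?_, ?_, ?_⟩, ?_⟩
        · simp only [Test.holds]; rw [d63, dreg 62 (by decide), c62]; exact hgv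
        · simp [run_cons, run_nil, B.step, dreg 61]; omega
        · simp only [run_nil, run_cons, B.step, ne_eq, Nat.reduceEqDiff, not_false_eq_true, dreg 61, Nat.succ_ne_self, Function.update_of_ne, dreg 62, c62, Function.update_self]; omega
        · simp [run_cons, run_nil, B.step, dreg 51, c51]
        · simp only [run_cons, run_nil, B.step]; rw [darr]; exact cV
        · intro w hw e
          simp [run_cons, run_nil, B.step, dreg 61] at hw
          simp only [run_cons, run_nil, B.step]; rw [darr]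
          by_cases hwv : w = v
          · subst hwv; exact absurd e hgv
          · exact cN w (by omega) e
        · intro w hw e hPw
          simp only [run_cons, run_nil, B.step] at hPw
          rw [darr] at hPw
          simp [run_cons, run_nil, B.step, dreg 61]
          have := cM w hw e hPw
          omega
        · intro r hr
          have hr' := hr
          simp only [p1Regs, List.mem_cons, List.not_mem_nil, or_false, not_or] at hr'
          simp [run_cons, run_nil, B.step, hr', dreg r, creg r hr]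
        · intro j hj
          simp only [run_cons, run_nil, B.step]; rw [darr]; exact carr j hj
        · simp only [List.length_cons, List.length_nil, zero_add, Nat.reduceAdd, run_nil, run_cons, B.step, ne_eq, Nat.reduceEqDiff, not_false_eq_true, dreg 61, darr, Nat.succ_ne_self, Function.update_of_ne, Function.update_self]
          (clear * - b62 c62 hc c0; omega))
    σ1 (by
      refine ⟨by omega, by omega, b51, ?_, ?_, ?_, breg, fun j _ => by rw [barr]⟩
      · rw [barr]; exact hV
      · intro w hw; omega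
      · intro w hw _ h
        rw [barr] at h
        exact absurd (hP w hw) h)
  simp only [Test.holds] at hc
  rw [creg 0 (by decide), h0] at hc
  have h61 : σ2.r 61 = n := by omega
  refine ⟨σ2, _, .seq e1 e2, cV, fun w hw => cN w (by omega), ?_, creg, carr⟩
  rw [barr, b61] at ht
  have hu : unv n (σ.a 42) ≤ n := by
    unfold unv
    exact (Finset.card_filter_le _ _).trans (by simp)
  simp only [List.length_cons, List.length_nil]
  omega

/-- Second pass: the cycles. -/
def p2Body : Cmd :=
  .seq (.blk [.load 42 63 61])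
  (.seq (.ite (.eq 63 1)
      (.seq (.blk [.copy 50 61, .copy 51 61, .inc 51])
      (.seq wkC
        (.ite (.eq 53 64)
          (.blk [.store 45 51 65, .store 46 51 65, .store 47 51 56, .store 48 51 56])
          (.blk []))))
      (.blk []))
    (.blk [.inc 61]))

def p2C : Cmd := .seq (.blk [.const 61 0, .const 64 2, .const 65 1]) (.loop (.lt 61 0) p2Body)

def p2Regs : List ℕ := [50, 51, 52, 53, 54, 55, 56, 57, 58, 59, 61, 63, 64, 65]
def p2Arrs : List ℕ := [42, 43, 44, 45, 46, 47, 48]

theorem wkRegs_sub2 : ∀ x ∈ wkRegs, x ∈ p2Regs := by decide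
theorem p2Arrs_sub : ∀ x ∈ [42, 43, 44], x ∈ p2Arrs := by decide

/-- The initial state of the pairing. -/
structure PT (n : ℕ) (P C O T D Y : ℕ → ℕ) : Prop where
  eq : ∀ c ≤ n, T c = O c
  d : ∀ c ≤ n, O c = 1 → D c < n ∧ P (D c) ≠ 0 ∧ C (D c) = c ∧ Y c = D c

theorem p2C_spec (hA : PI n A g) (hirr : ∀ u, ¬ A u u) (σ : St) (h0 : σ.r 0 = n)
    (h1 : σ.r 1 = 0) (hg : ∀ v < 2 * n, σ.a 41 v = g v)
    (hV : PV n A g (σ.a 42) (σ.a 43) (σ.a 44) (σ.a 45) 0)
    (hN : ∀ w < n, g (n + w) = n + w → σ.a 42 w ≠ 0)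
    (hT : PT n (σ.a 42) (σ.a 43) (σ.a 45) (σ.a 46) (σ.a 47) (σ.a 48)) :
    ∃ σ' t, Ex R cap p2C σ t σ' ∧ t ≤ 18 * unv n (σ.a 42) + 18 * n + 10 ∧
      PV n A g (σ'.a 42) (σ'.a 43) (σ'.a 44) (σ'.a 45) n ∧ (∀ w < n, σ'.a 42 w ≠ 0) ∧
      PT n (σ'.a 42) (σ'.a 43) (σ'.a 45) (σ'.a 46) (σ'.a 47) (σ'.a 48) ∧ σ'.r 64 = 2 ∧
      σ'.r 65 = 1 ∧
      (∀ r, r ∉ p2Regs → σ'.r r = σ.r r) ∧ (∀ j, j ∉ p2Arrs → σ'.a j = σ.a j) := by
  have e1 := Ex.blk (R := R) (cap := cap) [.const 61 0, .const 64 2, .const 65 1] σ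
  obtain ⟨σ1, hσ1⟩ : ∃ σ1, σ1 = run [.const 61 0, .const 64 2, .const 65 1] σ := ⟨_, rfl⟩
  rw [← hσ1] at e1
  have A1 : σ1.r 61 = 0 ∧ σ1.r 64 = 2 ∧ σ1.r 65 = 1 ∧
      (∀ r, r ∉ p2Regs → σ1.r r = σ.r r) ∧ σ1.a = σ.a := by
    subst hσ1
    simp only [run_cons, run_nil, B.step]
    refine ⟨by simp, by simp, by simp, ?_, trivial⟩
    intro r hr
    simp only [p2Regs, List.mem_cons, List.not_mem_nil, or_false, not_or] at hr
    simp [hr]
  obtain ⟨b61, b64, b65, breg, barr⟩ := A1
  obtain ⟨σ2, t2, e2, ⟨c61, c64, c65, cV, cN, cM, cT, creg, carr⟩, hc, ht⟩ := loop_rule (R := R)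
    (cap := cap) (c := .lt 61 0) (p := p2Body)
    (fun σ' => σ'.r 61 ≤ n ∧ σ'.r 64 = 2 ∧ σ'.r 65 = 1 ∧
      PV n A g (σ'.a 42) (σ'.a 43) (σ'.a 44) (σ'.a 45) (σ'.r 61) ∧
      (∀ w < n, g (n + w) = n + w → σ'.a 42 w ≠ 0) ∧
      (∀ w < σ'.r 61, σ'.a 42 w ≠ 0) ∧
      PT n (σ'.a 42) (σ'.a 43) (σ'.a 45) (σ'.a 46) (σ'.a 47) (σ'.a 48) ∧
      (∀ r, r ∉ p2Regs → σ'.r r = σ.r r) ∧ (∀ j, j ∉ p2Arrs → σ'.a j = σ.a j))
    (fun σ' => 18 * unv n (σ'.a 42) + 18 * (n - σ'.r 61))
    (by
      rintro σ' ⟨c61, c64, c65, cV, cN, cM, cT, creg, carr⟩ hc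
      simp only [Test.holds] at hc
      rw [creg 0 (by decide), h0] at hc
      set v := σ'.r 61 with hv
      have c0 : σ'.r 0 = n := by rw [creg 0 (by decide), h0]
      have c1 : σ'.r 1 = 0 := by rw [creg 1 (by decide), h1]
      have c41 : ∀ x < 2 * n, σ'.a 41 x = g x := by
        intro x hx; rw [carr 41 (by decide)]; exact hg x hx
      have f1 := Ex.blk (R := R) (cap := cap) [.load 42 63 61] σ'
      obtain ⟨u1, hu1⟩ : ∃ u1, u1 = run [.load 42 63 61] σ' := ⟨_, rfl⟩
      rw [← hu1] at f1
      have B1 : u1.r 63 = σ'.a 42 v ∧ (∀ r, r ≠ 63 → u1.r r = σ'.r r) ∧ u1.a = σ'.a := by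
        subst hu1
        simp only [run_cons, run_nil, B.step]
        refine ⟨?_, ?_, trivial⟩
        · simp [hv]
        · intro r hr; simp [hr]
      obtain ⟨d63, dreg, darr⟩ := B1
      by_cases hPv : σ'.a 42 v = 0
      · have f2 := Ex.blk (R := R) (cap := cap) [.copy 50 61, .copy 51 61, .inc 51] u1
        obtain ⟨u2, hu2⟩ : ∃ u2, u2 = run [.copy 50 61, .copy 51 61, .inc 51] u1 := ⟨_, rfl⟩
        rw [← hu2] at f2
        have B2 : u2.r 50 = v ∧ u2.r 51 = v + 1 ∧
            (∀ r, r ≠ 50 → r ≠ 51 → u2.r r = u1.r r) ∧ u2.a = σ'.a := by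
          subst hu2
          simp only [run_cons, run_nil, B.step]
          refine ⟨?_, ?_, ?_, darr⟩
          · simp [dreg 61]; exact hv.symm
          · simp [dreg 61]; exact hv.symm
          · intro r hr hr'; simp [hr, hr']
        obtain ⟨g50, g51, greg, garr⟩ := B2
        have greg' : ∀ r, r ≠ 50 → r ≠ 51 → r ≠ 63 → u2.r r = σ'.r r := fun r h1 h2 h3 => by
          rw [greg r h1 h2, dreg r h3]
        obtain ⟨u3, t3, k, f3, ht3, hk1, hW, k53, k56, hend, kreg, karr⟩ := wk_spec (R := R)
          (cap := cap) (id := v + 1) hA hirr u2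
          (by rw [greg' 0 (by decide) (by decide) (by decide), c0])
          (by rw [greg' 1 (by decide) (by decide) (by decide), c1]) g50 g51 hc
          (by intro x hx; rw [garr]; exact c41 x (by omega))
          (by
            intro x hx w hw e h2
            rw [garr] at h2 ⊢
            exact (cV.cl x hx w hw e).1 h2)
          (by rw [garr]; exact hPv)
        rw [garr] at hW
        have hlast := hW.lt (k - 1) (by omega)
        have hcl : g (wf n g v (k - 1)) = n + v := by
          rcases hend with h | h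
          · exact absurd h (cV.has_out hA cN hlast (hW.p0 (k - 1) (by omega)))
          · exact h
        have hunv := hW.unv
        have hsepC : ∀ x < n, σ'.a 42 x ≠ 0 → σ'.a 43 x ≠ v + 1 := by
          intro x hx h e
          have := cV.le x hx h
          omega
        have harr : ∀ j, j ∉ [42, 43, 44] → u3.a j = σ'.a j := fun j hj => by
          rw [karr j hj, garr]
        have k61 : u3.r 61 = v := by
          rw [kreg 61 (by decide), greg' 61 (by decide) (by decide) (by decide)]
        have k51 : u3.r 51 = v + 1 := by rw [kreg 51 (by decide), g51]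
        have k64 : u3.r 64 = 2 := by
          rw [kreg 64 (by decide), greg' 64 (by decide) (by decide) (by decide), c64]
        have k65 : u3.r 65 = 1 := by
          rw [kreg 65 (by decide), greg' 65 (by decide) (by decide) (by decide), c65]
        have kregs : ∀ r, r ∉ p2Regs → u3.r r = σ.r r := by
          intro r hr
          have hr' := hr
          simp only [p2Regs, List.mem_cons, List.not_mem_nil, or_false, not_or] at hr'
          rw [kreg r (fun h => hr (wkRegs_sub2 r h)), greg' r (by simp [hr']) (by simp [hr']) (by simp [hr']),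
            creg r hr]
        have karrs : ∀ j, j ∉ p2Arrs → u3.a j = σ.a j := by
          intro j hj
          rw [harr j (fun h => hj (p2Arrs_sub j h)), carr j hj]
        have hN' : ∀ w < n, g (n + w) = n + w → u3.a 42 w ≠ 0 := by
          intro w hw e
          rcases hW.cases w with ⟨i, hi, _, e2, _⟩ | ⟨hw', e2, _⟩
          · rw [e2]; omega
          · rw [e2]; exact cN w hw e
        have hM' : ∀ w < v + 1, u3.a 42 w ≠ 0 := by
          intro w hw
          rcases hW.cases w with ⟨i, hi, _, e2, _⟩ | ⟨hw', e2, _⟩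
          · rw [e2]; omega
          · have hwv : w ≠ v := fun h => hw' 0 (by omega) (by rw [wf_zero]; exact h.symm)
            rw [e2]; exact cM w (by (clear * - g50 g51 k61 k51 hw hwv; omega))
        have hD : ∀ x < n, σ'.a 42 x ≠ 0 → u3.a 42 x ≠ 0 ∧ u3.a 43 x = σ'.a 43 x := by
          intro x hx h
          rcases hW.cases x with ⟨i, hi, _, _, _, _, _, e2⟩ | ⟨_, e2, e3, _⟩
          · exact absurd e2 h
          · exact ⟨by rw [e2]; exact h, e3⟩
        have hoz : ∀ c ≤ n, v < c → σ'.a 45 c ≠ 1 := cV.oz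
        by_cases hk2 : k % 2 = 1
        · -- odd
          have f4 := Ex.blk (R := R) (cap := cap) [.store 45 51 65, .store 46 51 65,
            .store 47 51 56, .store 48 51 56] u3
          obtain ⟨u4, hu4⟩ : ∃ u4, u4 = run [.store 45 51 65, .store 46 51 65,
            .store 47 51 56, .store 48 51 56] u3 := ⟨_, rfl⟩
          rw [← hu4] at f4
          have B4 : u4.r = u3.r ∧ u4.a 45 = update (σ'.a 45) (v + 1) 1 ∧
              u4.a 46 = update (σ'.a 46) (v + 1) 1 ∧
              u4.a 47 = update (σ'.a 47) (v + 1) (wf n g v (k - 1)) ∧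
              u4.a 48 = update (σ'.a 48) (v + 1) (wf n g v (k - 1)) ∧
              (∀ j, j ∉ [45, 46, 47, 48] → u4.a j = u3.a j) := by
            subst hu4
            simp only [run_cons, run_nil, B.step]
            have q1 := harr 45 (by decide)
            have q2 := harr 46 (by decide)
            have q3 := harr 47 (by decide)
            have q4 := harr 48 (by decide)
            refine ⟨trivial, ?_, ?_, ?_, ?_, ?_⟩
            · simp [k51, k65, q1]
            · simp [k51, k65, q2]
            · simp only [k51, ne_eq, Nat.succ_ne_self, not_false_eq_true, Function.update_of_ne, Nat.reduceEqDiff, q3, k56, Function.update_self]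
            · simp only [k51, ne_eq, Nat.succ_ne_self, not_false_eq_true, Function.update_of_ne, Nat.reduceEqDiff, k56, q4, Function.update_self]
            · intro j hj
              simp only [List.mem_cons, List.not_mem_nil, or_false, not_or] at hj
              simp only [ne_eq, Nat.succ_ne_self, not_false_eq_true, Function.update_of_ne, Nat.reduceEqDiff, hj]
          obtain ⟨lr, l45, l46, l47, l48, larr⟩ := B4
          have l42 := larr 42 (by decide)
          have l43 := larr 43 (by decide)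
          have l44 := larr 44 (by decide)
          have hV' : PV n A g (u4.a 42) (u4.a 43) (u4.a 44) (u4.a 45) (v + 1) := by
            rw [l42, l43, l44, l45]
            exact cV.add hA hW hk1 hc (Or.inr ⟨hcl, by rw [Function.update_self]; (clear * - hend hk2; tauto)⟩)
              (fun c hc' => by rw [Function.update_of_ne hc'])
              (Or.inr hsepC) (fun _ => hsepC) (by omega) le_rfl
          have hT' : PT n (u4.a 42) (u4.a 43) (u4.a 45) (u4.a 46) (u4.a 47) (u4.a 48) := by
            rw [l42, l43, l45, l46, l47, l48]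
            constructor
            · intro c hc'
              by_cases hcv : c = v + 1
              · subst hcv; rw [Function.update_self, Function.update_self]
              · rw [Function.update_of_ne hcv, Function.update_of_ne hcv]; exact cT.eq c hc'
            · intro c hc' hO
              by_cases hcv : c = v + 1
              · subst hcv
                rw [Function.update_self, Function.update_self]
                refine ⟨hlast, ?_, hW.c _ (by omega), rfl⟩
                rw [hW.p _ (by omega)]; omega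
              · rw [Function.update_of_ne hcv] at hO
                rw [Function.update_of_ne hcv, Function.update_of_ne hcv]
                obtain ⟨a1, a2, a3, a4⟩ := cT.d c hc' hO
                obtain ⟨a5, a6⟩ := hD _ a1 a2
                exact ⟨a1, a5, by rw [a6, a3], a4⟩
          refine ⟨_, _, .seq f1 (.seq (.iteTrue ?_ (.seq f2 (.seq f3 (.iteTrue ?_ f4))))
            (Ex.blk _ _)), ⟨?_, ?_, ?_, ?_, ?_, ?_, ?_, ?_, ?_⟩, ?_⟩
          · simp only [Test.holds]; rw [d63, dreg 1 (by decide), c1]; exact hPv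
          · simp only [Test.holds]; rw [k53, k64]; omega
          · simp only [run_cons, B.step, lr, k61, run_nil, Function.update_self, Order.add_one_le_iff]; omega
          · simp [run_cons, run_nil, B.step, lr, k64]
          · simp [run_cons, run_nil, B.step, lr, k65]
          · simp only [run_cons, run_nil, B.step]
            simp only [Function.update_self, lr, k61]
            exact hV'
          · intro w hw e
            simp only [run_cons, run_nil, B.step]; rw [l42]; exact hN' w hw e
          · intro w hw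
            simp only [run_cons, run_nil, B.step, Function.update_self, lr, k61] at hw ⊢
            rw [l42]; exact hM' w hw
          · simp only [run_cons, run_nil, B.step]; exact hT'
          · intro r hr
            have hr' := hr
            simp only [p2Regs, List.mem_cons, List.not_mem_nil, or_false, not_or] at hr'
            simp only [run_cons, run_nil, B.step]
            rw [Function.update_of_ne (by simp [hr']), lr, kregs r hr]
          · intro j hj
            simp only [run_cons, run_nil, B.step]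
            rw [larr j (fun h => hj ((by decide : ∀ x ∈ [45, 46, 47, 48], x ∈ p2Arrs) j h)),
              karrs j hj]
          · simp only [List.length_cons, List.length_nil, zero_add, Nat.reduceAdd, run_cons, B.step, lr, k61, run_nil, l42, Function.update_self]
            omega
        · -- even
          have hV' : PV n A g (u3.a 42) (u3.a 43) (u3.a 44) (u3.a 45) (v + 1) := by
            have h45 := harr 45 (by decide)
            refine cV.add hA hW hk1 hc (Or.inr ⟨hcl, ?_⟩)
              (fun c hc' => by rw [h45]) (Or.inl (by rw [h45])) (fun _ => hsepC) (by omega) le_rfl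
            rw [h45]
            constructor
            · intro h; exact absurd h (hoz (v + 1) (by (clear * - hc c0 g50 g51 hcl k61 k51; omega)) (by omega))
            · intro h; exact absurd h hk2
          have hT' : PT n (u3.a 42) (u3.a 43) (u3.a 45) (u3.a 46) (u3.a 47) (u3.a 48) := by
            rw [harr 45 (by decide), harr 46 (by decide), harr 47 (by decide), harr 48 (by decide)]
            refine ⟨cT.eq, ?_⟩
            intro c hc' hO
            obtain ⟨a1, a2, a3, a4⟩ := cT.d c hc' hO
            obtain ⟨a5, a6⟩ := hD _ a1 a2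
            exact ⟨a1, a5, by rw [a6, a3], a4⟩
          refine ⟨_, _, .seq f1 (.seq (.iteTrue ?_ (.seq f2 (.seq f3 (.iteFalse ?_ (Ex.blk _ _)))))
            (Ex.blk _ _)), ⟨?_, ?_, ?_, ?_, ?_, ?_, ?_, ?_, ?_⟩, ?_⟩
          · simp only [Test.holds]; rw [d63, dreg 1 (by decide), c1]; exact hPv
          · simp only [Test.holds]; rw [k53, k64]; (clear * - k53 hunv hk2; omega)
          · simp [run_cons, run_nil, B.step, k61]; omega
          · simp [run_cons, run_nil, B.step, k64]
          · simp [run_cons, run_nil, B.step, k65]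
          · simp only [run_cons, run_nil, B.step]
            simp only [Function.update_self, k61]
            exact hV'
          · intro w hw e
            simp only [run_cons, run_nil, B.step]; exact hN' w hw e
          · intro w hw
            simp only [run_cons, run_nil, B.step, Function.update_self, k61] at hw ⊢
            exact hM' w hw
          · simp only [run_cons, run_nil, B.step]; exact hT'
          · intro r hr
            have hr' := hr
            simp only [p2Regs, List.mem_cons, List.not_mem_nil, or_false, not_or] at hr'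
            simp only [run_cons, run_nil, B.step]
            rw [Function.update_of_ne (by simp [hr']), kregs r hr]
          · intro j hj
            simp only [run_cons, run_nil, B.step]
            exact karrs j hj
          · simp only [List.length_cons, List.length_nil, zero_add, Nat.reduceAdd, run_nil, run_cons, B.step, k61, Function.update_self]
            omega
      · refine ⟨_, _, .seq f1 (.seq (.iteFalse ?_ (Ex.blk _ _)) (Ex.blk _ _)),
          ⟨?_, ?_, ?_, ?_, ?_, ?_, ?_, ?_, ?_⟩, ?_⟩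
        · simp only [Test.holds]; rw [d63, dreg 1 (by decide), c1]; exact hPv
        · simp [run_cons, run_nil, B.step, dreg 61]; omega
        · simp [run_cons, run_nil, B.step, dreg 64, c64]
        · simp [run_cons, run_nil, B.step, dreg 65, c65]
        · simp only [run_cons, run_nil, B.step, Function.update_self]
          rw [darr, dreg 61 (by decide), ← hv]
          exact ⟨cV.cl, cV.p12, cV.par2, cV.same, cV.even, cV.full, cV.odd, cV.inj,
            fun x hx h => (cV.le x hx h).trans (by omega), cV.walk,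
            fun c hc' hvc => cV.oz c hc' (by omega)⟩
        · intro w hw e
          simp only [run_cons, run_nil, B.step]; rw [darr]; exact cN w hw e
        · intro w hw
          simp only [run_cons, run_nil, B.step, Function.update_self] at hw ⊢
          rw [dreg 61 (by decide), ← hv] at hw
          rw [darr]
          by_cases hwv : w = v
          · subst hwv; exact hPv
          · exact cM w (by omega)
        · simp only [run_cons, run_nil, B.step]; rw [darr]; exact cT
        · intro r hr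
          have hr' := hr
          simp only [p2Regs, List.mem_cons, List.not_mem_nil, or_false, not_or] at hr'
          simp [run_cons, run_nil, B.step, hr', dreg r, creg r hr]
        · intro j hj
          simp only [run_cons, run_nil, B.step]; rw [darr]; exact carr j hj
        · simp only [List.length_cons, List.length_nil, zero_add, Nat.reduceAdd, run_nil, run_cons, B.step, ne_eq, Nat.reduceEqDiff, not_false_eq_true, dreg 61, darr, Function.update_self]
          omega)
    σ1 (by
      refine ⟨by omega, b64, b65, ?_, ?_, ?_, ?_, breg, fun j _ => by rw [barr]⟩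
      · rw [barr, b61]; exact hV
      · rw [barr]; exact hN
      · intro w hw; omega
      · rw [barr]; exact hT)
  simp only [Test.holds] at hc
  rw [creg 0 (by decide), h0] at hc
  have h61 : σ2.r 61 = n := by omega
  refine ⟨σ2, _, .seq e1 e2, ?_, by rw [← h61]; rw [h61] at cV ⊢; exact cV,
    fun w hw => cM w (by omega), cT, c64, c65, creg, carr⟩
  rw [barr, b61] at ht
  simp only [List.length_cons, List.length_nil]
  (clear * - c61 hc ht; omega)

end Vale.Agent.P305
end
end

section

section

/-! Pairing of adjacent odd cycles, and the final matching. -/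

set_option autoImplicit false
set_option linter.unusedSimpArgs false

namespace Vale.Agent.P305

open Function (update)
open L1

variable {R : List ℕ → (ℕ → ℕ) → ℕ → Prop} {cap : ℕ}

/-- Pairs the odd cycles of the end points of an arc. -/
def prBody : Cmd :=
  .seq (.blk [.load 43 34 2, .load 43 35 5, .load 46 36 34, .load 46 37 35])
  (.ite (.eq 34 35) (.blk [])
    (.ite (.eq 36 65)
      (.ite (.eq 37 65)
        (.blk [.store 47 34 2, .store 47 35 5, .store 48 34 5, .store 48 35 2, .store 46 34 1,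
          .store 46 35 1])
        (.blk []))
      (.blk [])))

def prC : Cmd := arcLoop prBody

def prRegs : List ℕ := [2, 3, 4, 5, 34, 35, 36, 37]

variable {n : ℕ} {A : ℕ → ℕ → Prop} {g P C I O T D Y : ℕ → ℕ}

theorem Prg.pair (h : Prg n A C O T D Y) (hG : Gr n A) {u v : ℕ} (huv : A u v)
    (hle : ∀ v < n, C v ≤ n) (hc : C u ≠ C v) (hu : T (C u) = 1) (hv : T (C v) = 1) :
    Prg n A C O (update (update T (C u) 0) (C v) 0) (update (update D (C u) u) (C v) v)
      (update (update Y (C u) v) (C v) u) := by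
  have hun := hG.lt huv
  have hvn := hG.lt' huv
  have hOu := h.tO _ (hle u hun) hu
  have hOv := h.tO _ (hle v hvn) hv
  constructor
  · intro c hc' hO
    by_cases h1 : c = C v
    · subst h1; rw [Function.update_self]; exact ⟨hvn, rfl⟩
    · rw [Function.update_of_ne h1]
      by_cases h2 : c = C u
      · subst h2; rw [Function.update_self]; exact ⟨hun, rfl⟩
      · rw [Function.update_of_ne h2]; exact h.dsg c hc' hO
  · intro c hc' hO
    by_cases h1 : c = C v
    · subst h1
      right
      refine ⟨by rw [Function.update_self], C u, hle u hun, hc, hOu, ?_, ?_, ?_, ?_⟩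
      · rw [Function.update_of_ne hc, Function.update_self]
      · rw [Function.update_self, Function.update_of_ne hc, Function.update_self]
      · rw [Function.update_of_ne hc, Function.update_self, Function.update_self]
      · rw [Function.update_self, Function.update_of_ne hc, Function.update_self]
        exact hG.symm huv
    · by_cases h2 : c = C u
      · subst h2
        right
        refine ⟨by rw [Function.update_of_ne h1, Function.update_self], C v, hle v hvn,
          Ne.symm hc, hOv, ?_, ?_, ?_, ?_⟩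
        · rw [Function.update_self]
        · rw [Function.update_of_ne h1, Function.update_self, Function.update_self]
        · rw [Function.update_self, Function.update_of_ne h1, Function.update_self]
        · rw [Function.update_of_ne h1, Function.update_self, Function.update_self]
          exact huv
      · rcases h.tt c hc' hO with ⟨h3, h4⟩ | ⟨h3, c', hc'', hne, hO', hT', h4, h5, h6⟩
        · left
          rw [Function.update_of_ne h1, Function.update_of_ne h2, Function.update_of_ne h1,
            Function.update_of_ne h2, Function.update_of_ne h1, Function.update_of_ne h2]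
          exact ⟨h3, h4⟩
        · right
          have h7 : c' ≠ C v := by rintro rfl; omega
          have h8 : c' ≠ C u := by rintro rfl; omega
          refine ⟨?_, c', hc'', hne, hO', ?_, ?_, ?_, ?_⟩
          · rw [Function.update_of_ne h1, Function.update_of_ne h2]; exact h3
          · rw [Function.update_of_ne h7, Function.update_of_ne h8]; exact hT'
          · rw [Function.update_of_ne h1, Function.update_of_ne h2, Function.update_of_ne h7,
              Function.update_of_ne h8]; exact h4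
          · rw [Function.update_of_ne h1, Function.update_of_ne h2, Function.update_of_ne h7,
              Function.update_of_ne h8]; exact h5
          · rw [Function.update_of_ne h1, Function.update_of_ne h2, Function.update_of_ne h7,
              Function.update_of_ne h8]; exact h6
  · intro c hc' hT
    apply h.tO c hc'
    by_cases h1 : c = C v
    · subst h1; rw [Function.update_self] at hT; omega
    · rw [Function.update_of_ne h1] at hT
      by_cases h2 : c = C u
      · subst h2; rw [Function.update_self] at hT; omega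
      · rw [Function.update_of_ne h2] at hT; exact hT

theorem prC_spec (σ : St) (hG : Gr n A) (hcsr : CSR n A (σ.a 4) (σ.a 5)) (h0 : σ.r 0 = n)
    (h1 : σ.r 1 = 0) (h65 : σ.r 65 = 1) (hle : ∀ v < n, σ.a 43 v ≤ n)
    (hP : Prg n A (σ.a 43) (σ.a 45) (σ.a 46) (σ.a 47) (σ.a 48)) :
    ∃ σ' t, Ex R cap prC σ t σ' ∧ t ≤ 24 * σ.a 4 n + 6 * n + 3 ∧
      Prg n A (σ'.a 43) (σ'.a 45) (σ'.a 46) (σ'.a 47) (σ'.a 48) ∧
      (∀ u v, A u v → σ'.a 46 (σ'.a 43 u) = 1 → σ'.a 46 (σ'.a 43 v) = 1 →
        σ'.a 43 u = σ'.a 43 v) ∧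
      (∀ r, r ∉ prRegs → σ'.r r = σ.r r) ∧ (∀ j, j ∉ [46, 47, 48] → σ'.a j = σ.a j) := by
  have hoffn := fun {v : ℕ} (hv : v < n) => hcsr.mono' (i := v + 1) (j := n) (by omega) le_rfl
  obtain ⟨σ', t, ex, ht, ⟨d1, d2, d3, d4⟩, _, _, _⟩ := arc_rule (R := R) (cap := cap)
    (body := prBody) (n := n) (off := σ.a 4) (adj := σ.a 5) hcsr.off0 hcsr.mono 17
    (fun v p σ' => Prg n A (σ.a 43) (σ.a 45) (σ'.a 46) (σ'.a 47) (σ'.a 48) ∧
      (∀ u < n, ∀ q, σ.a 4 u ≤ q → q < σ.a 4 (u + 1) → q < p →
        σ'.a 46 (σ.a 43 u) = 1 → σ'.a 46 (σ.a 43 (σ.a 5 q)) = 1 →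
        σ.a 43 u = σ.a 43 (σ.a 5 q)) ∧
      (∀ r, r ∉ prRegs → σ'.r r = σ.r r) ∧ (∀ j, j ∉ [46, 47, 48] → σ'.a j = σ.a j))
    (by
      rintro v p s s' _ _ ⟨a1, a2, a3, a4⟩ ha hr
      rw [ha]
      refine ⟨a1, a2, ?_, a4⟩
      intro r hr'
      rw [hr r (by simp only [prRegs, List.mem_cons, List.not_mem_nil, or_false, not_or] at hr'; omega),
        a3 r hr'])
    (by
      rintro v s hv h; exact h)
    (by
      rintro v p s hv hp1 hp2 hp3 ⟨a1, a2, a3, a4⟩ h0' h2' h3' h5' h4a h5a
      have hw : A v (σ.a 5 p) := (hcsr.mem v hv _).2 ⟨p, hp1, hp2, rfl⟩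
      set w := σ.a 5 p with hw'
      have hwn := hG.lt' hw
      have g1 : s.r 1 = 0 := by rw [a3 1 (by decide)]; exact h1
      have g65 : s.r 65 = 1 := by rw [a3 65 (by decide)]; exact h65
      have g43 : s.a 43 = σ.a 43 := a4 43 (by decide)
      have f1 := Ex.blk (R := R) (cap := cap)
        [.load 43 34 2, .load 43 35 5, .load 46 36 34, .load 46 37 35] s
      obtain ⟨u1, hu1⟩ : ∃ u1, u1 = run [.load 43 34 2, .load 43 35 5, .load 46 36 34,
        .load 46 37 35] s := ⟨_, rfl⟩
      rw [← hu1] at f1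
      have B1 : u1.r 34 = σ.a 43 v ∧ u1.r 35 = σ.a 43 w ∧ u1.r 36 = s.a 46 (σ.a 43 v) ∧
          u1.r 37 = s.a 46 (σ.a 43 w) ∧ (∀ r, r ∉ [34, 35, 36, 37] → u1.r r = s.r r) ∧
          u1.a = s.a := by
        subst hu1
        simp only [run_cons, run_nil, B.step]
        refine ⟨by simp [h2', g43], by simp [h5', g43], by simp [h2', g43],
          by simp [h5', g43], ?_, trivial⟩
        intro r hr
        simp only [List.mem_cons, List.not_mem_nil, or_false, not_or] at hr
        simp [hr]
      obtain ⟨b34, b35, b36, b37, breg, barr⟩ := B1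
      have hkeep : ∀ s' : St, s'.a = s.a →
          (σ.a 43 v = σ.a 43 w ∨ s.a 46 (σ.a 43 v) ≠ 1 ∨ s.a 46 (σ.a 43 w) ≠ 1) →
          (∀ r, r ∉ [34, 35, 36, 37] → s'.r r = s.r r) →
          (Prg n A (σ.a 43) (σ.a 45) (s'.a 46) (s'.a 47) (s'.a 48) ∧
          (∀ u < n, ∀ q, σ.a 4 u ≤ q → q < σ.a 4 (u + 1) → q < p + 1 →
            s'.a 46 (σ.a 43 u) = 1 → s'.a 46 (σ.a 43 (σ.a 5 q)) = 1 →
            σ.a 43 u = σ.a 43 (σ.a 5 q)) ∧
          (∀ r, r ∉ prRegs → s'.r r = σ.r r) ∧ (∀ j, j ∉ [46, 47, 48] → s'.a j = σ.a j)) ∧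
          s'.r 0 = n ∧ s'.r 2 = v ∧ s'.r 3 = p ∧ s'.a 4 = σ.a 4 ∧ s'.a 5 = σ.a 5 := by
        intro s' ha hcase hr
        rw [ha]
        refine ⟨⟨a1, ?_, ?_, a4⟩, by rw [hr 0 (by decide)]; exact h0',
          by rw [hr 2 (by decide)]; exact h2', by rw [hr 3 (by decide)]; exact h3', h4a, h5a⟩
        · intro u hu q hq1 hq2 hq3 hT1 hT2
          by_cases hqp : q = p
          · subst hqp
            have huv : u = v := by
              by_contra hne
              rcases Nat.lt_or_gt_of_ne hne with h | h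
              · have := hcsr.mono' (i := u + 1) (j := v) (by omega) (by omega)
                omega
              · have := hcsr.mono' (i := v + 1) (j := u) (by omega) (by omega)
                omega
            subst huv
            rcases hcase with h | h | h
            · exact h
            · exact absurd hT1 h
            · exact absurd hT2 h
          · exact a2 u hu q hq1 hq2 (by omega) hT1 hT2
        · intro r hr'
          rw [hr r (fun h => hr' ((by decide : ∀ x ∈ [34, 35, 36, 37], x ∈ prRegs) r h)),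
            a3 r hr']
      by_cases hc : σ.a 43 v = σ.a 43 w
      · obtain ⟨k1, k2, k3, k4, k5, k6⟩ := hkeep u1 barr (Or.inl hc) breg
        refine ⟨_, _, .seq f1 (.iteTrue ?_ (Ex.blk _ _)), by simp, k1, k2, k3, k4, k5, k6⟩
        simp only [Test.holds]; rw [b34, b35, hc]
      · by_cases hT1 : s.a 46 (σ.a 43 v) = 1
        · by_cases hT2 : s.a 46 (σ.a 43 w) = 1
          · have f2 := Ex.blk (R := R) (cap := cap) [.store 47 34 2, .store 47 35 5,
              .store 48 34 5, .store 48 35 2, .store 46 34 1, .store 46 35 1] u1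
            obtain ⟨u2, hu2⟩ : ∃ u2, u2 = run [.store 47 34 2, .store 47 35 5,
              .store 48 34 5, .store 48 35 2, .store 46 34 1, .store 46 35 1] u1 := ⟨_, rfl⟩
            rw [← hu2] at f2
            have B2 : u2.r = u1.r ∧
                u2.a 46 = update (update (s.a 46) (σ.a 43 v) 0) (σ.a 43 w) 0 ∧
                u2.a 47 = update (update (s.a 47) (σ.a 43 v) v) (σ.a 43 w) w ∧
                u2.a 48 = update (update (s.a 48) (σ.a 43 v) w) (σ.a 43 w) v ∧
                (∀ j, j ∉ [46, 47, 48] → u2.a j = s.a j) := by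
              subst hu2
              simp only [run_cons, run_nil, B.step]
              have q1 := breg 1 (by decide)
              have q2 := breg 2 (by decide)
              have q5 := breg 5 (by decide)
              refine ⟨trivial, ?_, ?_, ?_, ?_⟩
              · simp [b34, b35, q1, g1, barr]
              · simp only [barr, b34, q2, h2', Function.update_self, b35, q5, h5', Function.update_idem, ne_eq, Nat.succ_ne_self, not_false_eq_true, Function.update_of_ne, Nat.reduceEqDiff]
              · simp [b34, b35, q2, q5, h2', h5', barr]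
              · intro j hj
                simp only [List.mem_cons, List.not_mem_nil, or_false, not_or] at hj
                simp [hj, barr]
            obtain ⟨lr, l46, l47, l48, larr⟩ := B2
            refine ⟨u2, _, .seq f1 (.iteFalse ?_ (.iteTrue ?_ (.iteTrue ?_ f2))), by simp,
              ⟨?_, ?_, ?_, ?_⟩, ?_, ?_, ?_, ?_, ?_⟩
            · simp only [Test.holds]; rw [b34, b35]; exact hc
            · simp only [Test.holds]; rw [b36, breg 65 (by decide), g65]; exact hT1
            · simp only [Test.holds]; rw [b37, breg 65 (by decide), g65]; exact hT2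
            · rw [l46, l47, l48]
              exact a1.pair hG hw hle hc hT1 hT2
            · intro u hu q hq1 hq2 hq3 hU1 hU2
              rw [l46] at hU1 hU2
              have key : ∀ c, update (update (s.a 46) (σ.a 43 v) 0) (σ.a 43 w) 0 c = 1 →
                  s.a 46 c = 1 ∧ c ≠ σ.a 43 v ∧ c ≠ σ.a 43 w := by
                intro c hc'
                by_cases e1 : c = σ.a 43 w
                · subst e1; rw [Function.update_self] at hc'; omega
                · rw [Function.update_of_ne e1] at hc'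
                  by_cases e2 : c = σ.a 43 v
                  · subst e2; rw [Function.update_self] at hc'; omega
                  · rw [Function.update_of_ne e2] at hc'
                    exact ⟨hc', e2, e1⟩
              obtain ⟨w1, w2, w3⟩ := key _ hU1
              obtain ⟨w4, w5, w6⟩ := key _ hU2
              by_cases hqp : q = p
              · subst hqp
                exact absurd rfl w6
              · exact a2 u hu q hq1 hq2 (by omega) w1 w4
            · intro r hr'
              rw [lr, breg r (fun h => hr' ((by decide : ∀ x ∈ [34, 35, 36, 37], x ∈ prRegs) r h)),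
                a3 r hr']
            · intro j hj
              rw [larr j hj, a4 j hj]
            · rw [lr, breg 0 (by decide)]; exact h0'
            · rw [lr, breg 2 (by decide)]; exact h2'
            · rw [lr, breg 3 (by decide)]; exact h3'
            · rw [larr 4 (by decide)]; exact h4a
            · rw [larr 5 (by decide)]; exact h5a
          · obtain ⟨k1, k2, k3, k4, k5, k6⟩ := hkeep u1 barr (Or.inr (Or.inr hT2)) breg
            refine ⟨_, _, .seq f1 (.iteFalse ?_ (.iteTrue ?_ (.iteFalse ?_ (Ex.blk _ _)))), by simp,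
              k1, k2, k3, k4, k5, k6⟩
            · simp only [Test.holds]; rw [b34, b35]; exact hc
            · simp only [Test.holds]; rw [b36, breg 65 (by decide), g65]; exact hT1
            · simp only [Test.holds]; rw [b37, breg 65 (by decide), g65]; exact hT2
        · obtain ⟨k1, k2, k3, k4, k5, k6⟩ := hkeep u1 barr (Or.inr (Or.inl hT1)) breg
          refine ⟨_, _, .seq f1 (.iteFalse ?_ (.iteFalse ?_ (Ex.blk _ _))), by simp,
            k1, k2, k3, k4, k5, k6⟩
          · simp only [Test.holds]; rw [b34, b35]; exact hc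
          · simp only [Test.holds]; rw [b36, breg 65 (by decide), g65]; exact hT1)
    σ ⟨hP, fun u _ q h1 h2 h3 => by omega, fun _ _ => rfl, fun _ _ => rfl⟩ h0 rfl rfl
  refine ⟨σ', t, ex, by omega, ?_, ?_, d3, d4⟩
  · rw [d4 43 (by decide), d4 45 (by decide)]; exact d1
  · rw [d4 43 (by decide)]
    intro u v huv hT1 hT2
    have hun := hG.lt huv
    obtain ⟨q, hq1, hq2, rfl⟩ := (hcsr.mem u hun v).1 huv
    have := hoffn hun
    exact d2 u hun q hq1 hq2 (by omega) hT1 hT2

end Vale.Agent.P305
end
end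

section

section

/-! Computing the final matching; the double cover. -/

set_option autoImplicit false
set_option linter.unusedSimpArgs false

namespace Vale.Agent.P305

open Function (update)
open L1

variable {R : List ℕ → (ℕ → ℕ) → ℕ → Prop} {cap : ℕ}

/-- Register 40 gets the kind of the vertex in register 61, register 39 a default partner. -/
def kindC : Cmd :=
  .seq (.blk [.load 43 34 61, .load 45 35 34, .copy 39 61, .const 40 0, .load 42 41 61])
  (.ite (.eq 35 65)
      (.seq (.blk [.load 47 36 34])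
        (.ite (.eq 61 36) (.blk [.load 48 39 34])
          (.seq (.blk [.load 42 42 36, .load 44 43 61, .load 44 44 36])
            (.ite (.eq 41 42) (.ite (.lt 43 44) (.blk [.const 40 1]) (.blk [.const 40 2]))
              (.ite (.lt 43 44) (.blk [.const 40 2]) (.blk [.const 40 1]))))))
      (.ite (.eq 41 64) (.blk [.const 40 2])
        (.seq (.blk [.load 41 45 61]) (.ite (.eq 45 61) (.blk []) (.blk [.const 40 1])))))

def kindRegs : List ℕ := [34, 35, 36, 39, 40, 41, 42, 43, 44, 45]

variable {n : ℕ} {A : ℕ → ℕ → Prop} {g P C I O T D Y : ℕ → ℕ}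

theorem kindC_spec (σ : St) {v : ℕ} (h61 : σ.r 61 = v) (h64 : σ.r 64 = 2) (h65 : σ.r 65 = 1)
    (hg : σ.a 41 v = g v) :
    ∃ σ' t, Ex R cap kindC σ t σ' ∧ t ≤ 14 ∧
      σ'.r 40 = kd1 g (σ.a 42) (σ.a 43) (σ.a 44) (σ.a 45) (σ.a 47) v ∧
      (kd1 g (σ.a 42) (σ.a 43) (σ.a 44) (σ.a 45) (σ.a 47) v = 0 →
        σ'.r 39 = if σ.a 45 (σ.a 43 v) = 1 then σ.a 48 (σ.a 43 v) else v) ∧
      (∀ r, r ∉ kindRegs → σ'.r r = σ.r r) ∧ σ'.a = σ.a := by
  have f1 := Ex.blk (R := R) (cap := cap)
    [.load 43 34 61, .load 45 35 34, .copy 39 61, .const 40 0, .load 42 41 61] σ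
  obtain ⟨u1, hu1⟩ : ∃ u1, u1 = run [.load 43 34 61, .load 45 35 34, .copy 39 61, .const 40 0,
    .load 42 41 61] σ := ⟨_, rfl⟩
  rw [← hu1] at f1
  have B1 : u1.r 34 = σ.a 43 v ∧ u1.r 35 = σ.a 45 (σ.a 43 v) ∧ u1.r 39 = v ∧ u1.r 40 = 0 ∧
      u1.r 41 = σ.a 42 v ∧ (∀ r, r ∉ kindRegs → u1.r r = σ.r r) ∧ u1.a = σ.a := by
    subst hu1
    simp only [run_cons, run_nil, B.step]
    refine ⟨by simp [h61], by simp [h61], by simp [h61], by simp, by simp [h61], ?_, trivial⟩
    intro r hr
    simp only [kindRegs, List.mem_cons, List.not_mem_nil, or_false, not_or] at hr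
    simp [hr]
  obtain ⟨b34, b35, b39, b40, b41, breg, barr⟩ := B1
  have b61 : u1.r 61 = v := by rw [breg 61 (by decide), h61]
  have b64 : u1.r 64 = 2 := by rw [breg 64 (by decide), h64]
  have b65 : u1.r 65 = 1 := by rw [breg 65 (by decide), h65]
  by_cases hO : σ.a 45 (σ.a 43 v) = 1
  · have f2 := Ex.blk (R := R) (cap := cap) [.load 47 36 34] u1
    obtain ⟨u2, hu2⟩ : ∃ u2, u2 = run [.load 47 36 34] u1 := ⟨_, rfl⟩
    rw [← hu2] at f2
    have B2 : u2.r 36 = σ.a 47 (σ.a 43 v) ∧ (∀ r, r ≠ 36 → u2.r r = u1.r r) ∧ u2.a = σ.a := by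
      subst hu2
      simp only [run_cons, run_nil, B.step]
      refine ⟨by simp [b34, barr], ?_, barr⟩
      intro r hr
      simp [hr]
    obtain ⟨c36, creg, carr⟩ := B2
    have t1 : (Test.eq 35 65).holds u1.r := by simp only [Test.holds]; rw [b35, b65, hO]
    by_cases hD : v = σ.a 47 (σ.a 43 v)
    · have hk : kd1 g (σ.a 42) (σ.a 43) (σ.a 44) (σ.a 45) (σ.a 47) v = 0 := by
        unfold kd1; rw [if_pos hO, if_pos hD]
      refine ⟨_, _, .seq f1 (.iteTrue t1 (.seq f2 (.iteTrue ?_ (Ex.blk _ _)))), by simp,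
        ?_, ?_, ?_, ?_⟩
      · simp only [Test.holds]; rw [creg 61 (by decide), b61, c36]; exact hD
      · simp [run_cons, run_nil, B.step, creg, b40, hk]
      · intro _
        simp [run_cons, run_nil, B.step, creg, b34, carr, hO]
      · intro r hr
        have hr' := hr
        simp only [kindRegs, List.mem_cons, List.not_mem_nil, or_false, not_or] at hr'
        simp only [run_cons, run_nil, B.step]
        rw [Function.update_of_ne (by simp [hr']), creg r (by simp [hr']), breg r hr]
      · simp only [run_cons, run_nil, B.step]; exact carr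
    · have f3 := Ex.blk (R := R) (cap := cap) [.load 42 42 36, .load 44 43 61, .load 44 44 36] u2
      obtain ⟨u3, hu3⟩ : ∃ u3, u3 = run [.load 42 42 36, .load 44 43 61, .load 44 44 36] u2 :=
        ⟨_, rfl⟩
      rw [← hu3] at f3
      have B3 : u3.r 42 = σ.a 42 (σ.a 47 (σ.a 43 v)) ∧ u3.r 43 = σ.a 44 v ∧
          u3.r 44 = σ.a 44 (σ.a 47 (σ.a 43 v)) ∧
          (∀ r, r ∉ [42, 43, 44] → u3.r r = u2.r r) ∧ u3.a = σ.a := by
        subst hu3
        simp only [run_cons, run_nil, B.step]
        refine ⟨by simp [c36, carr], by simp [creg, b61, carr], by simp [c36, carr], ?_, carr⟩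
        intro r hr
        simp only [List.mem_cons, List.not_mem_nil, or_false, not_or] at hr
        simp [hr]
      obtain ⟨d42, d43, d44, dreg, darr⟩ := B3
      have d41 : u3.r 41 = σ.a 42 v := by rw [dreg 41 (by decide), creg 41 (by decide), b41]
      have dreg' : ∀ r, r ∉ kindRegs → u3.r r = σ.r r := by
        intro r hr
        have hr' := hr
        simp only [kindRegs, List.mem_cons, List.not_mem_nil, or_false, not_or] at hr'
        rw [dreg r (by simp [hr']), creg r (by simp [hr']), breg r hr]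
      have t2 : ¬ (Test.eq 61 36).holds u2.r := by
        simp only [Test.holds]; rw [creg 61 (by decide), b61, c36]; exact hD
      have hkd : kd1 g (σ.a 42) (σ.a 43) (σ.a 44) (σ.a 45) (σ.a 47) v =
          if (σ.a 42 v = σ.a 42 (σ.a 47 (σ.a 43 v)) ↔ σ.a 44 (σ.a 47 (σ.a 43 v)) ≤ σ.a 44 v)
            then 2 else 1 := by
        unfold kd1; rw [if_pos hO, if_neg hD]
      have fin : ∀ c, Ex R cap (.blk [.const 40 c]) u3 1 (run [.const 40 c] u3) :=
        fun c => Ex.blk _ _
      have finr : ∀ c r, r ∉ kindRegs → (run [.const 40 c] u3).r r = σ.r r := by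
        intro c r hr
        have hr' := hr
        simp only [kindRegs, List.mem_cons, List.not_mem_nil, or_false, not_or] at hr'
        simp only [run_cons, run_nil, B.step]
        rw [Function.update_of_ne (by simp [hr']), dreg' r hr]
      have fink : ∀ c, (run [.const 40 c] u3).r 40 = c := by
        intro c; simp [run_cons, run_nil, B.step]
      have fina : ∀ c, (run [.const 40 c] u3).a = σ.a := by
        intro c; simp only [run_cons, run_nil, B.step]; exact darr
      by_cases hp : σ.a 42 v = σ.a 42 (σ.a 47 (σ.a 43 v))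
      · have t3 : (Test.eq 41 42).holds u3.r := by simp only [Test.holds]; rw [d41, d42, hp]
        by_cases hl : σ.a 44 v < σ.a 44 (σ.a 47 (σ.a 43 v))
        · have hk : kd1 g (σ.a 42) (σ.a 43) (σ.a 44) (σ.a 45) (σ.a 47) v = 1 := by
            rw [hkd, if_neg]; intro h; have := h.1 hp; omega
          refine ⟨_, _, .seq f1 (.iteTrue t1 (.seq f2 (.iteFalse t2 (.seq f3
            (.iteTrue t3 (.iteTrue ?_ (fin 1))))))), by simp, ?_, ?_, finr 1, fina 1⟩
          · simp only [Test.holds]; rw [d43, d44]; exact hl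
          · rw [fink, hk]
          · intro h; omega
        · have hk : kd1 g (σ.a 42) (σ.a 43) (σ.a 44) (σ.a 45) (σ.a 47) v = 2 := by
            rw [hkd, if_pos]; exact ⟨fun _ => by omega, fun _ => hp⟩
          refine ⟨_, _, .seq f1 (.iteTrue t1 (.seq f2 (.iteFalse t2 (.seq f3
            (.iteTrue t3 (.iteFalse ?_ (fin 2))))))), by simp, ?_, ?_, finr 2, fina 2⟩
          · simp only [Test.holds]; rw [d43, d44]; exact hl
          · rw [fink, hk]
          · intro h; omega
      · have t3 : ¬ (Test.eq 41 42).holds u3.r := by simp only [Test.holds]; rw [d41, d42]; exact hp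
        by_cases hl : σ.a 44 v < σ.a 44 (σ.a 47 (σ.a 43 v))
        · have hk : kd1 g (σ.a 42) (σ.a 43) (σ.a 44) (σ.a 45) (σ.a 47) v = 2 := by
            rw [hkd, if_pos]; exact ⟨fun h => absurd h hp, fun h => by omega⟩
          refine ⟨_, _, .seq f1 (.iteTrue t1 (.seq f2 (.iteFalse t2 (.seq f3
            (.iteFalse t3 (.iteTrue ?_ (fin 2))))))), by simp, ?_, ?_, finr 2, fina 2⟩
          · simp only [Test.holds]; rw [d43, d44]; exact hl
          · rw [fink, hk]
          · intro h; omega
        · have hk : kd1 g (σ.a 42) (σ.a 43) (σ.a 44) (σ.a 45) (σ.a 47) v = 1 := by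
            rw [hkd, if_neg]; intro h; exact hp (h.2 (by omega))
          refine ⟨_, _, .seq f1 (.iteTrue t1 (.seq f2 (.iteFalse t2 (.seq f3
            (.iteFalse t3 (.iteFalse ?_ (fin 1))))))), by simp, ?_, ?_, finr 1, fina 1⟩
          · simp only [Test.holds]; rw [d43, d44]; exact hl
          · rw [fink, hk]
          · intro h; omega
  · have t1 : ¬ (Test.eq 35 65).holds u1.r := by
      simp only [Test.holds]; rw [b35, b65]; exact hO
    by_cases hP : σ.a 42 v = 2
    · have hk : kd1 g (σ.a 42) (σ.a 43) (σ.a 44) (σ.a 45) (σ.a 47) v = 2 := by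
        unfold kd1; rw [if_neg hO, if_pos hP]
      refine ⟨_, _, .seq f1 (.iteFalse t1 (.iteTrue ?_ (Ex.blk _ _))), by simp, ?_, ?_, ?_, ?_⟩
      · simp only [Test.holds]; rw [b41, b64, hP]
      · simp [run_cons, run_nil, B.step, hk]
      · intro h; omega
      · intro r hr
        have hr' := hr
        simp only [kindRegs, List.mem_cons, List.not_mem_nil, or_false, not_or] at hr'
        simp only [run_cons, run_nil, B.step]
        rw [Function.update_of_ne (by simp [hr']), breg r hr]
      · simp only [run_cons, run_nil, B.step]; exact barr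
    · have t2 : ¬ (Test.eq 41 64).holds u1.r := by
        simp only [Test.holds]; rw [b41, b64]; exact hP
      have f2 := Ex.blk (R := R) (cap := cap) [.load 41 45 61] u1
      obtain ⟨u2, hu2⟩ : ∃ u2, u2 = run [.load 41 45 61] u1 := ⟨_, rfl⟩
      rw [← hu2] at f2
      have B2 : u2.r 45 = g v ∧ (∀ r, r ≠ 45 → u2.r r = u1.r r) ∧ u2.a = σ.a := by
        subst hu2
        simp only [run_cons, run_nil, B.step]
        refine ⟨by simp [b61, barr, hg], ?_, barr⟩
        intro r hr
        simp [hr]
      obtain ⟨c45, creg, carr⟩ := B2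
      by_cases hgv : g v = v
      · have hk : kd1 g (σ.a 42) (σ.a 43) (σ.a 44) (σ.a 45) (σ.a 47) v = 0 := by
          unfold kd1; rw [if_neg hO, if_neg hP, if_pos hgv]
        refine ⟨_, _, .seq f1 (.iteFalse t1 (.iteFalse t2 (.seq f2 (.iteTrue ?_ (Ex.blk _ _))))),
          by simp, ?_, ?_, ?_, ?_⟩
        · simp only [Test.holds]; rw [c45, creg 61 (by decide), b61, hgv]
        · simp [run_nil, creg, b40, hk]
        · intro _
          simp [run_nil, creg, b39, hO]
        · intro r hr
          have hr' := hr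
          simp only [kindRegs, List.mem_cons, List.not_mem_nil, or_false, not_or] at hr'
          simp only [run_nil]
          rw [creg r (by simp [hr']), breg r hr]
        · simp only [run_nil]; exact carr
      · have hk : kd1 g (σ.a 42) (σ.a 43) (σ.a 44) (σ.a 45) (σ.a 47) v = 1 := by
          unfold kd1; rw [if_neg hO, if_neg hP, if_neg hgv]
        refine ⟨_, _, .seq f1 (.iteFalse t1 (.iteFalse t2 (.seq f2 (.iteFalse ?_ (Ex.blk _ _))))),
          by simp, ?_, ?_, ?_, ?_⟩
        · simp only [Test.holds]; rw [c45, creg 61 (by decide), b61]; exact hgv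
        · simp [run_cons, run_nil, B.step, hk]
        · intro h; omega
        · intro r hr
          have hr' := hr
          simp only [kindRegs, List.mem_cons, List.not_mem_nil, or_false, not_or] at hr'
          simp only [run_cons, run_nil, B.step]
          rw [Function.update_of_ne (by simp [hr']), creg r (by simp [hr']), breg r hr]
        · simp only [run_cons, run_nil, B.step]; exact carr

/-- The final matching. -/
def fmBody : Cmd :=
  .seq kindC
  (.seq (.ite (.eq 40 64) (.blk [.load 41 39 62])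
      (.ite (.eq 40 65) (.blk [.load 41 39 61, .sub 39 39 0]) (.blk [])))
    (.blk [.store 40 61 39, .inc 61, .inc 62]))

def fmC : Cmd := .seq (.blk [.const 61 0, .copy 62 0]) (.loop (.lt 61 0) fmBody)

def fmRegs : List ℕ := [34, 35, 36, 39, 40, 41, 42, 43, 44, 45, 61, 62]

theorem fmC_spec (σ : St) (h0 : σ.r 0 = n) (h64 : σ.r 64 = 2) (h65 : σ.r 65 = 1)
    (hg : ∀ v < 2 * n, σ.a 41 v = g v) :
    ∃ σ' t, Ex R cap fmC σ t σ' ∧ t ≤ 22 * n + 3 ∧
      (∀ v < n, σ'.a 40 v = fm n g (σ.a 42) (σ.a 43) (σ.a 44) (σ.a 45) (σ.a 47) (σ.a 48) v) ∧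
      (∀ r, r ∉ fmRegs → σ'.r r = σ.r r) ∧ (∀ j, j ≠ 40 → σ'.a j = σ.a j) := by
  have e1 := Ex.blk (R := R) (cap := cap) [.const 61 0, .copy 62 0] σ
  obtain ⟨σ1, hσ1⟩ : ∃ σ1, σ1 = run [.const 61 0, .copy 62 0] σ := ⟨_, rfl⟩
  rw [← hσ1] at e1
  have A1 : σ1.r 61 = 0 ∧ σ1.r 62 = n ∧ (∀ r, r ∉ fmRegs → σ1.r r = σ.r r) ∧ σ1.a = σ.a := by
    subst hσ1
    simp only [run_cons, run_nil, B.step]
    refine ⟨by simp, by simp [h0], ?_, trivial⟩
    intro r hr
    simp only [fmRegs, List.mem_cons, List.not_mem_nil, or_false, not_or] at hr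
    simp [hr]
  obtain ⟨b61, b62, breg, barr⟩ := A1
  obtain ⟨σ2, t2, e2, ht2, ⟨c1, c2, c3, c4⟩, _, _⟩ := for_rule (R := R) (cap := cap)
    (i := 61) (b := 0) (body := fmBody) n 21 0
    (fun k σ' => (∀ v < k, σ'.a 40 v =
        fm n g (σ.a 42) (σ.a 43) (σ.a 44) (σ.a 45) (σ.a 47) (σ.a 48) v) ∧ σ'.r 62 = n + k ∧
      (∀ r, r ∉ fmRegs → σ'.r r = σ.r r) ∧ (∀ j, j ≠ 40 → σ'.a j = σ.a j))
    (by
      rintro k s _ hk ⟨a1, a2, a3, a4⟩ h61 hb
      obtain ⟨s1, t1, f1, ht1, k40, k39, kreg, karr⟩ := kindC_spec (R := R) (cap := cap) (g := g)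
        s (v := k) h61 (by rw [a3 64 (by decide), h64]) (by rw [a3 65 (by decide), h65])
        (by rw [a4 41 (by decide)]; exact hg k (by omega))
      rw [a4 42 (by decide), a4 43 (by decide), a4 44 (by decide), a4 45 (by decide),
        a4 47 (by decide)] at k40 k39
      rw [a4 48 (by decide)] at k39
      have g61 : s1.r 61 = k := by rw [kreg 61 (by decide), h61]
      have g62 : s1.r 62 = n + k := by rw [kreg 62 (by decide), a2]
      have g64 : s1.r 64 = 2 := by rw [kreg 64 (by decide), a3 64 (by decide), h64]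
      have g65 : s1.r 65 = 1 := by rw [kreg 65 (by decide), a3 65 (by decide), h65]
      have g0 : s1.r 0 = n := by rw [kreg 0 (by decide), hb]
      have g41 : ∀ x < 2 * n, s1.a 41 x = g x := by
        intro x hx; rw [karr, a4 41 (by decide)]; exact hg x hx
      have sreg : ∀ r, r ∉ fmRegs → s1.r r = σ.r r := by
        intro r hr
        rw [kreg r (fun h => hr ((by decide : ∀ x ∈ kindRegs, x ∈ fmRegs) r h)), a3 r hr]
      -- the end of the body, given the value of register 39
      have fin : ∀ (s2 : St), s2.r 39 =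
          fm n g (σ.a 42) (σ.a 43) (σ.a 44) (σ.a 45) (σ.a 47) (σ.a 48) k →
          (∀ r, r ≠ 39 → s2.r r = s1.r r) → s2.a = s1.a →
          ∃ s3, Ex R cap (.blk [.store 40 61 39, .inc 61, .inc 62]) s2 3 s3 ∧
            ((∀ v < k + 1, s3.a 40 v =
              fm n g (σ.a 42) (σ.a 43) (σ.a 44) (σ.a 45) (σ.a 47) (σ.a 48) v) ∧
              s3.r 62 = n + (k + 1) ∧ (∀ r, r ∉ fmRegs → s3.r r = σ.r r) ∧
              (∀ j, j ≠ 40 → s3.a j = σ.a j)) ∧ s3.r 61 = k + 1 ∧ s3.r 0 = n := by
        intro s2 h39 hr ha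
        refine ⟨_, Ex.blk _ _, ⟨?_, ?_, ?_, ?_⟩, ?_, ?_⟩
        · intro v hv
          simp only [run_cons, run_nil, B.step]
          simp only [Function.update_self, hr 61 (by decide), g61, h39, ha, karr]
          by_cases hvk : v = k
          · subst hvk; rw [Function.update_self]
          · rw [Function.update_of_ne hvk]; exact a1 v (by (clear * - b62 a2 h61 hb g61 g62 g0 hv hvk; omega))
        · simp only [run_cons, B.step, ne_eq, Nat.succ_ne_self, not_false_eq_true, Function.update_of_ne, Nat.reduceEqDiff, hr 62, g62, run_nil, Function.update_self]; omega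
        · intro r hr'
          have hr'' := hr'
          simp only [fmRegs, List.mem_cons, List.not_mem_nil, or_false, not_or] at hr''
          simp only [run_cons, run_nil, B.step]
          rw [Function.update_of_ne (by simp [hr'']), Function.update_of_ne (by simp [hr'']),
            hr r (by simp [hr'']), sreg r hr']
        · intro j hj
          simp only [run_cons, run_nil, B.step]
          rw [Function.update_of_ne hj, ha, karr]; exact a4 j hj
        · simp [run_cons, run_nil, B.step, hr 61, g61]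
        · simp [run_cons, run_nil, B.step, hr 0, g0]
      rcases kd1_le (g := g) (P := σ.a 42) (C := σ.a 43) (I := σ.a 44) (O := σ.a 45)
        (D := σ.a 47) k with hkk | hkk | hkk
      · rw [hkk] at k40
        have hfm : fm n g (σ.a 42) (σ.a 43) (σ.a 44) (σ.a 45) (σ.a 47) (σ.a 48) k =
            if σ.a 45 (σ.a 43 k) = 1 then σ.a 48 (σ.a 43 k) else k := by
          unfold fm
          rw [if_neg (by omega), if_neg (by omega), if_neg (by omega)]
        obtain ⟨s3, f3, h3, h4, h5⟩ := fin s1 (by rw [k39 hkk, hfm]) (fun _ _ => rfl) rfl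
        refine ⟨s3, _, .seq f1 (.seq (.iteFalse ?_ (.iteFalse ?_ (Ex.blk _ _))) f3), ?_, h3, h4, h5⟩
        · simp only [Test.holds]; rw [k40, g64]; omega
        · simp only [Test.holds]; rw [k40, g65]; omega
        · simp; omega
      · rw [hkk] at k40
        obtain ⟨s3, f3, h3, h4, h5⟩ := fin (run [.load 41 39 61, .sub 39 39 0] s1) (by
          simp only [run_cons, B.step, g61, g41 k (by omega), Function.update_self, ne_eq, OfNat.zero_ne_ofNat, not_false_eq_true, Function.update_of_ne, g0, Function.update_idem, run_nil]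
          unfold fm
          rw [if_neg (by omega), if_neg (by omega), if_pos hkk])
          (fun r hr => by simp only [run_cons, B.step, Function.update_self, ne_eq, OfNat.zero_ne_ofNat, not_false_eq_true, Function.update_of_ne, Function.update_idem, run_nil, hr]) (by simp only [run_cons, B.step, Function.update_self, ne_eq, OfNat.zero_ne_ofNat, not_false_eq_true, Function.update_of_ne, Function.update_idem, run_nil])
        refine ⟨s3, _, .seq f1 (.seq (.iteFalse ?_ (.iteTrue ?_ (Ex.blk _ _))) f3), ?_, h3, h4, h5⟩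
        · simp only [Test.holds]; rw [k40, g64]; omega
        · simp only [Test.holds]; rw [k40, g65]
        · simp; omega
      · rw [hkk] at k40
        obtain ⟨s3, f3, h3, h4, h5⟩ := fin (run [.load 41 39 62] s1) (by
          simp [run_cons, run_nil, B.step, g62, g41 (n + k) (by omega)]
          unfold fm
          rw [if_neg (by omega), if_pos hkk])
          (fun r hr => by simp [run_cons, run_nil, B.step, hr]) (by simp [run_cons, run_nil, B.step])
        refine ⟨s3, _, .seq f1 (.seq (.iteTrue ?_ (Ex.blk _ _)) f3), ?_, h3, h4, h5⟩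
        · simp only [Test.holds]; rw [k40, g64]
        · simp; omega)
    σ1 (by omega) ⟨fun v hv => by omega, by omega, breg, fun j _ => by rw [barr]⟩ b61
    (by rw [breg 0 (by decide)]; exact h0)
  refine ⟨σ2, _, .seq e1 e2, ?_, c1, c3, c4⟩
  simp only [List.length_cons, List.length_nil]
  omega

/-- The arrays 10, 11 of the double cover; register 20 becomes `2 n`. -/
def dcC : Cmd :=
  .seq (.blk [.const 33 0, .copy 34 0, .copy 35 0, .inc 35, .load 4 36 0])
  (.seq (.loop (.lt 33 35) (.seq (.blk [.load 4 37 33, .store 10 33 37])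
    (.seq (.add 37 37 36) (.blk [.store 10 34 37, .inc 33, .inc 34]))))
  (.seq (.blk [.const 33 0, .copy 34 36])
  (.seq (.loop (.lt 33 36) (.seq (.blk [.load 5 37 33, .store 11 34 37])
    (.seq (.add 37 37 0) (.blk [.store 11 33 37, .inc 33, .inc 34]))))
    (.add 20 0 0))))

def dcRegs : List ℕ := [20, 33, 34, 35, 36, 37]

theorem dcC_spec (σ : St) (hG : Gr n A) (hcsr : CSR n A (σ.a 4) (σ.a 5)) (h0 : σ.r 0 = n)
    (hcap : 2 * n + 2 * σ.a 4 n ≤ cap) :
    ∃ σ' t, Ex R cap dcC σ t σ' ∧ t ≤ 7 * n + 7 * σ.a 4 n + 20 ∧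
      CSR (2 * n) (HD n A) (σ'.a 10) (σ'.a 11) ∧ σ'.a 10 (2 * n) = 2 * σ.a 4 n ∧
      σ'.r 20 = 2 * n ∧
      (∀ r, r ∉ dcRegs → σ'.r r = σ.r r) ∧ (∀ j, j ≠ 10 → j ≠ 11 → σ'.a j = σ.a j) := by
  set off := σ.a 4 with hoff
  set adj := σ.a 5 with hadj
  have hle : ∀ v ≤ n, off v ≤ off n := fun v hv => hcsr.mono' hv le_rfl
  have hadjn : ∀ p < off n, adj p < n := by
    intro p hp
    obtain ⟨v, hv, h1, h2⟩ : ∃ v < n, off v ≤ p ∧ p < off (v + 1) := by
      have key : ∀ k ≤ n, p < off k → ∃ v < k, off v ≤ p ∧ p < off (v + 1) := by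
        intro k
        induction k with
        | zero => intro _ h; rw [hcsr.off0] at h; omega
        | succ k ih =>
          intro hk h
          by_cases h' : p < off k
          · obtain ⟨v, hv, h1, h2⟩ := ih (by omega) h'
            exact ⟨v, by omega, h1, h2⟩
          · exact ⟨k, by omega, by omega, h⟩
      exact key n le_rfl hp
    exact hG.lt' ((hcsr.mem v hv _).2 ⟨p, h1, h2, rfl⟩)
  have e1 := Ex.blk (R := R) (cap := cap)
    [.const 33 0, .copy 34 0, .copy 35 0, .inc 35, .load 4 36 0] σ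
  obtain ⟨σ1, hσ1⟩ : ∃ σ1, σ1 = run [.const 33 0, .copy 34 0, .copy 35 0, .inc 35,
    .load 4 36 0] σ := ⟨_, rfl⟩
  rw [← hσ1] at e1
  have A1 : σ1.r 33 = 0 ∧ σ1.r 34 = n ∧ σ1.r 35 = n + 1 ∧ σ1.r 36 = off n ∧
      (∀ r, r ∉ dcRegs → σ1.r r = σ.r r) ∧ σ1.a = σ.a := by
    subst hσ1
    simp only [run_cons, run_nil, B.step]
    refine ⟨by simp, by simp [h0], by simp [h0], by simp [h0, hoff], ?_, trivial⟩
    intro r hr
    simp only [dcRegs, List.mem_cons, List.not_mem_nil, or_false, not_or] at hr
    simp [hr]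
  obtain ⟨b33, b34, b35, b36, breg, barr⟩ := A1
  obtain ⟨σ2, t2, e2, ht2, ⟨c1, c2, c3, c4, c5, c6⟩, _, _⟩ := for_rule (R := R) (cap := cap)
    (i := 33) (b := 35)
    (body := .seq (.blk [.load 4 37 33, .store 10 33 37])
      (.seq (.add 37 37 36) (.blk [.store 10 34 37, .inc 33, .inc 34]))) (n + 1) 6 0
    (fun k s => (∀ i < k, i < n → s.a 10 i = off i) ∧ (∀ i < k, s.a 10 (n + i) = off n + off i) ∧
      s.r 34 = n + k ∧ s.r 36 = off n ∧ (∀ r, r ∉ dcRegs → s.r r = σ.r r) ∧
      (∀ j, j ≠ 10 → s.a j = σ.a j))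
    (by
      rintro k s _ hk ⟨a1, a2, a3, a4, a5, a6⟩ h33 h35
      have f1 := Ex.blk (R := R) (cap := cap) [.load 4 37 33, .store 10 33 37] s
      obtain ⟨u1, hu1⟩ : ∃ u1, u1 = run [.load 4 37 33, .store 10 33 37] s := ⟨_, rfl⟩
      rw [← hu1] at f1
      have B1 : u1.r 37 = off k ∧ (∀ r, r ≠ 37 → u1.r r = s.r r) ∧
          u1.a 10 = update (s.a 10) k (off k) ∧ (∀ j, j ≠ 10 → u1.a j = σ.a j) := by
        subst hu1
        simp only [run_cons, run_nil, B.step]
        have q4 := a6 4 (by decide)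
        refine ⟨by simp [h33, q4, hoff], ?_, by simp [h33, q4, hoff], ?_⟩
        · intro r hr; simp [hr]
        · intro j hj; simp [hj, a6 j hj]
      obtain ⟨d37, dreg, d10, darr⟩ := B1
      have hk' := hle k (by omega)
      have f2 := Ex.add (R := R) (cap := cap) 37 37 36 u1
        (by rw [d37, dreg 36 (by decide), a4]; omega)
      rw [d37, dreg 36 (by decide), a4] at f2
      refine ⟨_, _, .seq f1 (.seq f2 (Ex.blk _ _)), by simp, ⟨?_, ?_, ?_, ?_, ?_, ?_⟩, ?_, ?_⟩
      · intro i hi hin
        simp only [run_cons, run_nil, B.step]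
        simp [Function.update_apply, dreg, a3, d10, show ¬ i = n + k by omega]
        by_cases hik : i = k
        · simp [hik]
        · simp [hik, a1 i (by omega) hin]
      · intro i hi
        simp only [run_cons, run_nil, B.step]
        simp only [d10, ne_eq, Nat.reduceEqDiff, not_false_eq_true, Function.update_of_ne, dreg, a3, Function.update_self, Function.update_apply, Nat.add_left_cancel_iff]
        by_cases hik : i = k
        · simp only [hik, ↓reduceIte]; omega
        · have h1 := a2 i (by omega)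
          by_cases h2 : n + i = k
          · have : i = 0 := by omega
            subst this
            have h3 : k = n := by omega
            subst h3
            simp [show ¬ (0 = k) by omega]
            rw [hcsr.off0]
          · simp [hik, h2, h1]
      · simp only [run_cons, B.step, ne_eq, Nat.reduceEqDiff, not_false_eq_true, Function.update_of_ne, dreg, a3, Function.update_self, Nat.succ_ne_self, run_nil]; omega
      · simp [run_cons, run_nil, B.step, dreg, a4]
      · intro r hr
        have hr' := hr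
        simp only [dcRegs, List.mem_cons, List.not_mem_nil, or_false, not_or] at hr'
        simp [run_cons, run_nil, B.step, hr', dreg, a5 r hr]
      · intro j hj
        simp [run_cons, run_nil, B.step, hj, darr j hj]
      · simp [run_cons, run_nil, B.step, dreg, h33]
      · simp only [run_cons, B.step, ne_eq, Nat.reduceEqDiff, not_false_eq_true, Function.update_of_ne, dreg, Function.update_self, Nat.succ_ne_self, run_nil, h35, Nat.add_left_cancel_iff])
    σ1 (by omega) ⟨fun i hi => by omega, fun i hi => by omega, by omega, b36, breg,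
      fun j _ => by rw [barr]⟩ b33 b35
  have e3 := Ex.blk (R := R) (cap := cap) [.const 33 0, .copy 34 36] σ2
  obtain ⟨σ3, hσ3⟩ : ∃ σ3, σ3 = run [.const 33 0, .copy 34 36] σ2 := ⟨_, rfl⟩
  rw [← hσ3] at e3
  have A3 : σ3.r 33 = 0 ∧ σ3.r 34 = off n ∧ σ3.r 36 = off n ∧
      (∀ r, r ∉ dcRegs → σ3.r r = σ.r r) ∧ σ3.a = σ2.a := by
    subst hσ3
    simp only [run_cons, run_nil, B.step]
    refine ⟨by simp, by simp [c4], by simp [c4], ?_, trivial⟩
    intro r hr
    have hr' := hr
    simp only [dcRegs, List.mem_cons, List.not_mem_nil, or_false, not_or] at hr'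
    simp [hr', c5 r hr]
  obtain ⟨d33, d34, d36, dreg, darr⟩ := A3
  obtain ⟨σ4, t4, e4, ht4, ⟨g1, g2, g3, g4, g5⟩, _, _⟩ := for_rule (R := R) (cap := cap)
    (i := 33) (b := 36)
    (body := .seq (.blk [.load 5 37 33, .store 11 34 37])
      (.seq (.add 37 37 0) (.blk [.store 11 33 37, .inc 33, .inc 34]))) (off n) 6 0
    (fun k s => (∀ p < k, s.a 11 p = n + adj p) ∧ (∀ p < k, s.a 11 (off n + p) = adj p) ∧
      s.r 34 = off n + k ∧ (∀ r, r ∉ dcRegs → s.r r = σ.r r) ∧
      (∀ j, j ≠ 11 → s.a j = σ2.a j))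
    (by
      rintro k s _ hk ⟨a1, a2, a3, a5, a6⟩ h33 h36
      have f1 := Ex.blk (R := R) (cap := cap) [.load 5 37 33, .store 11 34 37] s
      obtain ⟨u1, hu1⟩ : ∃ u1, u1 = run [.load 5 37 33, .store 11 34 37] s := ⟨_, rfl⟩
      rw [← hu1] at f1
      have B1 : u1.r 37 = adj k ∧ (∀ r, r ≠ 37 → u1.r r = s.r r) ∧
          u1.a 11 = update (s.a 11) (off n + k) (adj k) ∧ (∀ j, j ≠ 11 → u1.a j = σ2.a j) := by
        subst hu1
        simp only [run_cons, run_nil, B.step]
        have q4 := a6 5 (by decide)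
        rw [c6 5 (by decide)] at q4
        refine ⟨by simp [h33, q4, hadj], ?_, by simp [h33, a3, q4, hadj], ?_⟩
        · intro r hr; simp [hr]
        · intro j hj; simp [hj, a6 j hj]
      obtain ⟨d37, dreg, d10, darr⟩ := B1
      have hk' := hadjn k hk
      have g0 : u1.r 0 = n := by rw [dreg 0 (by decide), a5 0 (by decide), h0]
      have f2 := Ex.add (R := R) (cap := cap) 37 37 0 u1 (by rw [d37, g0]; omega)
      rw [d37, g0] at f2
      refine ⟨_, _, .seq f1 (.seq f2 (Ex.blk _ _)), by simp, ⟨?_, ?_, ?_, ?_, ?_⟩, ?_, ?_⟩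
      · intro i hi
        simp only [run_cons, run_nil, B.step]
        simp [Function.update_apply, dreg, a3, d10, h33]
        by_cases hik : i = k
        · simp [hik]; omega
        · simp [hik, show ¬ i = off n + k by omega, a1 i (by omega)]
      · intro i hi
        simp only [run_cons, run_nil, B.step]
        simp [Function.update_apply, dreg, a3, d10, h33, show ¬ off n + i = k by (clear * - b36 c4 d34 d36 hk a3 h33 h36; omega)]
        by_cases hik : i = k
        · simp [hik]
        · simp [hik, a2 i (by omega)]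
      · simp only [run_cons, B.step, ne_eq, Nat.reduceEqDiff, not_false_eq_true, Function.update_of_ne, dreg, Function.update_self, Nat.succ_ne_self, a3, run_nil]; (clear * -; omega)
      · intro r hr
        have hr' := hr
        simp only [dcRegs, List.mem_cons, List.not_mem_nil, or_false, not_or] at hr'
        simp [run_cons, run_nil, B.step, hr', dreg, a5 r hr]
      · intro j hj
        simp [run_cons, run_nil, B.step, hj, darr j hj]
      · simp [run_cons, run_nil, B.step, dreg, h33]
      · simp [run_cons, run_nil, B.step, dreg, h36])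
    σ3 (by (clear * - b36 c4 d34 d36; omega)) ⟨fun i hi => by omega, fun i hi => by omega, by omega, dreg,
      fun j _ => by rw [darr]⟩ d33 d36
  have g0 : σ4.r 0 = n := by rw [g4 0 (by decide), h0]
  have e5 := Ex.add (R := R) (cap := cap) 20 0 0 σ4 (by rw [g0]; omega)
  rw [g0] at e5
  have h10 : σ4.a 10 = σ2.a 10 := g5 10 (by decide)
  refine ⟨_, _, .seq e1 (.seq e2 (.seq e3 (.seq e4 e5))), ?_, ?_, ?_, ?_, ?_, ?_⟩
  · simp only [List.length_cons, List.length_nil]
    omega
  · show CSR (2 * n) (HD n A) (σ4.a 10) (σ4.a 11)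
    rw [h10]
    exact csr_dc hG hcsr (fun i hi => c1 i (by omega) hi) (fun i hi => c2 i (by omega)) g1 g2
  · show σ4.a 10 (2 * n) = _
    rw [h10, two_mul n, c2 n (by omega)]
    ring
  · show update σ4.r 20 (n + n) 20 = _
    rw [Function.update_self]; ring
  · intro r hr
    have hr' := hr
    simp only [dcRegs, List.mem_cons, List.not_mem_nil, or_false, not_or] at hr'
    show update σ4.r 20 (n + n) r = _
    rw [Function.update_of_ne (by simp [hr']), g4 r hr]
  · intro j hj hj'
    show σ4.a j = _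
    rw [g5 j hj', c6 j hj]

end Vale.Agent.P305
end
end

section

section

/-! Reading the matching off the answer for the gadget graph. -/

set_option autoImplicit false

namespace Vale.Agent.P305

open Function (update)
open L1

variable {R : List ℕ → (ℕ → ℕ) → ℕ → Prop} {cap : ℕ}

/-- Runs `body` if registers `4` and `5` lie strictly between registers `1` and `6`. -/
def guard4 (body : Cmd) : Cmd :=
  .ite (.lt 1 4) (.ite (.lt 4 6) (.ite (.lt 1 5) (.ite (.lt 5 6) body (.blk [])) (.blk []))
    (.blk [])) (.blk [])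

theorem guard4_ex (l : List B) (s : St) (h1 : s.r 1 = 0) :
    ∃ s' t, Ex R cap (guard4 (.blk l)) s t s' ∧ t ≤ l.length + 4 ∧
      ((0 < s.r 4 ∧ s.r 4 < s.r 6 ∧ 0 < s.r 5 ∧ s.r 5 < s.r 6) → s' = run l s) ∧
      (¬ (0 < s.r 4 ∧ s.r 4 < s.r 6 ∧ 0 < s.r 5 ∧ s.r 5 < s.r 6) → s' = s) := by
  have nil : Ex R cap (.blk []) s 0 s := Ex.blk [] s
  by_cases c1 : 0 < s.r 4
  · by_cases c2 : s.r 4 < s.r 6
    · by_cases c3 : 0 < s.r 5
      · by_cases c4 : s.r 5 < s.r 6
        · refine ⟨run l s, _, .iteTrue (by simpa [Test.holds, h1] using c1) (.iteTrue c2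
            (.iteTrue (by simpa [Test.holds, h1] using c3) (.iteTrue c4 (.blk l s)))), ?_,
            fun _ => rfl, fun h => absurd ⟨c1, c2, c3, c4⟩ h⟩
          omega
        · refine ⟨s, _, .iteTrue (by simpa [Test.holds, h1] using c1) (.iteTrue c2
            (.iteTrue (by simpa [Test.holds, h1] using c3) (.iteFalse c4 nil))), ?_,
            fun h => absurd h.2.2.2 c4, fun _ => rfl⟩
          omega
      · refine ⟨s, _, .iteTrue (by simpa [Test.holds, h1] using c1) (.iteTrue c2
          (.iteFalse (by simpa only [Test.holds, h1, not_lt, nonpos_iff_eq_zero] using c3) nil)), ?_,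
          fun h => absurd h.2.2.1 c3, fun _ => rfl⟩
        omega
    · refine ⟨s, _, .iteTrue (by simpa [Test.holds, h1] using c1) (.iteFalse c2 nil), ?_,
        fun h => absurd h.2.1 c2, fun _ => rfl⟩
      omega
  · refine ⟨s, _, .iteFalse (by simpa only [Test.holds, h1, not_lt, nonpos_iff_eq_zero] using c1) nil, ?_,
      fun h => absurd h.1 c1, fun _ => rfl⟩
    omega

/-- Both new vertices of an arc have old partners. -/
def GoodArc (n : ℕ) (out rev : ℕ → ℕ) (p : ℕ) : Prop :=
  0 < out (n + p) ∧ out (n + p) < n + 1 ∧ 0 < out (n + rev p) ∧ out (n + rev p) < n + 1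

/-- The part of the invariant of the loop that speaks about the result. -/
def PostInv (n k : ℕ) (s s' : St) : Prop :=
  (∀ p < k, GoodArc n (s.a 2) (s.a 9) p → s'.a 3 (s.a 8 p) = s.a 5 p + 1) ∧
  (∀ v, (∀ p < k, GoodArc n (s.a 2) (s.a 9) p → s.a 8 p ≠ v) → s'.a 3 v = 0) ∧
  (∀ j, j ≠ 3 → s'.a j = s.a j)

theorem PostInv.step_good {n m k : ℕ} {s s' u : St} (hk : k < m) (h : PostInv n k s s')
    (hgood : GoodArc n (s.a 2) (s.a 9) k)
    (huniq : ∀ p < m, ∀ q < m, GoodArc n (s.a 2) (s.a 9) p → GoodArc n (s.a 2) (s.a 9) q →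
      s.a 8 p = s.a 8 q → p = q)
    (hu : u.a = update s'.a 3 (update (s'.a 3) (s.a 8 k) (s.a 5 k + 1))) :
    PostInv n (k + 1) s u := by
  obtain ⟨h1, h2, h3⟩ := h
  refine ⟨?_, ?_, ?_⟩
  · intro p hp hgp
    rw [hu]
    simp only [Function.update_self, Function.update_apply]
    by_cases hpk : p = k
    · simp [hpk]
    · rw [if_neg]
      · exact h1 p (by omega) hgp
      · intro heq
        exact hpk (huniq p (by omega) k hk hgp hgood heq)
  · intro v hv
    rw [hu]
    simp only [Function.update_self, Function.update_apply]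
    rw [if_neg]
    · exact h2 v fun p hp => hv p (by omega)
    · intro heq
      exact hv k (by omega) hgood heq.symm
  · intro j hj3
    rw [hu, Function.update_of_ne hj3, h3 j hj3]

theorem PostInv.step_bad {n k : ℕ} {s s' u : St} (h : PostInv n k s s')
    (hgood : ¬ GoodArc n (s.a 2) (s.a 9) k) (hu : u.a = s'.a) : PostInv n (k + 1) s u := by
  obtain ⟨h1, h2, h3⟩ := h
  refine ⟨?_, ?_, ?_⟩
  · intro p hp hgp
    have hpk : p ≠ k := fun h => hgood (h ▸ hgp)
    rw [hu]
    exact h1 p (by omega) hgp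
  · intro v hv
    rw [hu]
    exact h2 v fun p hp => hv p (by omega)
  · intro j hj3
    rw [hu, h3 j hj3]

/-- The body of the loop of `post`. -/
def postBody : Cmd := .seq (.blk [.load 2 4 3, .load 9 5 2]) (.seq (.add 5 5 0)
    (.seq (.blk [.load 2 5 5])
    (.seq (guard4 (.blk [.load 8 8 2, .load 5 9 2, .inc 9, .store 3 8 9]))
    (.blk [.inc 2, .inc 3]))))

theorem postBody_spec (s s' : St) {n m k : ℕ} (h0 : s'.r 0 = n) (h1 : s'.r 1 = 0)
    (h6 : s'.r 6 = n + 1) (h3 : s'.r 3 = n + k) (hi : s'.r 2 = k) (hb : s'.r 7 = m)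
    (hinv : PostInv n k s s') (hk : k < m)
    (hcap : ∀ p < m, s.a 9 p + n ≤ cap)
    (huniq : ∀ p < m, ∀ q < m, GoodArc n (s.a 2) (s.a 9) p → GoodArc n (s.a 2) (s.a 9) q →
      s.a 8 p = s.a 8 q → p = q) :
    ∃ u t, Ex R cap postBody s' t u ∧ t ≤ 14 ∧ u.r 0 = n ∧ u.r 1 = 0 ∧ u.r 6 = n + 1 ∧
      u.r 3 = n + (k + 1) ∧ u.r 2 = k + 1 ∧ u.r 7 = m ∧ PostInv n (k + 1) s u := by
  have j9 := hinv.2.2 9 (by decide)
  have j8 := hinv.2.2 8 (by decide)
  have j5 := hinv.2.2 5 (by decide)
  have j2 := hinv.2.2 2 (by decide)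
  -- the tested state
  obtain ⟨u1, hu1⟩ : ∃ u1, u1 = run [.load 2 4 3, .load 9 5 2] s' := ⟨_, rfl⟩
  have f1 : Ex R cap (.blk [.load 2 4 3, .load 9 5 2]) s' 2 u1 := by
    rw [hu1]; exact Ex.blk _ _
  have g1 : u1.r 0 = n ∧ u1.r 1 = 0 ∧ u1.r 6 = n + 1 ∧ u1.r 3 = n + k ∧ u1.r 2 = k ∧
      u1.r 7 = m ∧ u1.r 4 = s.a 2 (n + k) ∧ u1.r 5 = s.a 9 k ∧ u1.a = s'.a := by
    subst hu1; simp [run, B.step, h0, h1, h6, h3, hi, hb, j2, j9]
  obtain ⟨c0, c1, c6, c3, c2, c7, c4, c5, ca⟩ := g1
  have f2 : Ex R cap (.add 5 5 0) u1 1 ⟨update u1.r 5 (s.a 9 k + n), s'.a⟩ := by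
    have := Ex.add (R := R) (cap := cap) 5 5 0 u1 (by rw [c5, c0]; exact hcap k hk)
    rwa [c5, c0, ca] at this
  obtain ⟨u3, hu3⟩ : ∃ u3, u3 = run [.load 2 5 5] ⟨update u1.r 5 (s.a 9 k + n), s'.a⟩ :=
    ⟨_, rfl⟩
  have f3 : Ex R cap (.blk [.load 2 5 5]) ⟨update u1.r 5 (s.a 9 k + n), s'.a⟩ 1 u3 := by
    rw [hu3]; exact Ex.blk _ _
  have g3 : u3.r 0 = n ∧ u3.r 1 = 0 ∧ u3.r 6 = n + 1 ∧ u3.r 3 = n + k ∧ u3.r 2 = k ∧
      u3.r 7 = m ∧ u3.r 4 = s.a 2 (n + k) ∧ u3.r 5 = s.a 2 (n + s.a 9 k) ∧ u3.a = s'.a := by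
    subst hu3
    simp [run, B.step, c0, c1, c6, c3, c2, c7, c4, j2, add_comm]
  obtain ⟨d0, d1, d6, d3, d2, d7, d4, d5, da⟩ := g3
  obtain ⟨u4, t4, f4, ht4, y1, y2⟩ := guard4_ex (R := R) (cap := cap)
    [.load 8 8 2, .load 5 9 2, .inc 9, .store 3 8 9] u3 d1
  rw [d4, d5, d6] at y1 y2
  have g4 : u4.r 0 = n ∧ u4.r 1 = 0 ∧ u4.r 6 = n + 1 ∧ u4.r 3 = n + k ∧ u4.r 2 = k ∧
      u4.r 7 = m ∧ PostInv n (k + 1) s u4 := by
    by_cases hgood : GoodArc n (s.a 2) (s.a 9) k
    · rw [y1 hgood]
      refine ⟨?_, ?_, ?_, ?_, ?_, ?_, hinv.step_good hk hgood huniq ?_⟩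
      · simp [run, B.step, d0]
      · simp [run, B.step, d1]
      · simp [run, B.step, d6]
      · simp [run, B.step, d3]
      · simp [run, B.step, d2]
      · simp [run, B.step, d7]
      · simp [run, B.step, d2, da, j8, j5]
    · rw [y2 hgood]
      exact ⟨d0, d1, d6, d3, d2, d7, hinv.step_bad hgood da⟩
  obtain ⟨x0, x1, x6, x3, x2, x7, xi⟩ := g4
  refine ⟨_, _, .seq f1 (.seq f2 (.seq f3 (.seq f4 (.blk _ _)))), ?_, ?_, ?_, ?_, ?_, ?_, ?_, ?_⟩
  · simp only [List.length_cons, List.length_nil, zero_add, Nat.reduceAdd] at ht4 ⊢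
    omega
  · simp [run, B.step, x0]
  · simp [run, B.step, x1]
  · simp [run, B.step, x6]
  · simp only [run, B.step, ne_eq, Nat.succ_ne_self, not_false_eq_true, Function.update_of_ne, x3, Function.update_self]; omega
  · simp [run, B.step, x2]
  · simp [run, B.step, x7]
  · exact xi

/-- Writes the result. -/
def post : Cmd := .seq (.blk [.const 2 0, .copy 3 0, .copy 6 0, .inc 6])
  (.loop (.lt 2 7) postBody)

theorem post_spec (s : St) {n m : ℕ} (hn : s.r 0 = n) (hz : s.r 1 = 0) (h7 : s.r 7 = m)
    (hcap : ∀ p < m, s.a 9 p + n ≤ cap)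
    (huniq : ∀ p < m, ∀ q < m, GoodArc n (s.a 2) (s.a 9) p → GoodArc n (s.a 2) (s.a 9) q →
      s.a 8 p = s.a 8 q → p = q) (h3 : ∀ v, s.a 3 v = 0) :
    ∃ s' t, Ex R cap post s t s' ∧ t ≤ 15 * m + 5 ∧
      (∀ p < m, GoodArc n (s.a 2) (s.a 9) p → s'.a 3 (s.a 8 p) = s.a 5 p + 1) ∧
      (∀ v, (∀ p < m, GoodArc n (s.a 2) (s.a 9) p → s.a 8 p ≠ v) → s'.a 3 v = 0) := by
  obtain ⟨s1, hs1⟩ : ∃ s1, s1 = run [.const 2 0, .copy 3 0, .copy 6 0, .inc 6] s := ⟨_, rfl⟩
  have e1 : Ex R cap (.blk [.const 2 0, .copy 3 0, .copy 6 0, .inc 6]) s 4 s1 := by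
    rw [hs1]; exact Ex.blk _ _
  have h1 : s1.r 0 = n ∧ s1.r 1 = 0 ∧ s1.r 7 = m ∧ s1.r 2 = 0 ∧
      s1.r 3 = n ∧ s1.r 6 = n + 1 ∧ s1.a = s.a := by
    subst hs1; simp [run, B.step, hn, h7, hz]
  obtain ⟨a0, a1, a7, a2, a3, a6, aa⟩ := h1
  obtain ⟨s2, t2, e2, ht2, ⟨b0, b1, b6, b3, bi⟩, b2, b7⟩ :=
    for_rule (R := R) (cap := cap) (i := 2) (b := 7)
    (body := postBody) m 14 0
    (fun k s' => s'.r 0 = n ∧ s'.r 1 = 0 ∧ s'.r 6 = n + 1 ∧ s'.r 3 = n + k ∧ PostInv n k s s')
    (by
      rintro k s' _ hk ⟨h0, h1, h6, h3, hinv⟩ hi hb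
      obtain ⟨u, t, e, ht, x0, x1, x6, x3, x2, x7, xi⟩ := postBody_spec (R := R) (cap := cap) s s'
        h0 h1 h6 h3 hi hb hinv hk hcap huniq
      exact ⟨u, t, e, ht, ⟨x0, x1, x6, x3, xi⟩, x2, x7⟩)
    s1 (by omega) ⟨a0, a1, a6, by omega, by intro i hi; omega,
      by intro v _; rw [aa]; exact h3 v, by intro j _; rw [aa]⟩ a2 a7
  refine ⟨s2, _, .seq e1 e2, ?_, bi.1, bi.2.1⟩
  (clear * - h7 a0 a7 a3 a6 ht2 b0 b6 b3 b2 b7; omega)

end Vale.Agent.P305
end
end

section

section

/-! Maximum matching on all graphs from maximum matching on comparability graphs of height 3. -/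

set_option autoImplicit false

namespace Vale.Agent.P305

open Function (update)
open L1

theorem gadG_comp3 {n m2 : ℕ} {A : ℕ → ℕ → Prop} {own adj rev : ℕ → ℕ} (hG : Gr n A)
    (h : Arcs n A m2 own adj rev) : Comp3 (n + m2) (gadG n m2 own adj rev h) := by
  refine ⟨⟨fun x y => RH n m2 own adj rev x y, ?_, fun u v => Iff.rfl, ?_⟩,
    {x | (x : ℕ) < n}, ?_, ?_⟩
  · exact { irrefl := fun x => RH.irrefl h x, trans := fun x y z => RH.trans h }
  · rintro a b c d ⟨h1, h2, h3⟩
    exact RH.height h h1 h2 h3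
  · intro u hu v hv huv
    obtain ⟨p, hp, h1, _⟩ := HA.of_lt hu huv
    have hv' : (v : ℕ) < n := hv
    omega
  · intro u hu
    have hu' : ¬ (u : ℕ) < n := hu
    obtain ⟨p, hup⟩ : ∃ p, (u : ℕ) = n + p := ⟨u - n, by omega⟩
    have hp : p < m2 := by have := u.2; omega
    have hr := h.rev_lt p hp
    refine ⟨⟨n + rev p, by omega⟩, ⟨fun h1 => ?_, ?_⟩, ?_⟩
    · have h1' : n + rev p < n := h1
      omega
    · show HA n m2 own adj rev u (n + rev p)
      rw [hup]
      exact HA.new_rev h hG hp
    · rintro v ⟨hv, huv⟩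
      have hv' : ¬ (v : ℕ) < n := hv
      have huv' : HA n m2 own adj rev u v := huv
      rw [hup] at huv'
      apply Fin.ext
      show (v : ℕ) = n + rev p
      rcases HA.of_new h hp huv' with h1 | h1 | h1
      · have := h.own_lt p hp; omega
      · have := h.adj_lt hp; omega
      · exact h1

/-- The whole program. -/
def gadAll : Cmd :=
  .seq (.seq (.seq unpack (.seq mulN (.seq arcTab revTab)))
        (.seq offA (.seq offB (.seq adjA (.seq adjB pack))))) (.seq .call post)

theorem gadAll_ok : gadAll.ok 12 1 := by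
  simp only [gadAll, unpack, mulN, arcTab, arcLoop, revTab, offA, offB, adjA, adjB, pack, clear1, post, postBody, guard4, Cmd.ok_seq, Cmd.ok_blk, List.mem_cons, List.not_mem_nil, or_false, forall_eq_or_imp, B.ok_const, zero_le, B.ok_load, Nat.ofNat_pos, Std.le_refl, B.ok_copy, forall_eq, B.ok_inc, and_self, Cmd.ok_loop, B.ok_store, Nat.reduceLT, Cmd.ok_add, Cmd.ok_ite, or_self_left, Nat.lt_add_one, Nat.one_lt_ofNat, or_self, Cmd.ok_call, IsEmpty.forall_iff, implies_true]

/-- What holds after the computation of the arcs. -/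
theorem gad_pre1 {n : ℕ} (G : SimpleGraph (Fin n)) (L : AdjLists G)
    {R : List ℕ → (ℕ → ℕ) → ℕ → Prop} {cap : ℕ} (hcap1 : n * n ≤ cap) :
    ∃ (s : St) (t : ℕ), Ex R cap (.seq unpack (.seq mulN (.seq arcTab revTab))) (St.init L.encode)
        t s ∧
      t ≤ 16 * n + 48 * G.edgeSet.ncard + 40 ∧ s.a 4 n = 2 * G.edgeSet.ncard ∧
      CSR n (natAdj G) (s.a 4) (s.a 5) ∧ Arcs n (natAdj G) (s.a 4 n) (s.a 8) (s.a 5) (s.a 9) ∧
      (∀ v < n, ∀ p, s.a 4 v ≤ p → p < s.a 4 (v + 1) → s.a 8 p = v) ∧
      s.r 0 = n ∧ s.r 1 = 0 ∧ s.r 7 = s.a 4 n ∧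
      (∀ v, s.a 3 v = 0) ∧ (∀ i, s.a 1 i = 0) := by
  set m := G.edgeSet.ncard with hm
  have hG := natAdj_gr G
  have hinit : ∀ j i, (St.init L.encode).a j i = if j = 0 then L.encode.getD i 0 else 0 :=
    fun j i => rfl
  have hoffn : L.encode.getD (n + 1) 0 = 2 * m := by rw [L.encode_off le_rfl, L.upTo_length]
  obtain ⟨s1, t1, e1, ht1, r10, r11, o1, a1, j1⟩ := unpack_spec (R := R) (cap := cap)
    (St.init L.encode) n (2 * m) (by rw [hinit, if_pos rfl, L.encode_zero])
    (by rw [hinit, if_pos rfl, hoffn])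
  set off := s1.a 4 with hoff
  set adj := s1.a 5 with hadj
  have hn : off n = 2 * m := by rw [o1 n le_rfl, hinit, if_pos rfl, hoffn]
  have hC : CSR n (natAdj G) off adj := by
    refine csr_of_encode L (fun i hi => ?_) (fun p hp => ?_)
    · rw [o1 i hi, hinit, if_pos rfl]
    · rw [a1 p (by omega), hinit, if_pos rfl]
  obtain ⟨s2, t2, e2, ht2, r20, r21, a26, j2⟩ := mulN_spec (R := R) (cap := cap) s1 r10 hcap1
  have hC2 : CSR n (natAdj G) (s2.a 4) (s2.a 5) := by
    rw [j2 4 (by decide), j2 5 (by decide)]; exact hC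
  obtain ⟨s3, t3, e3, ht3, r30, r31, a3, j3⟩ := arcTab_spec (R := R) (cap := cap) s2 hG hC2 r20 a26
    hcap1
  rw [j2 4 (by decide), j2 5 (by decide), ← hoff, ← hadj] at a3
  rw [j2 4 (by decide), ← hoff] at ht3
  have s34 : s3.a 4 = off := by rw [j3 4 (by decide) (by decide), j2 4 (by decide)]
  have s35 : s3.a 5 = adj := by rw [j3 5 (by decide) (by decide), j2 5 (by decide)]
  have s36 : ∀ i < n, s3.a 6 i = i * n := by
    intro i hi
    rw [j3 6 (by decide) (by decide), a26 i hi]
  have hadjn : ∀ p < off n, adj p < n := by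
    intro p hp
    obtain ⟨v, hv, h1, h2⟩ := block_of_lt hC.off0 hp
    exact hG.lt' ((hC.mem v hv _).2 ⟨p, h1, h2, rfl⟩)
  have hownn : ∀ p < off n, s3.a 8 p < n := by
    intro p hp
    obtain ⟨v, hv, h1, h2⟩ := block_of_lt hC.off0 hp
    rw [(a3 v hv p h1 h2).1]
    exact hv
  obtain ⟨s4, t4, e4, ht4, r40, r41, r47, a49, j4⟩ := revTab_spec (R := R) (cap := cap) s3 r30 s36
    hcap1 (by rw [s34, s35]; exact hadjn) (by rw [s34]; exact hownn)
  rw [s34, s35] at a49
  rw [s34] at ht4 r47
  have s44 : s4.a 4 = off := by rw [j4 4 (by decide), s34]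
  have s45 : s4.a 5 = adj := by rw [j4 5 (by decide), s35]
  have s48 : s4.a 8 = s3.a 8 := j4 8 (by decide)
  refine ⟨s4, _, .seq e1 (.seq e2 (.seq e3 e4)), ?_, ?_, ?_, ?_, ?_, r40, ?_, ?_, ?_, ?_⟩
  · omega
  · rw [s44, hn]
  · rw [s44, s45]; exact hC
  · rw [s44, s45, s48]
    refine arcs_of hG hC (fun v hv p h1 h2 => (a3 v hv p h1 h2).1) ?_
    intro v hv p h1 h2
    have hvp : natAdj G v (adj p) := (hC.mem v hv _).2 ⟨p, h1, h2, rfl⟩
    have hlt : adj p < n := hG.lt' hvp
    obtain ⟨q, h3, h4, h5⟩ := (hC.mem _ hlt v).1 (hG.symm hvp)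
    have hpn : p < off n := by
      have := hC.mono' (i := v + 1) (j := n) (by omega) le_rfl
      omega
    refine ⟨q, h3, h4, h5, ?_⟩
    rw [a49 p hpn, (a3 v hv p h1 h2).1]
    have := (a3 _ hlt q h3 h4).2
    rw [h5] at this
    exact this
  · rw [s44, s48]
    intro v hv p h1 h2
    exact (a3 v hv p h1 h2).1
  · rw [r41, r31, r21, r11]
  · rw [r47, s44]
  · intro v
    rw [j4 3 (by decide), j3 3 (by decide) (by decide), j2 3 (by decide),
      j1 3 (by decide) (by decide), hinit, if_neg (by decide)]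
  · intro v
    rw [j4 1 (by decide), j3 1 (by decide) (by decide), j2 1 (by decide),
      j1 1 (by decide) (by decide), hinit, if_neg (by decide)]

/-- From the arcs to the input of the call. -/
theorem gad_pre2 {n : ℕ} {A : ℕ → ℕ → Prop} (hG : Gr n A) {s4 : St} {off own adj rev : ℕ → ℕ}
    (hC : CSR n A off adj)
    (h : Arcs n A (off n) own adj rev)
    (hown : ∀ v < n, ∀ p, off v ≤ p → p < off (v + 1) → own p = v)
    (s44 : s4.a 4 = off) (s45 : s4.a 5 = adj) (s48 : s4.a 8 = own) (s49 : s4.a 9 = rev)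
    (s41 : ∀ i, s4.a 1 i = 0) (s43 : ∀ i, s4.a 3 i = 0)
    {R : List ℕ → (ℕ → ℕ) → ℕ → Prop} {cap : ℕ}
    (hcap2 : n + 2 * off n + 2 ≤ cap) (r40 : s4.r 0 = n) (r41 : s4.r 1 = 0)
    (r47 : s4.r 7 = off n) :
    ∃ (s : St) (t : ℕ) (L' : AdjLists (gadG n (off n) own adj rev h)),
      Ex R cap (.seq offA (.seq offB (.seq adjA (.seq adjB pack)))) s4 t s ∧
      t ≤ 10 * n + 57 * off n + 70 ∧
      s.r 0 = n ∧ s.r 1 = 0 ∧ s.r 7 = off n ∧ s.a 5 = adj ∧ s.a 8 = own ∧ s.a 9 = rev ∧
      (∀ v, s.a 3 v = 0) ∧ (∀ i, s.a 1 i = L'.encode.getD i 0) ∧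
      (L'.upTo (n + off n)).length = 5 * off n := by
  obtain ⟨s5, t5, e5, ht5, r50, r51, r57, r52, r53, a5, j5⟩ := offA_spec (R := R) (cap := cap) s4
    r40 (by
      intro i hi
      rw [s44]
      have := hC.mono' (i := i) (j := n) hi le_rfl
      omega)
  rw [s44] at r53 a5
  rw [r47] at r57
  obtain ⟨s6, t6, e6, ht6, r60, r61, r67, r620, a6, a6', j6⟩ := offB_spec (R := R) (cap := cap) s5
    r50 r57 r52 r53 (by omega) (a5 n le_rfl)
  have s69 : s6.a 9 = rev := by rw [j6 9 (by decide), j5 9 (by decide), s49]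
  have hrevn : ∀ p < off n, rev p < off n := h.rev_lt
  obtain ⟨s7, t7, e7, ht7, r70, r71, r77, r720, r73, a7, j7⟩ := adjA_spec (R := R) (cap := cap) s6
    r60 r67 (by
      intro p hp
      rw [s69]
      have := hrevn p hp
      omega)
  rw [s69] at a7
  have s79 : s7.a 9 = rev := by rw [j7 9 (by decide), s69]
  obtain ⟨s8, t8, e8, ht8, r80, r81, r87, r820, a8, a8', j8⟩ := adjB_spec (R := R) (cap := cap) s7
    r70 r77 r73 (by
      intro p hp
      rw [s79]
      have := hrevn p hp
      omega)
  have s78 : s7.a 8 = own := by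
    rw [j7 8 (by decide), j6 8 (by decide), j5 8 (by decide), s48]
  have s75 : s7.a 5 = adj := by
    rw [j7 5 (by decide), j6 5 (by decide), j5 5 (by decide), s45]
  rw [s78, s75, s79] at a8'
  have s810 : s8.a 10 = s6.a 10 := by rw [j8 10 (by decide), j7 10 (by decide)]
  have hcsr : CSR (n + off n) (HA n (off n) own adj rev) (s8.a 10) (s8.a 11) := by
    refine gad_csr hG hC hown h ?_ ?_ ?_ ?_
    · intro i hi
      rw [s810, a6 i hi, a5 i hi]
    · intro i hi
      rw [s810, a6' i hi]
    · intro p hp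
      rw [a8 _ (by (clear * - r40 r47 r50 r57 r52 r60 r67 r620 r70 r77 r720 r80 r87 hp; omega)), a8 _ (by (clear * - r40 r47 r50 r57 r52 r60 r67 r620 r70 r77 r720 r80 r87 hp; omega))]
      exact a7 p hp
    · exact a8'
  have s81 : s8.a 1 = fun _ => 0 := by
    rw [j8 1 (by decide), j7 1 (by decide), j6 1 (by decide), j5 1 (by decide)]
    funext i
    exact s41 i
  have s83 : ∀ i, s8.a 3 i = 0 := by
    rw [j8 3 (by decide), j7 3 (by decide), j6 3 (by decide), j5 3 (by decide)]
    exact s43
  rw [← natAdj_gadG h] at hcsr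
  obtain ⟨s9, t9, L', e9, ht9, h91, _, _, hlen, j9, r9⟩ := pack_spec' (R := R) (cap := cap) s8
    (N := n + off n) (H := gadG n (off n) own adj rev h) (by rw [r820, r720, r620])
    (by rw [s81]; intro i _; rfl) (by rw [s81]; simp [encLen]; omega) hcsr
  have hend : s8.a 10 (n + off n) = 5 * off n := by
    rw [s810, a6' (off n) le_rfl]; (clear * - h; omega)
  rw [hend] at hlen ht9
  rw [s81] at ht9
  simp only [encLen] at ht9
  refine ⟨s9, t5 + (t6 + (t7 + (t8 + t9))), L', .seq e5 (.seq e6 (.seq e7 (.seq e8 e9))), ?_,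
    ?_, ?_, ?_, ?_, ?_, ?_, ?_, h91, hlen⟩
  · (clear hG hC hown s44 s45 s48 s49 s41 s43 R cap hcap2 r41 e5 r51 r53 a5 j5 e6 r61 a6 a6' j6 s69 hrevn e7 r71 r73 a7 j7 s79 e8 r81 a8 a8' j8 s78 s75 s810 hcsr s81 s83 L' e9 h91 hlen j9 r9; omega)
  · rw [r9 0 (by omega), r80]
  · rw [r9 1 (by (clear * - h; omega)), r81, r71, r61, r51, r41]
  · rw [r9 7 (by omega), r87]
  · rw [j9 5 (by decide), j8 5 (by decide), s75]
  · rw [j9 8 (by decide), j8 8 (by decide), s78]
  · rw [j9 9 (by decide), j8 9 (by decide), s79]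
  · rw [j9 3 (by decide)]; exact s83

/-- What holds before the call. -/
theorem gad_pre {n : ℕ} (G : SimpleGraph (Fin n)) (L : AdjLists G)
    {R : List ℕ → (ℕ → ℕ) → ℕ → Prop} {cap : ℕ} (hcap1 : n * n ≤ cap)
    (hcap2 : n + 4 * G.edgeSet.ncard + 2 ≤ cap) :
    ∃ (s : St) (t : ℕ) (own rev : ℕ → ℕ) (off adj : ℕ → ℕ)
      (h : Arcs n (natAdj G) (off n) own adj rev)
      (L' : AdjLists (gadG n (off n) own adj rev h)),
      Ex R cap (.seq (.seq unpack (.seq mulN (.seq arcTab revTab)))
        (.seq offA (.seq offB (.seq adjA (.seq adjB pack))))) (St.init L.encode) t s ∧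
      t ≤ 250 * (n + G.edgeSet.ncard + 1) ∧ off n = 2 * G.edgeSet.ncard ∧
      s.r 0 = n ∧ s.r 1 = 0 ∧ s.r 7 = off n ∧ s.a 5 = adj ∧ s.a 8 = own ∧ s.a 9 = rev ∧
      (∀ v, s.a 3 v = 0) ∧ (∀ i, s.a 1 i = L'.encode.getD i 0) ∧
      (L'.upTo (n + off n)).length = 5 * off n := by
  obtain ⟨s1, t1, e1, ht1, hn, hC, h, hown, r0, r1, r7, a3, a1⟩ := gad_pre1 (R := R) G L hcap1
  obtain ⟨s2, t2, L', e2, ht2, h2⟩ := gad_pre2 (R := R) (cap := cap) (natAdj_gr G) hC h hown rfl rfl
    rfl rfl a1 a3 (by omega) r0 r1 r7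
  exact ⟨s2, _, _, _, _, _, h, L', .seq e1 e2, by omega, hn, h2⟩

theorem out_iff {n x a : ℕ} (hx : n ≤ x) :
    (0 < (if a = x then 0 else a + 1) ∧ (if a = x then 0 else a + 1) < n + 1) ↔ a < n := by
  by_cases h : a = x
  · rw [if_pos h]; omega
  · rw [if_neg h]; omega

/-- The program computes a maximum matching with one call on a comparability graph of height
three with `n + 2m` vertices and `5m` edges. -/
theorem gad_run {n : ℕ} (G : SimpleGraph (Fin n)) (L : AdjLists G)
    {R : List ℕ → (ℕ → ℕ) → ℕ → Prop} {cap τ : ℕ} (hcap1 : n * n ≤ cap)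
    (hcap2 : n + 4 * G.edgeSet.ncard + 2 ≤ cap)
    (hR : ∀ (n' : ℕ) (H : SimpleGraph (Fin n')) (L' : AdjLists H), Comp3 n' H →
      (n' = n + 2 * G.edgeSet.ncard ∧ H.edgeSet.ncard = 5 * G.edgeSet.ncard) →
        ∃ (out : ℕ → ℕ) (t : ℕ) (M : H.Subgraph), R L'.encode out t ∧ t ≤ τ ∧
          IsMaximumMatching H M ∧ Represents out M) :
    ∃ (t : ℕ) (s : St) (M : G.Subgraph), Ex R cap gadAll (St.init L.encode) t s ∧
      t ≤ 300 * (n + G.edgeSet.ncard + 1) + 1 * τ ∧ IsMaximumMatching G M ∧
      Represents (s.a 3) M := by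
  obtain ⟨s, t, own, rev, off, adj, h, L', e, ht, hn, r0, r1, r7, a5, a8, a9, a3, a1, hlen⟩ :=
    gad_pre (R := R) G L hcap1 hcap2
  have hG := natAdj_gr G
  have hm : (gadG n (off n) own adj rev h).edgeSet.ncard = 5 * G.edgeSet.ncard := by
    have := L'.upTo_length
    omega
  obtain ⟨out, tb, M, hRout, htb, hM, hrep⟩ := hR _ _ L' (gadG_comp3 hG h) ⟨by rw [hn], hm⟩
  have e2 : Ex R cap .call s (tb + L'.encode.length + 1) (callResult s L'.encode out) :=
    Ex.call a1 hRout
  obtain ⟨s2, hs2⟩ : ∃ s2, s2 = callResult s L'.encode out := ⟨_, rfl⟩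
  rw [← hs2] at e2
  have c2 : ∀ i < n + off n, s2.a 2 i = out i := by
    intro i hi
    rw [hs2]
    simp only [callResult, Function.update_self]
    rw [L'.encode_headI, if_pos hi]
  have cj : ∀ j, j ≠ 2 → s2.a j = s.a j := by
    intro j hj
    rw [hs2]
    simp only [callResult, Function.update_of_ne hj]
  have cr : s2.r = s.r := by rw [hs2]; rfl
  -- the matching of the gadget graph
  have hmax := isMax_mateOf hM
  rw [natAdj_gadG h] at hmax
  set mH := mateOf M with hmH
  have hout : ∀ i < n + off n, out i = if mH i = i then 0 else mH i + 1 :=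
    fun i hi => Represents.mateOf hM.1 hrep hi
  have hrl := h.rev_lt
  have hgood : ∀ p < off n, (GoodArc n (s2.a 2) (s2.a 9) p ↔ mH (n + p) < n ∧
      mH (n + rev p) < n) := by
    intro p hp
    have hp' := hrl p hp
    unfold GoodArc
    rw [cj 9 (by decide), a9, c2 _ (by (clear * - h hn hp; omega)), c2 _ (by omega), hout _ (by omega),
      hout _ (by omega)]
    rw [← and_assoc, out_iff (by omega), out_iff (by omega)]
  have huniq : ∀ p < off n, ∀ q < off n, GoodArc n (s2.a 2) (s2.a 9) p →
      GoodArc n (s2.a 2) (s2.a 9) q → s2.a 8 p = s2.a 8 q → p = q := by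
    intro p hp q hq h1 h2 h3
    rw [hgood p hp] at h1
    rw [hgood q hq] at h2
    rw [cj 8 (by decide), a8] at h3
    have k1 : KR n (off n) own adj rev mH (own p) (adj p) := ⟨p, hp, rfl, rfl, h1⟩
    have k2 : KR n (off n) own adj rev mH (own p) (adj q) := ⟨q, hq, h3.symm, rfl, h2⟩
    exact h.inj p hp q hq h3 (KR.fn h hG hmax.1 k1 k2)
  obtain ⟨s3, t3, e3, ht3, p1, p2⟩ := post_spec (R := R) (cap := cap) s2 (n := n) (m := off n)
    (by rw [cr, r0]) (by rw [cr, r1]) (by rw [cr, r7])
    (by
      intro p hp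
      have := hrl p hp
      rw [cj 9 (by decide), a9]
      omega)
    huniq (by intro v; rw [cj 3 (by decide), a3])
  rw [cj 8 (by decide), a8] at p1 p2
  rw [cj 5 (by decide), a5] at p1
  have hres := downM_isMax h hG hmax.1 hmax
  obtain ⟨M', hM', hrep'⟩ := maximum_of_isMax (f := s3.a 3) hres (by
    intro v hv
    by_cases hex : ∃ u, KR n (off n) own adj rev mH v u
    · obtain ⟨u, hu⟩ := hex
      have hd := downM_eq h hG hmax.1 hu
      obtain ⟨p, hp, h1, h2, h3⟩ := hu
      have hne := h.ne hG hp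
      rw [hd, if_neg (by omega), ← h1, ← h2]
      exact p1 p hp ((hgood p hp).2 h3)
    · rw [downM_none hex, if_pos rfl]
      apply p2 v
      intro p hp hgp hpv
      exact hex ⟨adj p, p, hp, hpv, rfl, (hgood p hp).1 hgp⟩)
  have hlen2 := L'.encode_length
  exact ⟨_, s3, M', .seq e (.seq e2 e3), by (clear * - h ht hn r0 hlen htb ht3 hlen2; omega), hM', hrep'⟩

/-- Maximum matching on all graphs reduces to maximum matching on comparability graphs of height
three. -/
theorem all_of_comp3 (T : ℕ → ℕ → ℕ)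
    (hP : ∃ P, Solves P Comp3 (fun n G => T n G.edgeSet.ncard)) :
    ∃ P C, Solves P (fun _ _ => True) (fun n G =>
      C * (T (n + 2 * G.edgeSet.ncard) (5 * G.edgeSet.ncard) + n + G.edgeSet.ncard + 1)) := by
  obtain ⟨P, hP⟩ := hP
  obtain ⟨k0, hk0⟩ : ∃ k0, 300 ≤ 2 ^ k0 := ⟨9, by norm_num⟩
  have hpow : ∀ N, 2 ≤ N → 300 * (N * N) ≤ N ^ (k0 + 2) := by
    intro N hN
    rw [pow_add, pow_two N]
    exact Nat.mul_le_mul_right _ (hk0.trans (Nat.pow_le_pow_left hN k0))
  have hNN : ∀ N, 2 ≤ N → N ≤ N * N := fun N hN => Nat.le_mul_of_pos_left _ (by omega)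
  have hA : ∀ (n : ℕ) (G : SimpleGraph (Fin n)),
      300 * (n + G.edgeSet.ncard + 1) ≤ (n + G.edgeSet.ncard + 2) ^ (k0 + 2) := by
    intro n G
    refine le_trans (Nat.mul_le_mul_left _ ?_) (hpow _ (by omega))
    exact le_trans (by omega) (hNN _ (by omega))
  have hc1 : ∀ (n : ℕ) (G : SimpleGraph (Fin n)),
      n * n ≤ (n + G.edgeSet.ncard + 2) ^ (k0 + 2) := by
    intro n G
    refine le_trans ?_ (hpow _ (by omega))
    exact le_trans (Nat.mul_le_mul (by omega) (by omega)) (Nat.le_mul_of_pos_left _ (by omega))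
  have hc2 : ∀ (n : ℕ) (G : SimpleGraph (Fin n)),
      n + 4 * G.edgeSet.ncard + 2 ≤ (n + G.edgeSet.ncard + 2) ^ (k0 + 2) := by
    intro n G
    exact le_trans (by (clear * -; omega)) (hA n G)
  have hsz : ∀ (n : ℕ) (G : SimpleGraph (Fin n)), True → ∀ (n' : ℕ) (H : SimpleGraph (Fin n')),
      Comp3 n' H → (n' = n + 2 * G.edgeSet.ncard ∧ H.edgeSet.ncard = 5 * G.edgeSet.ncard) →
      n' + H.edgeSet.ncard + 2 ≤ (n + G.edgeSet.ncard + 2) ^ (k0 + 2) ∧
        T n' H.edgeSet.ncard ≤ T (n + 2 * G.edgeSet.ncard) (5 * G.edgeSet.ncard) := by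
    rintro n G - n' H - ⟨h1, h2⟩
    rw [h2, h1]
    exact ⟨le_trans (by omega) (hA n G), le_rfl⟩
  obtain ⟨P', C, k, hk⟩ := solves_of_L1 (CG := fun _ _ => True) hP (K := 12) (by decide) gadAll
    (cst := 1) gadAll_ok (k0 + 2) (k0 + 2)
    (fun n G n' H => n' = n + 2 * G.edgeSet.ncard ∧ H.edgeSet.ncard = 5 * G.edgeSet.ncard)
    (fun n G => T (n + 2 * G.edgeSet.ncard) (5 * G.edgeSet.ncard))
    (fun n G => 300 * (n + G.edgeSet.ncard + 1)) (fun _ _ => 1) hsz (fun n G _ => hA n G)
    (fun n G _ L R τ hR => gad_run G L (hc1 n G) (hc2 n G) hR)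
  refine ⟨P', 300 * C + C, k, fun n G hG L => ?_⟩
  obtain ⟨t, s, M, e, ht, hM, hr⟩ := hk n G hG L
  refine ⟨t, s, M, e, ht.trans ?_, hM, hr⟩
  beta_reduce
  rw [Nat.add_mul]
  have h1 : C * (300 * (n + G.edgeSet.ncard + 1) +
      1 * T (n + 2 * G.edgeSet.ncard) (5 * G.edgeSet.ncard) + n + G.edgeSet.ncard + 1) =
      300 * C * (n + G.edgeSet.ncard + 1) +
      C * (T (n + 2 * G.edgeSet.ncard) (5 * G.edgeSet.ncard) + n + G.edgeSet.ncard + 1) := by
    ring
  rw [h1]
  apply Nat.add_le_add_right
  apply Nat.mul_le_mul_left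
  omega

/-- Almost-linear time on these comparability graphs is the same as on all graphs. -/
theorem almostLinear_comp3 : AlmostLinear Comp3 ↔ AlmostLinear fun _ _ => True := by
  constructor
  · rintro ⟨P, T, hP, hT⟩
    obtain ⟨P', C, hP'⟩ := all_of_comp3 (fun n m => T (n + m)) ⟨P, hP⟩
    refine ⟨P', fun N => C * (((Finset.range (7 * N + 1)).sup T) + N + 1),
      hP'.mono (fun _ _ h => h) ?_, ?_⟩
    · intro n G _
      apply Nat.mul_le_mul_left
      have : T (n + 2 * G.edgeSet.ncard + 5 * G.edgeSet.ncard) ≤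
          (Finset.range (7 * (n + G.edgeSet.ncard) + 1)).sup T :=
        Finset.le_sup (f := T) (Finset.mem_range.2 (by omega))
      omega
    · intro ε hε
      obtain ⟨c, hc⟩ := hT ε hε
      have hc0 : 0 ≤ c := by
        have := hc 0
        simp only [Nat.cast_zero, zero_add, Real.one_rpow, mul_one] at this
        exact (Nat.cast_nonneg _).trans this
      refine ⟨C * (c * 7 ^ (1 + ε) + 1), fun N => ?_⟩
      have hN : (0 : ℝ) ≤ (N : ℝ) := Nat.cast_nonneg N
      have h7 : (((Finset.range (7 * N + 1)).sup T : ℕ) : ℝ) ≤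
          c * 7 ^ (1 + ε) * ((N : ℝ) + 1) ^ (1 + ε) := by
        have hex : ∃ k ∈ Finset.range (7 * N + 1), (Finset.range (7 * N + 1)).sup T = T k :=
          Finset.exists_mem_eq_sup _ ⟨0, by simp only [Finset.mem_range, lt_add_iff_pos_left, Order.lt_add_one_iff, zero_le]⟩ T
        obtain ⟨k, hk, hk'⟩ := hex
        rw [hk']
        refine (hc k).trans ?_
        rw [mul_assoc, ← Real.mul_rpow (by norm_num) (by linarith only [])]
        apply mul_le_mul_of_nonneg_left _ hc0
        apply Real.rpow_le_rpow (by positivity) _ (by linarith only [hε])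
        rw [Finset.mem_range] at hk
        have : (k : ℝ) ≤ 7 * N := by
          have : k ≤ 7 * N := by (clear * - hk; omega)
          exact_mod_cast this
        linarith only [this]
      have h1 : (N : ℝ) + 1 ≤ ((N : ℝ) + 1) ^ (1 + ε) := by
        conv_lhs => rw [← Real.rpow_one ((N : ℝ) + 1)]
        exact Real.rpow_le_rpow_of_exponent_le (by linarith) (by linarith)
      push_cast
      rw [mul_assoc]
      apply mul_le_mul_of_nonneg_left _ (Nat.cast_nonneg _)
      rw [add_mul, one_mul]
      linarith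
  · rintro ⟨P, T, hP, hT⟩
    exact ⟨P, T, hP.mono (fun _ _ _ => trivial) fun _ _ _ => le_rfl, hT⟩

end Vale.Agent.P305
end
end

section

section

/-! Upper bounds for the odd packing number. -/

set_option autoImplicit false

namespace Vale.Agent.P305

theorem IsOddPacking.nonempty {n : ℕ} {G : SimpleGraph (Fin n)} {k : ℕ}
    {S : Fin k → Set (Fin n)} (h : IsOddPacking G k S) (i : Fin k) : (S i).Nonempty := by
  by_contra hc
  rw [Set.not_nonempty_iff_eq_empty] at hc
  apply h.1 i
  have : IsEmpty (S i) := by rw [hc]; infer_instance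
  exact ⟨SimpleGraph.Coloring.mk (fun _ => (0 : Fin 2)) (fun {v} => isEmptyElim v)⟩

theorem oddPacking_le_of {n : ℕ} (G : SimpleGraph (Fin n)) {c : ℕ}
    (h : ∀ (k : ℕ) (S : Fin k → Set (Fin n)), IsOddPacking G k S → k ≤ c) : oddPacking G ≤ c :=
  csSup_le ⟨0, fun i => i.elim0, fun i => i.elim0, fun i => i.elim0⟩
    (fun k ⟨S, hS⟩ => h k S hS)

theorem oddPacking_le_indepNum {n : ℕ} (G : SimpleGraph (Fin n)) : oddPacking G ≤ G.indepNum := by
  classical
  refine oddPacking_le_of G fun k S hS => ?_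
  choose f hf using fun i => hS.nonempty i
  have hinj : Function.Injective f := by
    intro i j hij
    by_contra hne
    exact (hS.2 i j hne (f i) (hf i) (f j) (hf j)).1 hij
  have hI : G.IsIndepSet ((Finset.univ.image f : Finset (Fin n)) : Set (Fin n)) := by
    intro u hu v hv huv
    simp only [Finset.coe_image, Finset.coe_univ, Set.image_univ, Set.mem_range] at hu hv
    obtain ⟨i, rfl⟩ := hu
    obtain ⟨j, rfl⟩ := hv
    exact (hS.2 i j (fun h => huv (h ▸ rfl)) _ (hf i) _ (hf j)).2
  have h1 := hI.card_le_indepNum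
  rwa [Finset.card_image_of_injective _ hinj, Finset.card_univ, Fintype.card_fin] at h1

theorem oddPacking_le_cliques {n : ℕ} (G : SimpleGraph (Fin n)) {c : ℕ}
    (K : Fin c → Set (Fin n)) (hK : ∀ i, G.IsClique (K i))
    (hB : (G.induce {v | ∀ i, v ∉ K i}).IsBipartite) : oddPacking G ≤ c := by
  refine oddPacking_le_of G fun k S hS => ?_
  have hex : ∀ i, ∃ (a : Fin c) (v : Fin n), v ∈ S i ∧ v ∈ K a := by
    intro i
    by_contra hc
    simp only [not_exists, not_and] at hc
    apply hS.1 i
    obtain ⟨col⟩ := hB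
    exact ⟨SimpleGraph.Coloring.mk (fun v => col ⟨v.1, fun a => hc a v.1 v.2⟩)
      (fun {u v} huv => col.valid (by simpa using huv))⟩
  choose a v hv using hex
  have hinj : Function.Injective a := by
    intro i j hij
    by_contra hne
    have h1 := hS.2 i j hne (v i) (hv i).1 (v j) (hv j).1
    have h2 : v i ∈ K (a j) := hij ▸ (hv i).2
    exact h1.2 (hK (a j) h2 (hv j).2 h1.1)
  have := Fintype.card_le_of_injective a hinj
  simpa using this

end Vale.Agent.P305
end
end
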