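import Vale.Agent.P305.Bdl.K_Bdl_K_ChordalDefs
import Vale.Agent.P305.Bdl.B1
import Vale.Agent.P305.Classes
import Vale.Agent.P305.OddDefs

set_option linter.all false

section

section

/-! Orders with the maximum cardinality search property are perfect elimination orders of chordal
graphs. Theory. -/

set_option autoImplicit false

namespace Vale.Agent.P305

theorem cycle_adj_iff {N : ℕ} {u v : Fin N} (h : u < v) :
    (SimpleGraph.cycleGraph N).Adj u v ↔ (v : ℕ) = u + 1 ∨ ((u : ℕ) = 0 ∧ (v : ℕ) + 1 = N) := by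
  have h' : (u : ℕ) < v := h
  have hv := v.2
  rw [SimpleGraph.cycleGraph_adj', Fin.sub_def, Fin.sub_def]
  simp only
  have e1 : (N - (v : ℕ) + u) % N = N - v + u := Nat.mod_eq_of_lt (by omega)
  have e2 : (N - (u : ℕ) + v) % N = v - u := by
    rw [show N - (u : ℕ) + v = (v - u) + N by omega, Nat.add_mod_right]
    exact Nat.mod_eq_of_lt (by omega)
  rw [e1, e2]
  omega

/-- An induced path `p 0, …, p k`. -/
structure CPath (A : ℕ → ℕ → Prop) (k : ℕ) (p : ℕ → ℕ) : Prop where
  adj : ∀ i < k, A (p i) (p (i + 1))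
  far : ∀ i j, i + 1 < j → j ≤ k → ¬ A (p i) (p j) ∧ p i ≠ p j

theorem CPath.reverse {n : ℕ} {A : ℕ → ℕ → Prop} (hG : Gr n A) {k : ℕ} {p : ℕ → ℕ}
    (h : CPath A k p) : CPath A k (fun i => p (k - i)) where
  adj := by
    intro i hi
    have := h.adj (k - (i + 1)) (by omega)
    rw [show k - (i + 1) + 1 = k - i by omega] at this
    exact hG.symm this
  far := by
    intro i j hij hj
    have := h.far (k - j) (k - i) (by omega) (by omega)
    exact ⟨fun h1 => this.1 (hG.symm h1), fun h1 => this.2 h1.symm⟩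

/-- No induced path of a chordal graph closes to an induced cycle. -/
theorem no_close {n : ℕ} {G : SimpleGraph (Fin n)} (hch : IsChordal G) {k : ℕ} {p : ℕ → ℕ}
    (h : CPath (natAdj G) k p) (hk : 2 ≤ k) {x : ℕ} (h0 : natAdj G x (p 0))
    (h1 : natAdj G x (p k)) (h2 : ∀ i, 0 < i → i < k → ¬ natAdj G x (p i) ∧ x ≠ p i) :
    False := by
  have hG := natAdj_gr G
  have hx := hG.lt h0
  have hp : ∀ i ≤ k, p i < n := by
    intro i hi
    rcases Nat.lt_or_ge i k with h3 | h3
    · exact hG.lt (h.adj i h3)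
    · have : i = k := by omega
      rw [this]
      exact hG.lt' h1
  -- the cycle as a sequence
  set q : ℕ → ℕ := fun i => if i ≤ k then p i else x with hq
  have hqn : ∀ i, q i < n := by
    intro i
    rw [hq]
    beta_reduce
    split
    · exact hp i (by assumption)
    · exact hx
  have key : ∀ i j, i < j → j < k + 2 → (natAdj G (q i) (q j) ↔ j = i + 1 ∨ (i = 0 ∧ j + 1 = k + 2))
      ∧ q i ≠ q j := by
    intro i j hij hj
    rw [hq]
    beta_reduce
    rw [if_pos (show i ≤ k by omega)]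
    by_cases hjk : j ≤ k
    · rw [if_pos hjk]
      by_cases hj1 : j = i + 1
      · subst hj1
        have := h.adj i (by omega)
        exact ⟨⟨fun _ => Or.inl rfl, fun _ => this⟩, fun he => by
          rw [← he] at this; exact hG.irr _ this⟩
      · have := h.far i j (by omega) hjk
        refine ⟨⟨fun h3 => absurd h3 this.1, fun h3 => by omega⟩, this.2⟩
    · rw [if_neg hjk]
      have hj' : j = k + 1 := by omega
      by_cases hi0 : i = 0
      · subst hi0
        refine ⟨⟨fun _ => Or.inr ⟨rfl, by omega⟩, fun _ => hG.symm h0⟩, fun he => ?_⟩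
        rw [he] at h0
        exact hG.irr _ h0
      · by_cases hik : i = k
        · subst hik
          refine ⟨⟨fun _ => Or.inl hj', fun _ => hG.symm h1⟩, fun he => ?_⟩
          rw [he] at h1
          exact hG.irr _ h1
        · have := h2 i (by omega) (by omega)
          refine ⟨⟨fun h3 => absurd (hG.symm h3) this.1, fun h3 => by omega⟩, fun he =>
            this.2 he.symm⟩
  refine (hch (k + 2) (by omega)).false ⟨⟨fun t => ⟨q t, hqn t⟩, ?_⟩, ?_⟩
  · intro s t hst
    have hst' : q s = q t := congrArg Fin.val hst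
    rcases Nat.lt_trichotomy s t with h3 | h3 | h3
    · exact absurd hst' (key s t h3 t.2).2
    · exact Fin.ext h3
    · exact absurd hst'.symm (key t s h3 s.2).2
  · intro s t
    show G.Adj ⟨q s, _⟩ ⟨q t, _⟩ ↔ _
    have hnat : ∀ a b : Fin (k + 2), G.Adj ⟨q a, hqn a⟩ ⟨q b, hqn b⟩ ↔ natAdj G (q a) (q b) :=
      fun a b => ⟨fun h3 => ⟨_, _, h3⟩, fun ⟨_, _, h3⟩ => h3⟩
    rcases Nat.lt_trichotomy s t with h3 | h3 | h3
    · rw [hnat, (key s t h3 t.2).1, cycle_adj_iff h3]
    · have : s = t := Fin.ext h3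
      subst this
      exact ⟨fun h4 => absurd h4 (G.loopless.irrefl _), fun h4 =>
        absurd h4 ((SimpleGraph.cycleGraph (k + 2)).loopless.irrefl _)⟩
    · rw [SimpleGraph.adj_comm, hnat, (key t s h3 s.2).1, SimpleGraph.adj_comm,
        cycle_adj_iff h3]

/-- The property of maximum cardinality search orders. -/
def McsProp (n : ℕ) (A : ℕ → ℕ → Prop) (pos : ℕ → ℕ) : Prop :=
  ∀ u < n, ∀ v < n, ∀ w < n, pos u < pos v → pos v < pos w → A u w → ¬ A v w →
    ∃ x, A v x ∧ pos v < pos x ∧ ¬ A u x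

theorem no_bad {n : ℕ} {G : SimpleGraph (Fin n)} (hch : IsChordal G) {pos : ℕ → ℕ}
    (hlt : ∀ v < n, pos v < n) (hinj : ∀ u < n, ∀ v < n, pos u = pos v → u = v)
    (hM : McsProp n (natAdj G) pos) : ∀ d k p, CPath (natAdj G) k p → 2 ≤ k →
    (∀ i, 0 < i → i < k → pos (p i) < pos (p 0) ∧ pos (p i) < pos (p k)) →
    pos (p 0) < pos (p k) → n - pos (p 0) ≤ d → False := by
  have hG := natAdj_gr G
  intro d
  induction d with
  | zero =>
    intro k p h hk _ _ hd
    have := hlt _ (hG.lt (h.adj 0 (by omega)))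
    omega
  | succ d ih =>
    intro k p h hk hint h0k hd
    have hp : ∀ i ≤ k, p i < n := by
      intro i hi
      rcases Nat.lt_or_ge i k with h3 | h3
      · exact hG.lt (h.adj i h3)
      · have : i = k := by omega
        subst this
        have := h.adj (i - 1) (by omega)
        rw [show i - 1 + 1 = i by omega] at this
        exact hG.lt' this
    have hlast := h.adj (k - 1) (by omega)
    rw [show k - 1 + 1 = k by omega] at hlast
    have h0kn := (h.far 0 k (by omega) le_rfl)
    obtain ⟨x, hx0, hxpos, hxk⟩ := hM (p (k - 1)) (hp _ (by omega)) (p 0) (hp _ (by omega)) (p k)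
      (hp _ le_rfl) (hint (k - 1) (by omega) (by omega)).1 h0k hlast h0kn.1
    have hx0' := hG.symm hx0
    have hxk' : ¬ natAdj G x (p (k - 1)) := fun h1 => hxk (hG.symm h1)
    have hxn := hG.lt hx0'
    -- the last neighbour of `x`
    have hex : ∃ j, j ≤ k - 2 ∧ natAdj G x (p j) ∧
        ∀ i, j < i → i < k → ¬ natAdj G x (p i) := by
      classical
      refine ⟨Nat.findGreatest (fun j => natAdj G x (p j)) (k - 2), Nat.findGreatest_le _,
        Nat.findGreatest_spec (P := fun j => natAdj G x (p j)) (Nat.zero_le _) hx0', ?_⟩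
      intro i hi hik
      by_cases hi2 : i ≤ k - 2
      · exact Nat.findGreatest_is_greatest (P := fun j => natAdj G x (p j)) hi hi2
      · have : i = k - 1 := by omega
        rw [this]; exact hxk'
    obtain ⟨j, hj, hxj, hjmax⟩ := hex
    -- the positions of the path are below those of `x` and `p k`
    have hposi : ∀ i < k, pos (p i) < pos x ∧ pos (p i) < pos (p k) := by
      intro i hi
      by_cases hi0 : i = 0
      · subst hi0; exact ⟨hxpos, h0k⟩
      · have := hint i (by omega) hi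
        omega
    have hsub : CPath (natAdj G) (k - j) (fun i => p (j + i)) := by
      constructor
      · intro i hi
        exact h.adj (j + i) (by omega)
      · intro i i' hii hi'
        exact h.far (j + i) (j + i') (by omega) (by omega)
    by_cases hxpk : natAdj G x (p k)
    · refine no_close hch hsub (by omega) (x := x) hxj ?_ ?_
      · show natAdj G x (p (j + (k - j)))
        rw [show j + (k - j) = k by omega]; exact hxpk
      · intro i hi0 hi
        refine ⟨hjmax (j + i) (by omega) (by omega), fun he => ?_⟩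
        have := (hposi (j + i) (by omega)).1
        rw [← he] at this
        omega
    · have hxne : x ≠ p k := by
        intro he
        rw [he] at hx0'
        exact h0kn.1 (hG.symm hx0')
      -- the new path
      set q : ℕ → ℕ := fun i => if i = 0 then x else p (j + (i - 1)) with hq
      have hq0 : q 0 = x := rfl
      have hqs : ∀ i, q (i + 1) = p (j + i) := fun i => rfl
      have hqk : q (k - j + 1) = p k := by rw [hqs, show j + (k - j) = k by omega]
      have hQ : CPath (natAdj G) (k - j + 1) q := by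
        constructor
        · intro i hi
          rcases i with _ | i
          · rw [hq0, hqs]; exact hxj
          · rw [hqs, hqs]
            exact hsub.adj i (by omega)
        · intro i i' hii hi'
          obtain ⟨i', rfl⟩ : ∃ a, i' = a + 1 := ⟨i' - 1, by omega⟩
          rcases i with _ | i
          · rw [hq0, hqs]
            by_cases hik : j + i' = k
            · rw [hik]; exact ⟨hxpk, hxne⟩
            · refine ⟨hjmax _ (by omega) (by omega), fun he => ?_⟩
              have := (hposi (j + i') (by omega)).1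
              rw [← he] at this
              omega
          · rw [hqs, hqs]
            exact hsub.far i i' (by omega) (by omega)
      have hint' : ∀ i, 0 < i → i < k - j + 1 → pos (q i) < pos x ∧ pos (q i) < pos (p k) := by
        intro i hi0 hi
        obtain ⟨i, rfl⟩ : ∃ a, i = a + 1 := ⟨i - 1, by omega⟩
        rw [hqs]
        exact hposi _ (by omega)
      rcases Nat.lt_trichotomy (pos x) (pos (p k)) with hc | hc | hc
      · refine ih (k - j + 1) q hQ (by omega) ?_ ?_ ?_
        · rw [hqk, hq0]; exact hint'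
        · rw [hqk, hq0]; exact hc
        · rw [hq0]; omega
      · exact hxne (hinj _ hxn _ (hp _ le_rfl) hc)
      · have e3 : pos (q (k - j + 1 - 0)) = pos (p k) := by rw [Nat.sub_zero, hqk]
        have e4 : pos (q (k - j + 1 - (k - j + 1))) = pos x := by rw [Nat.sub_self, hq0]
        refine ih (k - j + 1) (fun i => q (k - j + 1 - i)) (hQ.reverse hG) (by omega) ?_ ?_ ?_
        · rw [e3, e4]
          intro i hi0 hi
          have := hint' (k - j + 1 - i) (by omega) (by omega)
          exact this.symm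
        · rw [e3, e4]; exact hc
        · rw [e3]
          have := hlt _ (hp k le_rfl)
          (clear * - hk h0k hd h0kn hxne e3 this; omega)

/-- Orders with the property of maximum cardinality search are perfect elimination orders. -/
theorem peo_of_mcs {n : ℕ} {G : SimpleGraph (Fin n)} (hch : IsChordal G) {pos : ℕ → ℕ}
    (hlt : ∀ v < n, pos v < n) (hinj : ∀ u < n, ∀ v < n, pos u = pos v → u = v)
    (hM : McsProp n (natAdj G) pos) : PEO n (natAdj G) pos where
  lt := hlt
  inj := hinj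
  simp := by
    have hG := natAdj_gr G
    have main : ∀ v u w, natAdj G v u → natAdj G v w → pos v < pos u → pos v < pos w →
        pos u < pos w → natAdj G u w := by
      intro v u w hvu hvw h1 h2 h3
      by_contra hno
      set p : ℕ → ℕ := fun i => if i = 0 then u else if i = 1 then v else w with hp
      refine no_bad hch hlt hinj hM _ 2 p ?_ le_rfl ?_ h3 le_rfl
      · constructor
        · intro i hi
          have : i = 0 ∨ i = 1 := by omega
          rcases this with rfl | rfl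
          · exact hG.symm hvu
          · exact hvw
        · intro i j hij hj
          have hi : i = 0 := by omega
          have hj' : j = 2 := by omega
          subst hi hj'
          exact ⟨hno, fun he => by
            have he' : u = w := he
            rw [he'] at h3; omega⟩
      · intro i hi0 hi
        have : i = 1 := by omega
        subst this
        exact ⟨h1, h2⟩
    intro v u w hvu hvw h1 h2 hne
    rcases Nat.lt_trichotomy (pos u) (pos w) with h3 | h3 | h3
    · exact main v u w hvu hvw h1 h2 h3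
    · exact absurd (hinj _ (hG.lt' hvu) _ (hG.lt' hvw) h3) hne
    · exact hG.symm (main v w u hvw hvu h2 h1 h3)

end Vale.Agent.P305
end
end

section

section

/-! Maximum cardinality search with a sorted array of the unvisited vertices. Theory. -/

set_option autoImplicit false

namespace Vale.Agent.P305

open Function (update)

/-- `vert` lists the vertices, the first `sz` of them (the unvisited ones) sorted by weight, with
bucket boundaries `bin`; `place` is the inverse of `vert`. -/
structure Bins (n sz : ℕ) (vert place wt bin : ℕ → ℕ) : Prop where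
  v1 : ∀ i < n, vert i < n ∧ place (vert i) = i
  v2 : ∀ v < n, place v < n ∧ vert (place v) = v
  bins : ∀ i < sz, ∀ w ≤ n, (wt (vert i) < w ↔ i < bin w)

theorem Bins.init (n : ℕ) {vert place wt bin : ℕ → ℕ} (h1 : ∀ i < n, vert i = i)
    (h2 : ∀ i < n, place i = i) (h3 : ∀ i < n, wt i = 0) (h4 : bin 0 = 0)
    (h5 : ∀ w, 0 < w → w ≤ n → bin w = n) : Bins n n vert place wt bin where
  v1 := by
    intro i hi
    rw [h1 i hi, h2 i hi]
    exact ⟨hi, rfl⟩
  v2 := by
    intro i hi
    rw [h2 i hi, h1 i hi]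
    exact ⟨hi, rfl⟩
  bins := by
    intro i hi w hw
    rw [h1 i hi, h3 i hi]
    by_cases hw0 : w = 0
    · subst hw0; rw [h4]; omega
    · rw [h5 w (by omega) hw]; omega

theorem Bins.shrink {n sz sz' : ℕ} {vert place wt bin : ℕ → ℕ}
    (h : Bins n sz vert place wt bin) (h' : sz' ≤ sz) : Bins n sz' vert place wt bin :=
  ⟨h.v1, h.v2, fun i hi => h.bins i (by omega)⟩

/-- Increase of the weight of an unvisited vertex. -/
theorem Bins.update {n sz : ℕ} {vert place wt bin : ℕ → ℕ} (h : Bins n sz vert place wt bin)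
    (hsz : sz ≤ n) {u e q : ℕ} (hu : u < n) (hpu : place u < sz) (hw : wt u + 1 ≤ n)
    (he : e = if sz < bin (wt u + 1) then sz else bin (wt u + 1)) (hq : q = e - 1) :
    q < sz ∧ place u ≤ q ∧
    Bins n sz (update (update vert (place u) (vert q)) q u)
      (update (update place (vert q) (place u)) u q) (update wt u (wt u + 1))
      (update bin (wt u + 1) q) ∧
    (∀ v < n, sz ≤ place v → update (update place (vert q) (place u)) u q v = place v) ∧
    (∀ v < n, place v < sz → update (update place (vert q) (place u)) u q v < sz) := by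
  have hvu : vert (place u) = u := (h.v2 u hu).2
  have hpue : place u < e := by
    have := (h.bins (place u) hpu (wt u + 1) hw)
    rw [hvu] at this
    have h1 := this.1 (by omega)
    rw [he]
    split <;> omega
  have hebin : e ≤ bin (wt u + 1) ∧ e ≤ sz ∧ (e = sz ∨ e = bin (wt u + 1)) := by
    rw [he]
    split <;> omega
  have hqsz : q < sz := by omega
  have hqn : q < n := by omega
  have hxn : vert q < n := (h.v1 q hqn).1
  have hpx : place (vert q) = q := (h.v1 q hqn).2
  -- the weight of the exchanged vertex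
  have hwx : wt (vert q) = wt u := by
    have h1 := (h.bins q hqsz (wt u + 1) hw).2 (by (clear * - he hq hpue hebin hqsz hpx; omega))
    have h2 := h.bins q hqsz (wt u) (by omega)
    have h3 := h.bins (place u) hpu (wt u) (by omega)
    rw [hvu] at h3
    omega
  have hxu : vert q = u ↔ q = place u := by
    constructor
    · intro h1; rw [← h1, hpx]
    · intro h1; rw [h1, hvu]
  -- values of the new functions
  have vq : (Function.update (Function.update vert (place u) (vert q)) q u) q = u :=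
    Function.update_self ..
  have vp : (Function.update (Function.update vert (place u) (vert q)) q u) (place u) =
      vert q := by
    by_cases hqp : q = place u
    · rw [← hqp, Function.update_self]
      exact (hxu.2 hqp).symm
    · rw [Function.update_of_ne (fun h1 => hqp h1.symm), Function.update_self]
  have vo : ∀ i, i ≠ q → i ≠ place u →
      (Function.update (Function.update vert (place u) (vert q)) q u) i = vert i := by
    intro i h1 h2
    rw [Function.update_of_ne h1, Function.update_of_ne h2]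
  have pu : (Function.update (Function.update place (vert q) (place u)) u q) u = q :=
    Function.update_self ..
  have px : (Function.update (Function.update place (vert q) (place u)) u q) (vert q) =
      place u := by
    by_cases hqp : vert q = u
    · rw [hqp, Function.update_self]
      exact hxu.1 hqp
    · rw [Function.update_of_ne hqp, Function.update_self]
  have po : ∀ v, v ≠ u → v ≠ vert q →
      (Function.update (Function.update place (vert q) (place u)) u q) v = place v := by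
    intro v h1 h2
    rw [Function.update_of_ne h1, Function.update_of_ne h2]
  refine ⟨hqsz, by (clear * - hpu he hq hpue hebin hqsz hpx hxu pu px; omega), ⟨?_, ?_, ?_⟩, ?_, ?_⟩
  · intro i hi
    by_cases h1 : i = q
    · rw [h1, vq, pu]; exact ⟨hu, rfl⟩
    · by_cases h2 : i = place u
      · rw [h2, vp, px]; exact ⟨hxn, rfl⟩
      · rw [vo i h1 h2]
        obtain ⟨h3, h4⟩ := h.v1 i hi
        refine ⟨h3, ?_⟩
        rw [po _ (fun h5 => h2 (by rw [← h5, h4])) (fun h5 => h1 (by rw [← h4, h5, hpx])), h4]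
  · intro v hv
    by_cases h1 : v = u
    · rw [h1, pu, vq]; exact ⟨hqn, rfl⟩
    · by_cases h2 : v = vert q
      · rw [h2, px, vp]; exact ⟨by omega, rfl⟩
      · rw [po v h1 h2]
        obtain ⟨h3, h4⟩ := h.v2 v hv
        refine ⟨h3, ?_⟩
        rw [vo _ (fun h5 => h2 (by rw [← h5, h4])) (fun h5 => h1 (by rw [← h4, h5, hvu])), h4]
  · intro i hi w hw'
    by_cases h1 : i = q
    · subst h1
      rw [vq, Function.update_self]
      by_cases h2 : w = wt u + 1
      · subst h2
        rw [Function.update_self]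
        omega
      · rw [Function.update_of_ne h2]
        have := h.bins i hqsz w hw'
        rw [hwx] at this
        omega
    · by_cases h2 : i = place u
      · subst h2
        rw [vp, Function.update_of_ne (fun h5 => h1 (hxu.1 h5).symm), hwx]
        by_cases h3 : w = wt u + 1
        · subst h3
          rw [Function.update_self]
          omega
        · rw [Function.update_of_ne h3]
          have := h.bins (place u) hpu w hw'
          rw [hvu] at this
          exact this
      · rw [vo i h1 h2]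
        have hin : i < n := by omega
        have hne : vert i ≠ u := fun h5 => h2 (by rw [← h5, (h.v1 i hin).2])
        rw [Function.update_of_ne hne]
        have hb := h.bins i hi w hw'
        by_cases h3 : w = wt u + 1
        · subst h3
          rw [Function.update_self]
          omega
        · rw [Function.update_of_ne h3]
          exact hb
  · intro v hv hpv
    rw [po v (fun h1 => by rw [h1] at hpv; omega)
      (fun h1 => by rw [h1, hpx] at hpv; (clear * - hq hqsz hpx pu hpv; omega))]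
  · intro v hv hpv
    by_cases h1 : v = u
    · rw [h1, pu]; exact hqsz
    · by_cases h2 : v = vert q
      · rw [h2, px]; exact hpu
      · rw [po v h1 h2]; exact hpv

open Classical in
/-- Number of neighbours of `u` at places `≥ b`. -/
noncomputable def Wt (n : ℕ) (A : ℕ → ℕ → Prop) (place : ℕ → ℕ) (u b : ℕ) : ℕ :=
  ((Finset.range n).filter (fun x => A u x ∧ b ≤ place x)).card

theorem Wt.congr {n : ℕ} {A : ℕ → ℕ → Prop} {place place' : ℕ → ℕ} {u b : ℕ}
    (h : ∀ x < n, (b ≤ place' x ↔ b ≤ place x)) : Wt n A place' u b = Wt n A place u b := by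
  classical
  unfold Wt
  congr 1
  apply Finset.filter_congr
  intro x hx
  rw [Finset.mem_range] at hx
  rw [h x hx]

theorem Wt.lt {n : ℕ} {A : ℕ → ℕ → Prop} (hG : Gr n A) {place : ℕ → ℕ} {u b : ℕ} (hu : u < n) :
    Wt n A place u b < n := by
  classical
  unfold Wt
  have h1 : (Finset.range n).filter (fun x => A u x ∧ b ≤ place x) ⊆ (Finset.range n).erase u := by
    intro x hx
    rw [Finset.mem_filter] at hx
    rw [Finset.mem_erase]
    refine ⟨fun he => ?_, hx.1⟩
    rw [he] at hx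
    exact hG.irr u hx.2.1
  have h2 := Finset.card_le_card h1
  rw [Finset.card_erase_of_mem (Finset.mem_range.2 hu), Finset.card_range] at h2
  omega

open Classical in
theorem Wt.split {n : ℕ} {A : ℕ → ℕ → Prop} {place : ℕ → ℕ} {u v : ℕ} (hv : v < n)
    (hinj : ∀ x < n, place x = place v → x = v) :
    Wt n A place u (place v) = Wt n A place u (place v + 1) + (if A u v then 1 else 0) := by
  unfold Wt
  by_cases hA : A u v
  · rw [if_pos hA]
    have h1 : (Finset.range n).filter (fun x => A u x ∧ place v ≤ place x) =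
        insert v ((Finset.range n).filter (fun x => A u x ∧ place v + 1 ≤ place x)) := by
      ext x
      simp only [Finset.mem_filter, Finset.mem_insert, Finset.mem_range]
      constructor
      · rintro ⟨h1, h2, h3⟩
        by_cases hxv : x = v
        · exact Or.inl hxv
        · right
          have : place x ≠ place v := fun h4 => hxv (hinj x h1 h4)
          exact ⟨h1, h2, by omega⟩
      · rintro (rfl | ⟨h1, h2, h3⟩)
        · exact ⟨hv, hA, le_rfl⟩
        · exact ⟨h1, h2, by omega⟩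
    rw [h1, Finset.card_insert_of_notMem]
    simp only [Finset.mem_filter, not_and]
    intro _ _
    omega
  · rw [if_neg hA, Nat.add_zero]
    congr 1
    apply Finset.filter_congr
    intro x hx
    rw [Finset.mem_range] at hx
    constructor
    · rintro ⟨h2, h3⟩
      have hxv : x ≠ v := fun h4 => hA (by rw [← h4]; exact h2)
      have : place x ≠ place v := fun h4 => hxv (hinj x hx h4)
      exact ⟨h2, by omega⟩
    · rintro ⟨h2, h3⟩
      exact ⟨h2, by omega⟩

/-- The order constructed so far satisfies the maximality condition. -/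
def DoneOk (n : ℕ) (A : ℕ → ℕ → Prop) (place : ℕ → ℕ) (sz : ℕ) : Prop :=
  ∀ v < n, sz ≤ place v → ∀ u < n, place u < place v →
    Wt n A place u (place v + 1) ≤ Wt n A place v (place v + 1)

theorem DoneOk.congr {n : ℕ} {A : ℕ → ℕ → Prop} {place place' : ℕ → ℕ} {sz : ℕ}
    (h : DoneOk n A place sz) (h1 : ∀ v < n, sz ≤ place v → place' v = place v)
    (h2 : ∀ v < n, place v < sz → place' v < sz) : DoneOk n A place' sz := by
  have key : ∀ x < n, ∀ b, sz ≤ b → (b ≤ place' x ↔ b ≤ place x) := by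
    intro x hx b hb
    rcases Nat.lt_or_ge (place x) sz with h3 | h3
    · have := h2 x hx h3
      omega
    · rw [h1 x hx h3]
  intro v hv hvs u hu huv
  have hvs' : sz ≤ place v := by
    by_contra h3
    have := h2 v hv (by omega)
    omega
  rw [h1 v hv hvs'] at huv ⊢
  have huv' : place u < place v := by
    rcases Nat.lt_or_ge (place u) sz with h3 | h3
    · omega
    · rw [h1 u hu h3] at huv; exact huv
  rw [Wt.congr (fun x hx => key x hx _ (by omega)), Wt.congr (fun x hx => key x hx _ (by omega))]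
  exact h v hv hvs' u hu huv'

theorem DoneOk.mcs {n : ℕ} {A : ℕ → ℕ → Prop} {place : ℕ → ℕ}
    (h : DoneOk n A place 0) : McsProp n A place := by
  classical
  intro u hu v hv w hw huv hvw huw hnvw
  by_contra hno
  push Not at hno
  have h1 := h v hv (Nat.zero_le _) u hu huv
  unfold Wt at h1
  have h2 : (Finset.range n).filter (fun x => A v x ∧ place v + 1 ≤ place x) ⊂
      (Finset.range n).filter (fun x => A u x ∧ place v + 1 ≤ place x) := by
    rw [Finset.ssubset_iff_of_subset]
    · refine ⟨w, ?_, ?_⟩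
      · rw [Finset.mem_filter, Finset.mem_range]
        exact ⟨hw, huw, hvw⟩
      · rw [Finset.mem_filter]
        exact fun h3 => hnvw h3.2.1
    · intro x hx
      rw [Finset.mem_filter] at hx ⊢
      exact ⟨hx.1, hno x hx.2.1 hx.2.2, hx.2.2⟩
  have h3 := Finset.card_lt_card h2
  omega

/-- Invariant between two visits. -/
structure McsOut (n : ℕ) (A : ℕ → ℕ → Prop) (sz : ℕ) (vert place wt bin : ℕ → ℕ) : Prop where
  bins : Bins n sz vert place wt bin
  sz_le : sz ≤ n
  wts : ∀ u < n, place u < sz → wt u = Wt n A place u sz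
  ok : DoneOk n A place sz

open Classical in
/-- Invariant while the arcs of the visited vertex `v` at place `sz` are processed. -/
structure McsIn (n : ℕ) (A : ℕ → ℕ → Prop) (off adj : ℕ → ℕ) (v p sz : ℕ)
    (vert place wt bin : ℕ → ℕ) : Prop where
  bins : Bins n sz vert place wt bin
  sz_lt : sz < n
  vn : v < n
  pv : place v = sz
  wts : ∀ u < n, place u < sz → wt u = Wt n A place u (sz + 1) +
    (if ∃ q, off v ≤ q ∧ q < p ∧ adj q = u then 1 else 0)
  ok : DoneOk n A place sz

theorem McsOut.start {n : ℕ} {A : ℕ → ℕ → Prop} {off adj : ℕ → ℕ} {sz : ℕ}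
    {vert place wt bin : ℕ → ℕ} (h : McsOut n A (sz + 1) vert place wt bin) :
    McsIn n A off adj (vert sz) (off (vert sz)) sz vert place wt bin where
  bins := h.bins.shrink (by omega)
  sz_lt := h.sz_le
  vn := (h.bins.v1 sz h.sz_le).1
  pv := (h.bins.v1 sz h.sz_le).2
  wts := by
    intro u hu hpu
    have hno : ¬ ∃ q, off (vert sz) ≤ q ∧ q < off (vert sz) ∧ adj q = u := by
      rintro ⟨q, h1, h2, _⟩
      omega
    rw [h.wts u hu (by omega), if_neg hno]
    rfl
  ok := by
    intro v hv hvs u hu huv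
    rcases Nat.lt_or_ge (place v) (sz + 1) with h1 | h1
    · have h2 : place v = sz := by omega
      have h3 : vert sz = v := by rw [← h2]; exact (h.bins.v2 v hv).2
      rw [h2] at huv ⊢
      have hwv := h.wts v hv h1
      have hwu := h.wts u hu (by omega)
      rw [← hwv, ← hwu]
      -- the visited vertex has maximum weight
      have hwvn : wt v + 1 ≤ n ∨ n < wt v + 1 := by omega
      rcases hwvn with hwn | hwn
      · have b1 := (h.bins.bins sz (by omega) (wt v + 1) hwn).1 (by rw [h3]; omega)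
        have b2 := (h.bins.bins (place u) (by omega) (wt v + 1) hwn).2 (by omega)
        rw [(h.bins.v2 u hu).2] at b2
        omega
      · have h4 : wt u ≤ n := by
          rw [hwu]
          classical
          unfold Wt
          exact (Finset.card_filter_le _ _).trans (by simp)
        omega
    · exact h.ok v hv h1 u hu huv

theorem McsIn.finish {n : ℕ} {A : ℕ → ℕ → Prop} {off adj : ℕ → ℕ} {v sz : ℕ}
    {vert place wt bin : ℕ → ℕ} (hG : Gr n A) (hC : CSR n A off adj)
    (h : McsIn n A off adj v (off (v + 1)) sz vert place wt bin) :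
    McsOut n A sz vert place wt bin where
  bins := h.bins
  sz_le := h.sz_lt.le
  wts := by
    classical
    intro u hu hpu
    rw [h.wts u hu hpu]
    have hsplit := Wt.split (A := A) (place := place) (u := u) h.vn (by
      intro x hx hxv
      rw [← (h.bins.v2 x hx).2, hxv, (h.bins.v2 v h.vn).2])
    rw [h.pv] at hsplit
    rw [hsplit]
    congr 1
    have hiff : (∃ q, off v ≤ q ∧ q < off (v + 1) ∧ adj q = u) ↔ A u v := by
      rw [← hC.mem v h.vn u]
      exact ⟨fun h1 => hG.symm h1, fun h1 => hG.symm h1⟩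
    by_cases hA : A u v
    · rw [if_pos hA, if_pos (hiff.2 hA)]
    · rw [if_neg hA, if_neg (fun h1 => hA (hiff.1 h1))]
  ok := h.ok

/-- An arc to a visited vertex. -/
theorem McsIn.skip {n : ℕ} {A : ℕ → ℕ → Prop} {off adj : ℕ → ℕ} {v p sz : ℕ}
    {vert place wt bin : ℕ → ℕ} (h : McsIn n A off adj v p sz vert place wt bin)
    (hp : sz ≤ place (adj p)) : McsIn n A off adj v (p + 1) sz vert place wt bin where
  bins := h.bins
  sz_lt := h.sz_lt
  vn := h.vn
  pv := h.pv
  wts := by
    classical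
    intro u hu hpu
    rw [h.wts u hu hpu]
    congr 1
    have hiff : (∃ q, off v ≤ q ∧ q < p ∧ adj q = u) ↔
        (∃ q, off v ≤ q ∧ q < p + 1 ∧ adj q = u) := by
      constructor
      · rintro ⟨q, h1, h2, h3⟩; exact ⟨q, h1, by omega, h3⟩
      · rintro ⟨q, h1, h2, h3⟩
        refine ⟨q, h1, ?_, h3⟩
        by_contra h4
        have : q = p := by omega
        subst this
        rw [h3] at hp
        omega
    by_cases hA : ∃ q, off v ≤ q ∧ q < p ∧ adj q = u
    · rw [if_pos hA, if_pos (hiff.1 hA)]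
    · rw [if_neg hA, if_neg (fun h1 => hA (hiff.2 h1))]
  ok := h.ok

/-- An arc to an unvisited vertex. -/
theorem McsIn.step {n : ℕ} {A : ℕ → ℕ → Prop} {off adj : ℕ → ℕ} {v p sz : ℕ}
    {vert place wt bin : ℕ → ℕ} (hG : Gr n A) (hC : CSR n A off adj)
    (h : McsIn n A off adj v p sz vert place wt bin) (h1 : off v ≤ p) (h2 : p < off (v + 1))
    {u e q : ℕ} (hu : u = adj p) (hpu : place u < sz)
    (he : e = if sz < bin (wt u + 1) then sz else bin (wt u + 1)) (hq : q = e - 1) :
    McsIn n A off adj v (p + 1) sz (update (update vert (place u) (vert q)) q u)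
      (update (update place (vert q) (place u)) u q) (update wt u (wt u + 1))
      (update bin (wt u + 1) q) ∧
    (∀ x < n, (update (update place (vert q) (place u)) u q x < sz ↔ place x < sz)) := by
  classical
  have hun : u < n := by
    rw [hu]
    exact hG.lt' ((hC.mem v h.vn _).2 ⟨p, h1, h2, rfl⟩)
  have hfresh : ¬ ∃ q, off v ≤ q ∧ q < p ∧ adj q = u := by
    rintro ⟨q', h3, h4, h5⟩
    rw [hu] at h5
    have := hC.inj v h.vn q' p h3 (by omega) h1 h2 h5
    omega
  have hwu : wt u = Wt n A place u (sz + 1) := by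
    have := h.wts u hun hpu
    rw [if_neg hfresh] at this
    exact this
  have hwn : wt u + 1 ≤ n := by
    rw [hwu]
    exact Wt.lt hG hun
  obtain ⟨c1, c2, c3, c4, c5⟩ := h.bins.update h.sz_lt.le hun hpu hwn he hq
  set place' := update (update place (vert q) (place u)) u q with hplace'
  have hiff : ∀ x < n, (place' x < sz ↔ place x < sz) := by
    intro x hx
    constructor
    · intro h3
      by_contra h4
      rw [c4 x hx (by omega)] at h3
      exact h4 h3
    · exact c5 x hx
  have hge : ∀ x < n, ∀ b, sz ≤ b → (b ≤ place' x ↔ b ≤ place x) := by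
    intro x hx b hb
    rcases Nat.lt_or_ge (place x) sz with h3 | h3
    · have := c5 x hx h3
      omega
    · rw [c4 x hx h3]
  refine ⟨⟨c3, h.sz_lt, h.vn, ?_, ?_, h.ok.congr c4 c5⟩, hiff⟩
  · rw [c4 v h.vn (by rw [h.pv]), h.pv]
  · intro x hx hpx
    have hpx' : place x < sz := (hiff x hx).1 hpx
    rw [Wt.congr (fun y hy => hge y hy _ (by omega))]
    by_cases hxu : x = u
    · subst hxu
      rw [Function.update_self, if_pos ⟨p, h1, by omega, hu.symm⟩, hwu]
    · rw [Function.update_of_ne hxu, h.wts x hx hpx']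
      congr 1
      have hiff' : (∃ q, off v ≤ q ∧ q < p ∧ adj q = x) ↔
          (∃ q, off v ≤ q ∧ q < p + 1 ∧ adj q = x) := by
        constructor
        · rintro ⟨q, h1, h2, h3⟩; exact ⟨q, h1, by omega, h3⟩
        · rintro ⟨q', h1, h2, h3⟩
          refine ⟨q', h1, ?_, h3⟩
          by_contra h4
          have : q' = p := by omega
          subst this
          exact hxu (by rw [← h3, hu])
      by_cases hA : ∃ q, off v ≤ q ∧ q < p ∧ adj q = x
      · rw [if_pos hA, if_pos (hiff'.1 hA)]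
      · rw [if_neg hA, if_neg (fun h1 => hA (hiff'.2 h1))]

end Vale.Agent.P305
end
end

section

section

/-! The program computing a perfect elimination order (maximum cardinality search).
Arrays: `10` place, `11` vertices in the order of the places, `12` weights, `13` boundaries. -/

set_option autoImplicit false

namespace Vale.Agent.P305

open Function (update)
open L1

variable {R : List ℕ → (ℕ → ℕ) → ℕ → Prop} {cap : ℕ}

/-- Initialisation. -/
def mInit : Cmd := .seq (.blk [.const 2 0])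
  (.seq (.loop (.lt 2 0) (.blk [.store 10 2 2, .store 11 2 2, .store 12 2 1, .store 13 2 0,
    .inc 2]))
  (.blk [.store 13 2 0, .const 2 0, .store 13 2 1, .copy 6 0]))

theorem mInit_spec (s : St) {n : ℕ} {A : ℕ → ℕ → Prop} (hn : s.r 0 = n) (h1 : s.r 1 = 0) :
    ∃ s' t, Ex R cap mInit s t s' ∧ t ≤ 6 * n + 6 ∧ s'.r 0 = n ∧ s'.r 1 = 0 ∧ s'.r 6 = n ∧
      McsOut n A n (s'.a 11) (s'.a 10) (s'.a 12) (s'.a 13) ∧
      (∀ j, j < 10 ∨ 13 < j → s'.a j = s.a j) := by
  obtain ⟨s1, hs1⟩ : ∃ s1, s1 = run [.const 2 0] s := ⟨_, rfl⟩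
  have e1 : Ex R cap (.blk [.const 2 0]) s 1 s1 := by
    rw [hs1]; exact Ex.blk _ _
  have h1 : s1.r 0 = n ∧ s1.r 1 = 0 ∧ s1.r 2 = 0 ∧ s1.a = s.a := by
    subst hs1; simp [run, B.step, hn, h1]
  obtain ⟨a0, a1, a2, aa⟩ := h1
  obtain ⟨s2, t2, e2, ht2, ⟨b1, b10, b11, b12, b13, bj⟩, b2, b0⟩ := for_rule (R := R) (cap := cap)
    (i := 2) (b := 0) (body := (.blk [.store 10 2 2, .store 11 2 2, .store 12 2 1, .store 13 2 0,
    .inc 2])) n 5 0
    (fun k s' => s'.r 1 = 0 ∧ (∀ i < k, s'.a 10 i = i) ∧ (∀ i < k, s'.a 11 i = i) ∧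
      (∀ i < k, s'.a 12 i = 0) ∧ (∀ i < k, s'.a 13 i = n) ∧
      (∀ j, j < 10 ∨ 13 < j → s'.a j = s.a j))
    (by
      rintro k s' _ hk ⟨h1, h10, h11, h12, h13, hj⟩ hi hb
      refine ⟨_, _, .blk _ _, ?_, ⟨?_, ?_, ?_, ?_, ?_, ?_⟩, ?_, ?_⟩
      · simp
      · simp only [run, B.step, ne_eq, Nat.succ_ne_self, not_false_eq_true, Function.update_of_ne, Nat.reduceEqDiff, h1, OfNat.one_ne_ofNat]
      · intro i hik
        simp only [run, B.step, hi, ne_eq, Nat.succ_ne_self, not_false_eq_true, Function.update_of_ne, Nat.reduceEqDiff, Function.update_self]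
        simp only [Function.update_apply]
        by_cases hi' : i = k
        · simp [hi']
        · simp [hi', h10 i (by omega)]
      · intro i hik
        simp only [run, B.step, hi, ne_eq, Nat.succ_ne_self, not_false_eq_true, Function.update_of_ne, Nat.reduceEqDiff, Function.update_self]
        simp only [Function.update_apply]
        by_cases hi' : i = k
        · simp [hi']
        · simp [hi', h11 i (by omega)]
      · intro i hik
        simp only [run, B.step, hi, ne_eq, Nat.succ_ne_self, not_false_eq_true, Function.update_of_ne, Nat.reduceEqDiff, h1, Function.update_self]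
        simp only [Function.update_apply]
        by_cases hi' : i = k
        · simp [hi']
        · simp [hi', h12 i (by omega)]
      · intro i hik
        simp only [run, B.step, hi, ne_eq, Nat.succ_ne_self, not_false_eq_true, Function.update_of_ne, Nat.reduceEqDiff, hb, Function.update_self]
        simp only [Function.update_apply]
        by_cases hi' : i = k
        · simp [hi']
        · simp [hi', h13 i (by omega)]
      · intro j hj6
        simp only [run, B.step, ne_eq, Nat.succ_ne_self, not_false_eq_true, Function.update_of_ne, Nat.reduceEqDiff, show j ≠ 13 by omega, show j ≠ 12 by omega, show j ≠ 11 by omega, show j ≠ 10 by omega, hj j hj6]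
      · simp only [run, B.step, hi, ne_eq, Nat.succ_ne_self, not_false_eq_true, Function.update_of_ne, Nat.reduceEqDiff, Function.update_self, Nat.add_left_cancel_iff]
      · simp only [run, B.step, ne_eq, Nat.succ_ne_self, not_false_eq_true, Function.update_of_ne, Nat.reduceEqDiff, hb, OfNat.zero_ne_ofNat])
    s1 (by omega) ⟨a1, by intro i hi; omega, by intro i hi; omega, by intro i hi; omega,
      by intro i hi; omega, by intro j _; rw [aa]⟩ a2 a0
  refine ⟨_, _, .seq e1 (.seq e2 (.blk _ _)), ?_, ?_, ?_, ?_, ?_, ?_⟩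
  · simp only [List.length_cons, List.length_nil, zero_add, Nat.reduceAdd]; omega
  · simp [run, B.step, b0]
  · simp [run, B.step, b1]
  · simp [run, B.step, b0]
  · have hb : Bins n n (s2.a 11) (s2.a 10) (s2.a 12)
        (update (update (s2.a 13) n n) 0 0) := by
      refine Bins.init n b11 b10 b12 ?_ ?_
      · simp
      · intro w hw hwn
        rw [Function.update_of_ne (by omega), Function.update_apply]
        split
        · rfl
        · exact b13 w (by omega)
    have : McsOut n A n (s2.a 11) (s2.a 10) (s2.a 12)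
        (update (update (s2.a 13) n n) 0 0) := by
      refine ⟨hb, le_rfl, ?_, ?_⟩
      · intro u hu _
        rw [b12 u hu]
        classical
        unfold Wt
        symm
        rw [Finset.card_eq_zero, Finset.filter_eq_empty_iff]
        intro x hx h2
        rw [Finset.mem_range] at hx
        have := (hb.v2 x hx).1
        omega
      · intro v hv hvs
        have := (hb.v2 v hv).1
        omega
    simpa only [run, B.step, b2, b0, Function.update_self, ne_eq, OfNat.one_ne_ofNat, not_false_eq_true,     Function.update_of_ne, b1, Function.update_idem, OfNat.zero_ne_ofNat, Nat.reduceEqDiff] using this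
  · intro j hj6
    simp [run, B.step, show j ≠ 13 by omega, bj j hj6]

/-- Increase of the weight of the vertex in register `5` at the place in register `7`. -/
def mUpd : Cmd := .seq (.blk [.load 12 8 5, .inc 8, .store 12 5 8, .load 13 9 8])
   (.seq (.ite (.lt 6 9) (.blk [.copy 9 6]) (.blk []))
    (.blk [.dec 9, .store 13 8 9, .load 11 10 9, .store 11 7 10, .store 10 10 7, .store 11 9 5,
      .store 10 5 9]))

theorem mUpd_spec (s : St) {sz u : ℕ} (h6 : s.r 6 = sz) (h5 : s.r 5 = u)
    (h7 : s.r 7 = s.a 10 u) :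
    ∃ s' t, Ex R cap mUpd s t s' ∧ t ≤ 13 ∧ (∀ r, r < 8 ∨ 10 < r → s'.r r = s.r r) ∧
      (∀ j, j < 10 ∨ 13 < j → s'.a j = s.a j) ∧
      ∀ e q, (e = if sz < s.a 13 (s.a 12 u + 1) then sz else s.a 13 (s.a 12 u + 1)) →
        q = e - 1 →
        s'.a 11 = update (update (s.a 11) (s.a 10 u) (s.a 11 q)) q u ∧
        s'.a 10 = update (update (s.a 10) (s.a 11 q) (s.a 10 u)) u q ∧
        s'.a 12 = update (s.a 12) u (s.a 12 u + 1) ∧
        s'.a 13 = update (s.a 13) (s.a 12 u + 1) q := by
  obtain ⟨s1, hs1⟩ : ∃ s1, s1 = run [.load 12 8 5, .inc 8, .store 12 5 8, .load 13 9 8] s :=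
    ⟨_, rfl⟩
  have e1 : Ex R cap (.blk [.load 12 8 5, .inc 8, .store 12 5 8, .load 13 9 8]) s 4 s1 := by
    rw [hs1]; exact Ex.blk _ _
  have g1 : s1.r 8 = s.a 12 u + 1 ∧ s1.r 9 = s.a 13 (s.a 12 u + 1) ∧
      (∀ r, r < 8 ∨ 10 < r → s1.r r = s.r r) ∧ s1.a 12 = update (s.a 12) u (s.a 12 u + 1) ∧
      (∀ j, j ≠ 12 → s1.a j = s.a j) := by
    subst hs1
    refine ⟨by simp [run, B.step, h5], by simp [run, B.step, h5], fun r hr => ?_,
      by simp [run, B.step, h5], fun j hj => ?_⟩
    · simp [run, B.step, show r ≠ 8 by omega, show r ≠ 9 by omega]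
    · simp [run, B.step, hj]
  obtain ⟨a8, a9, ar, a12, aj⟩ := g1
  have mid : ∃ s2 t2, Ex R cap (.ite (.lt 6 9) (.blk [.copy 9 6]) (.blk [])) s1 t2 s2 ∧
      t2 ≤ 2 ∧ s2.a = s1.a ∧ s2.r 8 = s.a 12 u + 1 ∧
      (s2.r 9 = if sz < s.a 13 (s.a 12 u + 1) then sz else s.a 13 (s.a 12 u + 1)) ∧
      (∀ r, r < 8 ∨ 10 < r → s2.r r = s.r r) := by
    have a6 : s1.r 6 = sz := by rw [ar 6 (by omega), h6]
    by_cases hc : sz < s.a 13 (s.a 12 u + 1)
    · refine ⟨_, _, .iteTrue (by simp only [Test.holds]; omega) (.blk _ _), by simp, ?_, ?_, ?_,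
        ?_⟩
      · simp [run, B.step]
      · simp [run, B.step, a8]
      · simp [run, B.step, a6, hc]
      · intro r hr
        simp [run, B.step, show r ≠ 9 by omega, ar r hr]
    · refine ⟨_, _, .iteFalse (by simp only [Test.holds]; omega) (.blk [] _), by simp, ?_, ?_,
        ?_, ?_⟩
      · simp [run]
      · simp [run, a8]
      · simp [run, a9, hc]
      · intro r hr
        simp [run, ar r hr]
  obtain ⟨s2, t2, e2, ht2, ba, b8, b9, br⟩ := mid
  have b5 : s2.r 5 = u := by rw [br 5 (by omega), h5]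
  have b7 : s2.r 7 = s.a 10 u := by rw [br 7 (by omega), h7]
  refine ⟨_, _, .seq e1 (.seq e2 (.blk _ _)), ?_, ?_, ?_, ?_⟩
  · simp; omega
  · intro r hr
    simp only [run, B.step, ne_eq, Nat.reduceEqDiff, not_false_eq_true, Function.update_of_ne, Function.update_self, Nat.succ_ne_self, show r ≠ 10 by omega, show r ≠ 9 by omega, br r hr]
  · intro j hj
    simp only [run, B.step, ba, ne_eq, Nat.reduceEqDiff, not_false_eq_true, Function.update_of_ne, Function.update_self, Nat.succ_ne_self, show j ≠ 10 by omega, show j ≠ 11 by omega, show j ≠ 13 by omega, aj j (by omega)]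
  · intro e q he hq
    rw [← he] at b9
    have c10 : s2.a 10 = s.a 10 := by rw [ba, aj 10 (by decide)]
    have c11 : s2.a 11 = s.a 11 := by rw [ba, aj 11 (by decide)]
    have c13 : s2.a 13 = s.a 13 := by rw [ba, aj 13 (by decide)]
    have c12 : s2.a 12 = update (s.a 12) u (s.a 12 u + 1) := by rw [ba, a12]
    refine ⟨?_, ?_, ?_, ?_⟩
    · simp only [run, B.step, b9, ne_eq, Nat.reduceEqDiff, not_false_eq_true, Function.update_of_ne, Function.update_self, c11, b7, Nat.succ_ne_self, b5, hq]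
    · simp only [run, B.step, b9, ne_eq, Nat.reduceEqDiff, not_false_eq_true, Function.update_of_ne, Function.update_self, c11, b7, c10, Nat.succ_ne_self, b5, hq]
    · simp only [run, B.step, ne_eq, Nat.reduceEqDiff, not_false_eq_true, Function.update_of_ne, Function.update_self, Nat.succ_ne_self, c12]
    · simp only [run, B.step, b9, c13, ne_eq, Nat.reduceEqDiff, not_false_eq_true, Function.update_of_ne, b8, Function.update_self, Nat.succ_ne_self, hq]

/-- One arc of the visited vertex. -/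
def mInnerB : Cmd := .seq (.blk [.load 5 5 3, .load 10 7 5])
  (.seq (.ite (.lt 7 6) mUpd (.blk [])) (.blk [.inc 3]))

theorem mInnerB_spec (s : St) {n v p sz e : ℕ} {A : ℕ → ℕ → Prop} {off adj : ℕ → ℕ}
    (hG : Gr n A) (hC : CSR n A off adj) (h0 : s.r 0 = n) (h1 : s.r 1 = 0) (h3 : s.r 3 = p)
    (h4 : s.r 4 = e) (h6 : s.r 6 = sz) (a4 : s.a 4 = off) (a5 : s.a 5 = adj)
    (hp1 : off v ≤ p) (hp2 : p < off (v + 1))
    (hI : McsIn n A off adj v p sz (s.a 11) (s.a 10) (s.a 12) (s.a 13)) :
    ∃ s' t, Ex R cap mInnerB s t s' ∧ t ≤ 17 ∧ s'.r 0 = n ∧ s'.r 1 = 0 ∧ s'.r 3 = p + 1 ∧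
      s'.r 4 = e ∧ s'.r 6 = sz ∧
      McsIn n A off adj v (p + 1) sz (s'.a 11) (s'.a 10) (s'.a 12) (s'.a 13) ∧
      (∀ x < n, (s'.a 10 x < sz ↔ s.a 10 x < sz)) ∧
      (∀ j, j < 10 ∨ 13 < j → s'.a j = s.a j) := by
  obtain ⟨s1, hs1⟩ : ∃ s1, s1 = run [.load 5 5 3, .load 10 7 5] s := ⟨_, rfl⟩
  have e1 : Ex R cap (.blk [.load 5 5 3, .load 10 7 5]) s 2 s1 := by
    rw [hs1]; exact Ex.blk _ _
  have g1 : s1.r 0 = n ∧ s1.r 1 = 0 ∧ s1.r 3 = p ∧ s1.r 4 = e ∧ s1.r 6 = sz ∧ s1.r 5 = adj p ∧
      s1.r 7 = s.a 10 (adj p) ∧ s1.a = s.a := by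
    subst hs1; simp only [run, B.step, h3, a5, Function.update_self, ne_eq, OfNat.zero_ne_ofNat, not_false_eq_true, Function.update_of_ne, h0, OfNat.one_ne_ofNat, h1, Nat.reduceEqDiff, h4, Nat.succ_ne_self, h6, and_self]
  obtain ⟨b0, b1, b3, b4, b6, b5, b7, ba⟩ := g1
  by_cases hc : s.a 10 (adj p) < sz
  · obtain ⟨s2, t2, e2, ht2, cr, cj, cU⟩ := mUpd_spec (R := R) (cap := cap) s1 b6 b5
      (by rw [b7, ba])
    obtain ⟨c11, c10, c12, c13⟩ := cU _ _ rfl rfl
    rw [ba] at c11 c10 c12 c13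
    obtain ⟨d1, d2⟩ := hI.step hG hC hp1 hp2 rfl hc rfl rfl
    rw [← c11, ← c10, ← c12, ← c13] at d1
    rw [← c10] at d2
    refine ⟨_, _, .seq e1 (.seq (.iteTrue (by simp only [Test.holds]; omega) e2) (.blk _ _)),
      ?_, ?_, ?_, ?_, ?_, ?_, ?_, ?_, ?_⟩
    · simp; omega
    · simp [run, B.step, cr 0, b0]
    · simp [run, B.step, cr 1, b1]
    · simp [run, B.step, cr 3, b3]
    · simp [run, B.step, cr 4, b4]
    · simp [run, B.step, cr 6, b6]
    · simpa [run, B.step] using d1
    · simpa only [run, B.step] using d2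
    · intro j hj
      simp [run, B.step, cj j hj, ba]
  · refine ⟨_, _, .seq e1 (.seq (.iteFalse (by simp only [Test.holds]; omega) (.blk [] _))
      (.blk _ _)), ?_, ?_, ?_, ?_, ?_, ?_, ?_, ?_, ?_⟩
    · simp
    · simp [run, B.step, b0]
    · simp [run, B.step, b1]
    · simp [run, B.step, b3]
    · simp [run, B.step, b4]
    · simp [run, B.step, b6]
    · have := hI.skip (by omega)
      simpa [run, B.step, ba] using this
    · intro x _
      simp [run, B.step, ba]
    · intro j hj
      simp [run, B.step, ba]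

/-- One visit. -/
def mOuterB : Cmd := .seq (.blk [.dec 6, .load 11 2 6, .load 4 3 2, .inc 2, .load 4 4 2])
  (.loop (.lt 3 4) mInnerB)

theorem mOuterB_spec (s : St) {n sz : ℕ} {A : ℕ → ℕ → Prop} {off adj : ℕ → ℕ}
    (hG : Gr n A) (hC : CSR n A off adj) (h0 : s.r 0 = n) (h1 : s.r 1 = 0)
    (h6 : s.r 6 = sz + 1) (a4 : s.a 4 = off) (a5 : s.a 5 = adj)
    (hI : McsOut n A (sz + 1) (s.a 11) (s.a 10) (s.a 12) (s.a 13)) :
    ∃ s' t v, Ex R cap mOuterB s t s' ∧ v < n ∧ s.a 10 v = sz ∧
      t ≤ 18 * (off (v + 1) - off v) + 6 ∧ s'.r 0 = n ∧ s'.r 1 = 0 ∧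
      s'.r 6 = sz ∧
      McsOut n A sz (s'.a 11) (s'.a 10) (s'.a 12) (s'.a 13) ∧
      (∀ x < n, (s'.a 10 x < sz ↔ s.a 10 x < sz)) ∧
      (∀ j, j < 10 ∨ 13 < j → s'.a j = s.a j) := by
  obtain ⟨s1, hs1⟩ : ∃ s1, s1 = run [.dec 6, .load 11 2 6, .load 4 3 2, .inc 2, .load 4 4 2] s :=
    ⟨_, rfl⟩
  have e1 : Ex R cap (.blk [.dec 6, .load 11 2 6, .load 4 3 2, .inc 2, .load 4 4 2]) s 5 s1 := by
    rw [hs1]; exact Ex.blk _ _
  set v := s.a 11 sz with hv
  have g1 : s1.r 0 = n ∧ s1.r 1 = 0 ∧ s1.r 3 = off v ∧ s1.r 4 = off (v + 1) ∧ s1.r 6 = sz ∧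
      s1.a = s.a := by
    subst hs1; simp only [run, B.step, h6, add_tsub_cancel_right, Function.update_self, a4, ne_eq, Nat.reduceEqDiff, not_false_eq_true, Function.update_of_ne, OfNat.zero_ne_ofNat, h0, OfNat.one_ne_ofNat, h1, Nat.succ_ne_self, hv, and_self]
  obtain ⟨b0, b1, b3, b4, b6, ba⟩ := g1
  have hstart := hI.start (off := off) (adj := adj)
  have hvn := hstart.vn
  have hpv := hstart.pv
  rw [← hv] at hvn hpv hstart
  have hmono := hC.mono v hvn
  obtain ⟨s2, t2, e2, ht2, ⟨c0, c1, c6, cI, cx, cj⟩, _, _⟩ := for_rule (R := R) (cap := cap)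
    (i := 3) (b := 4) (body := mInnerB) (off (v + 1)) 17 (off v)
    (fun k s' => s'.r 0 = n ∧ s'.r 1 = 0 ∧ s'.r 6 = sz ∧
      McsIn n A off adj v k sz (s'.a 11) (s'.a 10) (s'.a 12) (s'.a 13) ∧
      (∀ x < n, (s'.a 10 x < sz ↔ s.a 10 x < sz)) ∧
      (∀ j, j < 10 ∨ 13 < j → s'.a j = s.a j))
    (by
      rintro k s' hk0 hk ⟨g0, g1, g6, gI, gx, gj⟩ hi hb
      obtain ⟨s3, t3, e3, ht3, k0, k1, k3, k4, k6, kI, kx, kj⟩ := mInnerB_spec (R := R)
        (cap := cap) s' hG hC g0 g1 hi hb g6 (by rw [gj 4 (by omega), a4])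
        (by rw [gj 5 (by omega), a5]) hk0 hk gI
      exact ⟨s3, t3, e3, ht3, ⟨k0, k1, k6, kI, fun x hx => by rw [kx x hx, gx x hx],
        fun j hj => by rw [kj j hj, gj j hj]⟩, k3, k4⟩)
    s1 hmono ⟨b0, b1, b6, by rw [ba]; exact hstart, fun x _ => by rw [ba],
      fun j _ => by rw [ba]⟩ b3 b4
  refine ⟨s2, _, v, .seq e1 e2, hvn, hpv, ?_, c0, c1, c6, cI.finish hG hC, cx, cj⟩
  omega

/-- Perfect elimination order of a chordal graph. -/
def peo : Cmd := .seq mInit (.loop (.lt 1 6) mOuterB)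

theorem peo_spec (s : St) {n : ℕ} {G : SimpleGraph (Fin n)} (hch : IsChordal G)
    (hC : CSR n (natAdj G) (s.a 4) (s.a 5)) (h0 : s.r 0 = n) (h1 : s.r 1 = 0) :
    ∃ s' t, Ex R cap peo s t s' ∧ t ≤ 18 * s.a 4 n + 13 * n + 7 ∧ s'.r 0 = n ∧ s'.r 1 = 0 ∧
      PEO n (natAdj G) (s'.a 10) ∧ (∀ i < n, s'.a 11 i < n ∧ s'.a 10 (s'.a 11 i) = i) ∧
      (∀ v < n, s'.a 11 (s'.a 10 v) = v) ∧
      (∀ j, j < 10 ∨ 13 < j → s'.a j = s.a j) := by
  have hG := natAdj_gr G
  obtain ⟨s1, t1, e1, ht1, b0, b1, b6, bI, bj⟩ := mInit_spec (R := R) (cap := cap)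
    (A := natAdj G) s h0 h1
  set off := s.a 4 with hoff
  set adj := s.a 5 with hadj
  -- the potential
  set dg : ℕ → ℕ := fun v => off (v + 1) - off v with hdg
  obtain ⟨s2, t2, e2, ⟨c0, c1, c6, cI, cj⟩, hc, ht2⟩ := loop_rule (R := R) (cap := cap)
    (c := .lt 1 6) (p := mOuterB)
    (fun s' => s'.r 0 = n ∧ s'.r 1 = 0 ∧ s'.r 6 ≤ n ∧
      McsOut n (natAdj G) (s'.r 6) (s'.a 11) (s'.a 10) (s'.a 12) (s'.a 13) ∧
      (∀ j, j < 10 ∨ 13 < j → s'.a j = s.a j))
    (fun s' => 18 * (∑ v ∈ (Finset.range n).filter (fun v => s'.a 10 v < s'.r 6), dg v) +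
      7 * s'.r 6)
    (by
      rintro s' ⟨g0, g1, g6, gI, gj⟩ hc
      simp only [Test.holds] at hc
      obtain ⟨sz, hsz⟩ : ∃ sz, s'.r 6 = sz + 1 := ⟨s'.r 6 - 1, by omega⟩
      rw [hsz] at gI
      obtain ⟨s3, t3, v, e3, hvn, hpv, ht3, k0, k1, k6, kI, kx, kj⟩ := mOuterB_spec (R := R)
        (cap := cap) s' hG hC g0 g1 hsz (by rw [gj 4 (by omega)]) (by rw [gj 5 (by omega)]) gI
      refine ⟨s3, t3, e3, ⟨k0, k1, by omega, by rw [k6]; exact kI, fun j hj => by
        rw [kj j hj, gj j hj]⟩, ?_⟩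
      have hins : (Finset.range n).filter (fun v => s'.a 10 v < s'.r 6) =
          insert v ((Finset.range n).filter (fun v => s3.a 10 v < s3.r 6)) := by
        ext x
        simp only [Finset.mem_filter, Finset.mem_insert, Finset.mem_range, hsz, k6]
        constructor
        · rintro ⟨h2, h3⟩
          by_cases hxv : s'.a 10 x = sz
          · left
            rw [← (gI.bins.v2 x h2).2, hxv, ← hpv, (gI.bins.v2 v hvn).2]
          · right
            exact ⟨h2, (kx x h2).2 (by omega)⟩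
        · rintro (rfl | ⟨h2, h3⟩)
          · exact ⟨hvn, by omega⟩
          · exact ⟨h2, by have := (kx x h2).1 h3; omega⟩
      rw [hins, Finset.sum_insert]
      · rw [Nat.mul_add, k6, hsz]
        have : dg v = off (v + 1) - off v := rfl
        rw [this]
        omega
      · simp only [Finset.mem_filter, k6, not_and]
        intro _ h3
        have := (kx v hvn).1 h3
        omega)
    s1 ⟨b0, b1, by omega, by rw [b6]; exact bI, bj⟩
  simp only [Test.holds] at hc
  have h6 : s2.r 6 = 0 := by omega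
  rw [h6] at cI
  have hbins := cI.bins
  refine ⟨s2, _, .seq e1 e2, ?_, c0, c1, ?_, hbins.v1, fun v hv => (hbins.v2 v hv).2, cj⟩
  · -- the time
    have htel : ∀ k ≤ n, ∑ v ∈ Finset.range k, dg v = off k := by
      intro k
      induction k with
      | zero => intro _; rw [hC.off0]; rfl
      | succ k ih =>
        intro hk
        rw [Finset.sum_range_succ, ih (by omega)]
        have := hC.mono k (by omega)
        show off k + (off (k + 1) - off k) = _
        omega
    have hsum : ∑ v ∈ (Finset.range n).filter (fun v => s1.a 10 v < s1.r 6), dg v ≤ off n := by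
      rw [← htel n le_rfl]
      exact Finset.sum_le_sum_of_subset (Finset.filter_subset _ _)
    rw [h6, b6] at ht2
    rw [b6] at hsum
    omega
  · refine peo_of_mcs hch (fun v hv => (hbins.v2 v hv).1) ?_ cI.ok.mcs
    intro u hu v hv huv
    rw [← (hbins.v2 u hu).2, huv, (hbins.v2 v hv).2]

end Vale.Agent.P305
end
end

section

section

/-! Greedy vertex ranking of a forest given by parent positions. Theory. -/

set_option autoImplicit false

namespace Vale.Agent.P305

/-- State of the greedy ranking after the positions `< i` have been processed; `C j s` counts the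
children of `j` at which rank `s` is visible. Position `n` is a dummy parent of the roots. -/
structure RankInv (n B : ℕ) (par : ℕ → ℕ) (i : ℕ) (C : ℕ → ℕ → ℕ) (rank : ℕ → ℕ) : Prop where
  cnt : ∀ j, i ≤ j → j ≤ n → ∀ s < B, C j s =
    ((Finset.range i).filter (fun y => par y = j ∧ rank y ≤ s ∧ C y s ≠ 0)).card
  lt : ∀ y < i, rank y < B
  one : ∀ y < i, C y (rank y) ≠ 0
  zero : ∀ y < i, ∀ z < i, par z = y → rank z ≤ rank y → C z (rank y) = 0
  uniq : ∀ y < i, ∀ s, rank y < s → s < B → ∀ z < i, ∀ z' < i, par z = y → par z' = y →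
    rank z ≤ s → rank z' ≤ s → C z s ≠ 0 → C z' s ≠ 0 → z = z'
  up : ∀ y < i, ∀ s, rank y < s → s < B → ∀ z < i, par z = y → rank z ≤ s → C z s ≠ 0 →
    C y s ≠ 0
  pot : ∑ j ∈ Finset.Ico i (n + 1), ∑ s ∈ Finset.range B, C j s * 2 ^ s ≤ i

theorem RankInv.init {n B : ℕ} {par : ℕ → ℕ} {C : ℕ → ℕ → ℕ} {rank : ℕ → ℕ}
    (h : ∀ j ≤ n, ∀ s < B, C j s = 0) : RankInv n B par 0 C rank where
  cnt := by
    intro j _ hj s hs
    rw [h j hj s hs]
    simp only [ne_eq, Finset.range_zero, Finset.filter_empty, Finset.card_empty]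
  lt := by intro y hy; omega
  one := by intro y hy; omega
  zero := by intro y hy; omega
  uniq := by intro y hy; omega
  up := by intro y hy; omega
  pot := by
    rw [Finset.sum_eq_zero]
    intro j hj
    apply Finset.sum_eq_zero
    intro s hs
    rw [Finset.mem_Ico] at hj
    rw [Finset.mem_range] at hs
    rw [h j (by omega) s hs]
    simp

/-- What the scan of a row of counters computes. -/
structure Scan (C : ℕ → ℕ) (B r : ℕ) : Prop where
  le : r ≤ B
  zero : r < B → C r = 0
  one : ∀ s, r ≤ s → s < B → C s ≤ 1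
  pow : 2 ^ r ≤ 1 + ∑ s ∈ Finset.range r, C s * 2 ^ s

theorem Scan.init (C : ℕ → ℕ) : Scan C 0 0 where
  le := le_rfl
  zero := by omega
  one := by intro s _ h; omega
  pow := by simp

theorem Scan.bump {C : ℕ → ℕ} {B : ℕ} (h2 : 2 ≤ C B) :
    Scan C (B + 1) (B + 1) where
  le := le_rfl
  zero := by omega
  one := by intro s _ h; omega
  pow := by
    rw [Finset.sum_range_succ, pow_succ]
    have : 2 * 2 ^ B ≤ C B * 2 ^ B := Nat.mul_le_mul_right _ h2
    omega

theorem Scan.bump' {C : ℕ → ℕ} {B : ℕ} (h : Scan C B B) (h2 : C B = 1) :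
    Scan C (B + 1) (B + 1) where
  le := le_rfl
  zero := by omega
  one := by intro s _ h; omega
  pow := by
    have := h.pow
    rw [Finset.sum_range_succ, pow_succ, h2]
    omega

theorem Scan.stay {C : ℕ → ℕ} {B r : ℕ} (h : Scan C B r) (h2 : C B ≤ 1)
    (h3 : r = B → C B = 0) : Scan C (B + 1) r where
  le := by have := h.le; omega
  zero := by
    intro _
    rcases Nat.lt_or_ge r B with h4 | h4
    · exact h.zero h4
    · have : r = B := by have := h.le; omega
      rw [this]; exact h3 this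
  one := by
    intro s h4 h5
    rcases Nat.lt_or_ge s B with h6 | h6
    · exact h.one s h4 h6
    · have : s = B := by omega
      rw [this]; exact h2
  pow := h.pow

/-- The counters after position `i` has been processed with rank `r`. -/
def rankC (C : ℕ → ℕ → ℕ) (par : ℕ → ℕ) (i r : ℕ) (j s : ℕ) : ℕ :=
  if j = i then (if s = r then 1 else C i s)
  else if j = par i ∧ r ≤ s ∧ (s = r ∨ C i s ≠ 0) then C j s + 1 else C j s

theorem RankInv.rank_lt {n B : ℕ} {par : ℕ → ℕ} {i : ℕ} {C : ℕ → ℕ → ℕ} {rank : ℕ → ℕ}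
    (h : RankInv n B par i C rank) (hi : i < n) (hB : n < 2 ^ B) {r : ℕ}
    (hr : Scan (C i) B r) : r < B := by
  rcases Nat.lt_or_ge r B with h1 | h1
  · exact h1
  · exfalso
    have h2 : r = B := by have := hr.le; omega
    subst h2
    have h3 := hr.pow
    have h4 := h.pot
    have h5 : ∑ s ∈ Finset.range r, C i s * 2 ^ s ≤
        ∑ j ∈ Finset.Ico i (n + 1), ∑ s ∈ Finset.range r, C j s * 2 ^ s :=
      Finset.single_le_sum (f := fun j => ∑ s ∈ Finset.range r, C j s * 2 ^ s)
        (fun _ _ => Nat.zero_le _) (Finset.mem_Ico.2 ⟨le_rfl, by omega⟩)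
    omega

theorem RankInv.step {n B : ℕ} {par : ℕ → ℕ} {i : ℕ} {C : ℕ → ℕ → ℕ} {rank : ℕ → ℕ}
    (h : RankInv n B par i C rank) (hi : i < n) (hpar : i < par i) (hpar' : par i ≤ n)
    (hpars : ∀ y < i, y < par y) (hB : n < 2 ^ B) {r : ℕ} (hr : Scan (C i) B r)
    {rank' : ℕ → ℕ} (hrank : ∀ y < i, rank' y = rank y) (hrank' : rank' i = r)
    {C' : ℕ → ℕ → ℕ} (hC : ∀ j ≤ n, ∀ s < B, C' j s = rankC C par i r j s) :
    RankInv n B par (i + 1) C' rank' := by
  have hrB := h.rank_lt hi hB hr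
  have hr0 := hr.zero hrB
  have old : ∀ y < i, ∀ s < B, C' y s = C y s := by
    intro y hy s hs
    rw [hC y (by omega) s hs]
    unfold rankC
    rw [if_neg (by omega), if_neg (by omega)]
  have own : ∀ s < B, C' i s = if s = r then 1 else C i s := by
    intro s hs
    rw [hC i (by omega) s hs]
    unfold rankC
    rw [if_pos rfl]
  have new : ∀ j, i < j → j ≤ n → ∀ s < B, C' j s =
      if j = par i ∧ r ≤ s ∧ (s = r ∨ C i s ≠ 0) then C j s + 1 else C j s := by
    intro j hj hj' s hs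
    rw [hC j hj' s hs]
    unfold rankC
    rw [if_neg (by omega)]
  have own0 : ∀ s < B, (C' i s ≠ 0 ↔ (s = r ∨ C i s ≠ 0)) := by
    intro s hs
    rw [own s hs]
    by_cases hsr : s = r
    · simp [hsr]
    · simp [hsr]
  constructor
  · intro j hj hjn s hs
    rw [new j (by omega) hjn s hs, h.cnt j (by omega) hjn s hs]
    have hsub : ∀ y ∈ Finset.range i, ((par y = j ∧ rank y ≤ s ∧ C y s ≠ 0) ↔
        (par y = j ∧ rank' y ≤ s ∧ C' y s ≠ 0)) := by
      intro y hy
      rw [Finset.mem_range] at hy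
      rw [hrank y hy, old y hy s hs]
    rw [Finset.filter_congr hsub, Finset.range_add_one, Finset.filter_insert]
    by_cases hc : j = par i ∧ r ≤ s ∧ (s = r ∨ C i s ≠ 0)
    · rw [if_pos hc, if_pos ⟨hc.1.symm, by rw [hrank']; exact hc.2.1, (own0 s hs).2 hc.2.2⟩,
        Finset.card_insert_of_notMem (by simp only [ne_eq, Finset.mem_filter, Finset.mem_range, lt_self_iff_false, false_and, not_false_eq_true])]
    · rw [if_neg hc, if_neg]
      rintro ⟨h1, h2, h3⟩
      exact hc ⟨h1.symm, by rwa [hrank'] at h2, (own0 s hs).1 h3⟩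
  · intro y hy
    rcases Nat.lt_or_ge y i with h1 | h1
    · rw [hrank y h1]; exact h.lt y h1
    · have : y = i := by omega
      rw [this, hrank']; exact hrB
  · intro y hy
    rcases Nat.lt_or_ge y i with h1 | h1
    · rw [hrank y h1, old y h1 _ (h.lt y h1)]; exact h.one y h1
    · have : y = i := by omega
      rw [this, hrank', own r hrB, if_pos rfl]; exact one_ne_zero
  · intro y hy z hz hpz hle
    rcases Nat.lt_or_ge y i with h1 | h1
    · have hzi : z < i := by
        by_contra hge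
        have : z = i := by omega
        subst this
        omega
      rw [hrank y h1] at hle ⊢
      rw [hrank z hzi] at hle
      rw [old z hzi _ (h.lt y h1)]
      exact h.zero y h1 z hzi hpz hle
    · have : y = i := by omega
      subst this
      have hzi : z < y := by
        by_contra hge
        have : z = y := by omega
        subst this
        omega
      rw [hrank'] at hle ⊢
      rw [hrank z hzi] at hle
      rw [old z hzi _ hrB]
      by_contra hne
      have h2 := h.cnt y le_rfl (by omega) r hrB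
      rw [hr0] at h2
      have h3 := Finset.card_eq_zero.1 h2.symm
      have h4 : z ∈ (Finset.range y).filter
          (fun z => par z = y ∧ rank z ≤ r ∧ C z r ≠ 0) := by
        rw [Finset.mem_filter, Finset.mem_range]
        exact ⟨hzi, hpz, hle, hne⟩
      rw [h3] at h4
      exact absurd h4 (Finset.notMem_empty _)
  · intro y hy s hs hsB z hz z' hz' hpz hpz' hle hle' hne hne'
    rcases Nat.lt_or_ge y i with h1 | h1
    · have hzi : z < i := by
        by_contra hge
        have : z = i := by omega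
        subst this
        omega
      have hzi' : z' < i := by
        by_contra hge
        have : z' = i := by omega
        subst this
        omega
      rw [hrank y h1] at hs
      rw [hrank z hzi] at hle
      rw [hrank z' hzi'] at hle'
      rw [old z hzi s hsB] at hne
      rw [old z' hzi' s hsB] at hne'
      exact h.uniq y h1 s hs hsB z hzi z' hzi' hpz hpz' hle hle' hne hne'
    · have : y = i := by omega
      subst this
      have hzi : z < y := by
        by_contra hge
        have : z = y := by omega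
        subst this
        omega
      have hzi' : z' < y := by
        by_contra hge
        have : z' = y := by omega
        subst this
        omega
      rw [hrank'] at hs
      rw [hrank z hzi] at hle
      rw [hrank z' hzi'] at hle'
      rw [old z hzi s hsB] at hne
      rw [old z' hzi' s hsB] at hne'
      have h2 := h.cnt y le_rfl (by omega) s hsB
      have h3 := hr.one s (by omega) hsB
      rw [h2] at h3
      refine Finset.card_le_one.1 h3 z ?_ z' ?_
      · rw [Finset.mem_filter, Finset.mem_range]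
        exact ⟨hzi, hpz, hle, hne⟩
      · rw [Finset.mem_filter, Finset.mem_range]
        exact ⟨hzi', hpz', hle', hne'⟩
  · intro y hy s hs hsB z hz hpz hle hne
    rcases Nat.lt_or_ge y i with h1 | h1
    · have hzi : z < i := by
        by_contra hge
        have : z = i := by omega
        subst this
        omega
      rw [hrank y h1] at hs
      rw [hrank z hzi] at hle
      rw [old z hzi s hsB] at hne
      rw [old y h1 s hsB]
      exact h.up y h1 s hs hsB z hzi hpz hle hne
    · have : y = i := by omega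
      subst this
      have hzi : z < y := by
        by_contra hge
        have : z = y := by omega
        subst this
        omega
      rw [hrank'] at hs
      rw [hrank z hzi] at hle
      rw [old z hzi s hsB] at hne
      rw [own0 s hsB]
      right
      rw [h.cnt y le_rfl (by omega) s hsB]
      apply Finset.card_ne_zero_of_mem (a := z)
      rw [Finset.mem_filter, Finset.mem_range]
      exact ⟨hzi, hpz, hle, hne⟩
  · -- the potential
    have hpot := h.pot
    have hIco : Finset.Ico i (n + 1) = insert i (Finset.Ico (i + 1) (n + 1)) := by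
      ext x
      simp only [Finset.mem_insert, Finset.mem_Ico]
      omega
    rw [hIco, Finset.sum_insert (by simp only [Finset.mem_Ico, add_le_iff_nonpos_right, nonpos_iff_eq_zero, one_ne_zero, Order.lt_add_one_iff, false_and, not_false_eq_true])] at hpot
    -- the added part
    set add : ℕ := ∑ s ∈ Finset.range B, (if r ≤ s ∧ (s = r ∨ C i s ≠ 0) then 2 ^ s else 0)
      with hadd
    have h1 : ∑ j ∈ Finset.Ico (i + 1) (n + 1), ∑ s ∈ Finset.range B, C' j s * 2 ^ s =
        ∑ j ∈ Finset.Ico (i + 1) (n + 1), ∑ s ∈ Finset.range B, C j s * 2 ^ s + add := by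
      have h2 : ∀ j ∈ Finset.Ico (i + 1) (n + 1), ∑ s ∈ Finset.range B, C' j s * 2 ^ s =
          ∑ s ∈ Finset.range B, C j s * 2 ^ s + (if j = par i then add else 0) := by
        intro j hj
        rw [Finset.mem_Ico] at hj
        by_cases hjp : j = par i
        · rw [if_pos hjp, hadd, ← Finset.sum_add_distrib]
          apply Finset.sum_congr rfl
          intro s hs
          rw [Finset.mem_range] at hs
          rw [new j (by omega) (by omega) s hs]
          by_cases hc : r ≤ s ∧ (s = r ∨ C i s ≠ 0)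
          · rw [if_pos ⟨hjp, hc⟩, if_pos hc, Nat.add_mul, one_mul]
          · rw [if_neg (fun h => hc h.2), if_neg hc, Nat.add_zero]
        · rw [if_neg hjp, Nat.add_zero]
          apply Finset.sum_congr rfl
          intro s hs
          rw [Finset.mem_range] at hs
          rw [new j (by omega) (by omega) s hs, if_neg (fun h => hjp h.1)]
      rw [Finset.sum_congr rfl h2, Finset.sum_add_distrib, Finset.sum_ite_eq']
      rw [if_pos (Finset.mem_Ico.2 ⟨by omega, by omega⟩)]
    have h3 : add ≤ 1 + ∑ s ∈ Finset.range B, C i s * 2 ^ s := by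
      have h4 : ∀ k, r + 1 ≤ k → k ≤ B → ∑ s ∈ Finset.range k,
          (if r ≤ s ∧ (s = r ∨ C i s ≠ 0) then 2 ^ s else 0) ≤
          1 + ∑ s ∈ Finset.range k, C i s * 2 ^ s := by
        intro k hk
        induction k, hk using Nat.le_induction with
        | base =>
          intro _
          rw [Finset.sum_range_succ, Finset.sum_range_succ, if_pos ⟨le_rfl, Or.inl rfl⟩, hr0]
          have h5 : ∑ s ∈ Finset.range r,
              (if r ≤ s ∧ (s = r ∨ C i s ≠ 0) then 2 ^ s else 0) = 0 := by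
            apply Finset.sum_eq_zero
            intro s hs
            rw [Finset.mem_range] at hs
            rw [if_neg (by omega)]
          rw [h5]
          have := hr.pow
          omega
        | succ k hk ih =>
          intro hkB
          have := ih (by omega)
          rw [Finset.sum_range_succ, Finset.sum_range_succ]
          have h6 : (if r ≤ k ∧ (k = r ∨ C i k ≠ 0) then 2 ^ k else 0) ≤ C i k * 2 ^ k := by
            by_cases hc : C i k = 0
            · rw [if_neg (by omega)]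
              exact Nat.zero_le _
            · have h7 : 1 ≤ C i k := by omega
              calc (if r ≤ k ∧ (k = r ∨ C i k ≠ 0) then 2 ^ k else 0) ≤ 1 * 2 ^ k := by
                    split <;> omega
                _ ≤ C i k * 2 ^ k := Nat.mul_le_mul_right _ h7
          omega
      exact h4 B (by omega) le_rfl
    rw [h1]
    omega

/-- Chains of parents all of whose ranks are at most `r`. -/
inductive Up (n : ℕ) (par rank : ℕ → ℕ) (r : ℕ) : ℕ → ℕ → Prop
  | refl {a : ℕ} (ha : a < n) (h : rank a ≤ r) : Up n par rank r a a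
  | step {a b : ℕ} (h : Up n par rank r a b) (hp : par b < n) (h' : rank (par b) ≤ r) :
      Up n par rank r a (par b)

namespace Up

variable {n : ℕ} {par rank : ℕ → ℕ} {r : ℕ}

theorem left {a b : ℕ} (h : Up n par rank r a b) : a < n ∧ rank a ≤ r := by
  induction h with
  | refl ha h => exact ⟨ha, h⟩
  | step _ _ _ ih => exact ih

theorem right {a b : ℕ} (h : Up n par rank r a b) : b < n ∧ rank b ≤ r := by
  cases h with
  | refl ha h => exact ⟨ha, h⟩
  | step _ hp h' => exact ⟨hp, h'⟩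

theorem trans {a b c : ℕ} (h1 : Up n par rank r a b) (h2 : Up n par rank r b c) :
    Up n par rank r a c := by
  induction h2 with
  | refl _ _ => exact h1
  | step _ hp h' ih => exact .step ih hp h'

/-- The first step of a chain. -/
theorem head {a b : ℕ} (h : Up n par rank r a b) (hne : a ≠ b) :
    Up n par rank r (par a) b := by
  induction h with
  | refl _ _ => exact absurd rfl hne
  | @step b h hp h' ih =>
    by_cases hab : a = b
    · subst hab
      exact .refl hp h'
    · exact .step (ih hab) hp h'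

theorem compare {a b c : ℕ} (h1 : Up n par rank r a b) (h2 : Up n par rank r a c) :
    Up n par rank r b c ∨ Up n par rank r c b := by
  induction h1 with
  | refl _ _ => exact Or.inl h2
  | @step b h hp h' ih =>
    rcases ih with ih | ih
    · by_cases hbc : b = c
      · subst hbc
        exact Or.inr (.step ih hp h')
      · exact Or.inl (ih.head hbc)
    · exact Or.inr (.step ih hp h')

end Up

/-- The final facts about a ranking. -/
structure Ranked (n B : ℕ) (par rank : ℕ → ℕ) (vis : ℕ → ℕ → Prop) : Prop where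
  up : ∀ y < n, y < par y
  lt : ∀ y < n, rank y < B
  vlt : ∀ y < n, ∀ s, vis y s → s < B
  one : ∀ y < n, vis y (rank y)
  zero : ∀ y < n, ∀ z < n, par z = y → ¬ vis z (rank y)
  uniq : ∀ y < n, ∀ s, rank y < s → ∀ z < n, ∀ z' < n, par z = y → par z' = y →
    vis z s → vis z' s → z = z'
  pass : ∀ y < n, ∀ s, rank y < s → ∀ z < n, par z = y → vis z s → vis y s

theorem RankInv.ranked {n B : ℕ} {par : ℕ → ℕ} {C : ℕ → ℕ → ℕ} {rank : ℕ → ℕ}
    (h : RankInv n B par n C rank) (hup : ∀ y < n, y < par y) :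
    Ranked n B par rank (fun y s => rank y ≤ s ∧ s < B ∧ C y s ≠ 0) where
  up := hup
  lt := h.lt
  vlt := fun y _ s hs => hs.2.1
  one := fun y hy => ⟨le_rfl, h.lt y hy, h.one y hy⟩
  zero := fun y hy z hz hp hv => hv.2.2 (h.zero y hy z hz hp hv.1)
  uniq := fun y hy s hs z hz z' hz' hp hp' hv hv' =>
    h.uniq y hy s hs hv.2.1 z hz z' hz' hp hp' hv.1 hv'.1 hv.2.2 hv'.2.2
  pass := fun y hy s hs z hz hp hv =>
    ⟨hs.le, hv.2.1, h.up y hy s hs hv.2.1 z hz hp hv.1 hv.2.2⟩

namespace Ranked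

variable {n B : ℕ} {par rank : ℕ → ℕ} {vis : ℕ → ℕ → Prop} (h : Ranked n B par rank vis)

include h

theorem visible {r a z : ℕ} (hu : Up n par rank r a z) (ha : rank a = r) : vis z r := by
  induction hu with
  | refl ha' _ => rw [← ha]; exact h.one _ ha'
  | @step b hb hp hle ih =>
    have hb' := hb.right.1
    have hne : rank (par b) ≠ r := by
      intro he
      apply h.zero (par b) hp b hb' rfl
      rw [he]; exact ih
    exact h.pass (par b) hp r (by omega) b hb' rfl ih

/-- Two nodes of rank `r` that are joined through nodes of rank at most `r` are equal. -/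
theorem sep {r z : ℕ} : ∀ {a b : ℕ}, Up n par rank r a z → Up n par rank r b z → rank a = r →
    rank b = r → a = b := by
  induction z using Nat.strong_induction_on with
  | _ z ih =>
    intro a b ha hb har hbr
    have key : ∀ {a b : ℕ}, Up n par rank r a z → Up n par rank r b z → rank a = r →
        rank b = r → a = z → a = b := by
      intro a b ha hb har hbr haz
      subst haz
      cases hb with
      | refl _ _ => rfl
      | @step c hc hp hle =>
        exfalso
        exact h.zero _ hp c hc.right.1 rfl (by rw [har]; exact h.visible hc hbr)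
    by_cases haz : a = z
    · exact key ha hb har hbr haz
    · by_cases hbz : b = z
      · exact (key hb ha hbr har hbz).symm
      · cases ha with
        | refl _ _ => exact absurd rfl haz
        | @step c hc hp hle =>
          have hc' := hc.right.1
          have vc := h.visible hc har
          have hne : rank (par c) ≠ r := fun he => h.zero _ hp c hc' rfl (by rw [he]; exact vc)
          -- the other chain
          generalize hz : par c = z' at hb hbz hp hle hne ih haz
          cases hb with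
          | refl _ _ => exact absurd rfl hbz
          | @step d hd hp' hle' =>
            have hd' := hd.right.1
            have vd := h.visible hd hbr
            have hcd : c = d := h.uniq _ hp' r (by omega) c hc' d hd' hz rfl vc vd
            subst hcd
            exact ih c (h.up c hc') hc hd har hbr

end Ranked

/-- Joined in the forest through nodes of rank at most `r`. -/
def Join (n : ℕ) (par rank : ℕ → ℕ) (r a b : ℕ) : Prop :=
  ∃ z, Up n par rank r a z ∧ Up n par rank r b z

theorem Join.trans {n : ℕ} {par rank : ℕ → ℕ} {r a b c : ℕ} (h1 : Join n par rank r a b)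
    (h2 : Join n par rank r b c) : Join n par rank r a c := by
  obtain ⟨z, h3, h4⟩ := h1
  obtain ⟨z', h5, h6⟩ := h2
  rcases Up.compare h4 h5 with h7 | h7
  · exact ⟨z', h3.trans h7, h6⟩
  · exact ⟨z, h3, h6.trans h7⟩

/-- `par` is the parent (as a position) in the elimination forest; `n` for roots. -/
structure ParOk (n : ℕ) (A : ℕ → ℕ → Prop) (pos par : ℕ → ℕ) : Prop where
  le : ∀ i < n, i < par i ∧ par i ≤ n
  least : ∀ v u, A v u → pos v < pos u → par (pos v) ≤ pos u
  attained : ∀ v < n, par (pos v) < n → ∃ u, A v u ∧ pos v < pos u ∧ par (pos v) = pos u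

/-- `rk v` is the maximum of the ranks of the bags containing `v`. -/
structure RkOk (n : ℕ) (A : ℕ → ℕ → Prop) (pos rank rk : ℕ → ℕ) : Prop where
  self : ∀ v < n, rank (pos v) ≤ rk v
  ge : ∀ v u, A v u → pos u < pos v → rank (pos u) ≤ rk v
  attained : ∀ v < n, rk v = rank (pos v) ∨ ∃ u, A v u ∧ pos u < pos v ∧ rk v = rank (pos u)

/-- From the ranking of the elimination forest to clique ranks of the graph. -/
theorem ranks_of {n B : ℕ} {A : ℕ → ℕ → Prop} {pos par rank rk : ℕ → ℕ} {vis : ℕ → ℕ → Prop}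
    (hG : Gr n A) (hP : PEO n A pos) (hpar : ParOk n A pos par) (hr : Ranked n B par rank vis)
    (hrk : RkOk n A pos rank rk) : Ranks n A rk B := by
  -- climbing from an earlier neighbour
  have climb : ∀ k, ∀ x v, n - pos x ≤ k → A x v → pos x < pos v → ∀ i, rk v ≤ i →
      Up n par rank i (pos x) (pos v) := by
    intro k
    induction k with
    | zero =>
      intro x v hk hxv _
      have := hP.lt x (hG.lt hxv)
      omega
    | succ k ih =>
      intro x v hk hxv hlt i hi
      have hx := hG.lt hxv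
      have hv := hG.lt' hxv
      have h1 := hpar.least x v hxv hlt
      have h2 : rank (pos x) ≤ i := (hrk.ge v x (hG.symm hxv) hlt).trans hi
      have hpx := hP.lt x hx
      have hpv := hP.lt v hv
      obtain ⟨u, hxu, hlu, hpu⟩ := hpar.attained x hx (by omega)
      have hu := hG.lt' hxu
      have hpu' := hP.lt u hu
      by_cases huv : u = v
      · subst huv
        rw [← hpu]
        refine .step (.refl hpx h2) (by omega) ?_
        rw [hpu]
        exact (hrk.self u hu).trans hi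
      · have huv' : A u v := hP.simp x u v hxu hxv hlu hlt huv
        have hne : pos u ≠ pos v := fun he => huv (hP.inj u hu v hv he)
        have hlt' : pos u < pos v := by omega
        have h3 := ih u v (by omega) huv' hlt' i hi
        rw [← hpu] at h3
        refine Up.trans (.step (.refl hpx h2) (by omega) ?_) h3
        exact h3.left.2
  -- adjacency gives join
  have adjJoin : ∀ i u v, A u v → rk u ≤ i → rk v ≤ i → Join n par rank i (pos u) (pos v) := by
    intro i u v huv hu hv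
    have hun := hG.lt huv
    have hvn := hG.lt' huv
    have hne : pos u ≠ pos v := by
      intro he
      have := hP.inj u hun v hvn he
      subst this
      exact hG.irr u huv
    rcases Nat.lt_or_gt_of_ne hne with hlt | hlt
    · have h1 := climb _ u v le_rfl huv hlt i hv
      exact ⟨pos v, h1, .refl h1.right.1 h1.right.2⟩
    · have h1 := climb _ v u le_rfl (hG.symm huv) hlt i hu
      exact ⟨pos u, .refl h1.right.1 h1.right.2, h1⟩
  -- a bag attaining the rank
  have bag : ∀ v < n, ∃ x < n, (x = v ∨ (A x v ∧ pos x < pos v)) ∧ rank (pos x) = rk v ∧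
      Up n par rank (rk v) (pos x) (pos v) := by
    intro v hv
    rcases hrk.attained v hv with h1 | ⟨u, h1, h2, h3⟩
    · exact ⟨v, hv, Or.inl rfl, h1.symm, .refl (hP.lt v hv) h1.symm.le⟩
    · have hu := hG.lt' h1
      exact ⟨u, hu, Or.inr ⟨hG.symm h1, h2⟩, h3.symm, climb _ u v le_rfl (hG.symm h1) h2 _ le_rfl⟩
  constructor
  · intro v hv
    rcases hrk.attained v hv with h1 | ⟨u, h1, h2, h3⟩
    · rw [h1]; exact hr.lt _ (hP.lt v hv)
    · rw [h3]; exact hr.lt _ (hP.lt u (hG.lt' h1))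
  · intro u hu v hv heq hne hconn
    have hJ : ∀ w, ConnLe A rk (rk u) u w → Join n par rank (rk u) (pos u) (pos w) := by
      intro w hw
      induction hw with
      | refl =>
        have h1 : Up n par rank (rk u) (pos u) (pos u) := .refl (hP.lt u hu) (hrk.self u hu)
        exact ⟨_, h1, h1⟩
      | @tail a b _ hab ih =>
        exact ih.trans (adjJoin _ a b hab.1 hab.2.1 hab.2.2)
    obtain ⟨z, h1, h2⟩ := hJ v hconn
    obtain ⟨x, hx, hx1, hx2, hx3⟩ := bag u hu
    obtain ⟨y, hy, hy1, hy2, hy3⟩ := bag v hv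
    rw [← heq] at hy2 hy3
    have hxy : pos x = pos y := hr.sep (hx3.trans h1) (hy3.trans h2) hx2 hy2
    have hxy' : x = y := hP.inj x hx y hy hxy
    subst hxy'
    rcases hx1 with hx1 | ⟨hx1, hx1'⟩
    · subst hx1
      rcases hy1 with hy1 | ⟨hy1, _⟩
      · exact absurd hy1 hne
      · exact hy1
    · rcases hy1 with hy1 | ⟨hy1, hy1'⟩
      · subst hy1
        exact hG.symm hx1
      · exact hP.simp x u v hx1 hy1 hx1' hy1' hne

end Vale.Agent.P305
end
end

section

section

/-! The ranking program. Part 1: levels, parents, rows. -/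

set_option autoImplicit false

namespace Vale.Agent.P305

open Function (update)
open L1

variable {R : List ℕ → (ℕ → ℕ) → ℕ → Prop} {cap : ℕ}

/-- Register `6` becomes `log₂ n + 1`. -/
def rlev : Cmd := .seq (.blk [.const 6 1, .const 8 2, .copy 9 0, .inc 9])
  (.loop (.lt 8 9) (.seq (.add 8 8 8) (.blk [.inc 6])))

theorem rlev_spec (s : St) {n : ℕ} (hn : s.r 0 = n) (hcap : 2 * n ≤ cap) :
    ∃ s' t, Ex R cap rlev s t s' ∧ t ≤ 3 * (Nat.log 2 n + 1) + 5 ∧ s'.r 0 = n ∧
      s'.r 1 = s.r 1 ∧ s'.r 6 = Nat.log 2 n + 1 ∧ s'.a = s.a := by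
  obtain ⟨s1, hs1⟩ : ∃ s1, s1 = run [.const 6 1, .const 8 2, .copy 9 0, .inc 9] s := ⟨_, rfl⟩
  have e1 : Ex R cap (.blk [.const 6 1, .const 8 2, .copy 9 0, .inc 9]) s 4 s1 := by
    rw [hs1]; exact Ex.blk _ _
  have h1 : s1.r 0 = n ∧ s1.r 1 = s.r 1 ∧ s1.r 6 = 1 ∧ s1.r 8 = 2 ∧ s1.r 9 = n + 1 ∧
      s1.a = s.a := by
    subst hs1; simp only [run, B.step, ne_eq, OfNat.zero_ne_ofNat, not_false_eq_true, Function.update_of_ne, hn, Function.update_self, Function.update_idem, OfNat.one_ne_ofNat, Nat.reduceEqDiff, Nat.add_left_cancel_iff, and_self]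
  obtain ⟨a0, a1, a6, a8, a9, aa⟩ := h1
  obtain ⟨s2, t2, e2, ⟨b0, b1, b8, b9, b6, b6', ba⟩, c2, ht2⟩ := loop_rule (R := R) (cap := cap)
    (c := .lt 8 9) (p := .seq (.add 8 8 8) (.blk [.inc 6]))
    (fun s' => s'.r 0 = n ∧ s'.r 1 = s.r 1 ∧ s'.r 8 = 2 ^ s'.r 6 ∧ s'.r 9 = n + 1 ∧
      1 ≤ s'.r 6 ∧ s'.r 6 ≤ Nat.log 2 n + 1 ∧ s'.a = s.a)
    (fun s' => 3 * (Nat.log 2 n + 1 - s'.r 6))
    (by
      rintro s' ⟨h0, h1, h8, h9, h6, h6', ha⟩ hc
      simp only [Test.holds] at hc
      have hpow : 2 ^ s'.r 6 ≤ n := by omega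
      have hn0 : n ≠ 0 := by
        intro h
        rw [h] at hpow
        have : 0 < 2 ^ s'.r 6 := by positivity
        omega
      have hle : s'.r 6 ≤ Nat.log 2 n := (Nat.le_log_iff_pow_le (by decide) hn0).2 hpow
      refine ⟨_, _, .seq (.add _ _ _ _ (by omega)) (.blk _ _), ⟨?_, ?_, ?_, ?_, ?_, ?_, ?_⟩, ?_⟩
      · simp [run, B.step, h0]
      · simp [run, B.step, h1]
      · simp [run, B.step, h8, pow_succ]; omega
      · simp [run, B.step, h9]
      · simp only [run, B.step, ne_eq, Nat.reduceEqDiff, not_false_eq_true, Function.update_of_ne, Function.update_self, le_add_iff_nonneg_left, zero_le]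
      · simp only [run, B.step, ne_eq, Nat.reduceEqDiff, not_false_eq_true, Function.update_of_ne, Function.update_self, add_le_add_iff_right]; omega
      · simp [run, B.step, ha]
      · simp only [List.length_cons, List.length_nil, zero_add, Nat.reduceAdd, run, B.step, ne_eq, Nat.reduceEqDiff, not_false_eq_true, Function.update_of_ne, Function.update_self, Nat.reduceSubDiff]
        omega)
    s1 ⟨a0, a1, by rw [a8, a6]; rfl, a9, by omega, by omega, aa⟩
  simp only [Test.holds] at c2
  have hle : s2.r 6 = Nat.log 2 n + 1 := by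
    have h3 : n < 2 ^ s2.r 6 := by omega
    have h4 : Nat.log 2 n < s2.r 6 := by
      by_cases hn0 : n = 0
      · rw [hn0]; simp; omega
      · exact (Nat.log_lt_iff_lt_pow (by decide) hn0).2 h3
    omega
  refine ⟨s2, _, .seq e1 e2, ?_, b0, b1, hle, ba⟩
  (clear * - a6 b6 ht2 hle; omega)

/-- Parents start as `n`. -/
def rparI : Cmd := .seq (.blk [.const 2 0]) (.loop (.lt 2 0) (.blk [.store 21 2 0, .inc 2]))

theorem rparI_spec (s : St) {n : ℕ} (hn : s.r 0 = n) :
    ∃ s' t, Ex R cap rparI s t s' ∧ t ≤ 3 * n + 2 ∧ s'.r 0 = n ∧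
      s'.r 1 = s.r 1 ∧ s'.r 6 = s.r 6 ∧ (∀ i < n, s'.a 21 i = n) ∧
      (∀ j, j ≠ 21 → s'.a j = s.a j) := by
  obtain ⟨s1, hs1⟩ : ∃ s1, s1 = run [.const 2 0] s := ⟨_, rfl⟩
  have e1 : Ex R cap (.blk [.const 2 0]) s 1 s1 := by
    rw [hs1]; exact Ex.blk _ _
  have h1 : s1.r 0 = n ∧ s1.r 1 = s.r 1 ∧ s1.r 6 = s.r 6 ∧ s1.r 2 = 0 ∧ s1.a = s.a := by
    subst hs1; simp [run, B.step, hn]
  obtain ⟨a0, a1, a6, a2, aa⟩ := h1
  obtain ⟨s2, t2, e2, ht2, ⟨b1, b6, b21, bj⟩, _, b0⟩ := for_rule (R := R) (cap := cap)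
    (i := 2) (b := 0) (body := (.blk [.store 21 2 0, .inc 2])) n 2 0
    (fun k s' => s'.r 1 = s.r 1 ∧ s'.r 6 = s.r 6 ∧ (∀ i < k, s'.a 21 i = n) ∧
      (∀ j, j ≠ 21 → s'.a j = s.a j))
    (by
      rintro k s' _ hk ⟨h1, h6, h21, hj⟩ hi hb
      refine ⟨_, _, .blk _ _, ?_, ⟨?_, ?_, ?_, ?_⟩, ?_, ?_⟩
      · simp
      · simp [run, B.step, h1]
      · simp [run, B.step, h6]
      · intro i hik
        simp only [run, B.step, Function.update_self, Function.update_apply, hi, hb]
        by_cases hi' : i = k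
        · simp [hi']
        · simp [hi', h21 i (by omega)]
      · intro j hj6
        simp [run, B.step, hj6, hj j hj6]
      · simp [run, B.step, hi]
      · simp [run, B.step, hb])
    s1 (by omega) ⟨a1, a6, by intro i hi; omega, by intro j _; rw [aa]⟩ a2 a0
  refine ⟨s2, _, .seq e1 e2, ?_, b0, b1, b6, b21, bj⟩
  omega

/-- An arc `(w, q)` that has been processed when the loop is at `(v, p)`. -/
def Done (n : ℕ) (off : ℕ → ℕ) (v p w q : ℕ) : Prop :=
  w < n ∧ off w ≤ q ∧ q < off (w + 1) ∧ (w < v ∨ (w = v ∧ q < p))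

theorem Done.next {n : ℕ} {off : ℕ → ℕ} {v w q : ℕ}
    (h : Done n off (v + 1) (off (v + 1)) w q) : Done n off v (off (v + 1)) w q := by
  obtain ⟨h1, h2, h3, h4⟩ := h
  refine ⟨h1, h2, h3, ?_⟩
  rcases h4 with h4 | ⟨rfl, h4⟩
  · rcases Nat.lt_or_ge w v with h5 | h5
    · exact Or.inl h5
    · have : w = v := by omega
      subst this
      exact Or.inr ⟨rfl, h3⟩
  · omega

theorem Done.next' {n : ℕ} {off : ℕ → ℕ} {v w q : ℕ}
    (h : Done n off v (off (v + 1)) w q) : Done n off (v + 1) (off (v + 1)) w q := by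
  obtain ⟨h1, h2, h3, h4⟩ := h
  exact ⟨h1, h2, h3, by omega⟩

theorem Done.step {n : ℕ} {off : ℕ → ℕ} {v p w q : ℕ} (hv : v < n) (h1 : off v ≤ p) (h2 : p < off (v + 1)) :
    Done n off v (p + 1) w q ↔ Done n off v p w q ∨ (w = v ∧ q = p) := by
  constructor
  · rintro ⟨h3, h4, h5, h6⟩
    rcases h6 with h6 | ⟨rfl, h6⟩
    · exact Or.inl ⟨h3, h4, h5, Or.inl h6⟩
    · rcases Nat.lt_or_ge q p with h7 | h7
      · exact Or.inl ⟨h3, h4, h5, Or.inr ⟨rfl, h7⟩⟩
      · exact Or.inr ⟨rfl, by omega⟩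
  · rintro (⟨h3, h4, h5, h6⟩ | ⟨rfl, rfl⟩)
    · exact ⟨h3, h4, h5, by omega⟩
    · exact ⟨hv, h1, h2, Or.inr ⟨rfl, by omega⟩⟩

theorem Done.last {n : ℕ} {off : ℕ → ℕ} {w q : ℕ} (hw : w < n) (h1 : off w ≤ q)
    (h2 : q < off (w + 1)) : Done n off n (off n) w q :=
  ⟨hw, h1, h2, Or.inl hw⟩

/-- Parents of positions. -/
def rparA : Cmd := arcLoop (.seq (.blk [.load 10 7 2, .load 10 8 5, .load 21 9 7])
   (.ite (.lt 7 8) (.ite (.lt 8 9) (.blk [.store 21 7 8]) (.blk [])) (.blk [])))

/-- The part of the invariant of `rparA` about the parents. -/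
def ParInv (n : ℕ) (off adj pos : ℕ → ℕ) (v p : ℕ) (f : ℕ → ℕ) : Prop :=
  (∀ w q, Done n off v p w q → pos w < pos (adj q) → f (pos w) ≤ pos (adj q)) ∧
  (∀ w < n, f (pos w) = n ∨ ∃ q, Done n off v p w q ∧ pos w < pos (adj q) ∧
    f (pos w) = pos (adj q))

theorem ParInv.step {n : ℕ} {off adj pos : ℕ → ℕ}
    (hinj : ∀ u < n, ∀ v < n, pos u = pos v → u = v)
    {v p : ℕ} (hv : v < n) (h1 : off v ≤ p) (h2 : p < off (v + 1)) {f f' : ℕ → ℕ}
    (hI : ParInv n off adj pos v p f)
    (hf : f' = if pos v < pos (adj p) ∧ pos (adj p) < f (pos v) then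
      update f (pos v) (pos (adj p)) else f) : ParInv n off adj pos v (p + 1) f' := by
  obtain ⟨i1, i2⟩ := hI
  by_cases hc : pos v < pos (adj p) ∧ pos (adj p) < f (pos v)
  · rw [if_pos hc] at hf
    subst hf
    constructor
    · intro w q hq hlt
      rw [Done.step hv h1 h2] at hq
      rw [Function.update_apply]
      split
      · rename_i he
        rcases hq with hq | ⟨rfl, rfl⟩
        · have hwv : w = v := hinj w hq.1 v hv he
          subst hwv
          have := i1 w q hq hlt
          omega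
        · exact le_rfl
      · rename_i he
        rcases hq with hq | ⟨rfl, rfl⟩
        · exact i1 w q hq hlt
        · exact absurd rfl he
    · intro w hw
      rw [Function.update_apply]
      split
      · rename_i he
        have hwv : w = v := hinj w hw v hv he
        subst hwv
        exact Or.inr ⟨p, (Done.step hv h1 h2).2 (Or.inr ⟨rfl, rfl⟩), hc.1, rfl⟩
      · rcases i2 w hw with h3 | ⟨q, h3, h4, h5⟩
        · exact Or.inl h3
        · exact Or.inr ⟨q, (Done.step hv h1 h2).2 (Or.inl h3), h4, h5⟩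
  · rw [if_neg hc] at hf
    subst hf
    constructor
    · intro w q hq hlt
      rw [Done.step hv h1 h2] at hq
      rcases hq with hq | ⟨rfl, rfl⟩
      · exact i1 w q hq hlt
      · by_contra hgt
        exact hc ⟨hlt, by omega⟩
    · intro w hw
      rcases i2 w hw with h3 | ⟨q, h3, h4, h5⟩
      · exact Or.inl h3
      · exact Or.inr ⟨q, (Done.step hv h1 h2).2 (Or.inl h3), h4, h5⟩

/-- Two nested tests around a block. -/
theorem ite2_ex (x y z w : ℕ) (l : List B) (s : St) :
    ∃ s' t, Ex R cap (.ite (.lt x y) (.ite (.lt z w) (.blk l) (.blk [])) (.blk [])) s t s' ∧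
      t ≤ l.length + 2 ∧ s' = if s.r x < s.r y ∧ s.r z < s.r w then run l s else s := by
  have nil : Ex R cap (.blk []) s 0 s := Ex.blk [] s
  by_cases c1 : s.r x < s.r y
  · by_cases c2 : s.r z < s.r w
    · refine ⟨run l s, _, .iteTrue c1 (.iteTrue c2 (.blk l s)), by omega, ?_⟩
      rw [if_pos ⟨c1, c2⟩]
    · refine ⟨s, _, .iteTrue c1 (.iteFalse c2 nil), by omega, ?_⟩
      rw [if_neg (fun h => c2 h.2)]
  · refine ⟨s, _, .iteFalse c1 nil, by omega, ?_⟩
    rw [if_neg (fun h => c1 h.1)]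

theorem rparA_spec (s : St) {n : ℕ} {A : ℕ → ℕ → Prop} (hG : Gr n A)
    (hC : CSR n A (s.a 4) (s.a 5)) (hP : PEO n A (s.a 10)) (hn : s.r 0 = n)
    (h21 : ∀ i < n, s.a 21 i = n) (hI : ∀ i < n, ∃ v < n, s.a 10 v = i) :
    ∃ s' t, Ex R cap rparA s t s' ∧ t ≤ 13 * s.a 4 n + 6 * n + 3 ∧ s'.r 0 = n ∧
      s'.r 1 = s.r 1 ∧ s'.r 6 = s.r 6 ∧ ParOk n A (s.a 10) (s'.a 21) ∧
      (∀ j, j ≠ 21 → s'.a j = s.a j) := by
  set off := s.a 4 with hoff
  set adj := s.a 5 with hadj
  set pos := s.a 10 with hpos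
  obtain ⟨s', t, e, ht, ⟨i1, i2, i3, i4⟩, h0, _, _⟩ := arc_rule (R := R) (cap := cap)
    (body := (.seq (.blk [.load 10 7 2, .load 10 8 5, .load 21 9 7])
   (.ite (.lt 7 8) (.ite (.lt 8 9) (.blk [.store 21 7 8]) (.blk [])) (.blk []))))
    (n := n) (off := off) (adj := adj) hC.off0 hC.mono 6
    (fun v p s' => ParInv n off adj pos v p (s'.a 21) ∧
      (∀ j, j ≠ 21 → s'.a j = s.a j) ∧ s'.r 1 = s.r 1 ∧ s'.r 6 = s.r 6)
    (by
      rintro v p s1 s2 _ _ ⟨i1, i2, i3, i4⟩ ha hr
      rw [ha]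
      exact ⟨i1, i2, by rw [hr 1 (by omega), i3], by rw [hr 6 (by omega), i4]⟩)
    (by
      rintro v s1 hv ⟨⟨i1, i1'⟩, i2, i3, i4⟩
      refine ⟨⟨fun w q hq hlt => i1 w q hq.next hlt, fun w hw => ?_⟩, i2, i3, i4⟩
      rcases i1' w hw with h3 | ⟨q, h3, h4, h5⟩
      · exact Or.inl h3
      · exact Or.inr ⟨q, h3.next', h4, h5⟩)
    (by
      rintro v p s1 hv h1 h2 hp ⟨i1, i2, i3, i4⟩ r0 r2 r3 r5 a4 a5
      obtain ⟨u1, hu1⟩ : ∃ u1, u1 = run [.load 10 7 2, .load 10 8 5, .load 21 9 7] s1 := ⟨_, rfl⟩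
      have f1 : Ex R cap (.blk [.load 10 7 2, .load 10 8 5, .load 21 9 7]) s1 3 u1 := by
        rw [hu1]; exact Ex.blk _ _
      have p10 : s1.a 10 = pos := i2 10 (by decide)
      have g1 : u1.r 0 = n ∧ u1.r 1 = s.r 1 ∧ u1.r 6 = s.r 6 ∧ u1.r 2 = v ∧ u1.r 3 = p ∧
          u1.r 7 = pos v ∧ u1.r 8 = pos (adj p) ∧ u1.r 9 = s1.a 21 (pos v) ∧ u1.a = s1.a := by
        subst hu1
        simp only [run, B.step, r2, p10, ne_eq, Nat.reduceEqDiff, not_false_eq_true, Function.update_of_ne, r5, Function.update_self, OfNat.zero_ne_ofNat, r0, OfNat.one_ne_ofNat, i3, i4, r3, and_self]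
      obtain ⟨c0, c1, c6, c2, c3, c7, c8, c9, ca⟩ := g1
      obtain ⟨u2, t2, f2, ht2, hu2⟩ := ite2_ex (R := R) (cap := cap) 7 8 8 9 [.store 21 7 8] u1
      rw [c7, c8, c9] at hu2
      have hr : u2.r = u1.r := by
        rw [hu2]; split <;> simp [run, B.step]
      have ha : ∀ j, j ≠ 21 → u2.a j = s1.a j := by
        intro j hj
        rw [hu2, ← ca]; split <;> simp [run, B.step, hj]
      have h21' : u2.a 21 = if pos v < pos (adj p) ∧ pos (adj p) < s1.a 21 (pos v) then
          update (s1.a 21) (pos v) (pos (adj p)) else s1.a 21 := by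
        rw [hu2, ← ca]
        split
        · simp [run, B.step, c7, c8]
        · rfl
      refine ⟨u2, _, .seq f1 f2, ?_, ⟨?_, ?_, ?_, ?_⟩, ?_, ?_, ?_, ?_, ?_⟩
      · simp at ht2; omega
      · exact ParInv.step hP.inj hv h1 h2 i1 h21'
      · intro j hj
        rw [ha j hj, i2 j hj]
      · rw [hr, c1]
      · rw [hr, c6]
      · rw [hr, c0]
      · rw [hr, c2]
      · rw [hr, c3]
      · rw [ha 4 (by decide), a4]
      · rw [ha 5 (by decide), a5])
    s ⟨⟨fun w q hq => by obtain ⟨_, _, _, h⟩ := hq; omega, fun w hw =>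
      Or.inl (h21 _ (hP.lt w hw))⟩, fun j _ => rfl, rfl, rfl⟩ hn rfl rfl
  refine ⟨s', t, e, ht, h0, i3, i4, ?_, i2⟩
  obtain ⟨i1, i1'⟩ := i1
  constructor
  · intro i hi
    obtain ⟨w, hw, rfl⟩ := hI i hi
    rcases i1' w hw with h3 | ⟨q, h3, h4, h5⟩
    · rw [h3]; exact ⟨hi, le_rfl⟩
    · rw [h5]
      refine ⟨h4, ?_⟩
      have hA : A w (adj q) := (hC.mem w hw _).2 ⟨q, h3.2.1, h3.2.2.1, rfl⟩
      exact (hP.lt _ (hG.lt' hA)).le
  · intro v u hvu hlt
    have hv := hG.lt hvu
    obtain ⟨q, h1, h2, h3⟩ := (hC.mem v hv u).1 hvu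
    have := i1 v q (Done.last hv h1 h2) (by rw [h3]; exact hlt)
    rwa [h3] at this
  · intro v hv hlt
    rcases i1' v hv with h3 | ⟨q, h3, h4, h5⟩
    · omega
    · exact ⟨adj q, (hC.mem v hv _).2 ⟨q, h3.2.1, h3.2.2.1, rfl⟩, h4, h5⟩

/-- Array `22` gets the starts of the rows of counters. -/
def rrow : Cmd := .seq (.blk [.const 2 0, .const 3 0, .copy 4 0, .inc 4])
   (.loop (.lt 2 4) (.seq (.blk [.store 22 2 3]) (.seq (.add 3 3 6) (.blk [.inc 2]))))

theorem rrow_spec (s : St) {n W : ℕ} (hn : s.r 0 = n) (h6 : s.r 6 = W)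
    (hcap : (n + 1) * W ≤ cap) :
    ∃ s' t, Ex R cap rrow s t s' ∧ t ≤ 4 * (n + 1) + 5 ∧ s'.r 0 = n ∧ s'.r 1 = s.r 1 ∧
      s'.r 6 = W ∧ s'.r 3 = (n + 1) * W ∧
      (∀ i ≤ n, s'.a 22 i = i * W) ∧ (∀ j, j ≠ 22 → s'.a j = s.a j) := by
  obtain ⟨s1, hs1⟩ : ∃ s1, s1 = run [.const 2 0, .const 3 0, .copy 4 0, .inc 4] s := ⟨_, rfl⟩
  have e1 : Ex R cap (.blk [.const 2 0, .const 3 0, .copy 4 0, .inc 4]) s 4 s1 := by
    rw [hs1]; exact Ex.blk _ _
  have h1 : s1.r 0 = n ∧ s1.r 1 = s.r 1 ∧ s1.r 2 = 0 ∧ s1.r 3 = 0 ∧ s1.r 4 = n + 1 ∧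
      s1.r 6 = W ∧ s1.a = s.a := by
    subst hs1; simp only [run, B.step, ne_eq, OfNat.zero_ne_ofNat, not_false_eq_true, Function.update_of_ne, hn, Function.update_self, Function.update_idem, OfNat.one_ne_ofNat, Nat.reduceEqDiff, Nat.add_left_cancel_iff, h6, and_self]
  obtain ⟨a0, a1, a2, a3, a4, a6, aa⟩ := h1
  obtain ⟨s2, t2, e2, ht2, ⟨b0, b3, b1, b6, b22, bj⟩, _, _⟩ := for_rule (R := R) (cap := cap)
    (i := 2) (b := 4)
    (body := (.seq (.blk [.store 22 2 3]) (.seq (.add 3 3 6) (.blk [.inc 2])))) (n + 1) 3 0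
    (fun k s' => s'.r 0 = n ∧ s'.r 3 = k * W ∧ s'.r 1 = s.r 1 ∧ s'.r 6 = W ∧
      (∀ i < k, s'.a 22 i = i * W) ∧
      (∀ j, j ≠ 22 → s'.a j = s.a j))
    (by
      rintro k s' _ hk ⟨h0, h3, h1, h6, h22, hj⟩ hi hb
      refine ⟨_, _, .seq (.blk _ _) (.seq (.add _ _ _ _ ?_) (.blk _ _)), ?_,
        ⟨?_, ?_, ?_, ?_, ?_, ?_⟩, ?_, ?_⟩
      · simp only [run, B.step]
        rw [h3, h6]
        have : (k + 1) * W ≤ (n + 1) * W := Nat.mul_le_mul_right W hk
        rw [Nat.add_mul] at this
        omega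
      · simp
      · simp [run, B.step, h0]
      · simp [run, B.step, h3, h6, Nat.add_mul]
      · simp [run, B.step, h1]
      · simp [run, B.step, h6]
      · intro i hik
        simp only [run, B.step, Function.update_self, Function.update_apply, hi, h3]
        by_cases hi' : i = k
        · simp [hi']
        · simp [hi', h22 i (by omega)]
      · intro j hj6
        simp [run, B.step, hj6, hj j hj6]
      · simp [run, B.step, hi]
      · simp [run, B.step, hb])
    s1 (by omega) ⟨a0, by rw [a3]; simp, a1, a6, by intro i hi; omega, by intro j _; rw [aa]⟩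
      a2 a4
  refine ⟨s2, _, .seq e1 e2, ?_, b0, b1, b6, b3, fun i hi => b22 i (by omega), bj⟩
  omega

/-- All counters become `0`. -/
def rcnt : Cmd := .seq (.blk [.const 2 0]) (.loop (.lt 2 3) (.blk [.store 23 2 1, .inc 2]))

theorem rcnt_spec (s : St) {n N : ℕ} (hn : s.r 0 = n) (h1 : s.r 1 = 0) (h3 : s.r 3 = N) :
    ∃ s' t, Ex R cap rcnt s t s' ∧ t ≤ 3 * N + 2 ∧ s'.r 0 = n ∧
      s'.r 1 = 0 ∧ s'.r 6 = s.r 6 ∧ (∀ i < N, s'.a 23 i = 0) ∧
      (∀ j, j ≠ 23 → s'.a j = s.a j) := by
  obtain ⟨s1, hs1⟩ : ∃ s1, s1 = run [.const 2 0] s := ⟨_, rfl⟩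
  have e1 : Ex R cap (.blk [.const 2 0]) s 1 s1 := by
    rw [hs1]; exact Ex.blk _ _
  have h1 : s1.r 0 = n ∧ s1.r 1 = 0 ∧ s1.r 6 = s.r 6 ∧ s1.r 2 = 0 ∧ s1.r 3 = N ∧
      s1.a = s.a := by
    subst hs1; simp [run, B.step, hn, h1, h3]
  obtain ⟨a0, a1, a6, a2, a3, aa⟩ := h1
  obtain ⟨s2, t2, e2, ht2, ⟨b0, b1, b6, b21, bj⟩, _, _⟩ := for_rule (R := R) (cap := cap)
    (i := 2) (b := 3) (body := (.blk [.store 23 2 1, .inc 2])) N 2 0
    (fun k s' => s'.r 0 = n ∧ s'.r 1 = 0 ∧ s'.r 6 = s.r 6 ∧ (∀ i < k, s'.a 23 i = 0) ∧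
      (∀ j, j ≠ 23 → s'.a j = s.a j))
    (by
      rintro k s' _ hk ⟨h0, h1, h6, h21, hj⟩ hi hb
      refine ⟨_, _, .blk _ _, ?_, ⟨?_, ?_, ?_, ?_, ?_⟩, ?_, ?_⟩
      · simp
      · simp [run, B.step, h0]
      · simp [run, B.step, h1]
      · simp [run, B.step, h6]
      · intro i hik
        simp only [run, B.step, Function.update_self, Function.update_apply, hi, h1]
        by_cases hi' : i = k
        · simp [hi']
        · simp [hi', h21 i (by omega)]
      · intro j hj6
        simp [run, B.step, hj6, hj j hj6]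
      · simp [run, B.step, hi]
      · simp [run, B.step, hb])
    s1 (by omega) ⟨a0, a1, a6, by intro i hi; omega, by intro j _; rw [aa]⟩ a2 a3
  refine ⟨s2, _, .seq e1 e2, ?_, b0, b1, b6, b21, bj⟩
  omega

end Vale.Agent.P305
end
end

section

section

/-! The ranking program. Part 2: the main loop. -/

set_option autoImplicit false

namespace Vale.Agent.P305

open Function (update)
open L1

variable {R : List ℕ → (ℕ → ℕ) → ℕ → Prop} {cap : ℕ}

/-- One step of the scan of a row. -/
def rscanB : Cmd := .seq (.blk [.load 23 12 11])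
  (.seq (.ite (.lt 1 12)
     (.seq (.blk [.dec 12]) (.ite (.lt 1 12) (.blk [.copy 9 10, .inc 9])
       (.ite (.eq 9 10) (.blk [.inc 9]) (.blk []))))
     (.blk []))
   (.blk [.inc 10, .inc 11]))

theorem rscanB_spec (s : St) {n i L b b' k r : ℕ} {f : ℕ → ℕ} (h0 : s.r 0 = n) (h1 : s.r 1 = 0)
    (h2 : s.r 2 = i) (h6 : s.r 6 = L) (h7 : s.r 7 = b) (h8 : s.r 8 = b') (h9 : s.r 9 = r)
    (h10 : s.r 10 = k) (h11 : s.r 11 = b + k) (hf : s.a 23 = f)
    (hs : Scan (fun x => f (b + x)) k r) :
    ∃ s' t r', Ex R cap rscanB s t s' ∧ t ≤ 9 ∧ s'.r 0 = n ∧ s'.r 1 = 0 ∧ s'.r 2 = i ∧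
      s'.r 6 = L ∧ s'.r 7 = b ∧ s'.r 8 = b' ∧ s'.r 9 = r' ∧ s'.r 10 = k + 1 ∧
      s'.r 11 = b + (k + 1) ∧ s'.a = s.a ∧ Scan (fun x => f (b + x)) (k + 1) r' := by
  obtain ⟨s1, hs1⟩ : ∃ s1, s1 = run [.load 23 12 11] s := ⟨_, rfl⟩
  have e1 : Ex R cap (.blk [.load 23 12 11]) s 1 s1 := by rw [hs1]; exact Ex.blk _ _
  have g1 : s1.r 12 = f (b + k) ∧ s1.a = s.a ∧ (∀ r, r ≠ 12 → s1.r r = s.r r) := by
    subst hs1
    refine ⟨by simp [run, B.step, h11, hf], by simp [run, B.step], fun r hr => ?_⟩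
    simp [run, B.step, hr]
  obtain ⟨c12, ca, cr⟩ := g1
  -- the middle part
  have mid : ∃ s2 t2 r', Ex R cap (.ite (.lt 1 12)
     (.seq (.blk [.dec 12]) (.ite (.lt 1 12) (.blk [.copy 9 10, .inc 9])
       (.ite (.eq 9 10) (.blk [.inc 9]) (.blk [])))) (.blk [])) s1 t2 s2 ∧ t2 ≤ 6 ∧
       s2.a = s.a ∧ (∀ r, r ≠ 12 → r ≠ 9 → s2.r r = s.r r) ∧ s2.r 9 = r' ∧
       Scan (fun x => f (b + x)) (k + 1) r' := by
    have c1 : s1.r 1 = 0 := by rw [cr 1 (by decide), h1]
    have c9 : s1.r 9 = r := by rw [cr 9 (by decide), h9]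
    have c10 : s1.r 10 = k := by rw [cr 10 (by decide), h10]
    by_cases hc : 0 < f (b + k)
    · obtain ⟨u, hu⟩ : ∃ u, u = run [.dec 12] s1 := ⟨_, rfl⟩
      have eu : Ex R cap (.blk [.dec 12]) s1 1 u := by rw [hu]; exact Ex.blk _ _
      have gu : u.r 12 = f (b + k) - 1 ∧ u.a = s.a ∧ (∀ r, r ≠ 12 → u.r r = s.r r) := by
        subst hu
        refine ⟨by simp only [run, B.step, c12, Function.update_self], by simp only [run, B.step, ca], fun r hr => ?_⟩
        simp only [run, B.step, ne_eq, hr, not_false_eq_true, Function.update_of_ne, cr r hr]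
      obtain ⟨u12, ua, ur⟩ := gu
      have u1 : u.r 1 = 0 := by rw [ur 1 (by decide), h1]
      have u9 : u.r 9 = r := by rw [ur 9 (by decide), h9]
      have u10 : u.r 10 = k := by rw [ur 10 (by decide), h10]
      have hc1 : (Test.lt 1 12).holds s1.r := by simp only [Test.holds]; omega
      by_cases hc2 : 1 < f (b + k)
      · refine ⟨_, _, k + 1, .iteTrue hc1 (.seq eu (.iteTrue (by
          simp only [Test.holds]; omega) (.blk _ _))), by simp, ?_, ?_, ?_, ?_⟩
        · simp only [run, B.step, ua, Function.update_self, Function.update_idem]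
        · intro r hr hr'
          simp [run, B.step, hr', ur r hr]
        · simp [run, B.step, u10]
        · exact Scan.bump (C := fun x => f (b + x)) hc2
      · have hk1 : f (b + k) = 1 := by omega
        have hnc : ¬ (Test.lt 1 12).holds u.r := by simp only [Test.holds]; omega
        by_cases hc3 : r = k
        · refine ⟨_, _, k + 1, .iteTrue hc1 (.seq eu (.iteFalse hnc (.iteTrue (by
            simp only [Test.holds]; (clear * - c9 c10 u9 u10 hc3; omega)) (.blk _ _)))), by simp, ?_, ?_, ?_, ?_⟩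
          · simp [run, B.step, ua]
          · intro r hr hr'
            simp [run, B.step, hr', ur r hr]
          · simp [run, B.step, u9, hc3]
          · subst hc3
            exact Scan.bump' hs hk1
        · refine ⟨_, _, r, .iteTrue hc1 (.seq eu (.iteFalse hnc (.iteFalse (by
            simp only [Test.holds]; (clear * - c9 c10 u9 u10 hc3; omega)) (.blk _ _)))), by simp, ?_, ?_, ?_, ?_⟩
          · simp [run, ua]
          · intro r hr hr'
            simp [run, ur r hr]
          · simp [run, u9]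
          · exact Scan.stay hs (by show f (b + k) ≤ 1; omega) (fun h => absurd h hc3)
    · refine ⟨_, _, r, .iteFalse (by simp only [Test.holds]; omega) (.blk [] _), by simp,
        ?_, ?_, ?_, ?_⟩
      · simp [run, ca]
      · intro r hr hr'
        simp [run, cr r hr]
      · simp [run, c9]
      · exact Scan.stay hs (by show f (b + k) ≤ 1; omega) (fun _ => by
          show f (b + k) = 0; omega)
  obtain ⟨s2, t2, r', e2, ht2, d1, d2, d3, d4⟩ := mid
  refine ⟨_, _, r', .seq e1 (.seq e2 (.blk _ _)), ?_, ?_, ?_, ?_, ?_, ?_, ?_, ?_, ?_, ?_, ?_, d4⟩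
  · simp; omega
  · simp [run, B.step, d2, h0]
  · simp only [run, B.step, ne_eq, Nat.reduceEqDiff, not_false_eq_true, Nat.succ_ne_self, d2, Function.update_of_ne, OfNat.one_ne_ofNat, h1]
  · simp [run, B.step, d2, h2]
  · simp only [run, B.step, ne_eq, Nat.reduceEqDiff, not_false_eq_true, Nat.succ_ne_self, d2, Function.update_of_ne, h6]
  · simp [run, B.step, d2, h7]
  · simp [run, B.step, d2, h8]
  · simp [run, B.step, d3]
  · simp [run, B.step, d2, h10]
  · simp only [run, B.step, ne_eq, Nat.reduceEqDiff, not_false_eq_true, Nat.succ_ne_self, d2, Function.update_of_ne, h11, Function.update_self]; omega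
  · simp [run, B.step, d1]

/-- The scan of a row. -/
def rscan : Cmd := .seq (.blk [.const 9 0, .const 10 0, .copy 11 7]) (.loop (.lt 10 6) rscanB)

theorem rscan_spec (s : St) {n i L b b' : ℕ} {f : ℕ → ℕ} (h0 : s.r 0 = n) (h1 : s.r 1 = 0)
    (h2 : s.r 2 = i) (h6 : s.r 6 = L) (h7 : s.r 7 = b) (h8 : s.r 8 = b') (hf : s.a 23 = f) :
    ∃ s' t r, Ex R cap rscan s t s' ∧ t ≤ 10 * L + 4 ∧ s'.r 0 = n ∧ s'.r 1 = 0 ∧ s'.r 2 = i ∧
      s'.r 6 = L ∧ s'.r 7 = b ∧ s'.r 8 = b' ∧ s'.r 9 = r ∧ s'.a = s.a ∧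
      Scan (fun x => f (b + x)) L r := by
  obtain ⟨s1, hs1⟩ : ∃ s1, s1 = run [.const 9 0, .const 10 0, .copy 11 7] s := ⟨_, rfl⟩
  have e1 : Ex R cap (.blk [.const 9 0, .const 10 0, .copy 11 7]) s 3 s1 := by
    rw [hs1]; exact Ex.blk _ _
  have g1 : s1.r 0 = n ∧ s1.r 1 = 0 ∧ s1.r 2 = i ∧ s1.r 6 = L ∧ s1.r 7 = b ∧ s1.r 8 = b' ∧
      s1.r 9 = 0 ∧ s1.r 10 = 0 ∧ s1.r 11 = b ∧ s1.a = s.a := by
    subst hs1; simp only [run, B.step, ne_eq, Nat.reduceEqDiff, not_false_eq_true, Function.update_of_ne, h7, OfNat.zero_ne_ofNat, h0, OfNat.one_ne_ofNat, h1, h2, h6, h8, Function.update_self, and_self]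
  obtain ⟨a0, a1, a2, a6, a7, a8, a9, a10, a11, aa⟩ := g1
  obtain ⟨s2, t2, e2, ht2, ⟨c0, c1, c2, c7, c8, c11, ca, r, c9, cs⟩, _, c6⟩ :=
    for_rule (R := R) (cap := cap) (i := 10) (b := 6) (body := rscanB) L 9 0
    (fun k s' => s'.r 0 = n ∧ s'.r 1 = 0 ∧ s'.r 2 = i ∧ s'.r 7 = b ∧ s'.r 8 = b' ∧
      s'.r 11 = b + k ∧ s'.a = s.a ∧ ∃ r, s'.r 9 = r ∧ Scan (fun x => f (b + x)) k r)
    (by
      rintro k s' _ hk ⟨g0, g1, g2, g7, g8, g11, ga, r, g9, gs⟩ hi hb
      obtain ⟨s3, t3, r', e3, ht3, k0, k1, k2, k6, k7, k8, k9, k10, k11, ka, ks⟩ :=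
        rscanB_spec (R := R) (cap := cap) s' g0 g1 g2 hb g7 g8 g9 hi g11 (by rw [ga, hf]) gs
      exact ⟨s3, t3, e3, ht3, ⟨k0, k1, k2, k7, k8, k11, by rw [ka, ga], r', k9, ks⟩, k10, k6⟩)
    s1 (by omega) ⟨a0, a1, a2, a7, a8, by omega, aa, 0, a9, Scan.init _⟩ a10 a6
  refine ⟨s2, _, r, .seq e1 e2, ?_, c0, c1, c2, c6, c7, c8, c9, ca, cs⟩
  omega

/-- Marks the rank in the own row and prepares the update of the row of the parent. -/
def rmark : Cmd := .seq (.blk [.store 24 2 9]) (.seq (.add 11 7 9)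
  (.seq (.blk [.const 12 1, .store 23 11 12]) (.add 13 8 9)))

theorem rmark_spec (s : St) {n i L b b' r : ℕ} {f g : ℕ → ℕ} (h0 : s.r 0 = n) (h1 : s.r 1 = 0)
    (h2 : s.r 2 = i) (h6 : s.r 6 = L) (h7 : s.r 7 = b) (h8 : s.r 8 = b') (h9 : s.r 9 = r)
    (hf : s.a 23 = f) (hg : s.a 24 = g) (hcap : b + r ≤ cap) (hcap' : b' + r ≤ cap) :
    ∃ s', Ex R cap rmark s 5 s' ∧ s'.r 0 = n ∧ s'.r 1 = 0 ∧ s'.r 2 = i ∧
      s'.r 6 = L ∧ s'.r 9 = r ∧ s'.r 11 = b + r ∧ s'.r 13 = b' + r ∧
      s'.a 24 = update g i r ∧ s'.a 23 = update f (b + r) 1 ∧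
      (∀ j, j ≠ 23 → j ≠ 24 → s'.a j = s.a j) := by
  refine ⟨_, .seq (.blk _ _) (.seq (.add _ _ _ _ ?_) (.seq (.blk _ _) (.add _ _ _ _ ?_))),
    ?_, ?_, ?_, ?_, ?_, ?_, ?_, ?_, ?_, ?_⟩
  · simp [run, B.step, h7, h9, hcap]
  · simp only [run, B.step, h9, h7, ne_eq, Nat.reduceEqDiff, not_false_eq_true, Function.update_of_ne, Function.update_self, h8, hcap']
  · simp only [run, B.step, ne_eq, Nat.reduceEqDiff, not_false_eq_true, Function.update_of_ne, Function.update_self, OfNat.zero_ne_ofNat, h0]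
  · simp only [run, B.step, ne_eq, Nat.reduceEqDiff, not_false_eq_true, Function.update_of_ne, Function.update_self, OfNat.one_ne_ofNat, h1]
  · simp only [run, B.step, h2, ne_eq, Nat.reduceEqDiff, not_false_eq_true, Function.update_of_ne, Function.update_self]
  · simp only [run, B.step, ne_eq, Nat.reduceEqDiff, not_false_eq_true, Function.update_of_ne, Function.update_self, h6]
  · simp only [run, B.step, h9, ne_eq, Nat.reduceEqDiff, not_false_eq_true, Function.update_of_ne, Function.update_self]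
  · simp only [run, B.step, h9, h7, ne_eq, Nat.reduceEqDiff, not_false_eq_true, Function.update_of_ne, Function.update_self, Nat.add_left_cancel_iff]
  · simp [run, B.step, h8, h9]
  · simp [run, B.step, h2, h9, hg]
  · simp [run, B.step, h7, h9, hf]
  · intro j h23 h24
    simp [run, B.step, h23, h24]

/-- One step of the update of the row of the parent. -/
def raddB : Cmd := .seq (.blk [.load 23 12 11])
  (.seq (.ite (.lt 1 12) (.blk [.load 23 14 13, .inc 14, .store 23 13 14]) (.blk []))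
    (.blk [.inc 9, .inc 11, .inc 13]))

/-- The row of the parent after the update up to rank `k`. -/
def addRow (f : ℕ → ℕ) (b b' r k x : ℕ) : ℕ :=
  if b' + r ≤ x ∧ x < b' + k ∧ f (b + (x - b')) ≠ 0 then f x + 1 else f x

theorem raddB_spec (s : St) {n i L b b' r k : ℕ} {f : ℕ → ℕ} (h0 : s.r 0 = n) (h1 : s.r 1 = 0)
    (h2 : s.r 2 = i) (h6 : s.r 6 = L) (h9 : s.r 9 = k) (h11 : s.r 11 = b + k)
    (h13 : s.r 13 = b' + k) (hrk : r ≤ k) (hbb : b + k < b') (hf : s.a 23 = addRow f b b' r k) :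
    ∃ s' t, Ex R cap raddB s t s' ∧ t ≤ 8 ∧ s'.r 0 = n ∧ s'.r 1 = 0 ∧ s'.r 2 = i ∧
      s'.r 6 = L ∧ s'.r 9 = k + 1 ∧ s'.r 11 = b + (k + 1) ∧ s'.r 13 = b' + (k + 1) ∧
      s'.a 23 = addRow f b b' r (k + 1) ∧ (∀ j, j ≠ 23 → s'.a j = s.a j) := by
  obtain ⟨s1, hs1⟩ : ∃ s1, s1 = run [.load 23 12 11] s := ⟨_, rfl⟩
  have e1 : Ex R cap (.blk [.load 23 12 11]) s 1 s1 := by rw [hs1]; exact Ex.blk _ _
  have hval : addRow f b b' r k (b + k) = f (b + k) := by
    unfold addRow; rw [if_neg (by omega)]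
  have hval' : addRow f b b' r k (b' + k) = f (b' + k) := by
    unfold addRow; rw [if_neg (by omega)]
  have g1 : s1.r 12 = f (b + k) ∧ s1.a = s.a ∧ (∀ r, r ≠ 12 → s1.r r = s.r r) := by
    subst hs1
    refine ⟨by simp [run, B.step, h11, hf, hval], by simp [run, B.step], fun r hr => ?_⟩
    simp [run, B.step, hr]
  obtain ⟨c12, ca, cr⟩ := g1
  have mid : ∃ s2 t2, Ex R cap (.ite (.lt 1 12) (.blk [.load 23 14 13, .inc 14, .store 23 13 14])
      (.blk [])) s1 t2 s2 ∧ t2 ≤ 4 ∧ (∀ r, r ≠ 12 → r ≠ 14 → s2.r r = s.r r) ∧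
      s2.a 23 = addRow f b b' r (k + 1) ∧ (∀ j, j ≠ 23 → s2.a j = s.a j) := by
    have c1 : s1.r 1 = 0 := by rw [cr 1 (by decide), h1]
    have c13 : s1.r 13 = b' + k := by rw [cr 13 (by decide), h13]
    by_cases hc : 0 < f (b + k)
    · refine ⟨_, _, .iteTrue (by simp only [Test.holds]; omega) (.blk _ _), by simp, ?_, ?_, ?_⟩
      · intro r hr hr'
        simp [run, B.step, hr', cr r hr]
      · simp only [run, B.step]
        funext x
        simp only [ca, hf, c13, hval', Function.update_self, ne_eq, Nat.reduceEqDiff, not_false_eq_true, Function.update_of_ne, Function.update_apply]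
        unfold addRow
        by_cases hx : x = b' + k
        · subst hx
          rw [if_pos rfl, if_pos ⟨by omega, by omega, by
            rw [show b' + k - b' = k by (clear * - h9 h11 h13 c13; omega)]; omega⟩]
        · rw [if_neg hx]
          by_cases hx' : b' + r ≤ x ∧ x < b' + k ∧ f (b + (x - b')) ≠ 0
          · rw [if_pos hx', if_pos ⟨hx'.1, by omega, hx'.2.2⟩]
          · rw [if_neg hx', if_neg]
            rintro ⟨h3, h4, h5⟩
            exact hx' ⟨h3, by (clear * - h11 h13 hrk c13 hx hx' h4 h5; omega), h5⟩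
      · intro j hj
        simp only [run, B.step, ca, Function.update_self, Function.update_idem, ne_eq, Nat.reduceEqDiff, not_false_eq_true, Function.update_of_ne, hj]
    · refine ⟨_, _, .iteFalse (by simp only [Test.holds]; omega) (.blk [] _), by simp only [List.length_nil, zero_add, Nat.one_le_ofNat], ?_, ?_, ?_⟩
      · intro r hr hr'
        simp [run, cr r hr]
      · simp only [run]
        rw [ca, hf]
        funext x
        unfold addRow
        by_cases hx' : b' + r ≤ x ∧ x < b' + k ∧ f (b + (x - b')) ≠ 0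
        · rw [if_pos hx', if_pos ⟨hx'.1, by omega, hx'.2.2⟩]
        · rw [if_neg hx', if_neg]
          rintro ⟨h3, h4, h5⟩
          by_cases hx : x = b' + k
          · subst hx
            rw [show b' + k - b' = k by (clear * - h9 h11 h13 c13; omega)] at h5
            omega
          · exact hx' ⟨h3, by (clear * - h11 h13 c13 h4 hx; omega), h5⟩
      · intro j hj
        simp [run, ca]
  obtain ⟨s2, t2, e2, ht2, d1, d2, d3⟩ := mid
  refine ⟨_, _, .seq e1 (.seq e2 (.blk _ _)), ?_, ?_, ?_, ?_, ?_, ?_, ?_, ?_, ?_, ?_⟩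
  · simp only [List.length_cons, List.length_nil, zero_add, Nat.reduceAdd]; omega
  · simp only [run, B.step, ne_eq, Nat.reduceEqDiff, not_false_eq_true, d1, Function.update_of_ne, Nat.succ_ne_self, OfNat.zero_ne_ofNat, h0]
  · simp only [run, B.step, ne_eq, Nat.reduceEqDiff, not_false_eq_true, d1, Function.update_of_ne, Nat.succ_ne_self, OfNat.one_ne_ofNat, h1]
  · simp only [run, B.step, ne_eq, Nat.reduceEqDiff, not_false_eq_true, d1, Function.update_of_ne, Nat.succ_ne_self, h2]
  · simp only [run, B.step, ne_eq, Nat.reduceEqDiff, not_false_eq_true, d1, Function.update_of_ne, Nat.succ_ne_self, h6]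
  · simp [run, B.step, d1, h9]
  · simp only [run, B.step, ne_eq, Nat.reduceEqDiff, not_false_eq_true, d1, Function.update_of_ne, h11, Nat.succ_ne_self, Function.update_self]; omega
  · simp only [run, B.step, ne_eq, Nat.reduceEqDiff, not_false_eq_true, d1, Function.update_of_ne, Nat.succ_ne_self, h13, Function.update_self]; omega
  · simp [run, B.step, d2]
  · intro j hj
    simp [run, B.step, d3 j hj]

/-- The whole step for one position. -/
def rbody : Cmd := .seq (.blk [.load 22 7 2, .load 21 8 2, .load 22 8 8])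
  (.seq rscan (.seq rmark (.seq (.loop (.lt 9 6) raddB) (.blk [.inc 2]))))

theorem rank_rows {L i p r : ℕ} {f : ℕ → ℕ} {par : ℕ → ℕ} (hip : i < p) (hp : p = par i)
    (hr : r < L) {j s : ℕ} (hs : s < L) :
    addRow (update f (i * L + r) 1) (i * L) (p * L) r L (j * L + s) =
      rankC (fun j s => f (j * L + s)) par i r j s := by
  have hLi : i * L + L ≤ p * L := by
    have : (i + 1) * L ≤ p * L := Nat.mul_le_mul_right L hip
    rw [Nat.add_mul] at this
    omega
  unfold addRow rankC
  by_cases hji : j = i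
  · subst hji
    rw [if_neg (by omega), if_pos rfl, Function.update_apply]
    by_cases hsr : s = r
    · rw [if_pos (by rw [hsr]), if_pos hsr]
    · rw [if_neg (by omega), if_neg hsr]
  · rw [if_neg hji]
    have hne : j * L + s ≠ i * L + r := fun h => hji (index_inj hs hr h).1
    rw [Function.update_of_ne hne]
    by_cases hjp : j = p
    · subst hjp
      rw [show j * L + s - j * L = s by omega]
      have hiff : (update f (i * L + r) 1 (i * L + s) ≠ 0) ↔ (s = r ∨ f (i * L + s) ≠ 0) := by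
        rw [Function.update_apply]
        by_cases hsr : s = r
        · subst hsr; simp
        · rw [if_neg (by omega)]; simp [hsr]
      by_cases hc : r ≤ s ∧ (s = r ∨ f (i * L + s) ≠ 0)
      · rw [if_pos ⟨by omega, by omega, hiff.2 hc.2⟩, if_pos ⟨hp, hc⟩]
      · rw [if_neg, if_neg]
        · rintro ⟨_, h2⟩; exact hc h2
        · rintro ⟨h1, _, h3⟩; exact hc ⟨by omega, hiff.1 h3⟩
    · rw [if_neg, if_neg]
      · rintro ⟨h1, _⟩; exact hjp (by rw [h1, hp])
      · rintro ⟨h1, h2, _⟩
        have : p * L + (j * L + s - p * L) = j * L + s := by omega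
        exact hjp (index_inj (by omega) hs this).1.symm

theorem rbody_spec (s : St) {n i L : ℕ} {par : ℕ → ℕ} (h0 : s.r 0 = n) (h1 : s.r 1 = 0)
    (h2 : s.r 2 = i) (h6 : s.r 6 = L) (hi : i < n) (hpar : ∀ y < n, y < par y ∧ par y ≤ n)
    (h21 : s.a 21 = par) (h22 : ∀ j ≤ n, s.a 22 j = j * L) (hL : n < 2 ^ L)
    (hcap : (n + 1) * L ≤ cap)
    (hinv : RankInv n L par i (fun j x => s.a 23 (j * L + x)) (s.a 24)) :
    ∃ s' t, Ex R cap rbody s t s' ∧ t ≤ 19 * L + 14 ∧ s'.r 0 = n ∧ s'.r 1 = 0 ∧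
      s'.r 2 = i + 1 ∧ s'.r 6 = L ∧
      RankInv n L par (i + 1) (fun j x => s'.a 23 (j * L + x)) (s'.a 24) ∧
      (∀ j, j ≠ 23 → j ≠ 24 → s'.a j = s.a j) := by
  obtain ⟨s1, hs1⟩ : ∃ s1, s1 = run [.load 22 7 2, .load 21 8 2, .load 22 8 8] s := ⟨_, rfl⟩
  have e1 : Ex R cap (.blk [.load 22 7 2, .load 21 8 2, .load 22 8 8]) s 3 s1 := by
    rw [hs1]; exact Ex.blk _ _
  obtain ⟨hp1, hp2⟩ := hpar i hi
  have g1 : s1.r 0 = n ∧ s1.r 1 = 0 ∧ s1.r 2 = i ∧ s1.r 6 = L ∧ s1.r 7 = i * L ∧
      s1.r 8 = par i * L ∧ s1.a = s.a := by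
    subst hs1
    simp [run, B.step, h0, h1, h2, h6, h21, h22 i hi.le, h22 _ hp2]
  obtain ⟨a0, a1, a2, a6, a7, a8, aa⟩ := g1
  obtain ⟨s2, t2, r, e2, ht2, b0, b1, b2, b6, b7, b8, b9, ba, bs⟩ :=
    rscan_spec (R := R) (cap := cap) s1 a0 a1 a2 a6 a7 a8 (f := s.a 23) (by rw [aa])
  have hrL := hinv.rank_lt hi hL bs
  have hcap1 : i * L + r ≤ cap := by
    have : (i + 1) * L ≤ (n + 1) * L := Nat.mul_le_mul_right L (by (clear * - hi a0 a2 b0 b2; omega))
    rw [Nat.add_mul] at this
    (clear * - hcap a6 b6 b7 hrL this; omega)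
  have hcap2 : par i * L + r ≤ cap := by
    have : (par i + 1) * L ≤ (n + 1) * L := Nat.mul_le_mul_right L (by omega)
    rw [Nat.add_mul] at this
    (clear * - hcap a6 b6 b8 hrL this; omega)
  obtain ⟨s3, e3, c0, c1, c2, c6, c9, c11, c13, c24, c23, cj⟩ :=
    rmark_spec (R := R) (cap := cap) s2 b0 b1 b2 b6 b7 b8 b9 (f := s.a 23) (g := s.a 24)
      (by rw [ba, aa]) (by rw [ba, aa]) hcap1 hcap2
  have hLi : i * L + L ≤ par i * L := by
    have : (i + 1) * L ≤ par i * L := Nat.mul_le_mul_right L hp1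
    rw [Nat.add_mul] at this
    (clear * - a6 b6 b7 b8 c6 c9 c11 c13 this; omega)
  set f := update (s.a 23) (i * L + r) 1 with hf
  obtain ⟨s4, t4, e4, ht4, ⟨d0, d1, d2, d11, d13, d23, dj⟩, _, d6⟩ :=
    for_rule (R := R) (cap := cap) (i := 9) (b := 6) (body := raddB) L 8 r
    (fun k s' => s'.r 0 = n ∧ s'.r 1 = 0 ∧ s'.r 2 = i ∧ s'.r 11 = i * L + k ∧
      s'.r 13 = par i * L + k ∧ s'.a 23 = addRow f (i * L) (par i * L) r k ∧
      (∀ j, j ≠ 23 → s'.a j = s3.a j))
    (by
      rintro k s' hk0 hk ⟨g0, g1, g2, g11, g13, g23, gj⟩ hi' hb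
      obtain ⟨s5, t5, e5, ht5, k0, k1, k2, k6, k9, k11, k13, k23, kj⟩ :=
        raddB_spec (R := R) (cap := cap) s' g0 g1 g2 hb hi' g11 g13 hk0 (by (clear * - a6 b6 b7 b8 c6 c9 c11 c13 hLi hk g11 g13 hi' hb; omega)) g23
      exact ⟨s5, t5, e5, ht5, ⟨k0, k1, k2, k11, k13, k23, fun j hj => by rw [kj j hj, gj j hj]⟩,
        k9, k6⟩)
    s3 hrL.le ⟨c0, c1, c2, c11, c13, by
      rw [c23]
      funext x
      unfold addRow
      rw [if_neg (by (clear * - b8 c9 c13; omega))], fun j _ => rfl⟩ c9 c6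
  refine ⟨_, _, .seq e1 (.seq e2 (.seq e3 (.seq e4 (.blk _ _)))), ?_, ?_, ?_, ?_, ?_, ?_, ?_⟩
  · have h5 : (8 + 1) * (L - r) ≤ 9 * L := Nat.mul_le_mul_left 9 (by omega)
    simp only [List.length_cons, List.length_nil, zero_add, ge_iff_le]
    omega
  · simp [run, B.step, d0]
  · simp [run, B.step, d1]
  · simp [run, B.step, d2]
  · simp [run, B.step, d6]
  · refine hinv.step hi hp1 hp2 (fun y hy => (hpar y (by (clear * - hi a0 a2 b0 b2 c0 c2 d0 d2 hy; omega))).1) hL bs
      (rank' := s4.a 24) ?_ ?_ (C' := fun j x => s4.a 23 (j * L + x)) ?_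
    · intro y hy
      rw [dj 24 (by decide), c24, Function.update_of_ne (by (clear * - a2 b2 c2 d2 hy; omega))]
    · rw [dj 24 (by decide), c24, Function.update_self]
    · intro j hj x hx
      rw [d23]
      exact rank_rows hp1 rfl hrL hx
  · intro j h23 h24
    simp only [run, B.step]
    rw [dj j h23, cj j h23 h24, ba, aa]

/-- The main loop. -/
def rmain : Cmd := .seq (.blk [.const 2 0]) (.loop (.lt 2 0) rbody)

theorem rmain_spec (s : St) {n L : ℕ} {par : ℕ → ℕ} (h0 : s.r 0 = n) (h1 : s.r 1 = 0)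
    (h6 : s.r 6 = L) (hpar : ∀ y < n, y < par y ∧ par y ≤ n)
    (h21 : s.a 21 = par) (h22 : ∀ j ≤ n, s.a 22 j = j * L) (hL : n < 2 ^ L)
    (hcap : (n + 1) * L ≤ cap) (h23 : ∀ x < (n + 1) * L, s.a 23 x = 0) :
    ∃ s' t vis, Ex R cap rmain s t s' ∧ t ≤ (19 * L + 15) * n + 2 ∧ s'.r 0 = n ∧ s'.r 1 = 0 ∧
      s'.r 6 = L ∧ Ranked n L par (s'.a 24) vis ∧
      (∀ j, j ≠ 23 → j ≠ 24 → s'.a j = s.a j) := by
  obtain ⟨s1, hs1⟩ : ∃ s1, s1 = run [.const 2 0] s := ⟨_, rfl⟩
  have e1 : Ex R cap (.blk [.const 2 0]) s 1 s1 := by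
    rw [hs1]; exact Ex.blk _ _
  have g1 : s1.r 0 = n ∧ s1.r 1 = 0 ∧ s1.r 6 = L ∧ s1.r 2 = 0 ∧ s1.a = s.a := by
    subst hs1; simp [run, B.step, h0, h1, h6]
  obtain ⟨a0, a1, a6, a2, aa⟩ := g1
  obtain ⟨s2, t2, e2, ht2, ⟨b1, b6, bI, bj⟩, _, b0⟩ := for_rule (R := R) (cap := cap)
    (i := 2) (b := 0) (body := rbody) n (19 * L + 14) 0
    (fun k s' => s'.r 1 = 0 ∧ s'.r 6 = L ∧
      RankInv n L par k (fun j x => s'.a 23 (j * L + x)) (s'.a 24) ∧
      (∀ j, j ≠ 23 → j ≠ 24 → s'.a j = s.a j))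
    (by
      rintro k s' _ hk ⟨g1, g6, gI, gj⟩ hi hb
      obtain ⟨s3, t3, e3, ht3, k0, k1, k2, k6, kI, kj⟩ := rbody_spec (R := R) (cap := cap) s' hb g1
        hi g6 hk hpar (by rw [gj 21 (by decide) (by decide), h21])
        (by rw [gj 22 (by decide) (by decide)]; exact h22) hL hcap gI
      exact ⟨s3, t3, e3, ht3, ⟨k1, k6, kI, fun j h h' => by rw [kj j h h', gj j h h']⟩, k2, k0⟩)
    s1 (by omega) ⟨a1, a6, RankInv.init (by
      intro j hj x hx
      rw [aa]
      apply h23
      have : (j + 1) * L ≤ (n + 1) * L := Nat.mul_le_mul_right L (by omega)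
      rw [Nat.add_mul] at this
      (clear * - a6 hx this; omega)), fun j _ _ => by rw [aa]⟩ a2 a0
  refine ⟨s2, _, _, .seq e1 e2, ?_, b0, b1, b6, bI.ranked (fun y hy => (hpar y hy).1), bj⟩
  rw [Nat.sub_zero, show 19 * L + 14 + 1 = 19 * L + 15 by (clear * -; omega)] at ht2
  omega

end Vale.Agent.P305
end
end

section

section

/-! The ranking program. Part 3: ranks of the vertices; the whole program. -/

set_option autoImplicit false

namespace Vale.Agent.P305

open Function (update)
open L1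

variable {R : List ℕ → (ℕ → ℕ) → ℕ → Prop} {cap : ℕ}

/-- Start with the own rank. -/
def rrkI : Cmd := .seq (.blk [.const 2 0])
  (.loop (.lt 2 0) (.blk [.load 10 7 2, .load 24 7 7, .store 20 2 7, .inc 2]))

theorem rrkI_spec (s : St) {n L : ℕ} (hn : s.r 0 = n) (h1 : s.r 1 = 0) (h6 : s.r 6 = L) :
    ∃ s' t, Ex R cap rrkI s t s' ∧ t ≤ 5 * n + 2 ∧ s'.r 0 = n ∧
      s'.r 1 = 0 ∧ s'.r 6 = L ∧ (∀ i < n, s'.a 20 i = s.a 24 (s.a 10 i)) ∧
      (∀ j, j ≠ 20 → s'.a j = s.a j) := by
  obtain ⟨s1, hs1⟩ : ∃ s1, s1 = run [.const 2 0] s := ⟨_, rfl⟩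
  have e1 : Ex R cap (.blk [.const 2 0]) s 1 s1 := by
    rw [hs1]; exact Ex.blk _ _
  have h1 : s1.r 0 = n ∧ s1.r 1 = 0 ∧ s1.r 6 = L ∧ s1.r 2 = 0 ∧ s1.a = s.a := by
    subst hs1; simp [run, B.step, hn, h1, h6]
  obtain ⟨a0, a1, a6, a2, aa⟩ := h1
  obtain ⟨s2, t2, e2, ht2, ⟨b1, b6, b21, bj⟩, _, b0⟩ := for_rule (R := R) (cap := cap)
    (i := 2) (b := 0) (body := (.blk [.load 10 7 2, .load 24 7 7, .store 20 2 7, .inc 2])) n 4 0
    (fun k s' => s'.r 1 = 0 ∧ s'.r 6 = L ∧ (∀ i < k, s'.a 20 i = s.a 24 (s.a 10 i)) ∧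
      (∀ j, j ≠ 20 → s'.a j = s.a j))
    (by
      rintro k s' _ hk ⟨h1, h6, h21, hj⟩ hi hb
      have j10 := hj 10 (by decide)
      have j24 := hj 24 (by decide)
      refine ⟨_, _, .blk _ _, ?_, ⟨?_, ?_, ?_, ?_⟩, ?_, ?_⟩
      · simp
      · simp [run, B.step, h1]
      · simp only [run, B.step, Function.update_self, Function.update_idem, ne_eq, Nat.reduceEqDiff, not_false_eq_true, Function.update_of_ne, h6]
      · intro i hik
        simp only [run, B.step, hi, j10, Function.update_self, j24, Function.update_idem, ne_eq, Nat.reduceEqDiff, not_false_eq_true, Function.update_of_ne]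
        simp only [Function.update_apply]
        by_cases hi' : i = k
        · simp [hi']
        · simp [hi', h21 i (by omega)]
      · intro j hj6
        simp [run, B.step, hj6, hj j hj6]
      · simp [run, B.step, hi]
      · simp only [run, B.step, Function.update_self, Function.update_idem, ne_eq, Nat.reduceEqDiff, not_false_eq_true, Function.update_of_ne, OfNat.zero_ne_ofNat, hb])
    s1 (by omega) ⟨a1, a6, by intro i hi; omega, by intro j _; rw [aa]⟩ a2 a0
  refine ⟨s2, _, .seq e1 e2, ?_, b0, b1, b6, b21, bj⟩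
  omega

/-- Maximum with the ranks of the earlier neighbours. -/
def rrkA : Cmd := arcLoop (.seq (.blk [.load 10 7 2, .load 10 8 5, .load 24 9 8, .load 20 10 2])
   (.ite (.lt 8 7) (.ite (.lt 10 9) (.blk [.store 20 2 9]) (.blk [])) (.blk [])))

/-- The part of the invariant of `rrkA` about the ranks. -/
def RkInv (n : ℕ) (off adj pos rank : ℕ → ℕ) (v p : ℕ) (f : ℕ → ℕ) : Prop :=
  (∀ w < n, rank (pos w) ≤ f w) ∧
  (∀ w q, Done n off v p w q → pos (adj q) < pos w → rank (pos (adj q)) ≤ f w) ∧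
  (∀ w < n, f w = rank (pos w) ∨ ∃ q, Done n off v p w q ∧ pos (adj q) < pos w ∧
    f w = rank (pos (adj q)))

theorem RkInv.step {n : ℕ} {off adj pos rank : ℕ → ℕ} {v p : ℕ} (hv : v < n) (h1 : off v ≤ p)
    (h2 : p < off (v + 1)) {f f' : ℕ → ℕ} (hI : RkInv n off adj pos rank v p f)
    (hf : f' = if pos (adj p) < pos v ∧ f v < rank (pos (adj p)) then
      update f v (rank (pos (adj p))) else f) : RkInv n off adj pos rank v (p + 1) f' := by
  obtain ⟨i0, i1, i2⟩ := hI
  by_cases hc : pos (adj p) < pos v ∧ f v < rank (pos (adj p))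
  · rw [if_pos hc] at hf
    subst hf
    refine ⟨?_, ?_, ?_⟩
    · intro w hw
      rw [Function.update_apply]
      split
      · rename_i he
        subst he
        have := i0 w hw
        omega
      · exact i0 w hw
    · intro w q hq hlt
      rw [Done.step hv h1 h2] at hq
      rw [Function.update_apply]
      split
      · rename_i he
        subst he
        rcases hq with hq | ⟨_, rfl⟩
        · have := i1 w q hq hlt
          omega
        · exact le_rfl
      · rename_i he
        rcases hq with hq | ⟨rfl, rfl⟩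
        · exact i1 w q hq hlt
        · exact absurd rfl he
    · intro w hw
      rw [Function.update_apply]
      split
      · rename_i he
        subst he
        exact Or.inr ⟨p, (Done.step hv h1 h2).2 (Or.inr ⟨rfl, rfl⟩), hc.1, rfl⟩
      · rcases i2 w hw with h3 | ⟨q, h3, h4, h5⟩
        · exact Or.inl h3
        · exact Or.inr ⟨q, (Done.step hv h1 h2).2 (Or.inl h3), h4, h5⟩
  · rw [if_neg hc] at hf
    subst hf
    refine ⟨i0, ?_, ?_⟩
    · intro w q hq hlt
      rw [Done.step hv h1 h2] at hq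
      rcases hq with hq | ⟨rfl, rfl⟩
      · exact i1 w q hq hlt
      · by_contra hgt
        exact hc ⟨hlt, by omega⟩
    · intro w hw
      rcases i2 w hw with h3 | ⟨q, h3, h4, h5⟩
      · exact Or.inl h3
      · exact Or.inr ⟨q, (Done.step hv h1 h2).2 (Or.inl h3), h4, h5⟩

theorem rrkA_spec (s : St) {n L : ℕ} {A : ℕ → ℕ → Prop} (hG : Gr n A)
    (hC : CSR n A (s.a 4) (s.a 5)) (hn : s.r 0 = n) (hz : s.r 1 = 0) (h6 : s.r 6 = L)
    (h20 : ∀ i < n, s.a 20 i = s.a 24 (s.a 10 i)) :
    ∃ s' t, Ex R cap rrkA s t s' ∧ t ≤ 14 * s.a 4 n + 6 * n + 3 ∧ s'.r 0 = n ∧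
      s'.r 1 = 0 ∧ s'.r 6 = L ∧ RkOk n A (s.a 10) (s.a 24) (s'.a 20) ∧
      (∀ j, j ≠ 20 → s'.a j = s.a j) := by
  set off := s.a 4 with hoff
  set adj := s.a 5 with hadj
  set pos := s.a 10 with hpos
  set rank := s.a 24 with hrank
  obtain ⟨s', t, e, ht, ⟨i1, i2, i3, i4⟩, h0, _, _⟩ := arc_rule (R := R) (cap := cap)
    (body := (.seq (.blk [.load 10 7 2, .load 10 8 5, .load 24 9 8, .load 20 10 2])
   (.ite (.lt 8 7) (.ite (.lt 10 9) (.blk [.store 20 2 9]) (.blk [])) (.blk []))))
    (n := n) (off := off) (adj := adj) hC.off0 hC.mono 7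
    (fun v p s' => RkInv n off adj pos rank v p (s'.a 20) ∧
      (∀ j, j ≠ 20 → s'.a j = s.a j) ∧ s'.r 1 = 0 ∧ s'.r 6 = L)
    (by
      rintro v p s1 s2 _ _ ⟨i1, i2, i3, i4⟩ ha hr
      rw [ha]
      exact ⟨i1, i2, by rw [hr 1 (by omega), i3], by rw [hr 6 (by omega), i4]⟩)
    (by
      rintro v s1 hv ⟨⟨i0, i1, i1'⟩, i2, i3, i4⟩
      refine ⟨⟨i0, fun w q hq hlt => i1 w q hq.next hlt, fun w hw => ?_⟩, i2, i3, i4⟩
      rcases i1' w hw with h3 | ⟨q, h3, h4, h5⟩
      · exact Or.inl h3
      · exact Or.inr ⟨q, h3.next', h4, h5⟩)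
    (by
      rintro v p s1 hv h1 h2 hp ⟨i1, i2, i3, i4⟩ r0 r2 r3 r5 a4 a5
      obtain ⟨u1, hu1⟩ : ∃ u1, u1 = run [.load 10 7 2, .load 10 8 5, .load 24 9 8,
        .load 20 10 2] s1 := ⟨_, rfl⟩
      have f1 : Ex R cap (.blk [.load 10 7 2, .load 10 8 5, .load 24 9 8, .load 20 10 2]) s1 4
          u1 := by
        rw [hu1]; exact Ex.blk _ _
      have p10 : s1.a 10 = pos := i2 10 (by decide)
      have p24 : s1.a 24 = rank := i2 24 (by decide)
      have g1 : u1.r 0 = n ∧ u1.r 1 = 0 ∧ u1.r 6 = L ∧ u1.r 2 = v ∧ u1.r 3 = p ∧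
          u1.r 7 = pos v ∧ u1.r 8 = pos (adj p) ∧ u1.r 9 = rank (pos (adj p)) ∧
          u1.r 10 = s1.a 20 v ∧ u1.a = s1.a := by
        subst hu1
        simp only [run, B.step, r2, p10, ne_eq, Nat.reduceEqDiff, not_false_eq_true, Function.update_of_ne, r5, Function.update_self, p24, OfNat.zero_ne_ofNat, r0, OfNat.one_ne_ofNat, i3, i4, r3, and_self]
      obtain ⟨c0, c1, c6, c2, c3, c7, c8, c9, c10, ca⟩ := g1
      obtain ⟨u2, t2, f2, ht2, hu2⟩ := ite2_ex (R := R) (cap := cap) 8 7 10 9 [.store 20 2 9] u1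
      rw [c7, c8, c9, c10] at hu2
      have hr : u2.r = u1.r := by
        rw [hu2]; split <;> simp [run, B.step]
      have ha : ∀ j, j ≠ 20 → u2.a j = s1.a j := by
        intro j hj
        rw [hu2, ← ca]; split <;> simp [run, B.step, hj]
      have h20' : u2.a 20 = if pos (adj p) < pos v ∧ s1.a 20 v < rank (pos (adj p)) then
          update (s1.a 20) v (rank (pos (adj p))) else s1.a 20 := by
        rw [hu2, ← ca]
        split
        · simp [run, B.step, c2, c9]
        · rfl
      refine ⟨u2, _, .seq f1 f2, ?_, ⟨?_, ?_, ?_, ?_⟩, ?_, ?_, ?_, ?_, ?_⟩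
      · simp at ht2; omega
      · exact RkInv.step hv h1 h2 i1 h20'
      · intro j hj
        rw [ha j hj, i2 j hj]
      · rw [hr, c1]
      · rw [hr, c6]
      · rw [hr, c0]
      · rw [hr, c2]
      · rw [hr, c3]
      · rw [ha 4 (by decide), a4]
      · rw [ha 5 (by decide), a5])
    s ⟨⟨fun w hw => by rw [h20 w hw], fun w q hq => by obtain ⟨_, _, _, h⟩ := hq; omega,
      fun w hw => Or.inl (h20 w hw)⟩, fun j _ => rfl, hz, h6⟩ hn rfl rfl
  refine ⟨s', t, e, ht, h0, i3, i4, ?_, i2⟩
  obtain ⟨i0, i1, i1'⟩ := i1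
  constructor
  · exact i0
  · intro v u hvu hlt
    have hv := hG.lt hvu
    obtain ⟨q, h1, h2, h3⟩ := (hC.mem v hv u).1 hvu
    have := i1 v q (Done.last hv h1 h2) (by rw [h3]; exact hlt)
    rwa [h3] at this
  · intro v hv
    rcases i1' v hv with h3 | ⟨q, h3, h4, h5⟩
    · exact Or.inl h3
    · exact Or.inr ⟨adj q, (hC.mem v hv _).2 ⟨q, h3.2.1, h3.2.2.1, rfl⟩, h4, h5⟩

/-- Clique ranks from a perfect elimination order in array `10`. Result in array `20`, number of
ranks in register `6`. Arrays used: 20 to 24. -/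
def ranks : Cmd :=
  .seq rlev (.seq rparI (.seq rparA (.seq rrow (.seq rcnt (.seq rmain (.seq rrkI rrkA))))))

theorem ranks_spec (s : St) {n : ℕ} {A : ℕ → ℕ → Prop} (hG : Gr n A)
    (hC : CSR n A (s.a 4) (s.a 5)) (h0 : s.r 0 = n) (h1 : s.r 1 = 0) (hP : PEO n A (s.a 10))
    (hI : ∀ i < n, ∃ v < n, s.a 10 v = i)
    (hcap : (n + 1) * (Nat.log 2 n + 1) + 2 * n ≤ cap) :
    ∃ s' t, Ex R cap ranks s t s' ∧ t ≤ 140 * ((n + s.a 4 n + 1) * (Nat.log 2 n + 1)) ∧
      s'.r 0 = n ∧ s'.r 1 = 0 ∧ s'.r 6 = Nat.log 2 n + 1 ∧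
      Ranks n A (s'.a 20) (Nat.log 2 n + 1) ∧ (∀ j, j < 20 ∨ 24 < j → s'.a j = s.a j) := by
  set L := Nat.log 2 n + 1 with hL
  have hnL : n < 2 ^ L := Nat.lt_pow_succ_log_self (by decide) n
  obtain ⟨s1, t1, e1, ht1, a0, a1, a6, aa⟩ := rlev_spec (R := R) (cap := cap) s h0 (by omega)
  obtain ⟨s2, t2, e2, ht2, b0, b1, b6, b21, bj⟩ := rparI_spec (R := R) (cap := cap) s1 a0
  have b4 : s2.a 4 = s.a 4 := by rw [bj 4 (by decide), aa]
  have b5 : s2.a 5 = s.a 5 := by rw [bj 5 (by decide), aa]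
  have b10 : s2.a 10 = s.a 10 := by rw [bj 10 (by decide), aa]
  obtain ⟨s3, t3, e3, ht3, c0, c1, c6, cP, cj⟩ := rparA_spec (R := R) (cap := cap) s2 hG
    (by rw [b4, b5]; exact hC) (by rw [b10]; exact hP) b0 b21 (by rw [b10]; exact hI)
  rw [b10] at cP
  rw [b4] at ht3
  obtain ⟨s4, t4, e4, ht4, d0, d1, d6, d3, d22, dj⟩ := rrow_spec (R := R) (cap := cap) s3 c0
    (by rw [c6, b6, a6]) (by (clear * - h0 hcap a0 b0 c0; omega) : (n + 1) * L ≤ cap)
  obtain ⟨s5, t5, e5, ht5, f0, f1, f6, f23, fj⟩ := rcnt_spec (R := R) (cap := cap) s4 d0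
    (by rw [d1, c1, b1, a1, h1]) d3
  obtain ⟨s6, t6, vis, e6, ht6, g0, g1, g6, gR, gj⟩ := rmain_spec (R := R) (cap := cap) s5 f0 f1
    (by rw [f6, d6]) (par := s3.a 21) cP.le (by rw [fj 21 (by decide), dj 21 (by decide)])
    (by rw [fj 22 (by decide)]; exact d22) hnL (by (clear * - h0 hcap a0 b0 c0 d0 d3 f0; omega)) f23
  obtain ⟨s7, t7, e7, ht7, k0, k1, k6, k20, kj⟩ := rrkI_spec (R := R) (cap := cap) s6 g0 g1 g6
  have back : ∀ j, j < 20 ∨ 24 < j → s6.a j = s.a j := by
    intro j hj
    rw [gj j (by (clear * - hj; omega)) (by omega), fj j (by omega), dj j (by (clear * - hj; omega)), cj j (by (clear * - hj; omega)),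
      bj j (by omega), aa]
  have k4 : s7.a 4 = s.a 4 := by rw [kj 4 (by decide), back 4 (by omega)]
  have k5 : s7.a 5 = s.a 5 := by rw [kj 5 (by decide), back 5 (by omega)]
  have k10 : s7.a 10 = s.a 10 := by rw [kj 10 (by decide), back 10 (by omega)]
  have k24 : s7.a 24 = s6.a 24 := kj 24 (by decide)
  obtain ⟨s8, t8, e8, ht8, m0, m1, m6, mR, mj⟩ := rrkA_spec (R := R) (cap := cap) s7 hG
    (by rw [k4, k5]; exact hC) k0 k1 k6 (by
      intro i hi
      rw [k20 i hi, k24, kj 10 (by decide)])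
  rw [k10, k24] at mR
  rw [k4] at ht8
  refine ⟨s8, _, .seq e1 (.seq e2 (.seq e3 (.seq e4 (.seq e5 (.seq e6 (.seq e7 e8)))))), ?_, m0,
    m1, m6, ranks_of hG hP cP gR mR, ?_⟩
  · -- the time
    have hL1 : 1 ≤ L := by (clear * - a6 b6 c6 d6 f6 g6 k6 m6; omega)
    have i1 : (n + s.a 4 n + 1) * L = n * L + s.a 4 n * L + L := by ring
    have i2 : n ≤ n * L := Nat.le_mul_of_pos_right n (by (clear * - a6 b6 c6 d6 f6 g6 k6 m6 i1; omega))
    have i3 : s.a 4 n ≤ s.a 4 n * L := Nat.le_mul_of_pos_right _ (by (clear * - a6 b6 c6 d6 f6 g6 k6 m6 i1; omega))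
    have i4 : (n + 1) * L = n * L + L := by ring
    have i5 : (19 * L + 15) * n = 19 * (n * L) + 15 * n := by ring
    rw [i4] at ht5
    rw [i5] at ht6
    rw [i1]
    omega
  · intro j hj
    rw [mj j (by (clear * - hj; omega)), kj j (by (clear * - hj; omega)), back j hj]

end Vale.Agent.P305
end
end

section

section

/-! The batch step: adding the vertices of rank `r`. Theory. -/

set_option autoImplicit false
set_option linter.unusedSimpArgs false
set_option linter.unusedVariables false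

namespace Vale.Agent.P305

/-- The graph induced by the vertices of rank `< r`. -/
def Alt (A0 : ℕ → ℕ → Prop) (rk : ℕ → ℕ) (r u v : ℕ) : Prop := A0 u v ∧ rk u < r ∧ rk v < r

theorem Alt.gr {n : ℕ} {A0 : ℕ → ℕ → Prop} {rk : ℕ → ℕ} {r : ℕ} (hG : Gr n A0) :
    Gr n (Alt A0 rk r) where
  symm := fun h => ⟨hG.symm h.1, h.2.2, h.2.1⟩
  irr := fun u h => hG.irr u h.1
  lt := fun h => hG.lt h.1

/-- The vertices of rank `< r`. -/
def Vlt (n : ℕ) (rk : ℕ → ℕ) (r v : ℕ) : Prop := v < n ∧ rk v < r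

/-- Left side of the bipartite graph of a batch: `kd x ≠ 0`; right side: bases. -/
def HL (n : ℕ) (A0 : ℕ → ℕ → Prop) (kd bs : ℕ → ℕ) (x c : ℕ) : Prop :=
  x < n ∧ kd x ≠ 0 ∧ ∃ b y, c = n + b ∧ b < n ∧ A0 x y ∧ bs y = b + 1

def HB (n : ℕ) (A0 : ℕ → ℕ → Prop) (kd bs : ℕ → ℕ) (x c : ℕ) : Prop :=
  HL n A0 kd bs x c ∨ HL n A0 kd bs c x

theorem HB.gr (n : ℕ) (A0 : ℕ → ℕ → Prop) (kd bs : ℕ → ℕ) : Gr (2 * n) (HB n A0 kd bs) where
  symm := fun h => h.symm
  irr := by
    rintro u (⟨h1, _, b, y, h2, _⟩ | ⟨h1, _, b, y, h2, _⟩) <;> omega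
  lt := by
    rintro u v (⟨h1, _, b, y, h2, _⟩ | ⟨h1, _, b, y, h2, h3, _⟩) <;> omega

/-- Classification of the vertices in a batch. -/
structure BKind (n : ℕ) (rk : ℕ → ℕ) (r : ℕ) (β : BS) (kd bs : ℕ → ℕ) : Prop where
  kd1 : ∀ v < n, (kd v = 1 ↔ rk v = r)
  kd2 : ∀ v < n, (kd v = 2 ↔ β.lab v = 2)
  kd0 : ∀ v < n, kd v = 0 ∨ kd v = 1 ∨ kd v = 2
  bs1 : ∀ v < n, ∀ b, (bs v = b + 1 ↔ (β.Out v ∧ β.base v = b))

/-- The situation of a batch after the search. -/
structure BSit (n : ℕ) (A0 : ℕ → ℕ → Prop) (rk : ℕ → ℕ) (r : ℕ) (m : ℕ → ℕ) (β : BS)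
    (kd bs : ℕ → ℕ) : Prop where
  G0 : Gr n A0
  mat : Mat (Alt A0 rk r) m
  inv : Inv (Vlt n rk r) (Alt A0 rk r) m β
  fin : β.Final (Alt A0 rk r)
  kind : BKind n rk r β kd bs

/-- The matching after the rematching phase. -/
structure BRes (n : ℕ) (A0 : ℕ → ℕ → Prop) (rk : ℕ → ℕ) (r : ℕ) (m : ℕ → ℕ) (β : BS)
    (kd : ℕ → ℕ) (g f : ℕ → ℕ) : Prop where
  hit : ∀ x < n, kd x ≠ 0 → g x ≠ x → ∃ y, g x = n + β.base y ∧ β.Out y ∧ A0 x y ∧ f x = y ∧
    f y = x ∧ ReCls (Alt A0 rk r) β (β.base y) y f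
  left : ∀ x < n, kd x ≠ 0 → g x = x → f x = x
  base : ∀ b, β.Out b → β.base b = b → g (n + b) = n + b → f b = b
  cls : ∀ w, β.Out w → β.base w ≠ w → g (n + β.base w) = n + β.base w → f w = m w
  rest : ∀ v, (v < n → kd v = 0) → ¬ β.Out v → f v = m v

section
variable {n : ℕ} {A0 : ℕ → ℕ → Prop} {rk : ℕ → ℕ} {r : ℕ} {m : ℕ → ℕ} {β : BS}
  {kd bs g f : ℕ → ℕ}

theorem BSit.out_lt (h : BSit n A0 rk r m β kd bs) {v : ℕ} (hv : β.Out v) : v < n ∧ rk v < r :=
  h.inv.vsl v (by rcases hv with h | h <;> omega)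

theorem BSit.out_kd (h : BSit n A0 rk r m β kd bs) {v : ℕ} (hv : β.Out v) : kd v = 0 := by
  obtain ⟨h1, h2⟩ := h.out_lt hv
  rcases h.kind.kd0 v h1 with h3 | h3 | h3
  · exact h3
  · rw [h.kind.kd1 v h1] at h3; omega
  · rw [h.kind.kd2 v h1] at h3
    rcases hv with h4 | h4 <;> omega

theorem BSit.kd_cases (h : BSit n A0 rk r m β kd bs) {v : ℕ} (hv : v < n) (h0 : kd v ≠ 0) :
    rk v = r ∨ β.lab v = 2 := by
  rcases h.kind.kd0 v hv with h3 | h3 | h3
  · exact absurd h3 h0
  · exact Or.inl ((h.kind.kd1 v hv).1 h3)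
  · exact Or.inr ((h.kind.kd2 v hv).1 h3)

theorem BSit.rk_le (h : BSit n A0 rk r m β kd bs) {v : ℕ} (hv : v < n) (h0 : kd v ≠ 0) :
    rk v < r + 1 := by
  rcases h.kd_cases hv h0 with h1 | h1
  · omega
  · have := (h.inv.vsl v (Or.inr (Or.inl h1))).2
    omega

/-- A matched right vertex is a base which is matched to a left vertex. -/
theorem BSit.right (h : BSit n A0 rk r m β kd bs) (hg : Mat (HB n A0 kd bs) g) {b : ℕ}
    (hb : b < n) (hne : g (n + b) ≠ n + b) : g (n + b) < n ∧ kd (g (n + b)) ≠ 0 ∧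
      ∃ y, β.Out y ∧ β.base y = b ∧ A0 (g (n + b)) y := by
  rcases hg.adj _ hne with ⟨h1, _⟩ | ⟨h1, h2, b', y, h3, h4, h5, h6⟩
  · omega
  · have hb' : b' = b := by omega
    subst hb'
    have hy := h.G0.lt' h5
    rw [h.kind.bs1 y hy] at h6
    exact ⟨h1, h2, y, h6.1, h6.2, h5⟩

theorem BRes.mat (h : BSit n A0 rk r m β kd bs) (hg : Mat (HB n A0 kd bs) g)
    (hf : BRes n A0 rk r m β kd g f) : Mat (Alt A0 rk (r + 1)) f := by
  have hmono : ∀ u v, Alt A0 rk r u v → Alt A0 rk (r + 1) u v := fun u v h =>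
    ⟨h.1, by have := h.2.1; omega, by have := h.2.2; omega⟩
  -- all cases
  have key : ∀ v, f (f v) = v ∧ (f v ≠ v → Alt A0 rk (r + 1) v (f v)) := by
    intro v
    by_cases ho : β.Out v
    · -- outer
      have hbl := h.inv.blab v ho
      have hbo : β.Out (β.base v) := Or.inl hbl.1
      have hbn := (h.out_lt hbo).1
      by_cases hgb : g (n + β.base v) = n + β.base v
      · by_cases hbv : β.base v = v
        · rw [hbv] at hgb
          have := hf.base v ho hbv hgb
          rw [this, this]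
          exact ⟨rfl, fun h => absurd rfl h⟩
        · have e := hf.cls v ho hbv hgb
          have hmb := h.inv.mate_blossom h.mat ho (Ne.symm hbv)
          have e2 : f (m v) = v := by
            rw [hf.cls (m v) hmb.2.1 (by rw [hmb.2.2.1]; exact Ne.symm hmb.2.2.2)
              (by rw [hmb.2.2.1]; exact hgb), h.mat.inv]
          rw [e, e2]
          exact ⟨rfl, fun _ => hmono _ _ (h.mat.adj v hmb.1)⟩
      · obtain ⟨h1, h2, y0, _, _, _⟩ := h.right hg hbn hgb
        have hgx : g (g (n + β.base v)) = n + β.base v := hg.inv _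
        obtain ⟨y, hy1, hy2, hy3, hy4, hy5, hy6⟩ := hf.hit _ h1 h2 (by rw [hgx]; omega)
        rw [hgx] at hy1
        have hby : β.base y = β.base v := by omega
        by_cases hvy : v = y
        · subst hvy
          rw [hy5, hy4]
          refine ⟨rfl, fun _ => ⟨h.G0.symm hy3, ?_, h.rk_le h1 h2⟩⟩
          have := (h.out_lt ho).2
          omega
        · have := hy6.cls v ho hby.symm hvy
          exact ⟨this.2.2.2.1, fun _ => hmono _ _ this.2.2.2.2⟩
    · by_cases hk : v < n ∧ kd v ≠ 0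
      · obtain ⟨hvn, hk⟩ := hk
        by_cases hgv : g v = v
        · have := hf.left v hvn hk hgv
          rw [this, this]
          exact ⟨rfl, fun h => absurd rfl h⟩
        · obtain ⟨y, hy1, hy2, hy3, hy4, hy5, hy6⟩ := hf.hit v hvn hk hgv
          rw [hy4, hy5]
          refine ⟨rfl, fun _ => ⟨hy3, h.rk_le hvn hk, ?_⟩⟩
          have := (h.out_lt hy2).2
          omega
      · have hk' : v < n → kd v = 0 := by
          intro h1
          by_contra h2
          exact hk ⟨h1, h2⟩
        have e := hf.rest v hk' ho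
        by_cases hmv : m v = v
        · rw [e, hmv, e, hmv]
          exact ⟨rfl, fun h => absurd rfl h⟩
        · have ha := h.mat.adj v hmv
          -- the mate is of the same kind
          have h1 : ¬ β.Out (m v) := by
            intro hmo
            have hvs : Vlt n rk r v := ⟨h.G0.lt ha.1, ha.2.1⟩
            have h2 : β.lab v ≠ 2 := by
              intro h2
              have := (h.kind.kd2 v hvs.1).2 h2
              rw [hk' hvs.1] at this
              omega
            rcases hmo with h3 | h3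
            · have := h.inv.tmate _ h3 (by rw [h.mat.inv]; exact fun h => hmv h.symm)
              rw [h.mat.inv] at this
              rcases this with h4 | h4
              · exact h2 h4
              · exact ho (Or.inr h4)
            · have := h.inv.imate _ (Or.inr h3)
              rw [h.mat.inv] at this
              exact ho (Or.inl this)
          have h2 : m v < n → kd (m v) = 0 := by
            intro hmn
            rcases h.kind.kd0 _ hmn with h3 | h3 | h3
            · exact h3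
            · rw [h.kind.kd1 _ hmn] at h3
              have := ha.2.2
              omega
            · rw [h.kind.kd2 _ hmn] at h3
              have := h.inv.imate _ (Or.inl h3)
              rw [h.mat.inv] at this
              exact absurd (Or.inl this) ho
          have e2 := hf.rest (m v) h2 h1
          rw [e, e2, h.mat.inv]
          exact ⟨rfl, fun _ => hmono _ _ ha⟩
  exact ⟨fun v => (key v).1, fun v => (key v).2⟩

/-- Result of the greedy pairing of the new vertices that are still exposed. -/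
structure Greedy (n : ℕ) (A0 : ℕ → ℕ → Prop) (kd : ℕ → ℕ) (f f' : ℕ → ℕ) : Prop where
  keep : ∀ v, (f v ≠ v ∨ ¬ (v < n ∧ kd v = 1)) → f' v = f v
  pair : ∀ v, f v = v → f' v ≠ v → v < n ∧ kd v = 1 ∧ f' v < n ∧ kd (f' v) = 1 ∧ f (f' v) = f' v ∧
    f' (f' v) = v ∧ A0 v (f' v)
  maxi : ∀ u v, u < n → v < n → kd u = 1 → kd v = 1 → f' u = u → f' v = v → ¬ A0 u v

theorem batch_isMax (h : BSit n A0 rk r m β kd bs) (hmax : ∀ u < n, ∀ v < n, rk u = r → rk v = r →
      u ≠ v → ConnLe A0 rk r u v → A0 u v)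
    (hg : Mat (HB n A0 kd bs) g) (hgA : ∀ a < n, kd a = 2 → g a ≠ a)
    {Cv : ℕ → Prop} (hC1 : ∀ u v, HB n A0 kd bs u v → Cv u ∨ Cv v)
    (hC2 : ∀ v, Cv v → g v ≠ v ∧ ¬ Cv (g v)) (hf : BRes n A0 rk r m β kd g f)
    {f' : ℕ → ℕ} (hgr : Greedy n A0 kd f f') : IsMax n (Alt A0 rk (r + 1)) f' := by
  classical
  have hfm := hf.mat h hg
  have hf'm : Mat (Alt A0 rk (r + 1)) f' := by
    constructor
    · intro v
      by_cases h1 : f v = v
      · by_cases h2 : f' v = v
        · rw [h2, h2]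
        · exact (hgr.pair v h1 h2).2.2.2.2.2.1
      · rw [hgr.keep v (Or.inl h1), hgr.keep (f v) (Or.inl (by rw [hfm.inv]; exact fun h => h1 h.symm)),
          hfm.inv]
    · intro v hv
      by_cases h1 : f v = v
      · obtain ⟨a1, a2, a3, a4, _, _, a7⟩ := hgr.pair v h1 hv
        rw [h.kind.kd1 v a1] at a2
        rw [h.kind.kd1 _ a3] at a4
        exact ⟨a7, by omega, by omega⟩
      · rw [hgr.keep v (Or.inl h1)]
        exact hfm.adj v h1
  have hf'ne : ∀ v, f v ≠ v → f' v = f v := fun v hv => hgr.keep v (Or.inl hv)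
  -- the barrier
  obtain ⟨S, hS⟩ : ∃ S : ℕ → Prop, S = fun v => v < n ∧ kd v ≠ 0 ∧ Cv v := ⟨_, rfl⟩
  obtain ⟨T1, hT1⟩ : ∃ T1 : ℕ → Prop, T1 = fun v => β.Out v ∧ ¬ Cv (n + β.base v) := ⟨_, rfl⟩
  obtain ⟨cc, hcc⟩ : ∃ cc : ℕ → Set ℕ, cc = fun v => {w | ConnLe A0 rk r v w} := ⟨_, rfl⟩
  have hSk : ∀ s, S s → ∃ y, g s = n + β.base y ∧ β.Out y ∧ A0 s y ∧ f s = y ∧ f y = s ∧
      ¬ Cv (n + β.base y) := by
    intro s hs
    rw [hS] at hs
    obtain ⟨h1, h2, h3⟩ := hs
    have h4 := hC2 s h3
    obtain ⟨y, a1, a2, a3, a4, a5, _⟩ := hf.hit s h1 h2 h4.1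
    exact ⟨y, a1, a2, a3, a4, a5, by rw [← a1]; exact h4.2⟩
  have hAle : ∀ u v, Alt A0 rk (r + 1) u v → rk u ≤ r ∧ rk v ≤ r := by
    intro u v h
    have h1 := h.2.1; have h2 := h.2.2
    exact ⟨by omega, by omega⟩
  have hccadj : ∀ u v, Alt A0 rk (r + 1) u v → cc u = cc v := by
    intro u v huv
    have hle := hAle u v huv
    rw [hcc]
    refine Set.ext fun w => ⟨?_, ?_⟩
    · intro (hw : ConnLe A0 rk r u w)
      show ConnLe A0 rk r v w
      exact Relation.ReflTransGen.head ⟨h.G0.symm huv.1, hle.2, hle.1⟩ hw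
    · intro (hw : ConnLe A0 rk r v w)
      show ConnLe A0 rk r u w
      exact Relation.ReflTransGen.head ⟨huv.1, hle.1, hle.2⟩ hw
  -- neighbours of a vertex of T1
  have hT1n : ∀ u v, T1 u → Alt A0 rk (r + 1) u v → ¬ S v → T1 v ∧ β.base u = β.base v := by
    intro u v hu huv hv
    rw [hT1] at hu
    obtain ⟨ho, hc⟩ := hu
    have hvn := h.G0.lt' huv.1
    have hul := h.out_lt ho
    have hbn := (h.out_lt (Or.inl (h.inv.blab u ho).1)).1
    -- left vertices adjacent to the blossom are in `S`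
    have hkv : kd v = 0 := by
      by_contra hk
      have hHB : HB n A0 kd bs v (n + β.base u) :=
        Or.inl ⟨hvn, hk, β.base u, u, rfl, hbn, h.G0.symm huv.1, (h.kind.bs1 u hul.1 _).2 ⟨ho, rfl⟩⟩
      rcases hC1 _ _ hHB with h1 | h1
      · exact hv (by rw [hS]; exact ⟨hvn, hk, h1⟩)
      · exact hc h1
    have hrv : rk v < r := by
      have h1 := (hAle u v huv).2
      have h2 : rk v ≠ r := fun h' => by
        have := (h.kind.kd1 v hvn).2 h'
        omega
      omega
    rcases h.fin u v ho ⟨huv.1, hul.2, hrv⟩ with h1 | ⟨h1, h2⟩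
    · have := (h.kind.kd2 v hvn).2 h1
      omega
    · rw [hT1]
      exact ⟨⟨h1, by rw [← h2]; exact hc⟩, h2⟩
  refine isMax_of_cert (ι := ℕ ⊕ Set ℕ) (Alt.gr h.G0) hf'm S
    (fun v => if T1 v then Sum.inl (β.base v) else Sum.inr (cc v)) ?_ ?_ ?_
  · intro u v huv hu hv
    by_cases h1 : T1 u
    · obtain ⟨h2, h3⟩ := hT1n u v h1 huv hv
      simp only [if_pos h1, if_pos h2, h3]
    · by_cases h2 : T1 v
      · exact absurd (hT1n v u h2 ((Alt.gr h.G0).symm huv) hu).1 h1
      · simp only [if_neg h1, if_neg h2, hccadj u v huv]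
  · intro s hs
    obtain ⟨y, a1, a2, a3, a4, a5, a6⟩ := hSk s hs
    have hsy : y ≠ s := fun e => h.G0.irr s (e ▸ a3)
    rw [hf'ne s (by rw [a4]; exact hsy), a4]
    refine ⟨hsy, ?_⟩
    rw [hS]
    rintro ⟨_, h2, _⟩
    exact h2 (h.out_kd a2)
  · -- at most one special vertex in each part
    have hsp : ∀ v, v < n → ¬ S v → (f' v = v ∨ S (f' v)) →
        (T1 v ∧ ((g (n + β.base v) = n + β.base v ∧ β.base v = v) ∨
          (g (n + β.base v) ≠ n + β.base v ∧ f v = g (n + β.base v)))) ∨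
        (¬ T1 v ∧ f' v = v ∧ (kd v = 1 ∨ r < rk v)) := by
      intro v hvn hv hcase
      by_cases hT : T1 v
      · left
        refine ⟨hT, ?_⟩
        rw [hT1] at hT
        obtain ⟨ho, hc⟩ := hT
        have hbn := (h.out_lt (Or.inl (h.inv.blab v ho).1)).1
        have hkv := h.out_kd ho
        have hf' : f' v = f v := hgr.keep v (Or.inr (by rintro ⟨_, h1⟩; omega))
        by_cases hgb : g (n + β.base v) = n + β.base v
        · left
          refine ⟨hgb, ?_⟩
          by_contra hbv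
          have e := hf.cls v ho hbv hgb
          have hmb := h.inv.mate_blossom h.mat ho (Ne.symm hbv)
          rw [hf', e] at hcase
          rcases hcase with h1 | h1
          · exact hmb.1 h1
          · rw [hS] at h1
            exact h1.2.1 (h.out_kd hmb.2.1)
        · right
          refine ⟨hgb, ?_⟩
          obtain ⟨h1, h2, y0, _, _, _⟩ := h.right hg hbn hgb
          have hgx : g (g (n + β.base v)) = n + β.base v := hg.inv _
          obtain ⟨y, hy1, hy2, hy3, hy4, hy5, hy6⟩ := hf.hit _ h1 h2 (by rw [hgx]; omega)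
          rw [hgx] at hy1
          have hby : β.base y = β.base v := by omega
          by_cases hvy : v = y
          · subst hvy; exact hy5
          · have hR := hy6.cls v ho hby.symm hvy
            rw [hf'] at hcase
            rcases hcase with h3 | h3
            · exact absurd (h3 ▸ hR.2.2.2.2) ((Alt.gr h.G0).irr v)
            · rw [hS] at h3
              exact absurd (h.out_kd hR.1) h3.2.1
      · right
        have hnS : ¬ S (f' v) := by
          intro hs
          obtain ⟨y, a1, a2, a3, a4, a5, a6⟩ := hSk _ hs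
          have hsy : y ≠ f' v := fun e => h.G0.irr y (by rw [← e] at a3; exact a3)
          have e1 : f' (f' v) = y := by rw [hf'ne _ (by rw [a4]; exact hsy), a4]
          rw [hf'm.inv] at e1
          apply hT
          rw [hT1, e1]
          exact ⟨a2, a6⟩
        have hfv : f' v = v := by
          rcases hcase with h1 | h1
          · exact h1
          · exact absurd h1 hnS
        refine ⟨hT, hfv, ?_⟩
        -- exposed vertices outside T1
        have hfe : f v = v := by
          by_contra hne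
          rw [hf'ne v hne] at hfv
          exact hne hfv
        by_contra hcon
        push Not at hcon
        obtain ⟨hk1, hrk⟩ := hcon
        have hrk' : rk v < r := by
          have : rk v ≠ r := fun h' => hk1 ((h.kind.kd1 v hvn).2 h')
          omega
        by_cases ho : β.Out v
        · have hbn := (h.out_lt (Or.inl (h.inv.blab v ho).1)).1
          by_cases hgb : g (n + β.base v) = n + β.base v
          · -- then the right vertex is not in the cover
            apply hT
            rw [hT1]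
            exact ⟨ho, fun hc => (hC2 _ hc).1 hgb⟩
          · obtain ⟨h1, h2, y0, _, _, _⟩ := h.right hg hbn hgb
            have hgx : g (g (n + β.base v)) = n + β.base v := hg.inv _
            obtain ⟨y, hy1, hy2, hy3, hy4, hy5, hy6⟩ := hf.hit _ h1 h2 (by rw [hgx]; omega)
            rw [hgx] at hy1
            have hby : β.base y = β.base v := by omega
            by_cases hvy : v = y
            · rw [hvy] at hfe
              rw [hfe] at hy5
              exact h.G0.irr y (by rw [← hy5] at hy3; exact hy3)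
            · have hR := hy6.cls v ho hby.symm hvy
              exact (Alt.gr h.G0).irr v (hfe ▸ hR.2.2.2.2)
        · by_cases hk : kd v = 0
          · have e := hf.rest v (fun _ => hk) ho
            rw [hfe] at e
            have := (h.inv.root v ⟨hvn, hrk'⟩ e.symm).1
            exact ho (Or.inl this)
          · have hk2 : kd v = 2 := by
              rcases h.kind.kd0 v hvn with h1 | h1 | h1
              · exact absurd h1 hk
              · exact absurd h1 hk1
              · exact h1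
            obtain ⟨y, hy1, hy2, hy3, hy4, hy5, hy6⟩ := hf.hit v hvn hk (hgA v hvn hk2)
            rw [hfe] at hy4
            exact h.G0.irr v (by rw [← hy4] at hy3; exact hy3)
    intro u v hun hvn hu hv hsu hsv hpi
    rcases hsp u hun hu hsu with ⟨hTu, hcu⟩ | ⟨hTu, heu, hku⟩
    · rcases hsp v hvn hv hsv with ⟨hTv, hcv⟩ | ⟨hTv, hev, hkv⟩
      · simp only [if_pos hTu, if_pos hTv, Sum.inl.injEq] at hpi
        rw [hpi] at hcu
        rcases hcu with ⟨a1, a2⟩ | ⟨a1, a2⟩
        · rcases hcv with ⟨b1, b2⟩ | ⟨b1, b2⟩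
          · rw [← a2, b2]
          · exact absurd a1 b1
        · rcases hcv with ⟨b1, b2⟩ | ⟨b1, b2⟩
          · exact absurd b1 a1
          · have : f u = f v := by rw [a2, b2]
            rw [← hfm.inv u, this, hfm.inv]
      · simp only [if_pos hTu, if_neg hTv] at hpi
        exact absurd hpi (by simp)
    · rcases hsp v hvn hv hsv with ⟨hTv, hcv⟩ | ⟨hTv, hev, hkv⟩
      · simp only [if_neg hTu, if_pos hTv] at hpi
        exact absurd hpi (by simp)
      · simp only [if_neg hTu, if_neg hTv, Sum.inr.injEq] at hpi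
        have hconn : ConnLe A0 rk r u v := by
          have : v ∈ cc v := by rw [hcc]; exact Relation.ReflTransGen.refl
          rw [← hpi, hcc] at this
          exact this
        have hiso : ∀ a b, r < rk a → ConnLe A0 rk r a b → a = b := by
          intro a b ha hab
          rcases Relation.ReflTransGen.cases_head hab with h1 | ⟨c, h1, _⟩
          · exact h1
          · omega
        have hiso' : ∀ a b, r < rk b → ConnLe A0 rk r a b → a = b := by
          intro a b hb hab
          rcases Relation.ReflTransGen.cases_tail hab with h1 | ⟨c, _, h1⟩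
          · exact h1.symm
          · omega
        rcases hku with hku | hku
        · rcases hkv with hkv | hkv
          · by_contra hne
            have h1 := (h.kind.kd1 u hun).1 hku
            have h2 := (h.kind.kd1 v hvn).1 hkv
            exact hgr.maxi u v hun hvn hku hkv heu hev (hmax u hun v hvn h1 h2 hne hconn)
          · exact hiso' u v hkv hconn
        · exact hiso u v hku hconn

end

end Vale.Agent.P305
end
end

section

section

/-! Maximum matching on chordal graphs from maximum matching on bipartite graphs. -/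

set_option autoImplicit false

namespace Vale.Agent.P305

open Function (update)
open L1

variable {R : List ℕ → (ℕ → ℕ) → ℕ → Prop} {cap : ℕ}

/-- Array `40` becomes the identity, register `31` becomes `0`. -/
def cInit : Cmd := .seq (.blk [.const 2 0]) (.seq (.loop (.lt 2 0) (.blk [.store 40 2 2, .inc 2]))
  (.blk [.const 31 0]))

theorem cInit_spec (s : St) {n : ℕ} (h0 : s.r 0 = n) (h1 : s.r 1 = 0) :
    ∃ s' t, Ex R cap cInit s t s' ∧ t ≤ 3 * n + 3 ∧ s'.r 0 = n ∧ s'.r 1 = 0 ∧
      s'.r 6 = s.r 6 ∧ s'.r 31 = 0 ∧ (∀ v < n, s'.a 40 v = v) ∧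
      (∀ j, j ≠ 40 → s'.a j = s.a j) := by
  obtain ⟨s1, hs1⟩ : ∃ s1, s1 = run [.const 2 0] s := ⟨_, rfl⟩
  have e1 : Ex R cap (.blk [.const 2 0]) s 1 s1 := by
    rw [hs1]; exact Ex.blk _ _
  have h1 : s1.r 0 = n ∧ s1.r 1 = 0 ∧ s1.r 6 = s.r 6 ∧ s1.r 2 = 0 ∧ s1.a = s.a := by
    subst hs1; simp only [run, B.step, ne_eq, OfNat.zero_ne_ofNat, not_false_eq_true, Function.update_of_ne, h0, OfNat.one_ne_ofNat, h1, Nat.reduceEqDiff, Function.update_self, and_self]
  obtain ⟨a0, a1, a6, a2, aa⟩ := h1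
  obtain ⟨s2, t2, e2, ht2, ⟨b1, b6, b40, bj⟩, _, b0⟩ := for_rule (R := R) (cap := cap)
    (i := 2) (b := 0) (body := (.blk [.store 40 2 2, .inc 2])) n 2 0
    (fun k s' => s'.r 1 = 0 ∧ s'.r 6 = s.r 6 ∧ (∀ i < k, s'.a 40 i = i) ∧
      (∀ j, j ≠ 40 → s'.a j = s.a j))
    (by
      rintro k s' _ hk ⟨h1, h6, h40, hj⟩ hi hb
      refine ⟨_, _, .blk _ _, ?_, ⟨?_, ?_, ?_, ?_⟩, ?_, ?_⟩
      · simp
      · simp [run, B.step, h1]
      · simp [run, B.step, h6]
      · intro i hik
        simp only [run, B.step, Function.update_self, Function.update_apply, hi]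
        by_cases hi' : i = k
        · simp [hi']
        · simp [hi', h40 i (by omega)]
      · intro j hj6
        simp [run, B.step, hj6, hj j hj6]
      · simp [run, B.step, hi]
      · simp [run, B.step, hb])
    s1 (by omega) ⟨a1, a6, by intro i hi; omega, by intro j _; rw [aa]⟩ a2 a0
  refine ⟨_, _, .seq e1 (.seq e2 (.blk _ _)), ?_, ?_, ?_, ?_, ?_, ?_, ?_⟩
  · simp only [List.length_cons, List.length_nil, zero_add]; omega
  · simp [run, B.step, b0]
  · simp [run, B.step, b1]
  · simp [run, B.step, b6]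
  · simp [run, B.step]
  · intro v hv
    simp [run, B.step, b40 v hv]
  · intro j hj
    simp [run, B.step, bj j hj]

/-- The answer in the required format. -/
def cOut : Cmd := .seq (.blk [.const 2 0])
  (.loop (.lt 2 0) (.seq (.blk [.load 40 3 2])
    (.seq (.ite (.eq 3 2) (.blk [.const 3 0]) (.blk [.inc 3])) (.blk [.store 3 2 3, .inc 2]))))

theorem cOut_spec (s : St) {n : ℕ} (h0 : s.r 0 = n) :
    ∃ s' t, Ex R cap cOut s t s' ∧ t ≤ 6 * n + 2 ∧
      (∀ v < n, s'.a 3 v = if s.a 40 v = v then 0 else s.a 40 v + 1) := by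
  obtain ⟨s1, hs1⟩ : ∃ s1, s1 = run [.const 2 0] s := ⟨_, rfl⟩
  have e1 : Ex R cap (.blk [.const 2 0]) s 1 s1 := by
    rw [hs1]; exact Ex.blk _ _
  have h1 : s1.r 0 = n ∧ s1.r 2 = 0 ∧ s1.a = s.a := by
    subst hs1; simp [run, B.step, h0]
  obtain ⟨a0, a2, aa⟩ := h1
  obtain ⟨s2, t2, e2, ht2, ⟨b40, b3⟩, _, b0⟩ := for_rule (R := R) (cap := cap)
    (i := 2) (b := 0) (body := (.seq (.blk [.load 40 3 2])
    (.seq (.ite (.eq 3 2) (.blk [.const 3 0]) (.blk [.inc 3])) (.blk [.store 3 2 3, .inc 2])))) n 5 0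
    (fun k s' => s'.a 40 = s.a 40 ∧
      (∀ i < k, s'.a 3 i = if s.a 40 i = i then 0 else s.a 40 i + 1))
    (by
      rintro k s' _ hk ⟨h40, h3⟩ hi hb
      by_cases hc : s.a 40 k = k
      · refine ⟨_, _, .seq (.blk _ _) (.seq (.iteTrue ?_ (.blk _ _)) (.blk _ _)), ?_, ⟨?_, ?_⟩,
          ?_, ?_⟩
        · simp [run, B.step, Test.holds, hi, h40, hc]
        · simp
        · simp [run, B.step, h40]
        · intro i hik
          simp only [run, B.step, hi, Function.update_idem, ne_eq, Nat.reduceEqDiff, not_false_eq_true, Function.update_of_ne, Function.update_self]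
          simp only [Function.update_apply]
          by_cases hi' : i = k
          · simp [hi', hc]
          · rw [if_neg hi', h3 i (by omega)]
        · simp [run, B.step, hi]
        · simp [run, B.step, hb]
      · refine ⟨_, _, .seq (.blk _ _) (.seq (.iteFalse ?_ (.blk _ _)) (.blk _ _)), ?_, ⟨?_, ?_⟩,
          ?_, ?_⟩
        · simp [run, B.step, Test.holds, hi, h40, hc]
        · simp
        · simp only [run, B.step, h40, Function.update_self, Function.update_idem, ne_eq, Nat.reduceEqDiff, not_false_eq_true, Function.update_of_ne]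
        · intro i hik
          simp only [run, B.step, hi, h40, Function.update_self, Function.update_idem, ne_eq, Nat.reduceEqDiff, not_false_eq_true, Function.update_of_ne]
          simp only [Function.update_apply]
          by_cases hi' : i = k
          · rw [if_pos hi', hi', if_neg hc]
          · rw [if_neg hi', h3 i (by omega)]
        · simp [run, B.step, hi]
        · simp [run, B.step, hb])
    s1 (by omega) ⟨by rw [aa], by intro i hi; omega⟩ a2 a0
  refine ⟨s2, _, .seq e1 e2, ?_, b3⟩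
  omega

/-- The specification of the program for one batch. -/
def BatchSpec (batchC : Cmd) (K : ℕ) : Prop :=
  ∀ (R : List ℕ → (ℕ → ℕ) → ℕ → Prop) (cap n r : ℕ) (A0 : ℕ → ℕ → Prop) (rk m : ℕ → ℕ) (s : St)
    (τ : ℕ),
    (∀ (H : SimpleGraph (Fin (2 * n))) (L' : AdjLists H), H.IsBipartite →
      (L'.upTo (2 * n)).length ≤ 2 * s.a 4 n →
      ∃ out t M, R L'.encode out t ∧ t ≤ τ ∧ IsMaximumMatching H M ∧ Represents out M) →
    Gr n A0 → CSR n A0 (s.a 4) (s.a 5) → s.r 0 = n → s.r 1 = 0 → s.r 31 = r →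
    (∀ v < n, s.a 20 v = rk v) →
    (∀ u < n, ∀ v < n, rk u = r → rk v = r → u ≠ v → ConnLe A0 rk r u v → A0 u v) →
    IsMax n (Alt A0 rk r) m → (∀ v < n, s.a 40 v = m v) → Clean (s.a 1) →
    encLen (s.a 1) ≤ 2 * n + 2 + 2 * s.a 4 n → 2 * n + 2 + 2 * s.a 4 n ≤ cap →
    ∃ s' t m', Ex R cap batchC s t s' ∧
      t ≤ τ + K * ((Nat.log 2 n + 1) * (n + s.a 4 n + 1)) ∧ s'.r 0 = n ∧ s'.r 1 = 0 ∧
      (∀ k ∈ [6, 31, 32], s'.r k = s.r k) ∧ IsMax n (Alt A0 rk (r + 1)) m' ∧
      (∀ v < n, s'.a 40 v = m' v) ∧ Clean (s'.a 1) ∧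
      encLen (s'.a 1) ≤ 2 * n + 2 + 2 * s.a 4 n ∧ (∀ j ∈ [4, 5, 20], s'.a j = s.a j)

/-- The whole program for chordal graphs. -/
def chordalC (batchC : Cmd) : Cmd :=
  .seq unpack (.seq peo (.seq ranks (.seq cInit
    (.seq (.loop (.lt 31 6) (.seq batchC (.blk [.inc 31]))) cOut))))

theorem chordalC_ok {batchC : Cmd} (h : batchC.ok 64 4) : (chordalC batchC).ok 64 4 := by
  simp only [chordalC, unpack, peo, mInit, mOuterB, mInnerB, mUpd, ranks, rlev, rparI, rparA, arcLoop, rrow, rcnt, rmain, rbody, rscan, rscanB, rmark, raddB, rrkI, rrkA, cInit, cOut, Cmd.ok_seq, Cmd.ok_blk, List.mem_cons, List.not_mem_nil, or_false, forall_eq_or_imp, B.ok_const, zero_le, B.ok_load, Nat.ofNat_pos, Nat.one_le_ofNat, B.ok_copy, forall_eq, B.ok_inc, and_self, Cmd.ok_loop, B.ok_store, Nat.reduceLT, B.ok_dec, Cmd.ok_ite, IsEmpty.forall_iff, implies_true, Nat.reduceLeDiff, Cmd.ok_add, h]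

theorem isMax_zero {n : ℕ} {A : ℕ → ℕ → Prop} {rk : ℕ → ℕ} :
    IsMax n (Alt A rk 0) (fun v => v) := by
  refine ⟨⟨fun v => rfl, fun v h => absurd rfl h⟩, fun m' hm' => ?_⟩
  apply Finset.card_le_card
  intro v hv
  simp only [exposed, Finset.mem_filter, Finset.mem_range] at hv ⊢
  refine ⟨hv.1, ?_⟩
  by_contra hne
  have := (hm'.adj v hne).2.1
  omega

theorem chordal_run {batchC : Cmd} {K : ℕ} (hB : BatchSpec batchC K) {n : ℕ}
    (G : SimpleGraph (Fin n)) (hch : IsChordal G) (L : AdjLists G)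
    {R : List ℕ → (ℕ → ℕ) → ℕ → Prop} {cap τ : ℕ}
    (hcap1 : (n + 1) * (Nat.log 2 n + 1) + 2 * n ≤ cap)
    (hcap2 : 2 * n + 4 * G.edgeSet.ncard + 2 ≤ cap)
    (hR : ∀ (n' : ℕ) (H : SimpleGraph (Fin n')) (L' : AdjLists H), H.IsBipartite →
      (n' = 2 * n ∧ H.edgeSet.ncard ≤ 2 * G.edgeSet.ncard) →
        ∃ (out : ℕ → ℕ) (t : ℕ) (M : H.Subgraph), R L'.encode out t ∧ t ≤ τ ∧
          IsMaximumMatching H M ∧ Represents out M) :
    ∃ (t : ℕ) (s : St) (M : G.Subgraph), Ex R cap (chordalC batchC) (St.init L.encode) t s ∧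
      t ≤ (2 * K + 400) * ((Nat.log 2 n + 1) * ((Nat.log 2 n + 1) * (n + G.edgeSet.ncard + 1))) +
        (Nat.log 2 n + 1) * τ ∧ IsMaximumMatching G M ∧ Represents (s.a 3) M := by
  set m := G.edgeSet.ncard with hm
  set Λ := Nat.log 2 n + 1 with hΛ
  have hG := natAdj_gr G
  have hinit : ∀ j i, (St.init L.encode).a j i = if j = 0 then L.encode.getD i 0 else 0 :=
    fun j i => rfl
  have hoffn : L.encode.getD (n + 1) 0 = 2 * m := by rw [L.encode_off le_rfl, L.upTo_length]
  obtain ⟨s1, t1, e1, ht1, r10, r11, o1, a1, j1⟩ := unpack_spec (R := R) (cap := cap)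
    (St.init L.encode) n (2 * m) (by rw [hinit, if_pos rfl, L.encode_zero])
    (by rw [hinit, if_pos rfl, hoffn])
  have hn : s1.a 4 n = 2 * m := by rw [o1 n le_rfl, hinit, if_pos rfl, hoffn]
  have hC : CSR n (natAdj G) (s1.a 4) (s1.a 5) := by
    refine csr_of_encode L (fun i hi => ?_) (fun p hp => ?_)
    · rw [o1 i hi, hinit, if_pos rfl]
    · rw [a1 p (by omega), hinit, if_pos rfl]
  obtain ⟨s2, t2, e2, ht2, r20, r21, hP, hv1, hv2, j2⟩ := peo_spec (R := R) (cap := cap) s1 hch hC
    r10 r11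
  have hC2 : CSR n (natAdj G) (s2.a 4) (s2.a 5) := by
    rw [j2 4 (by omega), j2 5 (by omega)]; exact hC
  obtain ⟨s3, t3, e3, ht3, r30, r31, r36, hRk, j3⟩ := ranks_spec (R := R) (cap := cap) s2 hG hC2
    r20 r21 hP (fun i hi => ⟨s2.a 11 i, hv1 i hi⟩) hcap1
  obtain ⟨s4, t4, e4, ht4, r40, r41, r46, r431, a440, j4⟩ := cInit_spec (R := R) (cap := cap) s3
    r30 r31
  rw [j2 4 (by omega), hn, ← hΛ] at ht3
  rw [hn] at ht2
  have q4 : s4.a 4 = s1.a 4 := by rw [j4 4 (by decide), j3 4 (by omega), j2 4 (by omega)]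
  have q5 : s4.a 5 = s1.a 5 := by rw [j4 5 (by decide), j3 5 (by omega), j2 5 (by omega)]
  have q20 : s4.a 20 = s3.a 20 := j4 20 (by decide)
  have q1 : s4.a 1 = fun _ => 0 := by
    rw [j4 1 (by decide), j3 1 (by omega), j2 1 (by omega), j1 1 (by decide) (by decide)]
    funext i
    rw [hinit, if_neg (by decide)]
  set rk := s3.a 20 with hrk
  -- the loop over the batches
  set c1 := K * (Λ * (n + 2 * m + 1)) with hc1
  obtain ⟨s5, t5, e5, ht5, ⟨b0, b1, bm, bmax, b40, b4, b5, b20, bcl, bln⟩, _, _⟩ :=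
    for_rule (R := R) (cap := cap) (i := 31) (b := 6)
    (body := .seq batchC (.blk [.inc 31])) Λ (τ + c1 + 1) 0
    (fun k s' => s'.r 0 = n ∧ s'.r 1 = 0 ∧ ∃ m', IsMax n (Alt (natAdj G) rk k) m' ∧
      (∀ v < n, s'.a 40 v = m' v) ∧ s'.a 4 = s1.a 4 ∧ s'.a 5 = s1.a 5 ∧ s'.a 20 = rk ∧
      Clean (s'.a 1) ∧ encLen (s'.a 1) ≤ 2 * n + 2 + 2 * s1.a 4 n)
    (by
      rintro k s' _ hk ⟨g0, g1, m', gmax, g40, g4, g5, g20, gcl, gln⟩ hi hb
      obtain ⟨s6, t6, m'', e6, ht6, k0, k1, kk, kmax, k40, kcl, kln, kj⟩ :=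
        hB R cap n k (natAdj G) rk m' s' τ (by
          intro H L' hH hlen
          refine hR _ H L' hH ⟨rfl, ?_⟩
          rw [g4, hn, L'.upTo_length] at hlen
          omega) hG (by rw [g4, g5]; exact hC) g0 g1 hi (by rw [g20]; exact fun _ _ => rfl)
          (by
            intro u hu v hv h1 h2 h3 h4
            refine hRk.clique u hu v hv ?_ h3 ?_
            · show rk u = rk v
              rw [h1, h2]
            · show ConnLe (natAdj G) rk (rk u) u v
              rw [h1]; exact h4)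
          gmax g40 gcl (by rw [g4]; exact gln) (by rw [g4, hn]; (clear * - hcap2 r10 r20 r30 r40 g0; omega))
      have k6 : s6.r 6 = Λ := by rw [kk 6 (by simp), hb]
      have k31 : s6.r 31 = k := by rw [kk 31 (by simp), hi]
      refine ⟨_, _, .seq e6 (.blk _ _), ?_, ⟨?_, ?_, m'', kmax, ?_, ?_, ?_, ?_, ?_, ?_⟩, ?_, ?_⟩
      · rw [g4, hn] at ht6
        simp only [List.length_cons, List.length_nil, zero_add, add_le_add_iff_right]
        omega
      · simp [run, B.step, k0]
      · simp [run, B.step, k1]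
      · intro v hv
        simp [run, B.step, k40 v hv]
      · simp [run, B.step, kj 4 (by simp), g4]
      · simp [run, B.step, kj 5 (by simp), g5]
      · simp [run, B.step, kj 20 (by simp), g20]
      · simp [run, B.step, kcl]
      · rw [g4] at kln
        simpa only [run, B.step] using kln
      · simp [run, B.step, k31]
      · simp [run, B.step, k6])
    s4 (by omega) ⟨r40, r41, fun v => v, isMax_zero, a440, q4, q5, q20, by
      rw [q1]; intro i _; rfl, by rw [q1]; simp only [encLen, zero_add, add_zero]; (clear * - r10 hn r20 r30 r40; omega)⟩ r431 (by rw [r46, r36])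
  obtain ⟨s6, t6, e6, ht6, a63⟩ := cOut_spec (R := R) (cap := cap) s5 b0
  have hAlt : ∀ u v, Alt (natAdj G) rk Λ u v ↔ natAdj G u v := by
    intro u v
    constructor
    · exact fun h => h.1
    · intro h
      exact ⟨h, hRk.lt u (hG.lt h), hRk.lt v (hG.lt' h)⟩
  have hAlt' : Alt (natAdj G) rk Λ = natAdj G := by
    funext u v
    exact propext (hAlt u v)
  rw [hAlt'] at bmax
  obtain ⟨M, hM, hrep⟩ := maximum_of_isMax (f := s6.a 3) bmax (by
    intro v hv
    rw [a63 v hv, b40 v hv])
  refine ⟨_, s6, M, .seq e1 (.seq e2 (.seq e3 (.seq e4 (.seq e5 e6)))), ?_, hM, hrep⟩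
  -- the time
  have hΛ1 : 1 ≤ Λ := by (clear batchC K hB G hch L R cap τ m hcap2 hR hm hcap1 hΛ hG hinit hoffn s1 t1 e1 ht1 r10 r11 o1 a1 j1 hn hC s2 t2 e2 ht2 r20 r21 hP hv1 hv2 j2 hC2 t3 e3 ht3 r30 r31 j3 t4 e4 ht4 r40 r41 r431 a440 j4 q4 q5 q1 rk hRk q20 hrk c1 hc1 t5 e5 ht5 b0 b1 bm bmax b40 b4 b5 b20 bcl bln s6 t6 e6 ht6 a63 hAlt hAlt' M hM hrep; omega)
  set X := Λ * (n + m + 1) with hX
  have x1 : n + m + 1 ≤ X := Nat.le_mul_of_pos_left _ (by (clear batchC K hB G hch L R cap τ m hcap2 hR hm hcap1 hΛ hG hinit hoffn s1 t1 e1 ht1 r10 r11 o1 a1 j1 hn hC s2 t2 e2 ht2 r20 r21 hP hv1 hv2 j2 hC2 t3 e3 ht3 r30 r31 j3 t4 e4 ht4 r40 r41 r431 a440 j4 q4 q5 q1 rk hRk q20 hrk c1 hc1 t5 e5 ht5 b0 b1 bm bmax b40 b4 b5 b20 bcl bln s6 t6 e6 ht6 a63 hAlt hAlt' M hM hrep hΛ1 X hX; omega))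
  have x2 : X ≤ Λ * X := Nat.le_mul_of_pos_left _ (by omega)
  have x3 : (n + 2 * m + 1) * Λ ≤ 2 * X := by
    rw [hX]
    calc (n + 2 * m + 1) * Λ ≤ (2 * (n + m + 1)) * Λ := Nat.mul_le_mul_right _ (by (clear * - r10 r20 r30 r40 b0; omega))
      _ = 2 * (Λ * (n + m + 1)) := by ring
  have x4 : c1 ≤ 2 * K * X := by
    rw [hc1, hX]
    calc K * (Λ * (n + 2 * m + 1)) ≤ K * (Λ * (2 * (n + m + 1))) :=
          Nat.mul_le_mul_left _ (Nat.mul_le_mul_left _ (by (clear * - r10 r20 r30 r40 b0; (clear * - r10 r20 r30 r40 b0; omega))))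
      _ = 2 * K * (Λ * (n + m + 1)) := by ring
  have x5 : (τ + c1 + 1 + 1) * (Λ - 0) ≤ Λ * τ + 2 * K * (Λ * X) + 2 * (Λ * X) := by
    rw [Nat.sub_zero]
    have y1 : c1 * Λ ≤ 2 * K * X * Λ := Nat.mul_le_mul_right _ x4
    have y2 : (τ + c1 + 1 + 1) * Λ = Λ * τ + c1 * Λ + 2 * Λ := by ring
    have y3 : 2 * K * X * Λ = 2 * K * (Λ * X) := by ring
    have y4 : Λ ≤ Λ * X := Nat.le_mul_of_pos_right _ (by (clear * - r10 ht2 r20 r30 r40 b0 x1; omega))
    (clear batchC hB hch R hcap2 hR hm hcap1 hΛ hG hinit hoffn e1 ht1 r11 o1 a1 j1 hn hC e2 r21 hP hv1 hv2 j2 hC2 e3 ht3 r31 j3 e4 ht4 r41 r431 a440 j4 q4 q5 q1 rk hRk q20 hrk e5 ht5 b1 bm bmax b40 b4 b5 b20 bcl bln s6 e6 ht6 a63 hAlt hAlt' M hM hrep hΛ1 x2 x3; omega)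
  have x6 : (2 * K + 400) * (Λ * X) = 2 * K * (Λ * X) + 400 * (Λ * X) := by ring
  rw [x6]
  (clear * - ht1 r10 ht2 r20 ht3 r30 ht4 r40 ht5 b0 ht6 x1 x2 x3 x5 x6; omega)

/-- Maximum matching on chordal graphs reduces to maximum matching on bipartite graphs. -/
theorem chordal_of_batch {batchC : Cmd} (hok : batchC.ok 64 4) {K : ℕ} (hB : BatchSpec batchC K)
    (T : ℕ → ℕ → ℕ) (hT : ∀ n n' m m', n ≤ n' → m ≤ m' → T n m ≤ T n' m')
    (hP : ∃ P, Solves P (fun _ G => G.IsBipartite) (fun n G => T n G.edgeSet.ncard)) :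
    ∃ P C, Solves P (fun _ G => IsChordal G) (fun n G =>
      C * ((Nat.log 2 n + 1) * (T (2 * n) (2 * G.edgeSet.ncard) +
        (Nat.log 2 n + 1) * (n + G.edgeSet.ncard + 1)))) := by
  obtain ⟨P, hP⟩ := hP
  obtain ⟨k0, hk0⟩ : ∃ k0, 2 * K + 400 ≤ 2 ^ k0 := ⟨2 * K + 400, Nat.lt_two_pow_self.le⟩
  have hlog : ∀ n m, Nat.log 2 n + 1 ≤ n + m + 2 := by
    intro n m
    have := Nat.log_le_self 2 n
    omega
  have hpow : ∀ n m, (2 * K + 400) * (n + m + 2) ^ 3 ≤ (n + m + 2) ^ (k0 + 3) := by
    intro n m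
    rw [pow_add]
    apply Nat.mul_le_mul_right
    exact hk0.trans (Nat.pow_le_pow_left (by omega) k0)
  have hA : ∀ n m, (2 * K + 400) * ((Nat.log 2 n + 1) * ((Nat.log 2 n + 1) * (n + m + 1))) ≤
      (n + m + 2) ^ (k0 + 3) := by
    intro n m
    refine le_trans (Nat.mul_le_mul_left _ ?_) (hpow n m)
    calc (Nat.log 2 n + 1) * ((Nat.log 2 n + 1) * (n + m + 1)) ≤
        (n + m + 2) * ((n + m + 2) * (n + m + 2)) :=
          Nat.mul_le_mul (hlog n m) (Nat.mul_le_mul (hlog n m) (by omega))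
      _ = (n + m + 2) ^ 3 := by ring
  obtain ⟨P', C, k, hk⟩ := solves_of_L1 (CG := fun _ G => IsChordal G) hP (K := 64) (by decide)
    (chordalC batchC) (cst := 4) (chordalC_ok hok) (k0 + 3) 2
    (fun n G n' H => n' = 2 * n ∧ H.edgeSet.ncard ≤ 2 * G.edgeSet.ncard)
    (fun n G => T (2 * n) (2 * G.edgeSet.ncard))
    (fun n G => (2 * K + 400) * ((Nat.log 2 n + 1) *
      ((Nat.log 2 n + 1) * (n + G.edgeSet.ncard + 1))))
    (fun n _ => Nat.log 2 n + 1)
    (by
      rintro n G - n' H - ⟨h1, h2⟩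
      refine ⟨?_, ?_⟩
      · set N := n + G.edgeSet.ncard + 2 with hN
        have h4 : 2 * N ≤ N ^ 2 := by
          rw [pow_two]
          exact Nat.mul_le_mul_right _ (by (clear * - h1; omega))
        omega
      · exact hT _ _ _ _ h1.le h2)
    (by
      rintro n G -
      exact hA n _)
    (by
      rintro n G hch L R τ hR
      have h1 := hA n G.edgeSet.ncard
      have h2 : (n + 1) * (Nat.log 2 n + 1) + 2 * n ≤
          (2 * K + 400) * ((Nat.log 2 n + 1) *
            ((Nat.log 2 n + 1) * (n + G.edgeSet.ncard + 1))) := by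
        set Λ := Nat.log 2 n + 1 with hΛ
        have y1 : (n + 1) * Λ ≤ Λ * (Λ * (n + G.edgeSet.ncard + 1)) := by
          calc (n + 1) * Λ = Λ * (n + 1) := by ring
            _ ≤ Λ * (Λ * (n + G.edgeSet.ncard + 1)) := by
              apply Nat.mul_le_mul_left
              exact le_trans (by omega) (Nat.le_mul_of_pos_left _ (by omega))
        have y2 : n ≤ (n + 1) * Λ := le_trans (by omega) (Nat.le_mul_of_pos_right _ (by omega))
        calc (n + 1) * Λ + 2 * n ≤ 3 * (Λ * (Λ * (n + G.edgeSet.ncard + 1))) := by (clear * - y1 y2; omega)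
          _ ≤ (2 * K + 400) * (Λ * (Λ * (n + G.edgeSet.ncard + 1))) :=
            Nat.mul_le_mul_right _ (by (clear * -; omega))
      have h3 : 2 * n + 4 * G.edgeSet.ncard + 2 ≤
          (2 * K + 400) * ((Nat.log 2 n + 1) *
            ((Nat.log 2 n + 1) * (n + G.edgeSet.ncard + 1))) := by
        set Λ := Nat.log 2 n + 1 with hΛ
        have y1 : n + G.edgeSet.ncard + 1 ≤ Λ * (Λ * (n + G.edgeSet.ncard + 1)) :=
          le_trans (Nat.le_mul_of_pos_left _ (by omega)) (Nat.le_mul_of_pos_left _ (by omega))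
        calc 2 * n + 4 * G.edgeSet.ncard + 2 ≤
            4 * (Λ * (Λ * (n + G.edgeSet.ncard + 1))) := by (clear * - y1; omega)
          _ ≤ (2 * K + 400) * (Λ * (Λ * (n + G.edgeSet.ncard + 1))) :=
            Nat.mul_le_mul_right _ (by omega)
      exact chordal_run hB G hch L (h2.trans h1) (h3.trans h1) hR)
  refine ⟨P', (2 * K + 400) * C + 2 * C, k, fun n G hG L => ?_⟩
  obtain ⟨t, s, M, e, ht, hM, hr⟩ := hk n G hG L
  refine ⟨t, s, M, e, ht.trans ?_, hM, hr⟩
  beta_reduce
  set Λ := Nat.log 2 n + 1 with hΛ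
  set m := G.edgeSet.ncard with hm
  set Y := T (2 * n) (2 * m) with hY
  set X := Λ * (n + m + 1) with hX
  have y1 : n + m + 1 ≤ Λ * X :=
    le_trans (Nat.le_mul_of_pos_left _ (by omega)) (Nat.le_mul_of_pos_left _ (by omega))
  calc C * ((2 * K + 400) * (Λ * X) + Λ * Y + n + m + 1) ≤
      C * ((2 * K + 400) * (Λ * X) + Λ * Y + Λ * X) := Nat.mul_le_mul_left _ (by omega)
    _ ≤ C * ((2 * K + 400 + 2) * (Λ * Y + Λ * X)) := by
      apply Nat.mul_le_mul_left
      have z1 : (2 * K + 400 + 2) * (Λ * Y + Λ * X) =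
        (2 * K + 400) * (Λ * X) + (2 * K + 400) * (Λ * Y) + 2 * (Λ * Y) + 2 * (Λ * X) := by ring
      rw [z1]
      (clear * -; omega)
    _ = ((2 * K + 400) * C + 2 * C) * (Λ * (Y + X)) := by ring

theorem nlog_bound {δ : ℝ} (hδ : 0 < δ) :
    ∃ c : ℝ, 0 ≤ c ∧ ∀ N : ℕ, ((Nat.log 2 N : ℝ) + 1) ≤ c * ((N : ℝ) + 1) ^ δ := by
  have hl2 : 0 < Real.log 2 := Real.log_pos (by norm_num)
  refine ⟨1 / (δ * Real.log 2) + 1, by (clear * - hδ; positivity), fun N => ?_⟩
  have hN : (0 : ℝ) ≤ N := Nat.cast_nonneg N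
  have h1 : (Nat.log 2 N : ℝ) * Real.log 2 ≤ Real.log ((N : ℝ) + 1) := by
    rw [← Real.log_pow]
    apply Real.log_le_log (by positivity)
    have h2 : 2 ^ Nat.log 2 N ≤ N + 1 := by
      by_cases hN0 : N = 0
      · subst hN0; simp
      · exact (Nat.pow_log_le_self 2 hN0).trans (Nat.le_succ N)
    exact_mod_cast h2
  have h2 : Real.log ((N : ℝ) + 1) ≤ ((N : ℝ) + 1) ^ δ / δ :=
    Real.log_le_rpow_div (by linarith only []) hδ
  have h3 : (1 : ℝ) ≤ ((N : ℝ) + 1) ^ δ := Real.one_le_rpow (by linarith only []) hδ.le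
  have h4 : (Nat.log 2 N : ℝ) ≤ 1 / (δ * Real.log 2) * ((N : ℝ) + 1) ^ δ := by
    rw [div_mul_eq_mul_div, one_mul, le_div_iff₀ (by positivity)]
    have h5 : (Nat.log 2 N : ℝ) * Real.log 2 ≤ ((N : ℝ) + 1) ^ δ / δ := h1.trans h2
    rw [le_div_iff₀ hδ] at h5
    linarith only [h5]
  rw [add_mul, one_mul]
  linarith only [h3, h4]

/-- Almost-linear time on one class gives almost-linear time on the other, if there is a reduction
with logarithmically many calls. -/
theorem almostLinear_of_reduction {CH CG : ∀ n : ℕ, SimpleGraph (Fin n) → Prop}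
    (h : ∀ T : ℕ → ℕ → ℕ, (∀ n n' m m', n ≤ n' → m ≤ m' → T n m ≤ T n' m') →
      (∃ P, Solves P CH (fun n G => T n G.edgeSet.ncard)) →
      ∃ P C, Solves P CG (fun n G =>
      C * ((Nat.log 2 n + 1) * (T (2 * n) (2 * G.edgeSet.ncard) +
        (Nat.log 2 n + 1) * (n + G.edgeSet.ncard + 1))))) (hCH : AlmostLinear CH) :
    AlmostLinear CG := by
  obtain ⟨P, T, hP, hT⟩ := hCH
  -- a monotone majorant
  set Tb : ℕ → ℕ := fun N => (Finset.range (N + 1)).sup T with hTb
  have hle : ∀ N, T N ≤ Tb N := fun N =>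
    Finset.le_sup (f := T) (Finset.mem_range.2 (Nat.lt_succ_self N))
  have hmono : ∀ N N', N ≤ N' → Tb N ≤ Tb N' := by
    intro N N' hN
    apply Finset.sup_mono
    intro x hx
    rw [Finset.mem_range] at hx ⊢
    omega
  have hTb' : ∀ ε : ℝ, 0 < ε → ∃ c : ℝ, 0 ≤ c ∧ ∀ N : ℕ,
      (Tb N : ℝ) ≤ c * ((N : ℝ) + 1) ^ (1 + ε) := by
    intro ε hε
    obtain ⟨c, hc⟩ := hT ε hε
    have hc0 : 0 ≤ c := by
      have := hc 0
      simp only [Nat.cast_zero, zero_add, Real.one_rpow, mul_one] at this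
      exact (Nat.cast_nonneg _).trans this
    refine ⟨c, hc0, fun N => ?_⟩
    obtain ⟨k, hk, hk'⟩ : ∃ k ∈ Finset.range (N + 1), (Finset.range (N + 1)).sup T = T k :=
      Finset.exists_mem_eq_sup _ ⟨0, by simp only [Finset.mem_range, lt_add_iff_pos_left, Order.lt_add_one_iff, zero_le]⟩ T
    show (((Finset.range (N + 1)).sup T : ℕ) : ℝ) ≤ _
    rw [hk']
    refine (hc k).trans (mul_le_mul_of_nonneg_left ?_ hc0)
    apply Real.rpow_le_rpow (by (clear * -; positivity)) _ (by linarith only [hε])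
    rw [Finset.mem_range] at hk
    have : (k : ℝ) ≤ N := by exact_mod_cast (by omega : k ≤ N)
    linarith only [this]
  obtain ⟨P', C, hP'⟩ := h (fun n m => Tb (n + m))
    (fun n n' m m' h1 h2 => hmono _ _ (by omega))
    ⟨P, hP.mono (fun _ _ h => h) fun n G _ => hle _⟩
  refine ⟨P', fun N => C * ((Nat.log 2 N + 1) * (Tb (2 * N) + (Nat.log 2 N + 1) * (N + 1))),
    hP'.mono (fun _ _ h => h) ?_, ?_⟩
  · intro n G _
    beta_reduce
    have h1 : Nat.log 2 n ≤ Nat.log 2 (n + G.edgeSet.ncard) := Nat.log_mono_right (by omega)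
    apply Nat.mul_le_mul_left
    apply Nat.mul_le_mul (by omega)
    apply Nat.add_le_add
    · exact hmono _ _ (by omega)
    · exact Nat.mul_le_mul (by omega) le_rfl
  · intro ε hε
    obtain ⟨c1, hc1, h1⟩ := nlog_bound (δ := ε / 2) (by linarith only [hε])
    obtain ⟨c2, hc2, h2⟩ := hTb' (ε / 2) (by linarith only [hε])
    refine ⟨C * (c1 * (c2 * 2 ^ (1 + ε / 2)) + c1 * c1), fun N => ?_⟩
    have hN : (0 : ℝ) ≤ N := Nat.cast_nonneg N
    have hN1 : (0 : ℝ) < (N : ℝ) + 1 := by linarith only []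
    set x : ℝ := (N : ℝ) + 1 with hx
    have g1 := h1 N
    have g2 : (Tb (2 * N) : ℝ) ≤ c2 * 2 ^ (1 + ε / 2) * x ^ (1 + ε / 2) := by
      refine (h2 (2 * N)).trans ?_
      rw [mul_assoc, ← Real.mul_rpow (by norm_num) hN1.le]
      apply mul_le_mul_of_nonneg_left _ hc2
      apply Real.rpow_le_rpow (by (clear * -; (clear * -; positivity))) _ (by linarith only [hε])
      push_cast
      rw [hx]
      linarith only []
    have e1 : x ^ (ε / 2) * x ^ (1 + ε / 2) = x ^ (1 + ε) := by
      rw [← Real.rpow_add hN1]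
      congr 1
      ring
    have e2 : x ^ (ε / 2) * x = x ^ (1 + ε / 2) := by
      conv_lhs => rw [← Real.rpow_one x]
      rw [Real.rpow_one, ← Real.rpow_add_one hN1.ne']
      congr 1
      ring
    push_cast
    rw [mul_assoc]
    apply mul_le_mul_of_nonneg_left _ (Nat.cast_nonneg _)
    have p1 : (0 : ℝ) ≤ x ^ (ε / 2) := Real.rpow_nonneg hN1.le _
    have p2 : (0 : ℝ) ≤ x ^ (1 + ε / 2) := Real.rpow_nonneg hN1.le _
    have q1 : ((Nat.log 2 N : ℝ) + 1) * (Tb (2 * N) : ℝ) ≤
        c1 * (c2 * 2 ^ (1 + ε / 2)) * x ^ (1 + ε) := by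
      calc ((Nat.log 2 N : ℝ) + 1) * (Tb (2 * N) : ℝ) ≤
          (c1 * x ^ (ε / 2)) * (c2 * 2 ^ (1 + ε / 2) * x ^ (1 + ε / 2)) :=
            mul_le_mul g1 g2 (Nat.cast_nonneg _) (by (clear * - hc1; (clear * - hc1; positivity)))
        _ = c1 * (c2 * 2 ^ (1 + ε / 2)) * (x ^ (ε / 2) * x ^ (1 + ε / 2)) := by ring
        _ = _ := by rw [e1]
    have q2 : ((Nat.log 2 N : ℝ) + 1) * (((Nat.log 2 N : ℝ) + 1) * x) ≤
        c1 * c1 * x ^ (1 + ε) := by
      calc ((Nat.log 2 N : ℝ) + 1) * (((Nat.log 2 N : ℝ) + 1) * x) ≤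
          (c1 * x ^ (ε / 2)) * ((c1 * x ^ (ε / 2)) * x) := by
            apply mul_le_mul g1 _ (by (clear * -; (clear * -; positivity))) (by (clear * - hc1; positivity))
            exact mul_le_mul_of_nonneg_right g1 hN1.le
        _ = c1 * c1 * (x ^ (ε / 2) * (x ^ (ε / 2) * x)) := by ring
        _ = _ := by rw [e2, e1]
    calc ((Nat.log 2 N : ℝ) + 1) * ((Tb (2 * N) : ℝ) + ((Nat.log 2 N : ℝ) + 1) * x) =
        ((Nat.log 2 N : ℝ) + 1) * (Tb (2 * N) : ℝ) +
        ((Nat.log 2 N : ℝ) + 1) * (((Nat.log 2 N : ℝ) + 1) * x) := by ring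
      _ ≤ _ := by
        rw [add_mul]
        linarith only [q1, q2]

end Vale.Agent.P305
end
end

section

section

/-! The batch step on the L1 machine: rematching the blossoms (arrays 41 = matching of the
bipartite graph, 42 = new matching, 46 = bases plus one, 47 = kinds). -/

set_option autoImplicit false
set_option linter.unusedSimpArgs false
set_option linter.unusedVariables false

namespace Vale.Agent.P305

open Function (update)
open L1

variable {R : List ℕ → (ℕ → ℕ) → ℕ → Prop} {cap : ℕ}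

/-- Scan of the neighbours of vertex 33 (positions 38 to 39) for one with base plus one = 37;
result in register 50. -/
def scanBody : Cmd :=
  .seq (.blk [.load 5 35 38, .load 46 34 35])
  (.seq (.ite (.eq 34 37) (.blk [.copy 50 35]) (.blk [])) (.blk [.inc 38]))

theorem scan_spec (s : St) {p0 e bb : ℕ} (h38 : s.r 38 = p0) (h39 : s.r 39 = e) (hpe : p0 ≤ e)
    (h37 : s.r 37 = bb) (hex : ∃ p, p0 ≤ p ∧ p < e ∧ s.a 46 (s.a 5 p) = bb) :
    ∃ s' t, Ex R cap (.loop (.lt 38 39) scanBody) s t s' ∧ t ≤ 6 * (e - p0) + 1 ∧ s'.a = s.a ∧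
      (∀ k, k ∉ [34, 35, 38, 50] → s'.r k = s.r k) ∧
      ∃ p, p0 ≤ p ∧ p < e ∧ s.a 5 p = s'.r 50 ∧ s.a 46 (s'.r 50) = bb := by
  obtain ⟨s', t, ex, ⟨harr, hreg, hp1, hp2, hI⟩, hc, ht⟩ := loop_rule (R := R) (cap := cap)
    (c := .lt 38 39) (p := scanBody)
    (fun s' => s'.a = s.a ∧ (∀ k, k ∉ [34, 35, 38, 50] → s'.r k = s.r k) ∧ p0 ≤ s'.r 38 ∧
      s'.r 38 ≤ e ∧ ((∃ p, p0 ≤ p ∧ p < s'.r 38 ∧ s.a 46 (s.a 5 p) = bb) →
        ∃ p, p0 ≤ p ∧ p < e ∧ s.a 5 p = s'.r 50 ∧ s.a 46 (s'.r 50) = bb))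
    (fun s' => 6 * (e - s'.r 38))
    (by
      rintro s' ⟨harr, hreg, hp1, hp2, hI⟩ hc
      simp only [Test.holds] at hc
      have g39 : s'.r 39 = e := by rw [hreg 39 (by decide)]; exact h39
      have g37 : s'.r 37 = bb := by rw [hreg 37 (by decide)]; exact h37
      rw [g39] at hc
      have e1 := Ex.blk (R := R) (cap := cap) [.load 5 35 38, .load 46 34 35] s'
      obtain ⟨s1, hs1⟩ : ∃ s1, s1 = run [.load 5 35 38, .load 46 34 35] s' := ⟨_, rfl⟩
      rw [← hs1] at e1
      have A1 : s1.r 35 = s.a 5 (s'.r 38) ∧ s1.r 34 = s.a 46 (s.a 5 (s'.r 38)) ∧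
          (∀ k, k ∉ [34, 35] → s1.r k = s'.r k) ∧ s1.a = s.a := by
        subst hs1
        simp only [run_cons, B.step, harr, Function.update_self, run_nil, ne_eq, Nat.succ_ne_self, not_false_eq_true, Function.update_of_ne, List.mem_cons, List.not_mem_nil, or_false, not_or, and_imp, and_true, true_and]
        intro k k1 k2; simp [k1, k2]
      obtain ⟨a35, a34, areg, aarr⟩ := A1
      by_cases hbb : s.a 46 (s.a 5 (s'.r 38)) = bb
      · refine ⟨_, _, .seq e1 (.seq (.iteTrue ?_ (Ex.blk _ _)) (Ex.blk _ _)),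
          ⟨?_, ?_, ?_, ?_, ?_⟩, ?_⟩
        · simp only [Test.holds, a34, areg 37 (by decide), g37]; exact hbb
        · simp only [run_cons, B.step, aarr, run_nil, ne_eq, Nat.reduceEqDiff, not_false_eq_true, Function.update_of_ne]
        · intro k hk
          simp only [List.mem_cons, List.not_mem_nil, or_false, not_or] at hk
          simp only [run_cons, B.step, run_nil, ne_eq, Nat.reduceEqDiff, not_false_eq_true, Function.update_of_ne, hk, areg k (by simp [hk]), hreg k (by simp [hk])]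
        · simp only [run_cons, B.step, run_nil, ne_eq, Nat.reduceEqDiff, not_false_eq_true, Function.update_of_ne, areg 38 (by decide), Function.update_self]; omega
        · simp only [run_cons, B.step, run_nil, ne_eq, Nat.reduceEqDiff, not_false_eq_true, Function.update_of_ne, areg 38 (by decide), Function.update_self, Order.add_one_le_iff]; omega
        · intro _
          refine ⟨s'.r 38, hp1, hc, ?_, ?_⟩
          · simp [run_cons, run_nil, B.step, a35]
          · simp [run_cons, run_nil, B.step, a35, hbb]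
        · simp only [List.length_cons, List.length_nil, zero_add, Nat.reduceAdd, run_cons, B.step, run_nil, ne_eq, Nat.reduceEqDiff, not_false_eq_true, Function.update_of_ne, areg 38 (by decide), Function.update_self]; (clear * - hex hc g39; omega)
      · refine ⟨_, _, .seq e1 (.seq (.iteFalse ?_ (Ex.blk _ _)) (Ex.blk _ _)),
          ⟨?_, ?_, ?_, ?_, ?_⟩, ?_⟩
        · simp only [Test.holds, a34, areg 37 (by decide), g37]; exact hbb
        · simp [run_cons, run_nil, B.step, aarr]
        · intro k hk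
          simp only [List.mem_cons, List.not_mem_nil, or_false, not_or] at hk
          simp [run_cons, run_nil, B.step, hk, areg k (by simp [hk]), hreg k (by simp [hk])]
        · simp only [run_nil, run_cons, B.step, areg 38 (by decide), Function.update_self]; omega
        · simp [run_cons, run_nil, B.step, areg 38 (by decide)]; omega
        · simp only [run_cons, run_nil, B.step]
          simp only [areg 38 (by decide), Function.update_self, Order.lt_add_one_iff, ne_eq, Nat.reduceEqDiff, not_false_eq_true, Function.update_of_ne, areg 50 (by decide), forall_exists_index, and_imp]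
          intro p q1 q2 q3
          apply hI
          by_cases hp : p = s'.r 38
          · subst hp; exact absurd q3 hbb
          · exact ⟨p, q1, by omega, q3⟩
        · simp only [List.length_cons, List.length_nil, zero_add, Nat.reduceAdd, run_nil, run_cons, B.step, areg 38 (by decide), Function.update_self]; (clear * - hex hc g39; (clear * - hex hc g39; omega)))
    s (by
      refine ⟨rfl, fun _ _ => rfl, by omega, by omega, ?_⟩
      rintro ⟨p, q1, q2, _⟩; omega)
  simp only [Test.holds] at hc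
  rw [hreg 39 (by decide), h39] at hc
  refine ⟨s', t, ex, ?_, harr, hreg, hI ?_⟩
  · rw [h38] at ht; omega
  · obtain ⟨p, q1, q2, q3⟩ := hex
    exact ⟨p, q1, by omega, q3⟩

def applyBody : Cmd :=
  .seq (.blk [.load 47 34 33, .load 41 35 33])
  (.seq (.ite (.eq 34 1) (.blk [])
      (.ite (.eq 35 33) (.blk [])
        (.seq (.blk [.sub 36 35 0, .copy 37 36, .inc 37, .load 4 38 33, .copy 39 33, .inc 39,
          .load 4 39 39])
        (.seq (.loop (.lt 38 39) scanBody)
        (.seq (.blk [.copy 92 50, .copy 93 36])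
        (.seq flipC (.blk [.store 42 33 50, .store 42 50 33])))))))
    (.blk [.inc 33]))

def applyC : Cmd := .seq (.blk [.const 33 0]) (.loop (.lt 33 0) applyBody)

def applyRegs : List ℕ := [33, 34, 35, 36, 37, 38, 39, 50, 92, 93, 94, 95, 96, 97, 98]

/-- Vertices of the blossoms that have been rematched. -/
def touched (n : ℕ) (β : BS) (g : ℕ → ℕ) (k v : ℕ) : Prop :=
  β.Out v ∧ g (n + β.base v) ≠ n + β.base v ∧ g (n + β.base v) < k

/-- State of the rematching loop. -/
structure BPart (n : ℕ) (A0 : ℕ → ℕ → Prop) (rk : ℕ → ℕ) (r : ℕ) (β : BS)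
    (kd : ℕ → ℕ) (g f0 f : ℕ → ℕ) (k : ℕ) : Prop where
  hit : ∀ x < k, kd x ≠ 0 → g x ≠ x → ∃ y, g x = n + β.base y ∧ β.Out y ∧ A0 x y ∧ f x = y ∧
    f y = x ∧ ReCls (Alt A0 rk r) β (β.base y) y f
  rest : ∀ v, ¬ (v < k ∧ kd v ≠ 0 ∧ g v ≠ v) → ¬ touched n β g k v → f v = f0 v

/-- The matching before the rematching phase: inner vertices and bases are exposed. -/
structure F0ok (n : ℕ) (m : ℕ → ℕ) (β : BS) (kd f0 : ℕ → ℕ) : Prop where
  ex : ∀ v < n, (kd v = 2 ∨ (β.Out v ∧ β.base v = v)) → f0 v = v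
  ma : ∀ v < n, ¬ (kd v = 2 ∨ (β.Out v ∧ β.base v = v)) → f0 v = m v
  out : ∀ v, n ≤ v → f0 v = v

theorem BPart.res {n : ℕ} {A0 : ℕ → ℕ → Prop} {rk : ℕ → ℕ} {r : ℕ} {m : ℕ → ℕ} {β : BS}
    {kd bs g f0 f : ℕ → ℕ} (h : BSit n A0 rk r m β kd bs) (hg : Mat (HB n A0 kd bs) g)
    (hf0 : F0ok n m β kd f0)
    (hp : BPart n A0 rk r β kd g f0 f n) : BRes n A0 rk r m β kd g f := by
  have hkout : ∀ v, β.Out v → ¬ (v < n ∧ kd v ≠ 0 ∧ g v ≠ v) := by
    rintro v hv ⟨_, h2, _⟩
    exact h2 (h.out_kd hv)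
  refine ⟨hp.hit, ?_, ?_, ?_, ?_⟩
  · intro x hx hk hgx
    have hno : ¬ β.Out x := fun ho => hk (h.out_kd ho)
    rw [hp.rest x (fun h' => h'.2.2 hgx) (fun h' => hno h'.1)]
    by_cases h2 : kd x = 2
    · exact hf0.ex x hx (Or.inl h2)
    · rw [hf0.ma x hx (by rintro (h' | h'); exacts [h2 h', hno h'.1])]
      have h1 : rk x = r := by
        rcases h.kind.kd0 x hx with h3 | h3 | h3
        · exact absurd h3 hk
        · exact (h.kind.kd1 x hx).1 h3
        · exact absurd h3 h2
      by_contra hm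
      have := (h.mat.adj x hm).2.1
      omega
  · intro b hb hbb hgb
    have hbn := (h.out_lt hb).1
    rw [hp.rest b (hkout b hb) (fun h' => h'.2.1 (by rw [hbb]; exact hgb)),
      hf0.ex b hbn (Or.inr ⟨hb, hbb⟩)]
  · intro w hw hbw hgb
    have hwn := (h.out_lt hw).1
    rw [hp.rest w (hkout w hw) (fun h' => h'.2.1 hgb)]
    refine hf0.ma w hwn ?_
    rintro (h' | h')
    · have := h.out_kd hw; omega
    · exact hbw h'.2
  · intro v hk hno
    rw [hp.rest v (fun h' => h'.2.1 (hk h'.1)) (fun h' => hno h'.1)]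
    by_cases hvn : v < n
    · refine hf0.ma v hvn ?_
      rintro (h' | h')
      · have := hk hvn; omega
      · exact hno h'.1
    · rw [hf0.out v (by omega)]
      have : ¬ (m v ≠ v) := fun hm => hvn (h.G0.lt (h.mat.adj v hm).1)
      push Not at this
      exact this.symm

/-- One rematching step. -/
theorem BPart.step {n : ℕ} {A0 : ℕ → ℕ → Prop} {rk : ℕ → ℕ} {r : ℕ} {m : ℕ → ℕ} {β : BS}
    {kd bs g f0 f : ℕ → ℕ} (h : BSit n A0 rk r m β kd bs) (hg : Mat (HB n A0 kd bs) g)
    {x y : ℕ} (hx : x < n) (hkx : kd x ≠ 0) (hgx : g x = n + β.base y) (hy : β.Out y)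
    (hxy : A0 x y) (hp : BPart n A0 rk r β kd g f0 f x) {f1 f2 : ℕ → ℕ} {E : List (ℕ × ℕ)}
    (hW : Wrn f f1 E) (hE : ∀ w ∈ ends E, β.Out w ∧ β.base w = β.base y)
    (hR : ReCls (Alt A0 rk r) β (β.base y) y f1)
    (hf2 : ∀ v, f2 v = if v = y then x else if v = x then y else f1 v) :
    BPart n A0 rk r β kd g f0 f2 (x + 1) := by
  have hxo : ¬ β.Out x := fun ho => hkx (h.out_kd ho)
  have hxy' : x ≠ y := fun e => hxo (e ▸ hy)
  have hgb : g (n + β.base y) = x := by rw [← hgx, hg.inv]
  -- vertices outside the blossom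
  have hout : ∀ v, ¬ (β.Out v ∧ β.base v = β.base y) → v ≠ x → f2 v = f v := by
    intro v hv hvx
    have hvy : v ≠ y := fun e => hv (by rw [e]; exact ⟨hy, rfl⟩)
    rw [hf2, if_neg hvy, if_neg hvx]
    exact hW.out v (fun h' => hv (hE v h'))
  constructor
  · intro x' hx' hk' hg'
    by_cases hxx : x' = x
    · subst hxx
      refine ⟨y, hgx, hy, hxy, ?_, ?_, ⟨?_⟩⟩
      · rw [hf2, if_neg hxy', if_pos rfl]
      · rw [hf2, if_pos rfl]
      · intro w hw hbw hwy
        have hc := hR.cls w hw hbw hwy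
        have hwx : w ≠ x' := fun e => hxo (e ▸ hw)
        have hfx : f1 w ≠ x' := fun e => hxo (e ▸ hc.1)
        have e1 : f2 w = f1 w := by rw [hf2, if_neg hwy, if_neg hwx]
        have e2 : f2 (f1 w) = w := by rw [hf2, if_neg hc.2.2.1, if_neg hfx, hc.2.2.2.1]
        rw [e1, e2]
        exact ⟨hc.1, hc.2.1, hc.2.2.1, rfl, hc.2.2.2.2⟩
    · obtain ⟨y', a1, a2, a3, a4, a5, a6⟩ := hp.hit x' (by omega) hk' hg'
      have hbne : β.base y' ≠ β.base y := by
        intro e
        rw [e] at a1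
        have : g (g x') = g (n + β.base y) := by rw [a1]
        rw [hg.inv, hgb] at this
        exact hxx this
      have hyy : ¬ (β.Out y' ∧ β.base y' = β.base y) := fun h' => hbne h'.2
      have hx'o : ¬ β.Out x' := fun ho => hk' (h.out_kd ho)
      have hy'x : y' ≠ x := fun e => hxo (e ▸ a2)
      refine ⟨y', a1, a2, a3, ?_, ?_, ⟨?_⟩⟩
      · rw [hout x' (fun h' => hx'o h'.1) hxx]; exact a4
      · rw [hout y' hyy hy'x]; exact a5
      · intro w hw hbw hwy
        have hc := a6.cls w hw hbw hwy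
        have hwx : w ≠ x := fun e => hxo (e ▸ hw)
        have hfx : f w ≠ x := fun e => hxo (e ▸ hc.1)
        have e1 : f2 w = f w := hout w (fun h' => hbne (hbw ▸ h'.2)) hwx
        have e2 : f2 (f w) = w := by
          rw [hout (f w) (fun h' => hbne (hc.2.1 ▸ h'.2)) hfx, hc.2.2.2.1]
        rw [e1, e2]
        exact ⟨hc.1, hc.2.1, hc.2.2.1, rfl, hc.2.2.2.2⟩
  · intro v h1 h2
    have hvx : v ≠ x := by
      intro e
      subst e
      exact h1 ⟨by omega, hkx, fun h' => by
        have := (h.out_lt (Or.inl (h.inv.blab y hy).1)).1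
        omega⟩
    have hv : ¬ (β.Out v ∧ β.base v = β.base y) := by
      rintro ⟨b1, b2⟩
      apply h2
      refine ⟨b1, ?_, ?_⟩
      · rw [b2, hgb]; omega
      · rw [b2, hgb]; omega
    rw [hout v hv hvx]
    refine hp.rest v (fun h' => h1 ⟨by omega, h'.2⟩) (fun h' => h2 ⟨h'.1, h'.2.1, by
      have := h'.2.2; omega⟩)

theorem touched_card {n : ℕ} {A0 : ℕ → ℕ → Prop} {rk : ℕ → ℕ} {r : ℕ} {m : ℕ → ℕ} {β : BS}
    {kd bs g : ℕ → ℕ} (h : BSit n A0 rk r m β kd bs) {x y : ℕ}
    (hgb : g (n + β.base y) = x) (hx : x < n) {L : List ℕ} (hnd : L.Nodup)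
    (hL : ∀ w ∈ L, β.Out w ∧ β.base w = β.base y) (Z : ℕ → Finset ℕ)
    (hZ : ∀ k v, v ∈ Z k ↔ v < n ∧ touched n β g k v) :
    (Z x).card + L.length ≤ (Z (x + 1)).card := by
  classical
  have h1 : Disjoint (Z x) L.toFinset := by
    rw [Finset.disjoint_left]
    intro v hv hv'
    rw [hZ] at hv
    rw [List.mem_toFinset] at hv'
    have h2 := (hL v hv').2
    have h3 := hv.2.2.2
    rw [h2, hgb] at h3
    omega
  rw [← List.toFinset_card_of_nodup hnd, ← Finset.card_union_of_disjoint h1]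
  apply Finset.card_le_card
  intro v hv
  rw [hZ]
  rcases Finset.mem_union.1 hv with hv | hv
  · rw [hZ] at hv
    exact ⟨hv.1, hv.2.1, hv.2.2.1, by have := hv.2.2.2; omega⟩
  · rw [List.mem_toFinset] at hv
    obtain ⟨h2, h3⟩ := hL v hv
    refine ⟨(h.out_lt h2).1, h2, ?_, ?_⟩
    · rw [h3, hgb]; omega
    · rw [h3, hgb]; omega

theorem applyC_spec {n : ℕ} {A0 : ℕ → ℕ → Prop} {rk : ℕ → ℕ} {r : ℕ} {m : ℕ → ℕ} {β : BS}
    {kd bs g f0 : ℕ → ℕ} (s : St) (h : BSit n A0 rk r m β kd bs) (hg : Mat (HB n A0 kd bs) g)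
    (hcsr : CSR n A0 (s.a 4) (s.a 5)) (hR : Rep n m s β) (h0 : s.r 0 = n) (h1 : s.r 1 = 0)
    (h41 : ∀ v < 2 * n, s.a 41 v = g v) (h46 : ∀ v < n, s.a 46 v = bs v)
    (h47 : ∀ v < n, s.a 47 v = kd v)
    (hf0 : F0ok n m β kd f0) (h42 : ∀ v < n, s.a 42 v = f0 v) :
    ∃ s' t f, Ex R cap applyC s t s' ∧ t ≤ 60 * n + 10 * s.a 4 n + 10 ∧
      BRes n A0 rk r m β kd g f ∧ (∀ v < n, s'.a 42 v = f v) ∧
      (∀ k, k ∉ applyRegs → s'.r k = s.r k) ∧ (∀ j, j ∉ [42, 43, 44] → s'.a j = s.a j) := by
  classical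
  have hs : ∀ {u v}, Alt A0 rk r u v → Alt A0 rk r v u := fun h' => (Alt.gr h.G0).symm h'
  obtain ⟨Z, hZdef⟩ : ∃ Z : ℕ → Finset ℕ, Z = fun k =>
    (Finset.range n).filter (fun v => touched n β g k v) := ⟨_, rfl⟩
  have hZ : ∀ k v, v ∈ Z k ↔ v < n ∧ touched n β g k v := by
    intro k v; rw [hZdef]; simp only [Finset.mem_filter, Finset.mem_range]
  have hZn : ∀ k, (Z k).card ≤ n := by
    intro k
    have : Z k ⊆ Finset.range n := fun v hv => Finset.mem_range.2 ((hZ k v).1 hv).1
    simpa only [ge_iff_le, Finset.card_range] using Finset.card_le_card this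
  have hZmono : ∀ k, (Z k).card ≤ (Z (k + 1)).card := by
    intro k
    apply Finset.card_le_card
    intro v hv
    rw [hZ] at hv ⊢
    exact ⟨hv.1, hv.2.1, hv.2.2.1, by have := hv.2.2.2; omega⟩
  have e0 := Ex.blk (R := R) (cap := cap) [.const 33 0] s
  obtain ⟨s1, hs1⟩ : ∃ s1, s1 = run [.const 33 0] s := ⟨_, rfl⟩
  rw [← hs1] at e0
  have A1 : s1.r 33 = 0 ∧ (∀ k, k ∉ [33] → s1.r k = s.r k) ∧ s1.a = s.a := by
    subst hs1
    simp only [run_cons, B.step, run_nil, Function.update_self, List.mem_cons, List.not_mem_nil, or_false, and_true, true_and]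
    intro k k1; simp [k1]
  obtain ⟨a33, areg, aarr⟩ := A1
  obtain ⟨s2, t2, e2, ⟨hreg, harr, hle, f, hfa, hpart, hτ⟩, hc⟩ :=
    loop_rule_t (R := R) (cap := cap) (c := .lt 33 0) (p := applyBody)
    (fun τ s' => (∀ k, k ∉ applyRegs → s'.r k = s.r k) ∧ (∀ j, j ∉ [42, 43, 44] → s'.a j = s.a j) ∧
      s'.r 33 ≤ n ∧ ∃ f, (∀ v < n, s'.a 42 v = f v) ∧
        BPart n A0 rk r β kd g f0 f (s'.r 33) ∧
        τ ≤ 20 * (Z (s'.r 33)).card + 35 * s'.r 33 + 6 * s.a 4 (s'.r 33))
    (fun s' => n - s'.r 33)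
    (by
      rintro τ s' ⟨hreg, harr, hle, f, hfa, hpart, hτ⟩ hc
      simp only [Test.holds] at hc
      have g0 : s'.r 0 = n := by rw [hreg 0 (by decide)]; exact h0
      have g1 : s'.r 1 = 0 := by rw [hreg 1 (by decide)]; exact h1
      rw [g0] at hc
      obtain ⟨x, hx⟩ : ∃ x, x = s'.r 33 := ⟨_, rfl⟩
      rw [← hx] at hc hle hpart hτ
      have g47 : s'.a 47 x = kd x := by rw [harr 47 (by decide)]; exact h47 x hc
      have g41 : s'.a 41 x = g x := by rw [harr 41 (by decide)]; exact h41 x (by (clear * - g0 hc hx; omega))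
      have g4 : s'.a 4 = s.a 4 := harr 4 (by decide)
      have g5 : s'.a 5 = s.a 5 := harr 5 (by decide)
      have g46 : s'.a 46 = s.a 46 := harr 46 (by decide)
      have hmono := hcsr.mono x hc
      have e1 := Ex.blk (R := R) (cap := cap) [.load 47 34 33, .load 41 35 33] s'
      obtain ⟨u1, hu1⟩ : ∃ u1, u1 = run [.load 47 34 33, .load 41 35 33] s' := ⟨_, rfl⟩
      rw [← hu1] at e1
      have B1 : u1.r 34 = kd x ∧ u1.r 35 = g x ∧ (∀ k, k ∉ [34, 35] → u1.r k = s'.r k) ∧
          u1.a = s'.a := by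
        subst hu1
        simp only [run_cons, B.step, ← hx, g47, ne_eq, Nat.reduceEqDiff, not_false_eq_true, Function.update_of_ne, g41, run_nil, Function.update_self, List.mem_cons, List.not_mem_nil, or_false, not_or, and_imp, and_true, true_and]
        intro k k1 k2; simp [k1, k2]
      obtain ⟨b34, b35, breg, barr⟩ := B1
      -- nothing happens for x
      have skip : ¬ (kd x ≠ 0 ∧ g x ≠ x) → ∀ u2 t', Ex R cap (.ite (.eq 34 1) (.blk [])
          (.ite (.eq 35 33) (.blk [])
        (.seq (.blk [.sub 36 35 0, .copy 37 36, .inc 37, .load 4 38 33, .copy 39 33, .inc 39,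
          .load 4 39 39])
        (.seq (.loop (.lt 38 39) scanBody)
        (.seq (.blk [.copy 92 50, .copy 93 36])
        (.seq flipC (.blk [.store 42 33 50, .store 42 50 33]))))))) u1 t' u2 → u2 = u1 → t' ≤ 2 →
          ∃ s'' t, Ex R cap applyBody s' t s'' ∧
          ((∀ k, k ∉ applyRegs → s''.r k = s.r k) ∧ (∀ j, j ∉ [42, 43, 44] → s''.a j = s.a j) ∧
            s''.r 33 ≤ n ∧ ∃ f, (∀ v < n, s''.a 42 v = f v) ∧
            BPart n A0 rk r β kd g f0 f (s''.r 33) ∧
            τ + t + 1 ≤ 20 * (Z (s''.r 33)).card + 35 * s''.r 33 + 6 * s.a 4 (s''.r 33)) ∧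
          n - s''.r 33 < n - s'.r 33 := by
        intro hno u2 t' f2 hu2 ht'
        have f3 := Ex.blk (R := R) (cap := cap) [.inc 33] u2
        obtain ⟨u3, hu3⟩ : ∃ u3, u3 = run [.inc 33] u2 := ⟨_, rfl⟩
        rw [← hu3] at f3
        have q33 : u3.r 33 = x + 1 := by
          subst hu3; simp [run_cons, run_nil, B.step, hu2, breg 33 (by decide), ← hx]
        have qa : u3.a = s'.a := by
          subst hu3; simp [run_cons, run_nil, B.step, hu2, barr]
        have qr : ∀ k, k ∉ [33, 34, 35] → u3.r k = s'.r k := by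
          intro k hk
          subst hu3
          simp only [List.mem_cons, List.not_mem_nil, or_false, not_or] at hk
          simp [run_cons, run_nil, B.step, hu2, hk, breg k (by simp [hk])]
        refine ⟨u3, _, .seq e1 (.seq f2 f3), ⟨?_, ?_, ?_, f, ?_, ?_, ?_⟩, ?_⟩
        · intro k hk
          rw [qr k (fun h' => hk ((by decide : ∀ x ∈ [33, 34, 35], x ∈ applyRegs) k h')), hreg k hk]
        · intro j hj; rw [qa, harr j hj]
        · rw [q33]; omega
        · rw [qa]; exact hfa
        · rw [q33]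
          refine ⟨?_, ?_⟩
          · intro x' hx' hk' hg'
            refine hpart.hit x' ?_ hk' hg'
            by_contra hcon
            have : x' = x := by omega
            subst this
            exact hno ⟨hk', hg'⟩
          · intro v v1 v2
            refine hpart.rest v ?_ ?_
            · rintro ⟨w1, w2, w3⟩
              exact v1 ⟨by (clear * - hx q33 w1; omega), w2, w3⟩
            · rintro ⟨w1, w2, w3⟩
              exact v2 ⟨w1, w2, by (clear * - hx q33 w3; omega)⟩
        · rw [q33]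
          have := hZmono x
          simp only [List.length_cons, List.length_nil]
          (clear * - hτ hx hmono ht' q33 this; omega)
        · rw [q33]; (clear * - g0 hc hx q33; omega)
      by_cases hk : kd x = 0
      · exact skip (fun h' => h'.1 hk) u1 _ (.iteTrue (by
          simp only [Test.holds, b34, hk, breg 1 (by decide), g1]) (Ex.blk [] u1)) rfl
          (by simp only [List.length_nil, zero_add, Nat.one_le_ofNat])
      · have hnk : ¬ (Test.eq 34 1).holds u1.r := by
          simp only [Test.holds, b34, breg 1 (by decide), g1]; exact hk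
        by_cases hgx : g x = x
        · exact skip (fun h' => h'.2 hgx) u1 _ (.iteFalse hnk (.iteTrue (by
            simp only [Test.holds, b35, hgx, breg 33 (by decide)]; exact hx) (Ex.blk [] u1))) rfl
            (by simp)
        · -- the rematching
          have hng : ¬ (Test.eq 35 33).holds u1.r := by
            simp only [Test.holds, b35, breg 33 (by decide), ← hx]; exact hgx
          obtain ⟨b, hb⟩ : ∃ b, g x = n + b ∧ b < n ∧ ∃ y, A0 x y ∧ bs y = b + 1 := by
            rcases hg.adj x hgx with ⟨_, _, b, y, q1, q2, q3, q4⟩ | ⟨q1, _, b, y, q2, _⟩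
            · exact ⟨b, q1, q2, y, q3, q4⟩
            · omega
          obtain ⟨hgb, hbn, y0, hxy0, hbs0⟩ := hb
          have f1 := Ex.blk (R := R) (cap := cap) [.sub 36 35 0, .copy 37 36, .inc 37, .load 4 38 33,
            .copy 39 33, .inc 39, .load 4 39 39] u1
          obtain ⟨u2, hu2⟩ : ∃ u2, u2 = run [.sub 36 35 0, .copy 37 36, .inc 37, .load 4 38 33,
            .copy 39 33, .inc 39, .load 4 39 39] u1 := ⟨_, rfl⟩
          rw [← hu2] at f1
          have B2 : u2.r 36 = b ∧ u2.r 37 = b + 1 ∧ u2.r 38 = s.a 4 x ∧ u2.r 39 = s.a 4 (x + 1) ∧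
              (∀ k, k ∉ [34, 35, 36, 37, 38, 39] → u2.r k = s'.r k) ∧ u2.a = s'.a := by
            subst hu2
            have q0 := breg 0 (by decide)
            have q33 := breg 33 (by decide)
            have hsub : g x - n = b := by (clear * - g0 b35 hgb hbs0; omega)
            simp only [run_cons, B.step, b35, q0, g0, hsub, barr, Function.update_self, Function.update_idem, ne_eq, Nat.reduceEqDiff, not_false_eq_true, Function.update_of_ne, q33, ← hx, g4, run_nil, Nat.add_left_cancel_iff, List.mem_cons, List.not_mem_nil, or_false, not_or, and_imp, and_true, true_and]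
            intro k k1 k2 k3 k4 k5 k6
            simp [k3, k4, k5, k6]
            exact breg k (by simp [k1, k2])
          obtain ⟨c36, c37, c38, c39, creg, carr⟩ := B2
          obtain ⟨p0, hp01, hp02, hp03⟩ := (hcsr.mem x hc y0).1 hxy0
          obtain ⟨u3, t3, f3, ht3, d3a, d3r, p, hp1, hp2, hp3, hp4⟩ := scan_spec (R := R)
            (cap := cap) u2 c38 c39 hmono c37 ⟨p0, hp01, hp02, by
              rw [carr, g5, g46, hp03, h46 y0 (h.G0.lt' hxy0)]; exact hbs0⟩
          obtain ⟨y, hy⟩ : ∃ y, y = u3.r 50 := ⟨_, rfl⟩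
          rw [← hy] at hp3 hp4
          rw [carr, g5] at hp3
          rw [carr, g46] at hp4
          have hxy : A0 x y := (hcsr.mem x hc y).2 ⟨p, hp1, hp2, hp3⟩
          have hyn := h.G0.lt' hxy
          rw [h46 y hyn, h.kind.bs1 y hyn] at hp4
          obtain ⟨hyo, hyb⟩ := hp4
          -- the flip
          have f4 := Ex.blk (R := R) (cap := cap) [.copy 92 50, .copy 93 36] u3
          obtain ⟨u4, hu4⟩ : ∃ u4, u4 = run [.copy 92 50, .copy 93 36] u3 := ⟨_, rfl⟩
          rw [← hu4] at f4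
          have B4 : u4.r 92 = y ∧ u4.r 93 = b ∧
              (∀ k, k ∉ [34, 35, 36, 37, 38, 39, 50, 92, 93] → u4.r k = s'.r k) ∧
              u4.r 50 = y ∧ u4.a = s'.a := by
            subst hu4
            have q36 : u3.r 36 = b := by rw [d3r 36 (by decide), c36]
            simp only [run_cons, B.step, ← hy, d3a, carr, ne_eq, Nat.reduceEqDiff, not_false_eq_true, Function.update_of_ne, q36, run_nil, Function.update_self, List.mem_cons, List.not_mem_nil, or_false, not_or, and_imp, and_self, and_true, true_and]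
            intro k k1 k2 k3 k4 k5 k6 k7 k8 k9
            simp [k8, k9]
            rw [d3r k (by simp [k1, k2, k5, k7]), creg k (by simp [k1, k2, k3, k4, k5, k6])]
          obtain ⟨e92, e93, ereg, e50, earr⟩ := B4
          obtain ⟨L, E, hEQ, hEnd, hElen, hLnd, hLc, hyE, hEc, hre⟩ :=
            Inv.rematch hs h.mat h.inv hyo
          rw [hyb] at hEQ
          have hR4 : Rep n m u4 β := hR.congr (fun j hj => by
            rw [earr]
            exact harr j (fun h' => (by decide : ∀ x ∈ [42, 43, 44],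
              x ∉ [40, 51, 52, 53, 54, 55]) j h' hj))
          obtain ⟨u5, t5, f5, ht5, hW, hr5, ha5⟩ := flipC_spec (R := R) (cap := cap)
            (fun v hv => hv.1) u4 h.inv hR4 hEQ hEnd e92 e93 (by rw [ereg 1 (by decide)]; exact g1)
          have f6 := Ex.blk (R := R) (cap := cap) [.store 42 33 50, .store 42 50 33] u5
          obtain ⟨u6, hu6⟩ : ∃ u6, u6 = run [.store 42 33 50, .store 42 50 33] u5 := ⟨_, rfl⟩
          rw [← hu6] at f6
          have f7 := Ex.blk (R := R) (cap := cap) [.inc 33] u6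
          obtain ⟨u7, hu7⟩ : ∃ u7, u7 = run [.inc 33] u6 := ⟨_, rfl⟩
          rw [← hu7] at f7
          have r33 : u5.r 33 = x := by
            rw [hr5 33 (by decide), ereg 33 (by decide)]; exact hx.symm
          have r50 : u5.r 50 = y := by rw [hr5 50 (by decide), e50]
          have B7 : u7.r 33 = x + 1 ∧ u7.a 42 = update (update (u5.a 42) x y) y x ∧
              (∀ j, j ∉ [42, 43, 44] → u7.a j = s'.a j) ∧
              (∀ k, k ∉ applyRegs → u7.r k = s'.r k) := by
            subst hu7; subst hu6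
            refine ⟨?_, ?_, ?_, ?_⟩
            · simp [run_cons, run_nil, B.step, r33]
            · simp [run_cons, run_nil, B.step, r33, r50]
            · intro j hj
              have h42' : j ≠ 42 := by rintro rfl; exact hj (by decide)
              simp [run_cons, run_nil, B.step, h42']
              rw [ha5 j hj, earr]
            · intro k hk
              have h33' : k ≠ 33 := by rintro rfl; exact hk (by decide)
              simp [run_cons, run_nil, B.step, h33']
              rw [hr5 k (fun h' => hk ((by decide : ∀ x ∈ flipRegs, x ∈ applyRegs) k h')),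
                ereg k (fun h' => hk ((by decide : ∀ x ∈ [34, 35, 36, 37, 38, 39, 50, 92, 93],
                  x ∈ applyRegs) k h'))]
          obtain ⟨q33, q42, qa, qr⟩ := B7
          -- abstract functions
          obtain ⟨F1, hF1⟩ : ∃ F1 : ℕ → ℕ, F1 = fun v => if v < n then u5.a 42 v else f v :=
            ⟨_, rfl⟩
          obtain ⟨F2, hF2⟩ : ∃ F2 : ℕ → ℕ, F2 = fun v => if v = y then x else if v = x then y else
            F1 v := ⟨_, rfl⟩
          have hendn : ∀ w ∈ ends E, w < n := fun w hw => (h.out_lt (hEc w hw).1).1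
          have hW1 : Wrn f F1 E := by
            constructor
            · intro e he
              have hm := mem_ends he
              have := hW.wr e he
              rw [hF1]
              simp only [if_pos (hendn _ hm.1), if_pos (hendn _ hm.2)]
              exact this
            · intro v hv
              rw [hF1]
              by_cases hvn : v < n
              · simp only [if_pos hvn]
                rw [hW.out v hv, earr]
                exact hfa v hvn
              · simp only [if_neg hvn]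
          have hgby : g (n + β.base y) = x := by rw [hyb, ← hgb, hg.inv]
          have hRc : ReCls (Alt A0 rk r) β (β.base y) y F1 := by
            refine hre f F1 hW1 ?_
            intro w hw hbw hwb
            have hwn := (h.out_lt hw).1
            rw [hpart.rest w ?_ ?_]
            · refine hf0.ma w hwn ?_
              rintro (h' | h')
              · have := h.out_kd hw; omega
              · exact hwb (h'.2.symm.trans hbw)
            · rintro ⟨_, h', _⟩; exact h' (h.out_kd hw)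
            · rintro ⟨_, _, h'⟩
              rw [hbw, hgby] at h'; omega
          have hgxy : g x = n + β.base y := by rw [hgb, hyb]
          have hstep := hpart.step h hg hc hk hgxy hyo hxy hW1 hEc hRc
            (f2 := F2) (fun v => by rw [hF2])
          have hcard := touched_card h hgby hc hLnd hLc Z hZ
          refine ⟨u7, _, .seq e1 (.seq (.iteFalse hnk (.iteFalse hng
            (.seq f1 (.seq f3 (.seq f4 (.seq f5 f6)))))) f7), ⟨?_, ?_, ?_, F2, ?_, ?_, ?_⟩, ?_⟩
          · intro k hk'; rw [qr k hk', hreg k hk']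
          · intro j hj; rw [qa j hj, harr j hj]
          · rw [q33]; (clear * - g0 hc hx b35 hgb hbs0 c36 c37 hyb e93 r33 q33 hgby; omega)
          · intro v hv
            rw [q42, hF2, hF1]
            simp only [Function.update_apply]
            by_cases v1 : v = y
            · rw [if_pos v1, if_pos v1]
            · rw [if_neg v1, if_neg v1]
              by_cases v2 : v = x
              · rw [if_pos v2, if_pos v2]
              · rw [if_neg v2, if_neg v2, if_pos hv]
          · rw [q33]; exact hstep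
          · rw [q33]
            simp only [List.length_cons, List.length_nil]
            rw [hElen] at ht5
            omega
          · rw [q33]; (clear * - g0 hc hx b35 hgb hbs0 c36 c37 hyb e93 r33 q33 hgby; omega))
    0 s1 (by
      refine ⟨?_, fun j _ => by rw [aarr], by rw [a33]; (clear * - h0; omega), f0, fun v hv => by rw [aarr]; exact h42 v hv,
        ?_, ?_⟩
      · intro k hk
        exact areg k (fun h' => hk ((by decide : ∀ x ∈ [33], x ∈ applyRegs) k h'))
      · rw [a33]
        exact ⟨fun x hx => by omega, fun v _ _ => rfl⟩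
      · rw [a33]; (clear * -; omega))
  simp only [Test.holds] at hc
  rw [hreg 0 (by decide), h0] at hc
  have h33 : s2.r 33 = n := by omega
  rw [h33] at hpart hτ
  refine ⟨s2, _, f, .seq e0 e2, ?_, hpart.res h hg hf0, hfa, hreg, harr⟩
  have := hZn n
  simp only [List.length_cons, List.length_nil]
  omega

end Vale.Agent.P305
end
end

section

section

/-! The batch step on the L1 machine: labels before the search, classification after the search,
greedy pairing, copying. -/

set_option autoImplicit false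
set_option linter.unusedSimpArgs false
set_option linter.unusedVariables false

namespace Vale.Agent.P305

open Function (update)
open L1

variable {R : List ℕ → (ℕ → ℕ) → ℕ → Prop} {cap : ℕ}

/-- Labels before the search: register 31 = `r`, array 20 = ranks. -/
def labelC : Cmd :=
  .seq (.blk [.const 33 0, .const 41 4])
  (.loop (.lt 33 0)
    (.seq (.blk [.load 20 34 33])
    (.seq (.ite (.lt 34 31) (.blk [.store 51 33 1]) (.blk [.store 51 33 41]))
      (.blk [.inc 33]))))

theorem labelC_spec (s : St) {n r : ℕ} (h0 : s.r 0 = n) (h1 : s.r 1 = 0) (h31 : s.r 31 = r) :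
    ∃ s' t, Ex R cap labelC s t s' ∧ t ≤ 6 * n + 5 ∧
      (∀ v < n, s'.a 51 v = if s.a 20 v < r then 0 else 4) ∧
      (∀ k, k ∉ [33, 34, 41] → s'.r k = s.r k) ∧ (∀ j, j ≠ 51 → s'.a j = s.a j) := by
  have e1 := Ex.blk (R := R) (cap := cap) [.const 33 0, .const 41 4] s
  obtain ⟨s1, hs1⟩ : ∃ s1, s1 = run [.const 33 0, .const 41 4] s := ⟨_, rfl⟩
  rw [← hs1] at e1
  have A1 : s1.r 33 = 0 ∧ s1.r 41 = 4 ∧ (∀ k, k ∉ [33, 41] → s1.r k = s.r k) ∧ s1.a = s.a := by
    subst hs1
    simp only [run_cons, B.step, run_nil, ne_eq, Nat.reduceEqDiff, not_false_eq_true, Function.update_of_ne, Function.update_self, List.mem_cons, List.not_mem_nil, or_false, not_or, and_imp, and_true, true_and]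
    intro k k1 k2; simp [k1, k2]
  obtain ⟨a33, a41, areg, aarr⟩ := A1
  obtain ⟨s2, t2, e2, ht2, ⟨hreg, harr, h41, h51⟩, h33, _⟩ := for_rule (R := R) (cap := cap)
    (i := 33) (b := 0)
    (body := (.seq (.blk [.load 20 34 33])
    (.seq (.ite (.lt 34 31) (.blk [.store 51 33 1]) (.blk [.store 51 33 41]))
      (.blk [.inc 33])))) n 5 0
    (fun k s' => (∀ k, k ∉ [33, 34, 41] → s'.r k = s.r k) ∧ (∀ j, j ≠ 51 → s'.a j = s.a j) ∧
      s'.r 41 = 4 ∧ (∀ v < k, s'.a 51 v = if s.a 20 v < r then 0 else 4))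
    (by
      rintro k s' _ hk ⟨hreg, harr, h41, h51⟩ h33 hb
      have g1 : s'.r 1 = 0 := by rw [hreg 1 (by decide)]; exact h1
      have g31 : s'.r 31 = r := by rw [hreg 31 (by decide)]; exact h31
      have g20 : s'.a 20 = s.a 20 := harr 20 (by decide)
      by_cases hlt : s.a 20 k < r
      · refine ⟨_, _, .seq (Ex.blk _ _) (.seq (.iteTrue ?_ (Ex.blk _ _)) (Ex.blk _ _)), ?_,
          ⟨?_, ?_, ?_, ?_⟩, ?_, ?_⟩
        · simp [Test.holds, run_cons, run_nil, B.step, h33, g20, g31]; exact hlt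
        · simp
        · intro k' hk'
          simp only [List.mem_cons, List.not_mem_nil, or_false, not_or] at hk'
          simp [run_cons, run_nil, B.step, hk', hreg k' (by simp [hk'])]
        · intro j hj
          simp [run_cons, run_nil, B.step, hj, harr j hj]
        · simp only [run_cons, B.step, run_nil, ne_eq, Nat.reduceEqDiff, not_false_eq_true, Function.update_of_ne, OfNat.one_ne_ofNat, h41]
        · intro v hv
          simp only [run_cons, run_nil, B.step]
          simp only [h33, ne_eq, Nat.reduceEqDiff, not_false_eq_true, Function.update_of_ne, OfNat.one_ne_ofNat, g1, Function.update_self, Function.update_apply]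
          by_cases hvk : v = k
          · subst hvk; simp [hlt]
          · simp [hvk]; exact h51 v (by omega)
        · simp [run_cons, run_nil, B.step, h33]
        · simp only [run_cons, B.step, run_nil, ne_eq, Nat.reduceEqDiff, not_false_eq_true, Function.update_of_ne, OfNat.one_ne_ofNat, OfNat.zero_ne_ofNat, hb]
      · refine ⟨_, _, .seq (Ex.blk _ _) (.seq (.iteFalse ?_ (Ex.blk _ _)) (Ex.blk _ _)), ?_,
          ⟨?_, ?_, ?_, ?_⟩, ?_, ?_⟩
        · simp only [Test.holds, run_cons, B.step, h33, g20, run_nil, Function.update_self, ne_eq, Nat.reduceEqDiff, not_false_eq_true, Function.update_of_ne, g31, not_lt]; omega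
        · simp
        · intro k' hk'
          simp only [List.mem_cons, List.not_mem_nil, or_false, not_or] at hk'
          simp [run_cons, run_nil, B.step, hk', hreg k' (by simp [hk'])]
        · intro j hj
          simp [run_cons, run_nil, B.step, hj, harr j hj]
        · simp only [run_cons, B.step, run_nil, ne_eq, Nat.reduceEqDiff, not_false_eq_true, Function.update_of_ne, h41]
        · intro v hv
          simp only [run_cons, run_nil, B.step]
          simp [h33, h41, Function.update_apply]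
          by_cases hvk : v = k
          · subst hvk; simp [hlt]
          · simp [hvk]; exact h51 v (by omega)
        · simp [run_cons, run_nil, B.step, h33]
        · simp [run_cons, run_nil, B.step, hb])
    s1 (by omega)
    (by
      refine ⟨?_, fun j _ => by rw [aarr], a41, fun v hv => by omega⟩
      intro k hk
      exact areg k (fun h => hk ((by decide : ∀ x ∈ [33, 41], x ∈ [33, 34, 41]) k h)))
    a33 (by rw [areg 0 (by decide)]; exact h0)
  refine ⟨s2, _, .seq e1 e2, ?_, h51, hreg, harr⟩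
  simp only [List.length_cons, List.length_nil]; omega

/-- Copies array 42 to array 40. -/
def copyC : Cmd :=
  .seq (.blk [.const 33 0]) (.loop (.lt 33 0) (.blk [.load 42 34 33, .store 40 33 34, .inc 33]))

theorem copyC_spec (s : St) {n : ℕ} (h0 : s.r 0 = n) :
    ∃ s' t, Ex R cap copyC s t s' ∧ t ≤ 4 * n + 5 ∧
      (∀ v < n, s'.a 40 v = s.a 42 v) ∧
      (∀ k, k ∉ [33, 34] → s'.r k = s.r k) ∧ (∀ j, j ≠ 40 → s'.a j = s.a j) := by
  have e1 := Ex.blk (R := R) (cap := cap) [.const 33 0] s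
  obtain ⟨s1, hs1⟩ : ∃ s1, s1 = run [.const 33 0] s := ⟨_, rfl⟩
  rw [← hs1] at e1
  have A1 : s1.r 33 = 0 ∧ (∀ k, k ∉ [33] → s1.r k = s.r k) ∧ s1.a = s.a := by
    subst hs1
    simp only [run_cons, B.step, run_nil, Function.update_self, List.mem_cons, List.not_mem_nil, or_false, and_true, true_and]
    intro k k1; simp [k1]
  obtain ⟨a33, areg, aarr⟩ := A1
  obtain ⟨s2, t2, e2, ht2, ⟨hreg, harr, h40⟩, h33, _⟩ := for_rule (R := R) (cap := cap)
    (i := 33) (b := 0) (body := .blk [.load 42 34 33, .store 40 33 34, .inc 33]) n 3 0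
    (fun k s' => (∀ k, k ∉ [33, 34] → s'.r k = s.r k) ∧ (∀ j, j ≠ 40 → s'.a j = s.a j) ∧
      (∀ v < k, s'.a 40 v = s.a 42 v))
    (by
      rintro k s' _ hk ⟨hreg, harr, h40⟩ h33 hb
      have g42 : s'.a 42 = s.a 42 := harr 42 (by decide)
      refine ⟨_, _, Ex.blk _ _, ?_, ⟨?_, ?_, ?_⟩, ?_, ?_⟩
      · simp
      · intro k' hk'
        simp only [List.mem_cons, List.not_mem_nil, or_false, not_or] at hk'
        simp [run_cons, run_nil, B.step, hk', hreg k' (by simp [hk'])]
      · intro j hj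
        simp [run_cons, run_nil, B.step, hj, harr j hj]
      · intro v hv
        simp only [run_cons, run_nil, B.step]
        simp [h33, g42, Function.update_apply]
        by_cases hvk : v = k
        · subst hvk; simp
        · simp [hvk]; exact h40 v (by omega)
      · simp [run_cons, run_nil, B.step, h33]
      · simp [run_cons, run_nil, B.step, hb])
    s1 (by omega)
    (by
      refine ⟨?_, fun j _ => by rw [aarr], fun v hv => by omega⟩
      intro k hk
      exact areg k (fun h => hk ((by decide : ∀ x ∈ [33], x ∈ [33, 34]) k h)))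
    a33 (by rw [areg 0 (by decide)]; exact h0)
  refine ⟨s2, _, .seq e1 e2, ?_, h40, hreg, harr⟩
  simp only [List.length_cons, List.length_nil]; omega

/-- Classification after the search. -/
def classBody : Cmd :=
  .seq (.blk [.load 51 34 33, .load 40 36 33, .const 35 0, .const 37 0])
  (.seq (.ite (.eq 34 68) (.blk [.const 37 2, .copy 36 33])
    (.seq (.ite (.eq 34 67) (.blk [.const 38 1])
        (.ite (.eq 34 69) (.blk [.const 38 1]) (.blk [.const 38 0])))
      (.ite (.eq 38 67)
        (.seq (.blk [.copy 75 33])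
        (.seq baseC
        (.seq (.blk [.copy 35 75, .inc 35])
          (.ite (.eq 75 33) (.blk [.copy 36 33]) (.blk [])))))
        (.seq (.blk [.load 20 34 33])
          (.ite (.eq 34 31) (.blk [.const 37 1]) (.blk []))))))
    (.blk [.store 46 33 35, .store 47 33 37, .store 42 33 36, .inc 33]))

def classC : Cmd := .seq (.blk [.const 33 0]) (.loop (.lt 33 0) classBody)

def classRegs : List ℕ := [33, 34, 35, 36, 37, 38, 75, 76]

theorem classC_spec {n : ℕ} {A0 : ℕ → ℕ → Prop} {rk : ℕ → ℕ} {r : ℕ} {m : ℕ → ℕ} {β : BS}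
    {ρ : ℕ → ℕ} {qt : ℕ} (s : St) (hG0 : Gr n A0)
    (hC : Core n (Vlt n rk r) (Alt A0 rk r) m s β ρ qt) (hM : Mat (Alt A0 rk r) m)
    (hfin : β.Final (Alt A0 rk r)) (h0 : s.r 0 = n) (h31 : s.r 31 = r)
    (h20 : ∀ v < n, s.a 20 v = rk v) :
    ∃ s' t kd bs f0, Ex R cap classC s t s' ∧ t ≤ (3 * (Nat.log 2 n + 1) + 25) * n + 5 ∧
      BSit n A0 rk r m β kd bs ∧ F0ok n m β kd f0 ∧ (∀ v < n, s'.a 46 v = bs v) ∧
      (∀ v < n, s'.a 47 v = kd v) ∧ (∀ v < n, s'.a 42 v = f0 v) ∧
      (∀ k, k ∉ classRegs → s'.r k = s.r k) ∧ (∀ j, j ∉ [42, 46, 47] → s'.a j = s.a j) := by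
  have e1 := Ex.blk (R := R) (cap := cap) [.const 33 0] s
  obtain ⟨s1, hs1⟩ : ∃ s1, s1 = run [.const 33 0] s := ⟨_, rfl⟩
  rw [← hs1] at e1
  have A1 : s1.r 33 = 0 ∧ (∀ k, k ∉ [33] → s1.r k = s.r k) ∧ s1.a = s.a := by
    subst hs1
    simp only [run_cons, B.step, run_nil, Function.update_self, List.mem_cons, List.not_mem_nil, or_false, and_true, true_and]
    intro k k1; simp [k1]
  obtain ⟨a33, areg, aarr⟩ := A1
  -- the facts about one vertex
  obtain ⟨Q, hQ⟩ : ∃ Q : ℕ → ℕ → ℕ → ℕ → Prop, Q = fun v b k f =>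
    (k = 1 ↔ rk v = r) ∧ (k = 2 ↔ β.lab v = 2) ∧ (k = 0 ∨ k = 1 ∨ k = 2) ∧
      (∀ c, b = c + 1 ↔ (β.Out v ∧ β.base v = c)) ∧
      ((k = 2 ∨ (β.Out v ∧ β.base v = v)) → f = v) ∧
      (¬ (k = 2 ∨ (β.Out v ∧ β.base v = v)) → f = m v) := ⟨_, rfl⟩
  have hrk : ∀ v, (β.lab v = 1 ∨ β.lab v = 2 ∨ β.lab v = 3) → rk v < r :=
    fun v hv => (hC.inv.vsl v hv).2
  obtain ⟨s2, t2, e2, ht2, ⟨hreg, harr, hall⟩, h33, _⟩ := for_rule (R := R) (cap := cap)
    (i := 33) (b := 0) (body := classBody) n (3 * (Nat.log 2 n + 1) + 24) 0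
    (fun k s' => (∀ k, k ∉ classRegs → s'.r k = s.r k) ∧
      (∀ j, j ∉ [42, 46, 47] → s'.a j = s.a j) ∧
      (∀ v < k, Q v (s'.a 46 v) (s'.a 47 v) (s'.a 42 v)))
    (by
      rintro k s' _ hk ⟨hreg, harr, hall⟩ h33 hb
      have g1 : s'.r 1 = 0 := by rw [hreg 1 (by decide)]; exact hC.r1
      have g31 : s'.r 31 = r := by rw [hreg 31 (by decide)]; exact h31
      have g67 : s'.r 67 = 1 := by rw [hreg 67 (by decide)]; exact hC.r67
      have g68 : s'.r 68 = 2 := by rw [hreg 68 (by decide)]; exact hC.r68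
      have g69 : s'.r 69 = 3 := by rw [hreg 69 (by decide)]; exact hC.r69
      have g20 : s'.a 20 k = rk k := by rw [harr 20 (by decide)]; exact h20 k hk
      have g51 : s'.a 51 k = β.lab k := by rw [harr 51 (by decide)]; exact hC.good.rep.lab k hk
      have g40 : s'.a 40 k = m k := by rw [harr 40 (by decide)]; exact hC.good.rep.mt k hk
      have f1 := Ex.blk (R := R) (cap := cap)
        [.load 51 34 33, .load 40 36 33, .const 35 0, .const 37 0] s'
      obtain ⟨u1, hu1⟩ : ∃ u1, u1 = run [.load 51 34 33, .load 40 36 33, .const 35 0,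
        .const 37 0] s' := ⟨_, rfl⟩
      rw [← hu1] at f1
      have B1 : u1.r 34 = β.lab k ∧ u1.r 36 = m k ∧ u1.r 35 = 0 ∧ u1.r 37 = 0 ∧
          (∀ i, i ∉ [34, 36, 35, 37] → u1.r i = s'.r i) ∧ u1.a = s'.a := by
        subst hu1
        simp only [run_cons, B.step, h33, g51, ne_eq, Nat.reduceEqDiff, not_false_eq_true, Function.update_of_ne, g40, run_nil, Function.update_self, Nat.succ_ne_self, List.mem_cons, List.not_mem_nil, or_false, not_or, and_imp, and_true, true_and]
        intro i k1 k2 k3 k4; simp [k1, k2, k3, k4]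
      obtain ⟨b34, b36, b35, b37, breg, barr⟩ := B1
      -- the middle part computes the triple
      have mid : ∃ u2 t2, Ex R cap (.ite (.eq 34 68) (.blk [.const 37 2, .copy 36 33])
            (.seq (.ite (.eq 34 67) (.blk [.const 38 1])
              (.ite (.eq 34 69) (.blk [.const 38 1]) (.blk [.const 38 0])))
            (.ite (.eq 38 67)
              (.seq (.blk [.copy 75 33])
              (.seq baseC
              (.seq (.blk [.copy 35 75, .inc 35])
                (.ite (.eq 75 33) (.blk [.copy 36 33]) (.blk [])))))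
              (.seq (.blk [.load 20 34 33])
                (.ite (.eq 34 31) (.blk [.const 37 1]) (.blk [])))))) u1 t2 u2 ∧
          t2 ≤ 3 * (Nat.log 2 n + 1) + 16 ∧ u2.a = s'.a ∧
          (∀ i, i ∉ [34, 35, 36, 37, 38, 75, 76] → u2.r i = s'.r i) ∧
          Q k (u2.r 35) (u2.r 37) (u2.r 36) := by
        by_cases h2 : β.lab k = 2
        · refine ⟨_, _, .iteTrue ?_ (Ex.blk _ _), ?_, ?_, ?_, ?_⟩
          · simp only [Test.holds, b34, breg 68 (by decide), g68]; exact h2
          · simp only [List.length_cons, List.length_nil]; omega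
          · simp [run_cons, run_nil, B.step, barr]
          · intro i hi
            simp only [List.mem_cons, List.not_mem_nil, or_false, not_or] at hi
            simp [run_cons, run_nil, B.step, hi, breg i (by simp [hi])]
          · rw [hQ]
            simp only [run_cons, run_nil, B.step]
            simp only [ne_eq, Nat.reduceEqDiff, not_false_eq_true, Function.update_of_ne, breg 33 (by decide), h33, Nat.succ_ne_self, Function.update_self, OfNat.ofNat_ne_one, false_iff, true_iff, OfNat.ofNat_ne_zero, or_true, b35, Nat.right_eq_add, Nat.add_eq_zero_iff, one_ne_zero, and_false, not_and, forall_apply_eq_imp_iff, imp_false, true_or, imp_self, not_true_eq_false, IsEmpty.forall_iff, and_self, and_true, true_and]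
            have := hrk k (Or.inr (Or.inl h2))
            have hno : ¬ β.Out k := by rintro (h | h) <;> omega
            exact ⟨by omega, h2, fun h => absurd h hno⟩
        · have hne2 : ¬ (Test.eq 34 68).holds u1.r := by
            simp only [Test.holds, b34, breg 68 (by decide), g68]; exact h2
          by_cases ho : β.Out k
          · -- outer vertex
            have hl : ∃ u3 t3, Ex R cap (.ite (.eq 34 67) (.blk [.const 38 1])
                (.ite (.eq 34 69) (.blk [.const 38 1]) (.blk [.const 38 0]))) u1 t3 u3 ∧ t3 ≤ 3 ∧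
                u3 = ⟨update u1.r 38 1, u1.a⟩ := by
              rcases ho with h | h
              · refine ⟨_, _, .iteTrue ?_ (Ex.blk _ _), by simp, by
                  simp [run_cons, run_nil, B.step]⟩
                simp only [Test.holds, b34, breg 67 (by decide), g67]; exact h
              · refine ⟨_, _, .iteFalse ?_ (.iteTrue ?_ (Ex.blk _ _)), by simp, by
                  simp [run_cons, run_nil, B.step]⟩
                · simp only [Test.holds, b34, breg 67 (by decide), g67]; omega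
                · simp only [Test.holds, b34, breg 69 (by decide), g69]; exact h
            obtain ⟨u3, t3, f3, ht3, hu3⟩ := hl
            have f4 := Ex.blk (R := R) (cap := cap) [.copy 75 33] u3
            obtain ⟨t5, f5, ht5⟩ := base_spec (R := R) (cap := cap) (b := β.base k)
              (run [.copy 75 33] u3)
              (n := n) (D := β.Out) (rk := s.a 57) (ρ := ρ)
              (by
                have h56 := harr 56 (by decide)
                simpa [run_cons, run_nil, B.step, hu3, barr, h56] using hC.good.ufb.uf)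
              (v := k) (by simp [run_cons, run_nil, B.step, hu3, breg 33 (by decide), h33]) ho
              (by
                have h58 := harr 58 (by decide)
                simpa [run_cons, run_nil, B.step, hu3, barr, h58] using hC.good.ufb.bv k ho)
            obtain ⟨u5, hu5⟩ : ∃ u5 : St, u5 = ⟨update (update (run [.copy 75 33] u3).r 75 (β.base k))
              76 (ρ k), (run [.copy 75 33] u3).a⟩ := ⟨_, rfl⟩
            rw [← hu5] at f5
            have f6 := Ex.blk (R := R) (cap := cap) [.copy 35 75, .inc 35] u5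
            obtain ⟨u6, hu6⟩ : ∃ u6, u6 = run [.copy 35 75, .inc 35] u5 := ⟨_, rfl⟩
            rw [← hu6] at f6
            have B6 : u6.r 35 = β.base k + 1 ∧ u6.r 75 = β.base k ∧ u6.r 36 = m k ∧ u6.r 37 = 0 ∧
                u6.r 33 = k ∧ (∀ i, i ∉ [34, 35, 36, 37, 38, 75, 76] → u6.r i = s'.r i) ∧
                u6.a = s'.a := by
              subst hu6; subst hu5; subst hu3
              simp only [barr, run_cons, B.step, ne_eq, Nat.reduceEqDiff, not_false_eq_true, Function.update_of_ne, breg 33 (by decide), h33, run_nil, Function.update_idem, Function.update_self, Nat.add_left_cancel_iff, Nat.succ_ne_self, b36, b37, List.mem_cons, List.not_mem_nil, or_false, not_or, and_imp, and_true, true_and]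
              intro i k1 k2 k3 k4 k5 k6 k7
              simp [k1, k2, k3, k4, k5, k6, k7]
              exact breg i (by simp [k1, k2, k3, k4])
            obtain ⟨c35, c75, c36, c37, c33, creg, carr⟩ := B6
            have hkr : rk k < r := hrk k (by rcases ho with h | h <;> omega)
            by_cases hbk : β.base k = k
            · refine ⟨_, _, .iteFalse hne2 (.seq f3 (.iteTrue ?_ (.seq f4 (.seq f5 (.seq f6
                (.iteTrue ?_ (Ex.blk _ _))))))), ?_, ?_, ?_, ?_⟩
              · simp [Test.holds, hu3, breg 67 (by decide), g67]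
              · simp only [Test.holds, c75, c33]; exact hbk
              · simp only [List.length_cons, List.length_nil]; (clear * - ht3 ht5; omega)
              · simp [run_cons, run_nil, B.step, carr]
              · intro i hi
                have := hi
                simp only [List.mem_cons, List.not_mem_nil, or_false, not_or] at hi
                simp [run_cons, run_nil, B.step, hi, creg i this]
              · rw [hQ]
                simp only [run_cons, run_nil, B.step]
                simp only [c33, ne_eq, Nat.succ_ne_self, not_false_eq_true, Function.update_of_ne, c37, zero_ne_one, false_iff, OfNat.zero_ne_ofNat, or_self, or_false, Nat.reduceEqDiff, c35, hbk, Nat.add_right_cancel_iff, iff_and_self, forall_eq', and_true, false_or, Function.update_self, implies_true, true_and]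
                exact ⟨by omega, h2, ho, fun h => absurd ho h⟩
            · refine ⟨_, _, .iteFalse hne2 (.seq f3 (.iteTrue ?_ (.seq f4 (.seq f5 (.seq f6
                (.iteFalse ?_ (Ex.blk [] _))))))), ?_, carr, creg, ?_⟩
              · simp [Test.holds, hu3, breg 67 (by decide), g67]
              · simp only [Test.holds, c75, c33]; exact hbk
              · simp only [List.length_cons, List.length_nil]; omega
              · rw [hQ]
                simp only [run_nil, c35, c36, c37]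
                refine ⟨by omega, by (clear * - b34 h2 hbk; omega), by simp, ?_, ?_, ?_⟩
                · intro c
                  exact ⟨fun h => ⟨ho, by omega⟩, fun h => by omega⟩
                · rintro (h | h)
                  · omega
                  · exact absurd h.2 hbk
                · intro _; trivial
          · -- neither outer nor inner
            have hl1 : β.lab k ≠ 1 := fun h => ho (Or.inl h)
            have hl3 : β.lab k ≠ 3 := fun h => ho (Or.inr h)
            have f3 : Ex R cap (.ite (.eq 34 67) (.blk [.const 38 1])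
                (.ite (.eq 34 69) (.blk [.const 38 1]) (.blk [.const 38 0]))) u1 3
                ⟨update u1.r 38 0, u1.a⟩ := by
              have := Ex.blk (R := R) (cap := cap) [.const 38 0] u1
              simp only [run_cons, run_nil, step_const] at this
              exact .iteFalse (by simp only [Test.holds, b34, breg 67 (by decide), g67]; exact hl1)
                (.iteFalse (by simp only [Test.holds, b34, breg 69 (by decide), g69]; exact hl3) this)
            have f4 := Ex.blk (R := R) (cap := cap) [.load 20 34 33] ⟨update u1.r 38 0, u1.a⟩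
            obtain ⟨u4, hu4⟩ : ∃ u4, u4 = run [.load 20 34 33] ⟨update u1.r 38 0, u1.a⟩ :=
              ⟨_, rfl⟩
            rw [← hu4] at f4
            have B4 : u4.r 34 = rk k ∧ u4.r 35 = 0 ∧ u4.r 36 = m k ∧ u4.r 37 = 0 ∧
                u4.r 31 = r ∧ (∀ i, i ∉ [34, 35, 36, 37, 38, 75, 76] → u4.r i = s'.r i) ∧
                u4.a = s'.a := by
              subst hu4
              simp only [barr, run_cons, B.step, ne_eq, Nat.reduceEqDiff, not_false_eq_true, Function.update_of_ne, breg 33 (by decide), h33, g20, run_nil, Function.update_self, Nat.succ_ne_self, b35, b36, b37, breg 31 (by decide), g31, List.mem_cons, List.not_mem_nil, or_false, not_or, and_imp, and_true, true_and]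
              intro i k1 k2 k3 k4 k5 k6 k7
              simp [k1, k5]
              exact breg i (by simp [k1, k2, k3, k4])
            obtain ⟨c34, c35, c36, c37, c31, creg, carr⟩ := B4
            by_cases hr : rk k = r
            · refine ⟨_, _, .iteFalse hne2 (.seq f3 (.iteFalse ?_ (.seq f4
                (.iteTrue ?_ (Ex.blk _ _))))), ?_, ?_, ?_, ?_⟩
              · simp [Test.holds, breg 67 (by decide), g67]
              · simp only [Test.holds, c34, c31]; exact hr
              · simp only [List.length_cons, List.length_nil]; omega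
              · simp [run_cons, run_nil, B.step, carr]
              · intro i hi
                have := hi
                simp only [List.mem_cons, List.not_mem_nil, or_false, not_or] at hi
                simp [run_cons, run_nil, B.step, hi, creg i this]
              · rw [hQ]
                simp only [run_cons, run_nil, B.step]
                simp only [Function.update_self, hr, OfNat.one_ne_ofNat, false_iff, one_ne_zero, or_false, or_true, ne_eq, Nat.reduceEqDiff, not_false_eq_true, Function.update_of_ne, c35, Nat.right_eq_add, Nat.add_eq_zero_iff, and_false, not_and, forall_apply_eq_imp_iff, imp_false, false_or, c36, and_imp, implies_true, and_true, true_and]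
                exact ⟨h2, fun h => absurd h ho, fun h => absurd h ho⟩
            · refine ⟨_, _, .iteFalse hne2 (.seq f3 (.iteFalse ?_ (.seq f4
                (.iteFalse ?_ (Ex.blk [] _))))), ?_, carr, creg, ?_⟩
              · simp [Test.holds, breg 67 (by decide), g67]
              · simp only [Test.holds, c34, c31]; exact hr
              · simp only [List.length_cons, List.length_nil]; omega
              · rw [hQ]
                simp only [run_nil, c35, c36, c37]
                refine ⟨by (clear * - g31 c34 c31 hr; omega), by (clear * - b34 h2 hl1 hl3 hr; omega), by simp, ?_, ?_, ?_⟩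
                · intro c
                  exact ⟨fun h => by omega, fun h => absurd h.1 ho⟩
                · rintro (h | h)
                  · omega
                  · exact absurd h.1 ho
                · intro _; trivial
      obtain ⟨u2, t2, f2, ht2, u2a, u2r, u2Q⟩ := mid
      have u33 : u2.r 33 = k := by rw [u2r 33 (by decide)]; exact h33
      refine ⟨_, _, .seq f1 (.seq f2 (Ex.blk _ _)), ?_, ⟨?_, ?_, ?_⟩, ?_, ?_⟩
      · simp only [List.length_cons, List.length_nil]; omega
      · intro i hi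
        have h' := hreg i hi
        simp only [classRegs, List.mem_cons, List.not_mem_nil, or_false, not_or] at hi
        simp only [run_cons, B.step, ne_eq, Nat.succ_ne_self, not_false_eq_true, Function.update_of_ne, Nat.reduceEqDiff, run_nil, hi, u2r i (by simp [hi]), h']
      · intro j hj
        have h' := harr j hj
        simp only [List.mem_cons, List.not_mem_nil, or_false, not_or] at hj
        simp only [run_cons, B.step, u2a, ne_eq, Nat.succ_ne_self, not_false_eq_true, Function.update_of_ne, Nat.reduceEqDiff, run_nil, hj, h']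
      · intro v hv
        simp only [run_cons, run_nil, B.step]
        simp [u33, u2a, Function.update_apply]
        by_cases hvk : v = k
        · subst hvk; simp; exact u2Q
        · simp [hvk]; exact hall v (by omega)
      · simp only [run_cons, B.step, u33, ne_eq, Nat.succ_ne_self, not_false_eq_true, Function.update_of_ne, Nat.reduceEqDiff, run_nil, Function.update_self, Nat.add_left_cancel_iff]
      · simp [run_cons, run_nil, B.step, u2r 0 (by decide), hb])
    s1 (by omega)
    (by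
      refine ⟨?_, fun j _ => by rw [aarr], fun v hv => by omega⟩
      intro k hk
      exact areg k (fun h => hk ((by decide : ∀ x ∈ [33], x ∈ classRegs) k h)))
    a33 (by rw [areg 0 (by decide)]; exact h0)
  rw [hQ] at hall
  refine ⟨s2, _, s2.a 47, s2.a 46, fun v => if v < n then s2.a 42 v else v, .seq e1 e2, ?_,
    ⟨hG0, hM, hC.inv, hfin, ⟨?_, ?_, ?_, ?_⟩⟩, ⟨?_, ?_, ?_⟩, fun _ _ => rfl, fun _ _ => rfl, ?_,
    hreg, harr⟩
  · simp only [List.length_cons, List.length_nil]
    have : (3 * (Nat.log 2 n + 1) + 24 + 1) * (n - 0) = (3 * (Nat.log 2 n + 1) + 25) * n := by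
      rw [Nat.sub_zero]
    omega
  · intro v hv; exact (hall v hv).1
  · intro v hv; exact (hall v hv).2.1
  · intro v hv; exact (hall v hv).2.2.1
  · intro v hv; exact (hall v hv).2.2.2.1
  · intro v hv h'
    simp only [if_pos hv]
    exact (hall v hv).2.2.2.2.1 h'
  · intro v hv h'
    simp only [if_pos hv]
    exact (hall v hv).2.2.2.2.2 h'
  · intro v hv
    simp only [if_neg (by omega : ¬ v < n)]
  · intro v hv
    simp only [if_pos hv]

end Vale.Agent.P305
end
end

section

section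

/-! The batch step on the L1 machine: greedy pairing of the exposed new vertices. -/

set_option autoImplicit false
set_option linter.unusedSimpArgs false
set_option linter.unusedVariables false

namespace Vale.Agent.P305

open Function (update)
open L1

variable {R : List ℕ → (ℕ → ℕ) → ℕ → Prop} {cap : ℕ}

def greedyBody : Cmd :=
  .seq (.blk [.load 47 34 2, .load 47 35 5, .load 42 36 2, .load 42 37 5])
  (.ite (.eq 34 40)
    (.ite (.eq 35 40)
      (.ite (.eq 36 2)
        (.ite (.eq 37 5) (.blk [.store 42 2 5, .store 42 5 2]) (.blk []))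
        (.blk []))
      (.blk []))
    (.blk []))

def greedyC : Cmd := .seq (.blk [.const 40 1]) (arcLoop greedyBody)

def greedyRegs : List ℕ := [2, 3, 4, 5, 34, 35, 36, 37, 40]

/-- State of the greedy pairing. -/
structure GPart (n : ℕ) (A0 : ℕ → ℕ → Prop) (kd : ℕ → ℕ) (f f' : ℕ → ℕ) (P : ℕ → ℕ → Prop) :
    Prop where
  keep : ∀ v, (f v ≠ v ∨ ¬ (v < n ∧ kd v = 1)) → f' v = f v
  pair : ∀ v, f v = v → f' v ≠ v → v < n ∧ kd v = 1 ∧ f' v < n ∧ kd (f' v) = 1 ∧ f (f' v) = f' v ∧
    f' (f' v) = v ∧ A0 v (f' v)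
  maxi : ∀ u v, P u v → kd u = 1 → kd v = 1 → f' u = u → f' v = v → False

theorem greedyC_spec {n : ℕ} {A0 : ℕ → ℕ → Prop} {kd f : ℕ → ℕ} (s : St) (hG0 : Gr n A0)
    (hcsr : CSR n A0 (s.a 4) (s.a 5)) (h0 : s.r 0 = n)
    (h47 : ∀ v < n, s.a 47 v = kd v) (h42 : ∀ v < n, s.a 42 v = f v) :
    ∃ s' t f', Ex R cap greedyC s t s' ∧ t ≤ 20 * s.a 4 n + 6 * n + 5 ∧
      Greedy n A0 kd f f' ∧ (∀ v < n, s'.a 42 v = f' v) ∧
      (∀ k, k ∉ greedyRegs → s'.r k = s.r k) ∧ (∀ j, j ≠ 42 → s'.a j = s.a j) := by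
  have e1 := Ex.blk (R := R) (cap := cap) [.const 40 1] s
  obtain ⟨s1, hs1⟩ : ∃ s1, s1 = run [.const 40 1] s := ⟨_, rfl⟩
  rw [← hs1] at e1
  have A1 : s1.r 40 = 1 ∧ (∀ k, k ∉ [40] → s1.r k = s.r k) ∧ s1.a = s.a := by
    subst hs1
    simp only [run_cons, B.step, run_nil, Function.update_self, List.mem_cons, List.not_mem_nil, or_false, and_true, true_and]
    intro k k1; simp [k1]
  obtain ⟨a40, areg, aarr⟩ := A1
  obtain ⟨Pc, hPc⟩ : ∃ Pc : ℕ → ℕ → ℕ → ℕ → Prop, Pc = fun v p a b => A0 a b ∧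
    (a < v ∨ (a = v ∧ ∃ q, s.a 4 v ≤ q ∧ q < p ∧ s.a 5 q = b)) := ⟨_, rfl⟩
  obtain ⟨s2, t2, e2, ht2, ⟨hreg, harr, h40, f', hf', hGP⟩, _, _, _⟩ :=
    arc_rule (R := R) (cap := cap) (body := greedyBody) (n := n) (off := s.a 4) (adj := s.a 5)
    hcsr.off0 hcsr.mono 10
    (fun v p s' => (∀ k, k ∉ greedyRegs → s'.r k = s.r k) ∧ (∀ j, j ≠ 42 → s'.a j = s.a j) ∧
      s'.r 40 = 1 ∧ ∃ f', (∀ w < n, s'.a 42 w = f' w) ∧ GPart n A0 kd f f' (Pc v p))
    (by
      rintro v p s' s'' _ _ ⟨hreg, harr, h40, f', hf', hGP⟩ ha hr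
      refine ⟨?_, by rw [ha]; exact harr, by rw [hr 40 (by omega)]; exact h40, f',
        by rw [ha]; exact hf', hGP⟩
      intro k hk
      have hk2 := hk
      simp only [greedyRegs, List.mem_cons, List.not_mem_nil, or_false, not_or] at hk2
      rw [hr k (by (clear * - hk2; omega)), hreg k hk])
    (by
      rintro v s' hv ⟨hreg, harr, h40, f', hf', hGP⟩
      refine ⟨hreg, harr, h40, f', hf', hGP.keep, hGP.pair, ?_⟩
      intro a b hab
      apply hGP.maxi a b
      rw [hPc] at hab ⊢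
      obtain ⟨h1, h2⟩ := hab
      refine ⟨h1, ?_⟩
      rcases h2 with h2 | ⟨h2, q, h3, h4, _⟩
      · by_cases hav : a = v
        · right
          subst hav
          obtain ⟨q, h3, h4, h5⟩ := (hcsr.mem a hv b).1 h1
          exact ⟨rfl, q, h3, h4, h5⟩
        · left; omega
      · omega)
    (by
      rintro v p s' hv hp1 hp2 hp3 ⟨hreg, harr, h40, f', hf', hGP⟩ g0 g2 g3 g5 g4a g5a
      obtain ⟨w, hw⟩ : ∃ w, w = s.a 5 p := ⟨_, rfl⟩
      rw [← hw] at g5
      have hvw : A0 v w := (hcsr.mem v hv w).2 ⟨p, hp1, hp2, hw.symm⟩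
      have hwn : w < n := hG0.lt' hvw
      have hvnw : v ≠ w := fun e => hG0.irr v (by rw [← e] at hvw; exact hvw)
      have f1 := Ex.blk (R := R) (cap := cap)
        [.load 47 34 2, .load 47 35 5, .load 42 36 2, .load 42 37 5] s'
      obtain ⟨u1, hu1⟩ : ∃ u1, u1 = run [.load 47 34 2, .load 47 35 5, .load 42 36 2,
        .load 42 37 5] s' := ⟨_, rfl⟩
      rw [← hu1] at f1
      have B1 : u1.r 34 = kd v ∧ u1.r 35 = kd w ∧ u1.r 36 = f' v ∧ u1.r 37 = f' w ∧
          (∀ i, i ∉ [34, 35, 36, 37] → u1.r i = s'.r i) ∧ u1.a = s'.a := by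
        subst hu1
        have q47 := harr 47 (by decide)
        simp only [run_cons, B.step, g2, q47, h47 v hv, ne_eq, Nat.reduceEqDiff, not_false_eq_true, Function.update_of_ne, g5, h47 w hwn, hf' v hv, hf' w hwn, run_nil, Function.update_self, List.mem_cons, List.not_mem_nil, or_false, not_or, and_imp, and_true, true_and]
        intro i k1 k2 k3 k4; simp [k1, k2, k3, k4]
      obtain ⟨b34, b35, b36, b37, breg, barr⟩ := B1
      have bg40 : u1.r 40 = 1 := by rw [breg 40 (by decide)]; exact h40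
      have bg2 : u1.r 2 = v := by rw [breg 2 (by decide)]; exact g2
      have bg5 : u1.r 5 = w := by rw [breg 5 (by decide)]; exact g5
      -- extension of the set of processed arcs
      have hext : ∀ a b, Pc v (p + 1) a b → Pc v p a b ∨ (a = v ∧ b = w) := by
        intro a b hab
        rw [hPc] at hab ⊢
        obtain ⟨h1, h2⟩ := hab
        rcases h2 with h2 | ⟨h2, q, h3, h4, h5⟩
        · exact Or.inl ⟨h1, Or.inl h2⟩
        · by_cases hq : q = p
          · right; subst hq; exact ⟨h2, by rw [← h5, hw]⟩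
          · left; exact ⟨h1, Or.inr ⟨h2, q, h3, by (clear * - g3 h4 hq; omega), h5⟩⟩
      have nochange : (kd v = 1 → kd w = 1 → f' v = v → f' w = w → False) →
          ∀ t', Ex R cap greedyBody s' t' u1 → t' ≤ 10 →
          ∃ s'' t, Ex R cap greedyBody s' t s'' ∧ t ≤ 10 ∧
            ((∀ k, k ∉ greedyRegs → s''.r k = s.r k) ∧ (∀ j, j ≠ 42 → s''.a j = s.a j) ∧
            s''.r 40 = 1 ∧ ∃ f', (∀ w < n, s''.a 42 w = f' w) ∧
              GPart n A0 kd f f' (Pc v (p + 1))) ∧ s''.r 0 = n ∧ s''.r 2 = v ∧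
            s''.r 3 = p ∧ s''.a 4 = s.a 4 ∧ s''.a 5 = s.a 5 := by
        intro hno t' hex ht'
        refine ⟨u1, t', hex, ht', ⟨?_, ?_, bg40, f', ?_, ⟨hGP.keep, hGP.pair, ?_⟩⟩, ?_, bg2, ?_,
          ?_, ?_⟩
        · intro k hk
          rw [breg k (fun h => hk ((by decide : ∀ x ∈ [34, 35, 36, 37], x ∈ greedyRegs) k h)),
            hreg k hk]
        · intro j hj; rw [barr, harr j hj]
        · rw [barr]; exact hf'
        · intro a b hab
          rcases hext a b hab with h | ⟨h1, h2⟩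
          · exact hGP.maxi a b h
          · rw [h1, h2]; exact hno
        · rw [breg 0 (by decide)]; exact g0
        · rw [breg 3 (by decide)]; exact g3
        · rw [barr]; exact g4a
        · rw [barr]; exact g5a
      by_cases c1 : kd v = 1
      swap
      · exact nochange (fun h => absurd h c1) _ (.seq f1 (.iteFalse (by
          simp only [Test.holds, b34, bg40]; exact c1) (Ex.blk [] u1))) (by simp)
      have t1 : (Test.eq 34 40).holds u1.r := by simp only [Test.holds, b34, bg40]; exact c1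
      by_cases c2 : kd w = 1
      swap
      · exact nochange (fun _ h => absurd h c2) _ (.seq f1 (.iteTrue t1 (.iteFalse (by
          simp only [Test.holds, b35, bg40]; exact c2) (Ex.blk [] u1)))) (by simp)
      have t2 : (Test.eq 35 40).holds u1.r := by simp only [Test.holds, b35, bg40]; exact c2
      by_cases c3 : f' v = v
      swap
      · exact nochange (fun _ _ h => absurd h c3) _ (.seq f1 (.iteTrue t1 (.iteTrue t2 (.iteFalse
          (by simp only [Test.holds, b36, bg2]; exact c3) (Ex.blk [] u1))))) (by simp)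
      have t3 : (Test.eq 36 2).holds u1.r := by simp only [Test.holds, b36, bg2]; exact c3
      by_cases c4 : f' w = w
      swap
      · exact nochange (fun _ _ _ h => absurd h c4) _ (.seq f1 (.iteTrue t1 (.iteTrue t2 (.iteTrue
          t3 (.iteFalse (by simp only [Test.holds, b37, bg5]; exact c4) (Ex.blk [] u1))))))
          (by simp)
      have t4 : (Test.eq 37 5).holds u1.r := by simp only [Test.holds, b37, bg5]; exact c4
      obtain ⟨F, hF⟩ : ∃ F : ℕ → ℕ, F = update (update f' v w) w v := ⟨_, rfl⟩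
      have Fv : F v = w := by rw [hF, Function.update_of_ne hvnw, Function.update_self]
      have Fw : F w = v := by rw [hF, Function.update_self]
      have Fo : ∀ x, x ≠ v → x ≠ w → F x = f' x := by
        intro x h1 h2
        rw [hF, Function.update_of_ne h2, Function.update_of_ne h1]
      have fv : f v = v := by
        by_contra h
        rw [hGP.keep v (Or.inl h)] at c3
        exact h c3
      have fw : f w = w := by
        by_contra h
        rw [hGP.keep w (Or.inl h)] at c4
        exact h c4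
      refine ⟨_, _, .seq f1 (.iteTrue t1 (.iteTrue t2 (.iteTrue t3 (.iteTrue t4 (Ex.blk _ _))))),
        ?_, ⟨?_, ?_, ?_, F, ?_, ⟨?_, ?_, ?_⟩⟩, ?_, ?_, ?_, ?_, ?_⟩
      · simp
      · intro k hk
        simp [run_cons, run_nil, B.step]
        rw [breg k (fun h => hk ((by decide : ∀ x ∈ [34, 35, 36, 37], x ∈ greedyRegs) k h)),
            hreg k hk]
      · intro j hj
        simp [run_cons, run_nil, B.step, hj, barr, harr j hj]
      · simp [run_cons, run_nil, B.step, bg40]
      · intro x hx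
        simp [run_cons, run_nil, B.step, bg2, bg5, barr]
        rw [hF]
        simp only [Function.update_apply, hf' x hx]
      · intro x hx
        have hxv : x ≠ v := by
          rintro rfl
          rcases hx with h | h
          · exact h fv
          · exact h ⟨hv, c1⟩
        have hxw : x ≠ w := by
          rintro rfl
          rcases hx with h | h
          · exact h fw
          · exact h ⟨hwn, c2⟩
        rw [Fo x hxv hxw]; exact hGP.keep x hx
      · intro x hx1 hx2
        by_cases hxv : x = v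
        · subst hxv
          rw [Fv, Fw]
          exact ⟨hv, c1, hwn, c2, fw, rfl, hvw⟩
        · by_cases hxw : x = w
          · subst hxw
            rw [Fw, Fv]
            exact ⟨hwn, c2, hv, c1, fv, rfl, hG0.symm hvw⟩
          · rw [Fo x hxv hxw] at hx2 ⊢
            have hp := hGP.pair x hx1 hx2
            have n1 : f' x ≠ v := fun e => hxv (by
              have := hp.2.2.2.2.2.1
              rw [e, c3] at this
              exact this.symm)
            have n2 : f' x ≠ w := fun e => hxw (by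
              have := hp.2.2.2.2.2.1
              rw [e, c4] at this
              exact this.symm)
            rw [Fo _ n1 n2]
            exact hp
      · intro a b hab k1 k2 h1 h2
        have n1 : a ≠ v := by rintro rfl; rw [Fv] at h1; exact hvnw h1.symm
        have n2 : a ≠ w := by rintro rfl; rw [Fw] at h1; exact hvnw h1
        have n3 : b ≠ v := by rintro rfl; rw [Fv] at h2; exact hvnw h2.symm
        have n4 : b ≠ w := by rintro rfl; rw [Fw] at h2; exact hvnw h2
        rw [Fo a n1 n2] at h1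
        rw [Fo b n3 n4] at h2
        rcases hext a b hab with h | ⟨h3, _⟩
        · exact hGP.maxi a b h k1 k2 h1 h2
        · exact n1 h3
      · simp [run_cons, run_nil, B.step]
        rw [breg 0 (by decide)]; exact g0
      · simp [run_cons, run_nil, B.step, bg2]
      · simp [run_cons, run_nil, B.step]
        rw [breg 3 (by decide)]; exact g3
      · simp [run_cons, run_nil, B.step, barr, g4a]
      · simp [run_cons, run_nil, B.step, barr, g5a])
    s1 (by
      refine ⟨?_, fun j _ => by rw [aarr], a40, f, ?_, ⟨fun _ _ => rfl, ?_, ?_⟩⟩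
      · intro k hk
        exact areg k (fun h => hk ((by decide : ∀ x ∈ [40], x ∈ greedyRegs) k h))
      · rw [aarr]; exact h42
      · intro v h1 h2; exact absurd h1 h2
      · intro a b hab
        rw [hPc] at hab
        obtain ⟨_, h2⟩ := hab
        rcases h2 with h2 | ⟨_, q, _, h4, _⟩ <;> omega)
    (by rw [areg 0 (by decide)]; exact h0) (by rw [aarr]) (by rw [aarr])
  refine ⟨s2, _, f', .seq e1 e2, ?_, ⟨hGP.keep, hGP.pair, ?_⟩, hf', hreg, harr⟩
  · simp only [List.length_cons, List.length_nil]; omega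
  · intro u v hu hv k1 k2 h1 h2 hA
    refine hGP.maxi u v ?_ k1 k2 h1 h2
    rw [hPc]
    exact ⟨hA, Or.inl hu⟩

end Vale.Agent.P305
end
end

section

section

/-! The batch step on the L1 machine: building the bipartite graph (arrays 10, 11). -/

set_option autoImplicit false
set_option linter.unusedSimpArgs false
set_option linter.unusedVariables false

namespace Vale.Agent.P305

open Function (update)
open L1

variable {R : List ℕ → (ℕ → ℕ) → ℕ → Prop} {cap : ℕ}

/-- The entries of `adj` between `lo` and `hi` list the set `S` without repetition. -/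
structure Seg (adj : ℕ → ℕ) (lo hi : ℕ) (S : ℕ → Prop) : Prop where
  mem : ∀ p, lo ≤ p → p < hi → S (adj p)
  ex : ∀ u, S u → ∃ p, lo ≤ p ∧ p < hi ∧ adj p = u
  inj : ∀ p q, lo ≤ p → p < hi → lo ≤ q → q < hi → adj p = adj q → p = q

theorem Seg.congr {adj adj' : ℕ → ℕ} {lo hi : ℕ} {S S' : ℕ → Prop} (h : Seg adj lo hi S)
    (ha : ∀ p, lo ≤ p → p < hi → adj' p = adj p) (hS : ∀ u, S' u ↔ S u) : Seg adj' lo hi S' := by
  refine ⟨?_, ?_, ?_⟩
  · intro p h1 h2; rw [ha p h1 h2, hS]; exact h.mem p h1 h2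
  · intro u hu
    obtain ⟨p, h1, h2, h3⟩ := h.ex u ((hS u).1 hu)
    exact ⟨p, h1, h2, by rw [ha p h1 h2, h3]⟩
  · intro p q h1 h2 h3 h4
    rw [ha p h1 h2, ha q h3 h4]
    exact h.inj p q h1 h2 h3 h4

theorem Seg.nil (adj : ℕ → ℕ) (lo : ℕ) {S : ℕ → Prop} (hS : ∀ u, ¬ S u) : Seg adj lo lo S :=
  ⟨fun p _ _ => by omega, fun u hu => absurd hu (hS u), fun p q _ _ _ _ => by omega⟩

theorem Seg.add {adj : ℕ → ℕ} {lo hi : ℕ} {S : ℕ → Prop} (h : Seg adj lo hi S) (hle : lo ≤ hi)
    {c : ℕ} (hc : ¬ S c) : Seg (update adj hi c) lo (hi + 1) (fun u => S u ∨ u = c) := by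
  refine ⟨?_, ?_, ?_⟩
  · intro p h1 h2
    by_cases hp : p = hi
    · subst hp; simp
    · rw [Function.update_of_ne hp]; exact Or.inl (h.mem p h1 (by omega))
  · rintro u (hu | hu)
    · obtain ⟨p, h1, h2, h3⟩ := h.ex u hu
      exact ⟨p, h1, by omega, by rw [Function.update_of_ne (by omega)]; exact h3⟩
    · exact ⟨hi, hle, by omega, by rw [Function.update_self, hu]⟩
  · intro p q h1 h2 h3 h4 e
    by_cases hp : p = hi
    · by_cases hq : q = hi
      · rw [hp, hq]
      · rw [hp, Function.update_self, Function.update_of_ne hq] at e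
        exact absurd (e ▸ h.mem q h3 (by omega)) hc
    · by_cases hq : q = hi
      · rw [hq, Function.update_self, Function.update_of_ne hp] at e
        exact absurd (e ▸ h.mem p h1 (by omega)) hc
      · rw [Function.update_of_ne hp, Function.update_of_ne hq] at e
        exact h.inj p q h1 (by omega) h3 (by omega) e

theorem CSR.of_seg {N : ℕ} {H : ℕ → ℕ → Prop} {off adj : ℕ → ℕ} (h0 : off 0 = 0)
    (hm : ∀ v < N, off v ≤ off (v + 1)) (hs : ∀ v < N, Seg adj (off v) (off (v + 1)) (H v)) :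
    CSR N H off adj where
  off0 := h0
  mono := hm
  mem := fun v hv u => ⟨(hs v hv).ex u, fun ⟨p, h1, h2, h3⟩ => h3 ▸ (hs v hv).mem p h1 h2⟩
  inj := fun v hv => (hs v hv).inj

/-- Linked lists: `0` is the end, `i + 1` points to cell `i`. -/
inductive LL (nx : ℕ → ℕ) : ℕ → List ℕ → Prop
  | nil : LL nx 0 []
  | cons {i : ℕ} {l : List ℕ} (h : LL nx (nx i) l) : LL nx (i + 1) (i :: l)

theorem LL.congr {nx nx' : ℕ → ℕ} {a : ℕ} {l : List ℕ} (h : LL nx a l) :
    (∀ i ∈ l, nx' i = nx i) → LL nx' a l := by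
  induction h with
  | nil => intro _; exact LL.nil
  | @cons i l _ ih =>
    intro he
    refine LL.cons ?_
    rw [he i List.mem_cons_self]
    exact ih (fun j hj => he j (List.mem_cons_of_mem _ hj))

/-- The bucket of a base `b`: `Q x` says that the pair `(x, b)` has been recorded. -/
structure Bucket (own nx adj : ℕ → ℕ) (hd K c : ℕ) (Q : ℕ → Prop) : Prop where
  ex : ∃ l, LL nx hd l ∧ l.Nodup ∧ (∀ i ∈ l, i < K ∧ adj i = c) ∧ (l.map own).Nodup ∧
    ∀ x, x ∈ l.map own ↔ Q x

theorem Bucket.nil (own nx adj : ℕ → ℕ) (K c : ℕ) {Q : ℕ → Prop} (hQ : ∀ x, ¬ Q x) :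
    Bucket own nx adj 0 K c Q :=
  ⟨[], LL.nil, List.nodup_nil, by simp, by simp, fun x => by simpa using hQ x⟩

theorem Bucket.congr {own nx adj own' nx' adj' : ℕ → ℕ} {hd K K' c : ℕ} {Q Q' : ℕ → Prop}
    (h : Bucket own nx adj hd K c Q) (ho : ∀ i < K, own' i = own i) (hn : ∀ i < K, nx' i = nx i)
    (ha : ∀ i < K, adj' i = adj i) (hK : K ≤ K') (hQ : ∀ x, Q' x ↔ Q x) :
    Bucket own' nx' adj' hd K' c Q' := by
  obtain ⟨l, h1, h2, h3, h4, h5⟩ := h.ex
  have e : l.map own' = l.map own := List.map_congr_left (fun i hi => ho i (h3 i hi).1)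
  refine ⟨l, h1.congr (fun i hi => hn i (h3 i hi).1), h2, ?_, by rw [e]; exact h4, ?_⟩
  · intro i hi
    have := h3 i hi
    exact ⟨by omega, by rw [ha i this.1]; exact this.2⟩
  · intro x; rw [e, hQ]; exact h5 x

theorem Bucket.add {own nx adj own' nx' adj' : ℕ → ℕ} {hd K c x : ℕ} {Q Q' : ℕ → Prop}
    (h : Bucket own nx adj hd K c Q) (ho : ∀ i < K, own' i = own i) (hn : ∀ i < K, nx' i = nx i)
    (ha : ∀ i < K, adj' i = adj i) (hoK : own' K = x) (hnK : nx' K = hd) (haK : adj' K = c)
    (hx : ¬ Q x) (hQ : ∀ y, Q' y ↔ (Q y ∨ y = x)) : Bucket own' nx' adj' (K + 1) (K + 1) c Q' := by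
  obtain ⟨l, h1, h2, h3, h4, h5⟩ := (h.congr ho hn ha (Nat.le_succ K) (fun _ => Iff.rfl)).ex
  obtain ⟨l0, g1, g2, g3, g4, g5⟩ := h.ex
  -- the list cannot contain the new cell
  have hl : ∀ i ∈ l0, i < K := fun i hi => (g3 i hi).1
  have e : l0.map own' = l0.map own := List.map_congr_left (fun i hi => ho i (hl i hi))
  refine ⟨K :: l0, LL.cons ?_, ?_, ?_, ?_, ?_⟩
  · rw [hnK]; exact g1.congr (fun i hi => hn i (hl i hi))
  · rw [List.nodup_cons]
    exact ⟨fun hK => absurd (hl K hK) (lt_irrefl _), g2⟩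
  · intro i hi
    rcases List.mem_cons.1 hi with hi | hi
    · subst hi; exact ⟨by omega, haK⟩
    · have := g3 i hi
      exact ⟨by omega, by rw [ha i this.1]; exact this.2⟩
  · rw [List.map_cons, List.nodup_cons, e, hoK]
    exact ⟨fun hm => hx ((g5 x).1 hm), g4⟩
  · intro y
    rw [List.map_cons, List.mem_cons, e, hoK, hQ, g5]
    exact or_comm

def bhScan : Cmd :=
  .seq (.blk [.load 5 36 34, .inc 34, .load 46 37 36])
   (.ite (.eq 37 1) (.blk [])
     (.seq (.blk [.copy 38 37, .dec 38, .load 60 40 38])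
       (.ite (.eq 40 42) (.blk [])
         (.seq (.blk [.store 60 38 42, .store 63 39 33, .load 61 40 38, .store 62 39 40,
            .copy 43 38])
          (.seq (.add 43 43 0) (.blk [.store 11 39 43, .inc 39, .store 61 38 39]))))))

def bhLeft : Cmd :=
  .seq (.blk [.store 10 33 39, .copy 42 33, .inc 42, .load 47 40 33])
   (.seq (.ite (.eq 40 1) (.blk [])
      (.seq (.blk [.load 4 34 33, .load 4 35 42]) (.loop (.lt 34 35) bhScan)))
     (.blk [.inc 33]))

def bhRight : Cmd :=
  .seq (.blk [.store 10 43 39, .load 61 36 33])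
   (.seq (.loop (.ne 36 1)
      (.blk [.dec 36, .load 63 37 36, .store 11 39 37, .inc 39, .load 62 36 36]))
     (.blk [.inc 33, .inc 43]))

def buildHC : Cmd :=
  .seq (.blk [.const 33 0])
  (.seq (.loop (.lt 33 0) (.blk [.store 60 33 1, .store 61 33 1, .inc 33]))
  (.seq (.blk [.const 33 0, .const 39 0])
  (.seq (.loop (.lt 33 0) bhLeft)
  (.seq (.blk [.const 33 0, .copy 43 0])
  (.seq (.loop (.lt 33 0) bhRight)
    (.blk [.store 10 43 39, .copy 20 43]))))))

def bhRegs : List ℕ := [20, 33, 34, 35, 36, 37, 38, 39, 40, 42, 43]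
def bhArrs : List ℕ := [10, 11, 60, 61, 62, 63]

/-- Pairs recorded when vertex `x` is being processed up to position `p`. -/
def Rec (n : ℕ) (A0 : ℕ → ℕ → Prop) (kd bs : ℕ → ℕ) (adj : ℕ → ℕ) (x lo p : ℕ) (y c : ℕ) : Prop :=
  (y < x ∧ HL n A0 kd bs y c) ∨
    (y = x ∧ kd x ≠ 0 ∧ ∃ b q, c = n + b ∧ b < n ∧ lo ≤ q ∧ q < p ∧ bs (adj q) = b + 1)

/-- State of the arrays while the left list of `x` is built. -/
structure LSt (n : ℕ) (A0 : ℕ → ℕ → Prop) (kd bs : ℕ → ℕ) (adj0 : ℕ → ℕ) (s : St)
    (x lo p : ℕ) : Prop where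
  off0 : s.a 10 0 = 0
  cur0 : s.a 10 x ≤ s.r 39
  mono : ∀ v < x, s.a 10 v ≤ s.a 10 (v + 1)
  segs : ∀ v < x, Seg (s.a 11) (s.a 10 v) (s.a 10 (v + 1)) (HL n A0 kd bs v)
  seg : Seg (s.a 11) (s.a 10 x) (s.r 39) (Rec n A0 kd bs adj0 x lo p x)
  buck : ∀ b < n, Bucket (s.a 63) (s.a 62) (s.a 11) (s.a 61 b) (s.r 39) (n + b)
    (fun y => Rec n A0 kd bs adj0 x lo p y (n + b))
  stle : ∀ b < n, s.a 60 b ≤ x + 1
  steq : ∀ b < n, (s.a 60 b = x + 1 ↔ Rec n A0 kd bs adj0 x lo p x (n + b))

theorem Rec.succ {n : ℕ} {A0 : ℕ → ℕ → Prop} {kd bs adj : ℕ → ℕ} {x lo p y c : ℕ} (hp : lo ≤ p)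
    (hk : kd x ≠ 0) : Rec n A0 kd bs adj x lo (p + 1) y c ↔ (Rec n A0 kd bs adj x lo p y c ∨
      (y = x ∧ ∃ b, c = n + b ∧ b < n ∧ bs (adj p) = b + 1)) := by
  unfold Rec
  constructor
  · rintro (h | ⟨h1, h2, b, q, h3, h4, h5, h6, h7⟩)
    · exact Or.inl (Or.inl h)
    · by_cases hq : q = p
      · subst hq; exact Or.inr ⟨h1, b, h3, h4, h7⟩
      · exact Or.inl (Or.inr ⟨h1, h2, b, q, h3, h4, h5, by omega, h7⟩)
  · rintro ((h | ⟨h1, h2, b, q, h3, h4, h5, h6, h7⟩) | ⟨h1, b, h3, h4, h7⟩)
    · exact Or.inl h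
    · exact Or.inr ⟨h1, h2, b, q, h3, h4, h5, by omega, h7⟩
    · exact Or.inr ⟨h1, hk, b, p, h3, h4, hp, by omega, h7⟩

theorem bhScan_spec {n : ℕ} {A0 : ℕ → ℕ → Prop} {kd bs adj0 : ℕ → ℕ} (s : St) {x lo p : ℕ}
    (hS : LSt n A0 kd bs adj0 s x lo p) (hlo : lo ≤ p) (hx : x < n) (hk : kd x ≠ 0)
    (h0 : s.r 0 = n) (h1 : s.r 1 = 0) (h33 : s.r 33 = x) (h34 : s.r 34 = p)
    (h42 : s.r 42 = x + 1) (h5 : s.a 5 p = adj0 p) (h46 : s.a 46 (adj0 p) = bs (adj0 p))
    (hbs : ∀ b, bs (adj0 p) = b + 1 → b < n) (hcap : 2 * n ≤ cap) :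
    ∃ s' t, Ex R cap bhScan s t s' ∧ t ≤ 20 ∧ LSt n A0 kd bs adj0 s' x lo (p + 1) ∧
      s'.r 34 = p + 1 ∧ s'.r 39 ≤ s.r 39 + 1 ∧ (∀ k, k ∉ [34, 36, 37, 38, 39, 40, 43] →
        s'.r k = s.r k) ∧ (∀ j, j ∉ [11, 60, 61, 62, 63] → s'.a j = s.a j) := by
  have f1 := Ex.blk (R := R) (cap := cap) [.load 5 36 34, .inc 34, .load 46 37 36] s
  obtain ⟨u1, hu1⟩ : ∃ u1, u1 = run [.load 5 36 34, .inc 34, .load 46 37 36] s := ⟨_, rfl⟩
  rw [← hu1] at f1
  have B1 : u1.r 34 = p + 1 ∧ u1.r 37 = bs (adj0 p) ∧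
      (∀ i, i ∉ [34, 36, 37] → u1.r i = s.r i) ∧ u1.a = s.a := by
    subst hu1
    simp only [run_cons, B.step, h34, h5, ne_eq, Nat.reduceEqDiff, not_false_eq_true, Function.update_of_ne, Function.update_self, h46, run_nil, Nat.add_left_cancel_iff, List.mem_cons, List.not_mem_nil, or_false, not_or, and_imp, and_true, true_and]
    intro i k1 k2 k3; simp [k1, k2, k3]
  obtain ⟨b34, b37, breg, barr⟩ := B1
  have hsucc : ∀ y c, Rec n A0 kd bs adj0 x lo (p + 1) y c ↔ (Rec n A0 kd bs adj0 x lo p y c ∨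
      (y = x ∧ ∃ b, c = n + b ∧ b < n ∧ bs (adj0 p) = b + 1)) := fun y c => Rec.succ hlo hk
  -- cases in which nothing is recorded
  have keep : ∀ (u : St) (t : ℕ), Ex R cap bhScan s t u → t ≤ 20 → u.a = s.a →
      u.r 34 = p + 1 → (∀ i, i ∉ [34, 36, 37, 38, 40] → u.r i = s.r i) →
      (∀ y c, Rec n A0 kd bs adj0 x lo (p + 1) y c ↔ Rec n A0 kd bs adj0 x lo p y c) →
      ∃ s' t, Ex R cap bhScan s t s' ∧ t ≤ 20 ∧ LSt n A0 kd bs adj0 s' x lo (p + 1) ∧
      s'.r 34 = p + 1 ∧ s'.r 39 ≤ s.r 39 + 1 ∧ (∀ k, k ∉ [34, 36, 37, 38, 39, 40, 43] →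
        s'.r k = s.r k) ∧ (∀ j, j ∉ [11, 60, 61, 62, 63] → s'.a j = s.a j) := by
    intro u t hex ht ha h34' hr hR
    have e39 : u.r 39 = s.r 39 := hr 39 (by decide)
    refine ⟨u, t, hex, ht, ⟨?_, ?_, ?_, ?_, ?_, ?_, ?_, ?_⟩, h34', by omega, ?_, fun j _ => by rw [ha]⟩
    · rw [ha]; exact hS.off0
    · rw [ha, e39]; exact hS.cur0
    · rw [ha]; exact hS.mono
    · rw [ha]; exact hS.segs
    · rw [ha, e39]; exact hS.seg.congr (fun _ _ _ => rfl) (fun c => hR x c)
    · intro b hb
      rw [ha, e39]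
      exact (hS.buck b hb).congr (fun _ _ => rfl) (fun _ _ => rfl) (fun _ _ => rfl) le_rfl
        (fun y => hR y _)
    · rw [ha]; exact hS.stle
    · intro b hb; rw [ha, hR]; exact hS.steq b hb
    · intro k hk'
      exact hr k (fun h => hk' ((by decide : ∀ x ∈ [34, 36, 37, 38, 40],
        x ∈ [34, 36, 37, 38, 39, 40, 43]) k h))
  by_cases hz : bs (adj0 p) = 0
  · refine keep u1 _ (.seq f1 (.iteTrue ?_ (Ex.blk [] u1))) (by simp) barr b34 ?_ ?_
    · simp only [Test.holds, b37, breg 1 (by decide), h1]; exact hz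
    · intro i hi
      exact breg i (fun h => hi ((by decide : ∀ x ∈ [34, 36, 37], x ∈ [34, 36, 37, 38, 40]) i h))
    · intro y c
      rw [hsucc]
      refine ⟨?_, Or.inl⟩
      rintro (h | ⟨_, b, _, _, h⟩)
      · exact h
      · omega
  · obtain ⟨b, hb⟩ : ∃ b, bs (adj0 p) = b + 1 := ⟨bs (adj0 p) - 1, by (clear * - h46 b37 hz; omega)⟩
    have hbn := hbs b hb
    have hnz : ¬ (Test.eq 37 1).holds u1.r := by
      simp only [Test.holds, b37, breg 1 (by decide), h1]; exact hz
    have f2 := Ex.blk (R := R) (cap := cap) [.copy 38 37, .dec 38, .load 60 40 38] u1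
    obtain ⟨u2, hu2⟩ : ∃ u2, u2 = run [.copy 38 37, .dec 38, .load 60 40 38] u1 := ⟨_, rfl⟩
    rw [← hu2] at f2
    have B2 : u2.r 38 = b ∧ u2.r 40 = s.a 60 b ∧
        (∀ i, i ∉ [34, 36, 37, 38, 40] → u2.r i = s.r i) ∧ u2.a = s.a ∧ u2.r 34 = p + 1 := by
      subst hu2
      simp only [run_cons, B.step, b37, hb, barr, Function.update_self, add_tsub_cancel_right, Function.update_idem, run_nil, ne_eq, Nat.reduceEqDiff, not_false_eq_true, Function.update_of_ne, List.mem_cons, List.not_mem_nil, or_false, not_or, and_imp, b34, Nat.add_left_cancel_iff, and_self, and_true, true_and]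
      intro i k1 k2 k3 k4 k5
      simp [k4, k5]
      exact breg i (by simp [k1, k2, k3])
    obtain ⟨c38, c40, creg, carr, c34⟩ := B2
    have hone : ∀ b', bs (adj0 p) = b' + 1 → b' = b := fun b' h => by omega
    by_cases hst : s.a 60 b = x + 1
    · have hrec := (hS.steq b hbn).1 hst
      refine keep u2 _ (.seq f1 (.iteFalse hnz (.seq f2 (.iteTrue ?_ (Ex.blk [] u2))))) (by simp)
        carr c34 creg ?_
      · simp only [Test.holds, c40, creg 42 (by decide), h42]; exact hst
      · intro y c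
        rw [hsucc]
        refine ⟨?_, Or.inl⟩
        rintro (h | ⟨h1', b', h2, h3, h4⟩)
        · exact h
        · rw [h1', h2, hone b' h4]; exact hrec
    · have hnrec : ¬ Rec n A0 kd bs adj0 x lo p x (n + b) := fun h => hst ((hS.steq b hbn).2 h)
      obtain ⟨K, hK⟩ : ∃ K, K = s.r 39 := ⟨_, rfl⟩
      have f3 := Ex.blk (R := R) (cap := cap) [.store 60 38 42, .store 63 39 33, .load 61 40 38,
        .store 62 39 40, .copy 43 38] u2
      obtain ⟨u3, hu3⟩ : ∃ u3, u3 = run [.store 60 38 42, .store 63 39 33, .load 61 40 38,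
        .store 62 39 40, .copy 43 38] u2 := ⟨_, rfl⟩
      rw [← hu3] at f3
      have B3 : u3.r 43 = b ∧ u3.r 38 = b ∧ u3.r 34 = p + 1 ∧
          (∀ i, i ∉ [34, 36, 37, 38, 40, 43] → u3.r i = s.r i) ∧
          u3.a 60 = update (s.a 60) b (x + 1) ∧ u3.a 63 = update (s.a 63) K x ∧
          u3.a 62 = update (s.a 62) K (s.a 61 b) ∧ (∀ j, j ∉ [60, 62, 63] → u3.a j = s.a j) := by
        subst hu3
        have q42 := creg 42 (by decide)
        have q39 := creg 39 (by decide)
        have q33 := creg 33 (by decide)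
        simp only [run_cons, B.step, carr, c38, q42, h42, ne_eq, Nat.reduceEqDiff, not_false_eq_true, Function.update_of_ne, q39, ← hK, q33, h33, Nat.succ_ne_self, Function.update_self, run_nil, c34, Nat.add_left_cancel_iff, List.mem_cons, List.not_mem_nil, or_false, not_or, and_imp, true_and]
        refine ⟨?_, ?_⟩
        · intro i k1 k2 k3 k4 k5 k6
          simp [k5, k6]
          exact creg i (by simp [k1, k2, k3, k4, k5])
        · intro j j1 j2 j3
          simp [j1, j2, j3]
      obtain ⟨d43, d38, d34, dreg, d60, d63, d62, darr⟩ := B3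
      have r0 : u3.r 0 = n := by rw [dreg 0 (by decide)]; exact h0
      have f4 : Ex R cap (.add 43 43 0) u3 1 ⟨update u3.r 43 (u3.r 43 + u3.r 0), u3.a⟩ :=
        Ex.add 43 43 0 u3 (by rw [d43, r0]; omega)
      have f5 := Ex.blk (R := R) (cap := cap) [.store 11 39 43, .inc 39, .store 61 38 39]
        ⟨update u3.r 43 (u3.r 43 + u3.r 0), u3.a⟩
      obtain ⟨u5, hu5⟩ : ∃ u5, u5 = run [.store 11 39 43, .inc 39, .store 61 38 39]
        ⟨update u3.r 43 (u3.r 43 + u3.r 0), u3.a⟩ := ⟨_, rfl⟩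
      rw [← hu5] at f5
      have B5 : u5.r 39 = K + 1 ∧ u5.r 34 = p + 1 ∧
          (∀ i, i ∉ [34, 36, 37, 38, 39, 40, 43] → u5.r i = s.r i) ∧
          u5.a 60 = update (s.a 60) b (x + 1) ∧ u5.a 63 = update (s.a 63) K x ∧
          u5.a 62 = update (s.a 62) K (s.a 61 b) ∧ u5.a 11 = update (s.a 11) K (n + b) ∧
          u5.a 61 = update (s.a 61) b (K + 1) ∧
          (∀ j, j ∉ [11, 60, 61, 62, 63] → u5.a j = s.a j) := by
        subst hu5
        have q39 := dreg 39 (by decide)
        have q11 := darr 11 (by decide)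
        have q61 := darr 61 (by decide)
        have ebn : b + n = n + b := Nat.add_comm _ _
        simp only [d43, r0, ebn, run_cons, B.step, q11, ne_eq, Nat.reduceEqDiff, not_false_eq_true, Function.update_of_ne, q39, ← hK, Function.update_self, q61, d38, run_nil, Nat.add_left_cancel_iff, d34, List.mem_cons, List.not_mem_nil, or_false, not_or, and_imp, d60, d63, Nat.succ_ne_self, d62, true_and]
        refine ⟨?_, ?_⟩
        · intro i k1 k2 k3 k4 k5 k6 k7
          simp [k5, k7]
          exact dreg i (by simp [k1, k2, k3, k4, k6, k7])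
        · intro j j1 j2 j3 j4 j5
          simp [j1, j3]
          exact darr j (by simp [j2, j4, j5])
      obtain ⟨e39, e34, ereg, e60, e63, e62, e11, e61, earr⟩ := B5
      have hcur := hS.cur0
      rw [← hK] at hcur
      have e10 : u5.a 10 = s.a 10 := earr 10 (by decide)
      refine ⟨u5, _, .seq f1 (.iteFalse hnz (.seq f2 (.iteFalse ?_ (.seq f3 (.seq f4 f5))))), ?_,
        ⟨?_, ?_, ?_, ?_, ?_, ?_, ?_, ?_⟩, e34, by omega, ereg, earr⟩
      · simp only [Test.holds, c40, creg 42 (by decide), h42]; exact hst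
      · simp only [List.length_cons, List.length_nil, zero_add, Nat.reduceAdd, Nat.reduceLeDiff]
      · rw [e10]; exact hS.off0
      · rw [e10, e39]; (clear * - hK e39 hcur; omega)
      · rw [e10]; exact hS.mono
      · intro v hv
        rw [e10, e11]
        refine (hS.segs v hv).congr ?_ (fun _ => Iff.rfl)
        intro q q1 q2
        -- positions of earlier lists are below K
        have hle : s.a 10 (v + 1) ≤ s.a 10 x := by
          have : ∀ d, v + 1 + d ≤ x → s.a 10 (v + 1) ≤ s.a 10 (v + 1 + d) := by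
            intro d
            induction d with
            | zero => intro _; exact le_rfl
            | succ d ih =>
              intro hd
              have h2 := hS.mono (v + 1 + d) (by omega)
              have h3 := ih (by omega)
              rw [show v + 1 + (d + 1) = v + 1 + d + 1 by (clear * -; omega)]
              omega
          have := this (x - (v + 1)) (by (clear * - h33 h42 hv; omega))
          rwa [show v + 1 + (x - (v + 1)) = x by (clear * - h33 h42 hv; omega)] at this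
        rw [Function.update_of_ne (by omega)]
      · rw [e10, e11, e39]
        have := (hS.seg).add (by rw [← hK]; exact hcur) hnrec
        rw [← hK] at this
        refine this.congr (fun _ _ _ => rfl) ?_
        intro c
        rw [hsucc]
        constructor
        · rintro (h | ⟨_, b', h2, h3, h4⟩)
          · exact Or.inl h
          · right; rw [h2, hone b' h4]
        · rintro (h | h)
          · exact Or.inl h
          · exact Or.inr ⟨rfl, b, h, hbn, hb⟩
      · intro b' hb'
        rw [e63, e62, e11, e61, e39]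
        by_cases hbb : b' = b
        · subst hbb
          rw [Function.update_self]
          have hB := hS.buck b' hb'
          rw [← hK] at hB
          refine hB.add (x := x) ?_ ?_ ?_ (by simp) (by simp) (by simp) hnrec ?_
          · intro i hi; rw [Function.update_of_ne (by (clear * - hK e39 hi; omega))]
          · intro i hi; rw [Function.update_of_ne (by omega)]
          · intro i hi; rw [Function.update_of_ne (by omega)]
          · intro y
            rw [hsucc]
            constructor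
            · rintro (h | ⟨h1', _⟩)
              · exact Or.inl h
              · exact Or.inr h1'
            · rintro (h | h)
              · exact Or.inl h
              · exact Or.inr ⟨h, b', rfl, hb', hb⟩
        · rw [Function.update_of_ne hbb]
          have hB := hS.buck b' hb'
          rw [← hK] at hB
          refine hB.congr ?_ ?_ ?_ (Nat.le_succ K) ?_
          · intro i hi; rw [Function.update_of_ne (by omega)]
          · intro i hi; rw [Function.update_of_ne (by omega)]
          · intro i hi; rw [Function.update_of_ne (by omega)]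
          · intro y
            rw [hsucc]
            refine ⟨?_, Or.inl⟩
            rintro (h | ⟨_, b'', h2, _, h4⟩)
            · exact h
            · exact absurd (by rw [← hone b'' h4]; omega) hbb
      · intro b' hb'
        rw [e60]
        by_cases hbb : b' = b
        · rw [hbb, Function.update_self]
        · rw [Function.update_of_ne hbb]; exact hS.stle b' hb'
      · intro b' hb'
        rw [e60, hsucc]
        by_cases hbb : b' = b
        · rw [hbb, Function.update_self]
          exact ⟨fun _ => Or.inr ⟨rfl, b, rfl, hbn, hb⟩, fun _ => rfl⟩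
        · rw [Function.update_of_ne hbb, hS.steq b' hb']
          refine ⟨Or.inl, ?_⟩
          rintro (h | ⟨_, b'', h2, _, h4⟩)
          · exact h
          · exact absurd (by rw [← hone b'' h4]; omega) hbb

theorem bhScanLoop_spec {n : ℕ} {A0 : ℕ → ℕ → Prop} {kd bs adj0 : ℕ → ℕ} (s : St) {x lo hi : ℕ}
    (hS : LSt n A0 kd bs adj0 s x lo lo) (hlh : lo ≤ hi) (hx : x < n) (hk : kd x ≠ 0)
    (h0 : s.r 0 = n) (h1 : s.r 1 = 0) (h33 : s.r 33 = x) (h34 : s.r 34 = lo) (h35 : s.r 35 = hi)
    (h42 : s.r 42 = x + 1) (h5 : ∀ p, lo ≤ p → p < hi → s.a 5 p = adj0 p)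
    (h46 : ∀ p, lo ≤ p → p < hi → s.a 46 (adj0 p) = bs (adj0 p))
    (hbs : ∀ p, lo ≤ p → p < hi → ∀ b, bs (adj0 p) = b + 1 → b < n) (hcap : 2 * n ≤ cap) :
    ∃ s' t, Ex R cap (.loop (.lt 34 35) bhScan) s t s' ∧ t ≤ 21 * (hi - lo) + 1 ∧
      LSt n A0 kd bs adj0 s' x lo hi ∧
      s'.r 39 ≤ s.r 39 + (hi - lo) ∧ (∀ k, k ∉ [34, 36, 37, 38, 39, 40, 43] →
        s'.r k = s.r k) ∧ (∀ j, j ∉ [11, 60, 61, 62, 63] → s'.a j = s.a j) := by
  obtain ⟨s', t, ex, ⟨hreg, harr, hp1, hp2, h39, hL⟩, hc, ht⟩ := loop_rule (R := R) (cap := cap)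
    (c := .lt 34 35) (p := bhScan)
    (fun s' => (∀ k, k ∉ [34, 36, 37, 38, 39, 40, 43] → s'.r k = s.r k) ∧
      (∀ j, j ∉ [11, 60, 61, 62, 63] → s'.a j = s.a j) ∧ lo ≤ s'.r 34 ∧ s'.r 34 ≤ hi ∧
      s'.r 39 ≤ s.r 39 + (s'.r 34 - lo) ∧ LSt n A0 kd bs adj0 s' x lo (s'.r 34))
    (fun s' => 21 * (hi - s'.r 34))
    (by
      rintro s1 ⟨hreg, harr, hp1, hp2, h39, hL⟩ hc
      simp only [Test.holds] at hc
      rw [hreg 35 (by decide), h35] at hc
      obtain ⟨s2, t2, e2, ht2, hL2, q34, q39, qr, qa⟩ := bhScan_spec (R := R) (cap := cap) s1 hL hp1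
        hx hk (by rw [hreg 0 (by decide)]; exact h0) (by rw [hreg 1 (by decide)]; exact h1)
        (by rw [hreg 33 (by decide)]; exact h33) rfl (by rw [hreg 42 (by decide)]; exact h42)
        (by rw [harr 5 (by decide)]; exact h5 _ hp1 hc)
        (by rw [harr 46 (by decide)]; exact h46 _ hp1 hc) (hbs _ hp1 hc) hcap
      refine ⟨s2, t2, e2, ⟨?_, ?_, by omega, by omega, by omega, by rw [q34]; exact hL2⟩, by (clear * - h35 hc ht2 q34; omega)⟩
      · intro k hk'; rw [qr k hk', hreg k hk']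
      · intro j hj; rw [qa j hj, harr j hj])
    s ⟨fun _ _ => rfl, fun _ _ => rfl, by omega, by omega, by omega, by rw [h34]; exact hS⟩
  simp only [Test.holds] at hc
  rw [hreg 35 (by decide), h35] at hc
  have he : s'.r 34 = hi := by omega
  rw [he] at hL h39
  exact ⟨s', t, ex, by rw [h34] at ht; omega, hL, h39, hreg, harr⟩

/-- State between two left lists. -/
structure LO (n : ℕ) (A0 : ℕ → ℕ → Prop) (kd bs : ℕ → ℕ) (s : St) (x : ℕ) : Prop where
  off0 : update (s.a 10) x (s.r 39) 0 = 0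
  mono : ∀ v < x, update (s.a 10) x (s.r 39) v ≤ update (s.a 10) x (s.r 39) (v + 1)
  segs : ∀ v < x, Seg (s.a 11) (update (s.a 10) x (s.r 39) v)
    (update (s.a 10) x (s.r 39) (v + 1)) (HL n A0 kd bs v)
  buck : ∀ b < n, Bucket (s.a 63) (s.a 62) (s.a 11) (s.a 61 b) (s.r 39) (n + b)
    (fun y => y < x ∧ HL n A0 kd bs y (n + b))
  st : ∀ b < n, s.a 60 b ≤ x

theorem LSt.done {n : ℕ} {A0 : ℕ → ℕ → Prop} {kd bs adj0 : ℕ → ℕ} {s : St} {x lo hi : ℕ}
    (h : LSt n A0 kd bs adj0 s x lo hi)
    (hR : ∀ c, Rec n A0 kd bs adj0 x lo hi x c ↔ HL n A0 kd bs x c) :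
    LO n A0 kd bs s (x + 1) := by
  have hlt : ∀ v, v < x + 1 → update (s.a 10) (x + 1) (s.r 39) v = s.a 10 v := fun v hv => by
    rw [Function.update_of_ne (by omega)]
  have hR' : ∀ y c, Rec n A0 kd bs adj0 x lo hi y c ↔ (y < x + 1 ∧ HL n A0 kd bs y c) := by
    intro y c
    by_cases hy : y = x
    · subst hy
      rw [hR]
      exact ⟨fun h => ⟨by omega, h⟩, fun h => h.2⟩
    · unfold Rec
      constructor
      · rintro (h | h)
        · exact ⟨by omega, h.2⟩
        · exact absurd h.1 hy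
      · rintro ⟨h1, h2⟩
        exact Or.inl ⟨by omega, h2⟩
  refine ⟨?_, ?_, ?_, ?_, ?_⟩
  · rw [hlt 0 (by omega)]; exact h.off0
  · intro v hv
    by_cases hvx : v = x
    · subst hvx
      rw [hlt v (by omega), Function.update_self]; exact h.cur0
    · rw [hlt v hv, hlt (v + 1) (by omega)]; exact h.mono v (by omega)
  · intro v hv
    by_cases hvx : v = x
    · subst hvx
      rw [hlt v (by omega), Function.update_self]
      exact h.seg.congr (fun _ _ _ => rfl) (fun c => (hR c).symm)
    · rw [hlt v hv, hlt (v + 1) (by omega)]; exact h.segs v (by omega)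
  · intro b hb
    exact (h.buck b hb).congr (fun _ _ => rfl) (fun _ _ => rfl) (fun _ _ => rfl) le_rfl
      (fun y => (hR' y _).symm)
  · intro b hb
    exact h.stle b hb

theorem bhLeft_spec {n : ℕ} {A0 : ℕ → ℕ → Prop} {kd bs : ℕ → ℕ} (s : St) {x : ℕ}
    (hcsr : CSR n A0 (s.a 4) (s.a 5)) (hG0 : Gr n A0)
    (hS : LO n A0 kd bs s x) (hx : x < n) (h0 : s.r 0 = n) (h1 : s.r 1 = 0) (h33 : s.r 33 = x)
    (h46 : ∀ v < n, s.a 46 v = bs v) (h47 : ∀ v < n, s.a 47 v = kd v)
    (hbs : ∀ v < n, ∀ b, bs v = b + 1 → b < n) (h39 : s.r 39 ≤ s.a 4 x) (hcap : 2 * n ≤ cap) :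
    ∃ s' t, Ex R cap bhLeft s t s' ∧ t ≤ 21 * (s.a 4 (x + 1) - s.a 4 x) + 12 ∧
      LO n A0 kd bs s' (x + 1) ∧ s'.r 33 = x + 1 ∧
      s'.r 39 ≤ s.a 4 (x + 1) ∧ (∀ k, k ∉ bhRegs → s'.r k = s.r k) ∧
      (∀ j, j ∉ bhArrs → s'.a j = s.a j) := by
  have hmono := hcsr.mono x hx
  have f1 := Ex.blk (R := R) (cap := cap) [.store 10 33 39, .copy 42 33, .inc 42, .load 47 40 33] s
  obtain ⟨u1, hu1⟩ : ∃ u1, u1 = run [.store 10 33 39, .copy 42 33, .inc 42, .load 47 40 33] s :=
    ⟨_, rfl⟩
  rw [← hu1] at f1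
  have B1 : u1.r 42 = x + 1 ∧ u1.r 40 = kd x ∧ (∀ i, i ∉ [40, 42] → u1.r i = s.r i) ∧
      u1.a 10 = update (s.a 10) x (s.r 39) ∧ (∀ j, j ≠ 10 → u1.a j = s.a j) := by
    subst hu1
    simp only [run_cons, B.step, h33, Function.update_self, Function.update_idem, ne_eq, Nat.reduceEqDiff, not_false_eq_true, Function.update_of_ne, h47 x hx, run_nil, Nat.add_left_cancel_iff, List.mem_cons, List.not_mem_nil, or_false, not_or, and_imp, true_and]
    refine ⟨?_, ?_⟩
    · intro i k1 k2; simp [k1, k2]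
    · intro j hj; simp [hj]
  obtain ⟨b42, b40, breg, b10, barr⟩ := B1
  obtain ⟨lo, hlo⟩ : ∃ lo, lo = s.a 4 x := ⟨_, rfl⟩
  obtain ⟨hi, hhi⟩ : ∃ hi, hi = s.a 4 (x + 1) := ⟨_, rfl⟩
  rw [← hlo, ← hhi] at hmono
  have hnr : ∀ c, ¬ Rec n A0 kd bs (s.a 5) x lo lo x c := by
    rintro c (h | ⟨_, _, b, q, _, _, h1, h2, _⟩) <;> omega
  have hr0 : ∀ y c, Rec n A0 kd bs (s.a 5) x lo lo y c ↔ (y < x ∧ HL n A0 kd bs y c) := by
    intro y c
    constructor
    · rintro (h | ⟨_, _, b, q, _, _, h1, h2, _⟩)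
      · exact h
      · omega
    · intro h; exact Or.inl h
  -- the state before the scan
  have hLS : ∀ u : St, u.a = u1.a → u.r 39 = s.r 39 → LSt n A0 kd bs (s.a 5) u x lo lo := by
    intro u ha hr
    have e11 : u.a 11 = s.a 11 := by rw [ha]; exact barr 11 (by decide)
    have e10 : u.a 10 = update (s.a 10) x (s.r 39) := by rw [ha]; exact b10
    refine ⟨?_, ?_, ?_, ?_, ?_, ?_, ?_, ?_⟩
    · rw [e10]; exact hS.off0
    · rw [e10, hr, Function.update_self]
    · rw [e10]; exact hS.mono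
    · rw [e10, e11]; exact hS.segs
    · rw [e10, e11, hr, Function.update_self]
      exact Seg.nil _ _ hnr
    · intro b hb
      rw [e11, hr, ha, barr 63 (by decide), barr 62 (by decide), barr 61 (by decide)]
      exact (hS.buck b hb).congr (fun _ _ => rfl) (fun _ _ => rfl) (fun _ _ => rfl) le_rfl
        (fun y => hr0 y _)
    · intro b hb
      rw [ha, barr 60 (by decide)]
      have := hS.st b hb; omega
    · intro b hb
      rw [ha, barr 60 (by decide)]
      have := hS.st b hb
      exact ⟨fun h => by omega, fun h => absurd h (hnr _)⟩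
  by_cases hk : kd x = 0
  · -- no list
    have f3 := Ex.blk (R := R) (cap := cap) [.inc 33] u1
    obtain ⟨u3, hu3⟩ : ∃ u3, u3 = run [.inc 33] u1 := ⟨_, rfl⟩
    rw [← hu3] at f3
    have B3 : u3.r 33 = x + 1 ∧ (∀ i, i ∉ [33, 40, 42] → u3.r i = s.r i) ∧ u3.a = u1.a := by
      subst hu3
      have := breg 33 (by decide)
      simp only [run_cons, B.step, this, h33, run_nil, Function.update_self, Nat.add_left_cancel_iff, List.mem_cons, List.not_mem_nil, or_false, not_or, and_imp, and_true, true_and]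
      intro i k1 k2 k3
      simp [k1]
      exact breg i (by simp [k2, k3])
    obtain ⟨c33, creg, carr⟩ := B3
    refine ⟨u3, _, .seq f1 (.seq (.iteTrue ?_ (Ex.blk [] u1)) f3), ?_, ?_, c33, ?_, ?_, ?_⟩
    · simp only [Test.holds, b40, breg 1 (by decide), h1]; exact hk
    · simp only [List.length_cons, List.length_nil]; omega
    · refine (hLS u3 carr (creg 39 (by decide))).done ?_
      intro c
      exact ⟨fun h => absurd h (hnr c), fun h => absurd hk h.2.1⟩
    · rw [creg 39 (by decide)]; omega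
    · intro k hk'
      exact creg k (fun h => hk' ((by decide : ∀ x ∈ [33, 40, 42], x ∈ bhRegs) k h))
    · intro j hj
      rw [carr, barr j (by rintro rfl; exact hj (by decide))]
  · have hnk : ¬ (Test.eq 40 1).holds u1.r := by
      simp only [Test.holds, b40, breg 1 (by decide), h1]; exact hk
    have f2 := Ex.blk (R := R) (cap := cap) [.load 4 34 33, .load 4 35 42] u1
    obtain ⟨u2, hu2⟩ : ∃ u2, u2 = run [.load 4 34 33, .load 4 35 42] u1 := ⟨_, rfl⟩
    rw [← hu2] at f2
    have B2 : u2.r 34 = lo ∧ u2.r 35 = hi ∧ (∀ i, i ∉ [34, 35, 40, 42] → u2.r i = s.r i) ∧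
        u2.a = u1.a ∧ u2.r 42 = x + 1 := by
      subst hu2
      have q33 := breg 33 (by decide)
      have q4 := barr 4 (by decide)
      simp only [run_cons, B.step, q33, h33, q4, ← hlo, ne_eq, Nat.reduceEqDiff, not_false_eq_true, Function.update_of_ne, b42, ← hhi, run_nil, Function.update_self, List.mem_cons, List.not_mem_nil, or_false, not_or, and_imp, Nat.add_left_cancel_iff, and_self, and_true, true_and]
      intro i k1 k2 k3 k4
      simp [k1, k2]
      exact breg i (by simp [k3, k4])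
    obtain ⟨c34, c35, creg, carr, c42⟩ := B2
    have q5 : u2.a 5 = s.a 5 := by rw [carr]; exact barr 5 (by decide)
    have q46 : u2.a 46 = s.a 46 := by rw [carr]; exact barr 46 (by decide)
    have hadj : ∀ p, lo ≤ p → p < hi → s.a 5 p < n := by
      intro p p1 p2
      exact hG0.lt' ((hcsr.mem x hx _).2 ⟨p, by omega, by omega, rfl⟩)
    obtain ⟨u3, t3, f3, ht3, hL3, q39, dreg, darr⟩ := bhScanLoop_spec (R := R) (cap := cap)
      (adj0 := s.a 5) u2 (hLS u2 carr (creg 39 (by decide))) hmono hx hk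
      (by rw [creg 0 (by decide)]; exact h0) (by rw [creg 1 (by decide)]; exact h1)
      (by rw [creg 33 (by decide)]; exact h33) c34 c35 c42 (fun p _ _ => by rw [q5])
      (fun p p1 p2 => by rw [q46]; exact h46 _ (hadj p p1 p2))
      (fun p p1 p2 => hbs _ (hadj p p1 p2)) hcap
    have f4 := Ex.blk (R := R) (cap := cap) [.inc 33] u3
    obtain ⟨u4, hu4⟩ : ∃ u4, u4 = run [.inc 33] u3 := ⟨_, rfl⟩
    rw [← hu4] at f4
    have B4 : u4.r 33 = x + 1 ∧ (∀ i, i ≠ 33 → u4.r i = u3.r i) ∧ u4.a = u3.a := by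
      subst hu4
      have := dreg 33 (by decide)
      have := creg 33 (by decide)
      simp only [run_cons, B.step, dreg 33 (by decide), creg 33 (by decide), h33, run_nil, Function.update_self, Nat.add_left_cancel_iff, ne_eq, and_true, true_and]
      intro i k1; simp [k1]
    obtain ⟨e33, ereg, earr⟩ := B4
    refine ⟨u4, _, .seq f1 (.seq (.iteFalse hnk (.seq f2 f3)) f4), ?_, ?_, e33, ?_, ?_, ?_⟩
    · simp only [List.length_cons, List.length_nil]; omega
    · have hL4 : LSt n A0 kd bs (s.a 5) u4 x lo hi := by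
        obtain ⟨a1, a2, a3, a4, a5, a6, a7, a8⟩ := hL3
        have e39 := ereg 39 (by decide)
        refine ⟨?_, ?_, ?_, ?_, ?_, ?_, ?_, ?_⟩
        · rw [earr]; exact a1
        · rw [earr, e39]; exact a2
        · rw [earr]; exact a3
        · rw [earr]; exact a4
        · rw [earr, e39]; exact a5
        · rw [earr, e39]; exact a6
        · rw [earr]; exact a7
        · rw [earr]; exact a8
      refine hL4.done ?_
      intro c
      constructor
      · rintro (h | ⟨_, _, b, q, g1, g2, g3, g4, g5⟩)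
        · omega
        · exact ⟨hx, hk, b, s.a 5 q, g1, g2, (hcsr.mem x hx _).2 ⟨q, by omega, by omega, rfl⟩, g5⟩
      · rintro ⟨_, _, b, y, g1, g2, g3, g4⟩
        obtain ⟨q, q1, q2, q3⟩ := (hcsr.mem x hx y).1 g3
        exact Or.inr ⟨rfl, hk, b, q, g1, g2, by omega, by omega, by rw [q3]; exact g4⟩
    · rw [ereg 39 (by decide)]
      have := creg 39 (by decide)
      (clear * - h39 hlo hmono hhi c34 c35 q39 this; omega)
    · intro k hk'
      rw [ereg k (by rintro rfl; exact hk' (by decide)),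
        dreg k (fun h => hk' ((by decide : ∀ x ∈ [34, 36, 37, 38, 39, 40, 43], x ∈ bhRegs) k h)),
        creg k (fun h => hk' ((by decide : ∀ x ∈ [34, 35, 40, 42], x ∈ bhRegs) k h))]
    · intro j hj
      rw [earr, darr j (fun h => hj ((by decide : ∀ x ∈ [11, 60, 61, 62, 63], x ∈ bhArrs) j h)),
        carr, barr j (by rintro rfl; exact hj (by decide))]

theorem Seg.consL {adj : ℕ → ℕ} {lo hi : ℕ} {S : ℕ → Prop} (h : Seg adj (lo + 1) hi S)
    (hle : lo < hi) (hn : ¬ S (adj lo)) : Seg adj lo hi (fun u => u = adj lo ∨ S u) := by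
  refine ⟨?_, ?_, ?_⟩
  · intro p h1 h2
    by_cases hp : p = lo
    · left; rw [hp]
    · right; exact h.mem p (by omega) h2
  · rintro u (hu | hu)
    · exact ⟨lo, le_rfl, hle, hu.symm⟩
    · obtain ⟨p, h1, h2, h3⟩ := h.ex u hu
      exact ⟨p, by omega, h2, h3⟩
  · intro p q h1 h2 h3 h4 e
    by_cases hp : p = lo
    · by_cases hq : q = lo
      · omega
      · rw [hp] at e
        exact absurd (e ▸ h.mem q (by omega) h4) hn
    · by_cases hq : q = lo
      · rw [hq] at e
        exact absurd (e ▸ h.mem p (by omega) h2) hn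
      · exact h.inj p q (by omega) h2 (by omega) h4 e

def bhWalk : Cmd :=
  .loop (.ne 36 1) (.blk [.dec 36, .load 63 37 36, .store 11 39 37, .inc 39, .load 62 36 36])

theorem bhWalk_spec (l : List ℕ) : ∀ (s : St), LL (s.a 62) (s.r 36) l →
    (l.map (s.a 63)).Nodup → s.r 1 = 0 →
    ∃ s' t, Ex R cap bhWalk s t s' ∧ t ≤ 6 * l.length + 1 ∧ s'.r 39 = s.r 39 + l.length ∧
      Seg (s'.a 11) (s.r 39) (s'.r 39) (fun x => x ∈ l.map (s.a 63)) ∧
      (∀ p < s.r 39, s'.a 11 p = s.a 11 p) ∧ (∀ k, k ∉ [36, 37, 39] → s'.r k = s.r k) ∧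
      (∀ j, j ≠ 11 → s'.a j = s.a j) := by
  induction l with
  | nil =>
    intro s hL hnd h1
    have h36 : s.r 36 = 0 := by
      generalize hq : s.r 36 = q at hL
      cases hL; rfl
    refine ⟨s, 1, Ex.loopDone ?_, by simp, by simp, ?_, fun _ _ => rfl, fun _ _ => rfl,
      fun _ _ => rfl⟩
    · simp [Test.holds, h36, h1]
    · exact Seg.nil _ _ (by simp)
  | cons i l ih =>
    intro s hL hnd h1
    obtain ⟨h36, hL'⟩ : s.r 36 = i + 1 ∧ LL (s.a 62) (s.a 62 i) l := by
      generalize hq : s.r 36 = q at hL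
      cases hL with
      | cons h => exact ⟨rfl, h⟩
    rw [List.map_cons, List.nodup_cons] at hnd
    have f1 := Ex.blk (R := R) (cap := cap)
      [.dec 36, .load 63 37 36, .store 11 39 37, .inc 39, .load 62 36 36] s
    obtain ⟨u1, hu1⟩ : ∃ u1, u1 = run [.dec 36, .load 63 37 36, .store 11 39 37, .inc 39,
      .load 62 36 36] s := ⟨_, rfl⟩
    rw [← hu1] at f1
    have B1 : u1.r 36 = s.a 62 i ∧ u1.r 39 = s.r 39 + 1 ∧
        u1.a 11 = update (s.a 11) (s.r 39) (s.a 63 i) ∧
        (∀ k, k ∉ [36, 37, 39] → u1.r k = s.r k) ∧ (∀ j, j ≠ 11 → u1.a j = s.a j) := by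
      subst hu1
      simp only [run_cons, B.step, h36, add_tsub_cancel_right, Function.update_self, ne_eq, Nat.reduceEqDiff, not_false_eq_true, Function.update_of_ne, run_nil, Nat.add_left_cancel_iff, List.mem_cons, List.not_mem_nil, or_false, not_or, and_imp, true_and]
      refine ⟨?_, ?_⟩
      · intro k k1 k2 k3; simp [k1, k2, k3]
      · intro j hj; simp [hj]
    obtain ⟨b36, b39, b11, breg, barr⟩ := B1
    obtain ⟨s', t, e, ht, h39, hseg, hlow, hreg, harr⟩ := ih u1
      (by rw [b36, barr 62 (by decide)]; exact hL')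
      (by rw [barr 63 (by decide)]; exact hnd.2) (by rw [breg 1 (by decide)]; exact h1)
    rw [barr 63 (by decide)] at hseg
    have hat : s'.a 11 (s.r 39) = s.a 63 i := by
      rw [hlow _ (by omega), b11, Function.update_self]
    refine ⟨s', _, Ex.loopStep ?_ f1 e, ?_, ?_, ?_, ?_, ?_, ?_⟩
    · simp [Test.holds, h36, h1]
    · simp only [List.length_cons, List.length_nil]; (clear * - ht; omega)
    · simp only [List.length_cons]; omega
    · rw [b39] at hseg
      have := hseg.consL (by omega) (by rw [hat]; exact hnd.1)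
      refine this.congr (fun _ _ _ => rfl) ?_
      intro u
      rw [hat, List.map_cons, List.mem_cons]
    · intro p hp
      rw [hlow p (by omega), b11, Function.update_of_ne (by omega)]
    · intro k hk; rw [hreg k hk, breg k hk]
    · intro j hj; rw [harr j hj, barr j hj]

open Classical in
/-- Number of recorded pairs with right end below `c`. -/
noncomputable def cntR (adj : ℕ → ℕ) (K c : ℕ) : ℕ :=
  ((Finset.range K).filter (fun i => adj i < c)).card

theorem cntR_le (adj : ℕ → ℕ) (K c : ℕ) : cntR adj K c ≤ K := by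
  unfold cntR
  refine (Finset.card_filter_le _ _).trans ?_
  simp

theorem cntR_succ {adj : ℕ → ℕ} {K c : ℕ} {l : List ℕ} (hnd : l.Nodup)
    (hl : ∀ i ∈ l, i < K ∧ adj i = c) : cntR adj K c + l.length ≤ cntR adj K (c + 1) := by
  classical
  unfold cntR
  rw [← List.toFinset_card_of_nodup hnd, ← Finset.card_union_of_disjoint]
  · apply Finset.card_le_card
    intro i hi
    rcases Finset.mem_union.1 hi with hi | hi
    · simp only [Finset.mem_filter, Finset.mem_range] at hi ⊢
      exact ⟨hi.1, by omega⟩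
    · rw [List.mem_toFinset] at hi
      have := hl i hi
      simp only [Finset.mem_filter, Finset.mem_range]
      exact ⟨this.1, by omega⟩
  · rw [Finset.disjoint_left]
    intro i hi hi'
    simp only [Finset.mem_filter, Finset.mem_range] at hi
    rw [List.mem_toFinset] at hi'
    have := (hl i hi').2
    omega

/-- State between two right lists; `K` = number of pairs. -/
structure RO (n : ℕ) (A0 : ℕ → ℕ → Prop) (kd bs : ℕ → ℕ) (s : St) (K j : ℕ) : Prop where
  off0 : update (s.a 10) (n + j) (s.r 39) 0 = 0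
  mono : ∀ v < n + j, update (s.a 10) (n + j) (s.r 39) v ≤
    update (s.a 10) (n + j) (s.r 39) (v + 1)
  segL : ∀ v < n, Seg (s.a 11) (update (s.a 10) (n + j) (s.r 39) v)
    (update (s.a 10) (n + j) (s.r 39) (v + 1)) (HL n A0 kd bs v)
  segR : ∀ b < j, Seg (s.a 11) (update (s.a 10) (n + j) (s.r 39) (n + b))
    (update (s.a 10) (n + j) (s.r 39) (n + b + 1)) (fun y => HL n A0 kd bs y (n + b))
  buck : ∀ b < n, Bucket (s.a 63) (s.a 62) (s.a 11) (s.a 61 b) K (n + b)
    (fun y => HL n A0 kd bs y (n + b))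
  ge : K ≤ s.r 39
  cnt : s.r 39 ≤ K + cntR (s.a 11) K (n + j)

theorem RO.step {n : ℕ} {A0 : ℕ → ℕ → Prop} {kd bs : ℕ → ℕ} {s s' : St} {K j : ℕ}
    (h : RO n A0 kd bs s K j) (hj : j < n) {l : List ℕ} (hlnd : l.Nodup)
    (hl : ∀ i ∈ l, i < K ∧ s.a 11 i = n + j)
    (hlQ : ∀ x, x ∈ l.map (s.a 63) ↔ HL n A0 kd bs x (n + j))
    (h10 : s'.a 10 = update (s.a 10) (n + j) (s.r 39)) (h39 : s'.r 39 = s.r 39 + l.length)
    (hseg : Seg (s'.a 11) (s.r 39) (s'.r 39) (fun x => x ∈ l.map (s.a 63)))
    (hlow : ∀ p < s.r 39, s'.a 11 p = s.a 11 p) (harr : ∀ i ∈ [61, 62, 63], s'.a i = s.a i) :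
    RO n A0 kd bs s' K (j + 1) := by
  have hge := h.ge
  have hmono := h.mono
  have hle : ∀ v, v ≤ n + j → update (s.a 10) (n + j) (s.r 39) v ≤ s.r 39 := by
    have : ∀ d, d ≤ n + j → update (s.a 10) (n + j) (s.r 39) (n + j - d) ≤ s.r 39 := by
      intro d
      induction d with
      | zero => intro _; simp
      | succ d ih =>
        intro hd
        have h1 := hmono (n + j - (d + 1)) (by omega)
        rw [show n + j - (d + 1) + 1 = n + j - d by omega] at h1
        exact h1.trans (ih (by omega))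
    intro v hv
    have := this (n + j - v) (by omega)
    rwa [show n + j - (n + j - v) = v by (clear * - hv; omega)] at this
  have hupd : ∀ v, v < n + j + 1 → update (s'.a 10) (n + j + 1) (s'.r 39) v =
      update (s.a 10) (n + j) (s.r 39) v := by
    intro v hv
    rw [Function.update_of_ne (by omega), h10]
  have hnew : update (s'.a 10) (n + j + 1) (s'.r 39) (n + j + 1) = s'.r 39 := by
    rw [Function.update_self]
  have hcur : update (s.a 10) (n + j) (s.r 39) (n + j) = s.r 39 := by rw [Function.update_self]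
  have hsegc : ∀ (lo hi : ℕ) (S : ℕ → Prop), hi ≤ s.r 39 → Seg (s.a 11) lo hi S →
      Seg (s'.a 11) lo hi S := by
    intro lo hi S hhi hS
    exact hS.congr (fun p _ hp => hlow p (by omega)) (fun _ => Iff.rfl)
  have ej : n + (j + 1) = n + j + 1 := by omega
  refine ⟨?_, ?_, ?_, ?_, ?_, ?_, ?_⟩
  · rw [ej, hupd 0 (by omega)]; exact h.off0
  · intro v hv
    rw [ej]
    by_cases hv' : v = n + j
    · rw [hv', hupd _ (by omega), hcur, hnew]; omega
    · rw [hupd v (by omega), hupd (v + 1) (by omega)]; exact hmono v (by omega)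
  · intro v hv
    rw [ej, hupd v (by omega), hupd (v + 1) (by omega)]
    exact hsegc _ _ _ (hle _ (by omega)) (h.segL v hv)
  · intro b hb
    rw [ej]
    by_cases hbj : b = j
    · rw [hbj, hupd _ (by omega), hcur, hnew]
      exact hseg.congr (fun _ _ _ => rfl) (fun x => (hlQ x).symm)
    · rw [hupd (n + b) (by omega), hupd (n + b + 1) (by omega)]
      exact hsegc _ _ _ (hle _ (by omega)) (h.segR b (by omega))
  · intro b hb
    rw [harr 61 (by decide), harr 62 (by decide), harr 63 (by decide)]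
    exact (h.buck b hb).congr (fun _ _ => rfl) (fun _ _ => rfl) (fun i hi => hlow i (by (clear * - h39 hge hnew hcur hi; omega)))
      le_rfl (fun _ => Iff.rfl)
  · omega
  · have e : cntR (s'.a 11) K (n + (j + 1)) = cntR (s.a 11) K (n + j + 1) := by
      unfold cntR
      congr 1
      apply Finset.filter_congr
      intro i hi
      rw [Finset.mem_range] at hi
      rw [hlow i (by omega), ej]
    have := cntR_succ (c := n + j) hlnd hl
    have := h.cnt
    rw [e]; (clear hj hlQ h10 hseg hlow harr hge hmono hle hupd hsegc ej e; omega)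

theorem buildHC_spec {n : ℕ} {A0 : ℕ → ℕ → Prop} {kd bs : ℕ → ℕ} (s : St)
    (hcsr : CSR n A0 (s.a 4) (s.a 5)) (hG0 : Gr n A0) (h0 : s.r 0 = n) (h1 : s.r 1 = 0)
    (h46 : ∀ v < n, s.a 46 v = bs v) (h47 : ∀ v < n, s.a 47 v = kd v)
    (hbs : ∀ v < n, ∀ b, bs v = b + 1 → b < n) (hcap : 2 * n ≤ cap) :
    ∃ s' t, Ex R cap buildHC s t s' ∧ t ≤ 60 * n + 40 * s.a 4 n + 30 ∧
      CSR (2 * n) (HB n A0 kd bs) (s'.a 10) (s'.a 11) ∧ s'.a 10 (2 * n) ≤ 2 * s.a 4 n ∧
      s'.r 20 = 2 * n ∧ (∀ k, k ∉ bhRegs → s'.r k = s.r k) ∧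
      (∀ j, j ∉ bhArrs → s'.a j = s.a j) := by
  -- first phase: clearing
  have f1 := Ex.blk (R := R) (cap := cap) [.const 33 0] s
  obtain ⟨u1, hu1⟩ : ∃ u1, u1 = run [.const 33 0] s := ⟨_, rfl⟩
  rw [← hu1] at f1
  have B1 : u1.r 33 = 0 ∧ (∀ i, i ≠ 33 → u1.r i = s.r i) ∧ u1.a = s.a := by
    subst hu1
    simp only [run_cons, B.step, run_nil, Function.update_self, ne_eq, and_true, true_and]
    intro i k1; simp [k1]
  obtain ⟨b33, breg, barr⟩ := B1
  obtain ⟨u2, t2, f2, ht2, ⟨creg, carr, c60⟩, c33, _⟩ := for_rule (R := R) (cap := cap)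
    (i := 33) (b := 0) (body := .blk [.store 60 33 1, .store 61 33 1, .inc 33]) n 3 0
    (fun k s' => (∀ i, i ≠ 33 → s'.r i = s.r i) ∧ (∀ j, j ∉ [60, 61] → s'.a j = s.a j) ∧
      (∀ v < k, s'.a 60 v = 0 ∧ s'.a 61 v = 0))
    (by
      rintro k s' _ hk ⟨hreg, harr, h60⟩ h33 hb
      have g1 : s'.r 1 = 0 := by rw [hreg 1 (by decide)]; exact h1
      refine ⟨_, _, Ex.blk _ _, ?_, ⟨?_, ?_, ?_⟩, ?_, ?_⟩
      · simp
      · intro i hi
        simp [run_cons, run_nil, B.step, hi, hreg i hi]
      · intro j hj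
        simp only [List.mem_cons, List.not_mem_nil, or_false, not_or] at hj
        simp only [run_cons, B.step, ne_eq, Nat.succ_ne_self, not_false_eq_true, Function.update_of_ne, run_nil, hj, harr j (by simp [hj])]
      · intro v hv
        simp only [run_cons, run_nil, B.step]
        simp only [h33, g1, ne_eq, Nat.succ_ne_self, not_false_eq_true, Function.update_of_ne, Nat.reduceEqDiff, Function.update_self, Function.update_apply, ite_eq_left_iff]
        by_cases hvk : v = k
        · subst hvk; simp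
        · simp [hvk]; exact h60 v (by omega)
      · simp only [run_cons, B.step, h33, ne_eq, Nat.succ_ne_self, not_false_eq_true, Function.update_of_ne, run_nil, Function.update_self, Nat.add_left_cancel_iff]
      · simp only [run_cons, B.step, ne_eq, Nat.succ_ne_self, not_false_eq_true, Function.update_of_ne, run_nil, OfNat.zero_ne_ofNat, hb])
    u1 (by omega) ⟨fun i hi => breg i hi, fun j _ => by rw [barr], fun v hv => by omega⟩ b33
    (by rw [breg 0 (by decide)]; exact h0)
  -- second phase: left lists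
  have f3 := Ex.blk (R := R) (cap := cap) [.const 33 0, .const 39 0] u2
  obtain ⟨u3, hu3⟩ : ∃ u3, u3 = run [.const 33 0, .const 39 0] u2 := ⟨_, rfl⟩
  rw [← hu3] at f3
  have B3 : u3.r 33 = 0 ∧ u3.r 39 = 0 ∧ (∀ i, i ∉ [33, 39] → u3.r i = s.r i) ∧ u3.a = u2.a := by
    subst hu3
    simp only [run_cons, B.step, run_nil, ne_eq, Nat.reduceEqDiff, not_false_eq_true, Function.update_of_ne, Function.update_self, List.mem_cons, List.not_mem_nil, or_false, not_or, and_imp, and_true, true_and]
    intro i k1 k2; simp [k1, k2]; exact creg i k1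
  obtain ⟨d33, d39, dreg, darr⟩ := B3
  obtain ⟨u4, t4, f4, ⟨ereg, earr, ele, e39, eLO⟩, ec, ht4⟩ := loop_rule (R := R) (cap := cap)
    (c := .lt 33 0) (p := bhLeft)
    (fun s' => (∀ k, k ∉ bhRegs → s'.r k = s.r k) ∧ (∀ j, j ∉ bhArrs → s'.a j = s.a j) ∧
      s'.r 33 ≤ n ∧ s'.r 39 ≤ s.a 4 (s'.r 33) ∧ LO n A0 kd bs s' (s'.r 33))
    (fun s' => 13 * (n - s'.r 33) + 21 * (s.a 4 n - s.a 4 (s'.r 33)))
    (by
      rintro s' ⟨hreg, harr, hle, h39, hLO⟩ hc
      simp only [Test.holds] at hc
      have g0 : s'.r 0 = n := by rw [hreg 0 (by decide)]; exact h0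
      rw [g0] at hc
      have g4 : s'.a 4 = s.a 4 := harr 4 (by decide)
      have g5 : s'.a 5 = s.a 5 := harr 5 (by decide)
      obtain ⟨s2, t2, e2, ht2, hLO2, q33, q39, qr, qa⟩ := bhLeft_spec (R := R) (cap := cap) s'
        (by rw [g4, g5]; exact hcsr) hG0 hLO hc g0 (by rw [hreg 1 (by decide)]; exact h1) rfl
        (fun v hv => by rw [harr 46 (by decide)]; exact h46 v hv)
        (fun v hv => by rw [harr 47 (by decide)]; exact h47 v hv) hbs (by rw [g4]; exact h39) hcap
      rw [g4] at ht2 q39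
      have hm := hcsr.mono _ hc
      have hm2 : s.a 4 (s'.r 33 + 1) ≤ s.a 4 n := hcsr.mono' (by omega) le_rfl
      refine ⟨s2, t2, e2, ⟨?_, ?_, by omega, by rw [q33]; exact q39, by rw [q33]; exact hLO2⟩, ?_⟩
      · intro k hk; rw [qr k hk, hreg k hk]
      · intro j hj; rw [qa j hj, harr j hj]
      · rw [q33]; omega)
    u3 (by
      refine ⟨?_, ?_, by omega, by omega, ?_⟩
      · intro k hk
        exact dreg k (fun h => hk ((by decide : ∀ x ∈ [33, 39], x ∈ bhRegs) k h))
      · intro j hj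
        rw [darr]
        exact carr j (fun h => hj ((by decide : ∀ x ∈ [60, 61], x ∈ bhArrs) j h))
      · rw [d33]
        refine ⟨?_, ?_, ?_, ?_, ?_⟩
        · rw [d39, Function.update_self]
        · intro v hv; omega
        · intro v hv; omega
        · intro b hb
          rw [darr, (c60 b hb).2]
          exact Bucket.nil _ _ _ _ _ (fun x h => by omega)
        · intro b hb
          rw [darr, (c60 b hb).1])
  simp only [Test.holds] at ec
  rw [ereg 0 (by decide), h0] at ec
  have e33 : u4.r 33 = n := by omega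
  rw [e33] at e39 eLO
  obtain ⟨K, hK⟩ : ∃ K, K = u4.r 39 := ⟨_, rfl⟩
  -- third phase: right lists
  have f5 := Ex.blk (R := R) (cap := cap) [.const 33 0, .copy 43 0] u4
  obtain ⟨u5, hu5⟩ : ∃ u5, u5 = run [.const 33 0, .copy 43 0] u4 := ⟨_, rfl⟩
  rw [← hu5] at f5
  have B5 : u5.r 33 = 0 ∧ u5.r 43 = n ∧ u5.r 39 = K ∧ (∀ k, k ∉ bhRegs → u5.r k = s.r k) ∧
      u5.a = u4.a := by
    subst hu5
    simp only [run_cons, B.step, ne_eq, OfNat.zero_ne_ofNat, not_false_eq_true, Function.update_of_ne, ereg 0 (by decide), h0, run_nil, Nat.reduceEqDiff, Function.update_self, ← hK, and_true, true_and]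
    intro k hk
    have := ereg k hk
    simp only [bhRegs, List.mem_cons, List.not_mem_nil, or_false, not_or] at hk
    simp [hk, this]
  obtain ⟨g33, g43, g39, greg, garr⟩ := B5
  obtain ⟨u6, t6, f6, ⟨hreg, harr, hle, h43, hRO⟩, hc, ht6⟩ := loop_rule (R := R) (cap := cap)
    (c := .lt 33 0) (p := bhRight)
    (fun s' => (∀ k, k ∉ bhRegs → s'.r k = s.r k) ∧ (∀ j, j ∉ bhArrs → s'.a j = s.a j) ∧
      s'.r 33 ≤ n ∧ s'.r 43 = n + s'.r 33 ∧ RO n A0 kd bs s' K (s'.r 33))
    (fun s' => 6 * (n - s'.r 33) + 6 * (2 * K - s'.r 39))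
    (by
      rintro s' ⟨hreg, harr, hle, h43, hRO⟩ hc
      simp only [Test.holds] at hc
      rw [hreg 0 (by decide), h0] at hc
      obtain ⟨j, hj⟩ : ∃ j, j = s'.r 33 := ⟨_, rfl⟩
      rw [← hj] at hc h43 hRO hle
      have q1 := Ex.blk (R := R) (cap := cap) [.store 10 43 39, .load 61 36 33] s'
      obtain ⟨v1, hv1⟩ : ∃ v1, v1 = run [.store 10 43 39, .load 61 36 33] s' := ⟨_, rfl⟩
      rw [← hv1] at q1
      have C1 : v1.r 36 = s'.a 61 j ∧ (∀ i, i ≠ 36 → v1.r i = s'.r i) ∧
          v1.a 10 = update (s'.a 10) (n + j) (s'.r 39) ∧ (∀ i, i ≠ 10 → v1.a i = s'.a i) := by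
        subst hv1
        simp only [run_cons, B.step, h43, ← hj, ne_eq, Nat.reduceEqDiff, not_false_eq_true, Function.update_of_ne, run_nil, Function.update_self, true_and]
        refine ⟨?_, ?_⟩
        · intro i hi; simp [hi]
        · intro i hi; simp [hi]
      obtain ⟨v36, vreg, v10, varr⟩ := C1
      obtain ⟨l, l1, l2, l3, l4, l5⟩ := (hRO.buck j hc).ex
      obtain ⟨v2, t2, q2, ht2, w39, wseg, wlow, wreg, warr⟩ := bhWalk_spec (R := R) (cap := cap) l v1
        (by rw [v36, varr 62 (by decide)]; exact l1)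
        (by rw [varr 63 (by decide)]; exact l4)
        (by rw [vreg 1 (by decide), hreg 1 (by decide)]; exact h1)
      have q3 := Ex.blk (R := R) (cap := cap) [.inc 33, .inc 43] v2
      obtain ⟨v3, hv3⟩ : ∃ v3, v3 = run [.inc 33, .inc 43] v2 := ⟨_, rfl⟩
      rw [← hv3] at q3
      have C3 : v3.r 33 = j + 1 ∧ v3.r 43 = n + (j + 1) ∧
          (∀ i, i ∉ [33, 43] → v3.r i = v2.r i) ∧ v3.a = v2.a := by
        subst hv3
        simp only [run_cons, B.step, wreg 33 (by decide), vreg 33 (by decide), ← hj, ne_eq, Nat.reduceEqDiff, not_false_eq_true, Function.update_of_ne, wreg 43 (by decide), vreg 43 (by decide), h43, run_nil, Function.update_self, List.mem_cons, List.not_mem_nil, or_false, not_or, and_imp, and_true, true_and]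
        refine ⟨by omega, ?_⟩
        intro i k1 k2; simp [k1, k2]
      obtain ⟨x33, x43, xreg, xarr⟩ := C3
      have e39' : v1.r 39 = s'.r 39 := vreg 39 (by decide)
      rw [e39'] at w39 wseg wlow
      rw [varr 63 (by decide)] at wseg
      have y39 : v3.r 39 = v2.r 39 := xreg 39 (by decide)
      have hstep := hRO.step (s' := v3) hc l2 l3 l5
        (by rw [xarr, warr 10 (by decide), v10]) (by rw [y39, w39])
        (by rw [xarr, y39]; exact wseg)
        (fun p hp => by rw [xarr, wlow p hp, varr 11 (by decide)])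
        (by
          intro i hi
          have h11 : i ≠ 11 := fun e => (by decide : 11 ∉ [61, 62, 63]) (e ▸ hi)
          have h10 : i ≠ 10 := fun e => (by decide : 10 ∉ [61, 62, 63]) (e ▸ hi)
          rw [xarr, warr i h11, varr i h10])
      have hc1 := hstep.cnt
      have hc2 := cntR_le (v3.a 11) K (n + (j + 1))
      refine ⟨v3, _, .seq q1 (.seq q2 q3), ⟨?_, ?_, by omega, by rw [x33]; exact x43,
        by rw [x33]; exact hstep⟩, ?_⟩
      · intro k hk
        rw [xreg k (fun h => hk ((by decide : ∀ x ∈ [33, 43], x ∈ bhRegs) k h)),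
          wreg k (fun h => hk ((by decide : ∀ x ∈ [36, 37, 39], x ∈ bhRegs) k h)),
          vreg k (by rintro rfl; exact hk (by decide)), hreg k hk]
      · intro i hi
        rw [xarr, warr i (by rintro rfl; exact hi (by decide)),
          varr i (by rintro rfl; exact hi (by decide)), harr i hi]
      · simp only [List.length_cons, List.length_nil]
        rw [x33]; omega)
    u5 (by
      have e10 : update (u4.a 10) n (u4.r 39) = update (u5.a 10) (n + 0) (u5.r 39) := by
        rw [garr, g39, hK, Nat.add_zero]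
      refine ⟨greg, fun j hj => by rw [garr]; exact earr j hj, by omega, by omega, ?_⟩
      rw [g33]
      refine ⟨?_, ?_, ?_, ?_, ?_, ?_, ?_⟩
      · rw [← e10]; exact eLO.off0
      · rw [← e10]; intro v hv; exact eLO.mono v (by omega)
      · rw [← e10, garr]; exact eLO.segs
      · intro b hb; omega
      · intro b hb
        rw [garr]
        have := eLO.buck b hb
        rw [← hK] at this
        exact this.congr (fun _ _ => rfl) (fun _ _ => rfl) (fun _ _ => rfl) le_rfl
          (fun y => ⟨fun h => ⟨h.1, h⟩, fun h => h.2⟩)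
      · omega
      · omega)
  simp only [Test.holds] at hc
  rw [hreg 0 (by decide), h0] at hc
  have h33 : u6.r 33 = n := by omega
  rw [h33] at h43 hRO
  -- end
  have f7 := Ex.blk (R := R) (cap := cap) [.store 10 43 39, .copy 20 43] u6
  obtain ⟨u7, hu7⟩ : ∃ u7, u7 = run [.store 10 43 39, .copy 20 43] u6 := ⟨_, rfl⟩
  rw [← hu7] at f7
  have B7 : u7.r 20 = n + n ∧ u7.a 10 = update (u6.a 10) (n + n) (u6.r 39) ∧
      (∀ i, i ≠ 20 → u7.r i = u6.r i) ∧ (∀ j, j ≠ 10 → u7.a j = u6.a j) := by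
    subst hu7
    simp only [run_cons, B.step, h43, run_nil, Function.update_self, Nat.add_left_cancel_iff, ne_eq, true_and]
    refine ⟨?_, ?_⟩
    · intro i hi; simp [hi]
    · intro i hi; simp [hi]
  obtain ⟨k20, k10, kreg, karr⟩ := B7
  have hcn := hRO.cnt
  have hcn2 := cntR_le (u6.a 11) K (n + n)
  have hn2 : 2 * n = n + n := by omega
  refine ⟨u7, _, .seq f1 (.seq f2 (.seq f3 (.seq f4 (.seq f5 (.seq f6 f7))))), ?_, ?_, ?_, ?_,
    ?_, ?_⟩
  · rw [d33] at ht4
    rw [g33, g39] at ht6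
    simp only [List.length_cons, List.length_nil]
    omega
  · rw [hn2, k10, karr 11 (by decide)]
    refine CSR.of_seg hRO.off0 hRO.mono ?_
    intro v hv
    by_cases hvn : v < n
    · refine (hRO.segL v hvn).congr (fun _ _ _ => rfl) ?_
      intro c
      refine ⟨?_, Or.inl⟩
      rintro (h | h)
      · exact h
      · obtain ⟨_, _, b, y, q1, _⟩ := h; omega
    · obtain ⟨b, rfl⟩ : ∃ b, v = n + b := ⟨v - n, by omega⟩
      refine (hRO.segR b (by omega)).congr (fun _ _ _ => rfl) ?_
      intro c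
      refine ⟨?_, Or.inr⟩
      rintro (h | h)
      · obtain ⟨q1, _⟩ := h; omega
      · exact h
  · rw [hn2, k10, Function.update_self]; omega
  · rw [k20]; omega
  · intro k hk
    rw [kreg k (by rintro rfl; exact hk (by decide)), hreg k hk]
  · intro j hj
    rw [karr j (by rintro rfl; exact hj (by decide)), harr j hj]

end Vale.Agent.P305
end
end

section

section

/-! One batch: from a maximum matching of the vertices of rank `< r` to one of the vertices of
rank `< r + 1`, with one call for a bipartite graph. -/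

set_option autoImplicit false
set_option linter.unusedSimpArgs false
set_option linter.unusedVariables false

namespace Vale.Agent.P305

open Function (update)
open L1

variable {R : List ℕ → (ℕ → ℕ) → ℕ → Prop} {cap : ℕ}

/-- Reading the answer of the call: array 2 to partner array 41. -/
def readC : Cmd :=
  .seq (.blk [.const 33 0])
  (.loop (.lt 33 20)
    (.seq (.blk [.load 2 34 33])
    (.seq (.ite (.eq 34 1) (.blk [.store 41 33 33]) (.blk [.dec 34, .store 41 33 34]))
      (.blk [.inc 33]))))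

theorem readC_spec (s : St) {N : ℕ} {g : ℕ → ℕ} (h20 : s.r 20 = N) (h1 : s.r 1 = 0)
    (h2 : ∀ v < N, s.a 2 v = if g v = v then 0 else g v + 1) :
    ∃ s' t, Ex R cap readC s t s' ∧ t ≤ 7 * N + 5 ∧
      (∀ v < N, s'.a 41 v = g v) ∧
      (∀ k, k ∉ [33, 34] → s'.r k = s.r k) ∧ (∀ j, j ≠ 41 → s'.a j = s.a j) := by
  have e1 := Ex.blk (R := R) (cap := cap) [.const 33 0] s
  obtain ⟨s1, hs1⟩ : ∃ s1, s1 = run [.const 33 0] s := ⟨_, rfl⟩
  rw [← hs1] at e1
  have A1 : s1.r 33 = 0 ∧ (∀ k, k ∉ [33] → s1.r k = s.r k) ∧ s1.a = s.a := by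
    subst hs1
    simp only [run_cons, B.step, run_nil, Function.update_self, List.mem_cons, List.not_mem_nil, or_false, and_true, true_and]
    intro k k1; simp [k1]
  obtain ⟨a33, areg, aarr⟩ := A1
  obtain ⟨s2, t2, e2, ht2, ⟨hreg, harr, h41⟩, h33, _⟩ := for_rule (R := R) (cap := cap)
    (i := 33) (b := 20)
    (body := (.seq (.blk [.load 2 34 33])
    (.seq (.ite (.eq 34 1) (.blk [.store 41 33 33]) (.blk [.dec 34, .store 41 33 34]))
      (.blk [.inc 33])))) N 6 0
    (fun k s' => (∀ k, k ∉ [33, 34] → s'.r k = s.r k) ∧ (∀ j, j ≠ 41 → s'.a j = s.a j) ∧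
      (∀ v < k, s'.a 41 v = g v))
    (by
      rintro k s' _ hk ⟨hreg, harr, h41⟩ h33 hb
      have g1 : s'.r 1 = 0 := by rw [hreg 1 (by decide)]; exact h1
      have g2 : s'.a 2 k = if g k = k then 0 else g k + 1 := by
        rw [harr 2 (by decide)]; exact h2 k hk
      by_cases hgk : g k = k
      · rw [if_pos hgk] at g2
        refine ⟨_, _, .seq (Ex.blk _ _) (.seq (.iteTrue ?_ (Ex.blk _ _)) (Ex.blk _ _)), ?_,
          ⟨?_, ?_, ?_⟩, ?_, ?_⟩
        · simp [Test.holds, run_cons, run_nil, B.step, h33, g2, g1]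
        · simp only [List.length_cons, List.length_nil, zero_add, Nat.reduceAdd, Nat.reduceLeDiff]
        · intro k' hk'
          simp only [List.mem_cons, List.not_mem_nil, or_false, not_or] at hk'
          simp only [run_cons, B.step, run_nil, ne_eq, Nat.reduceEqDiff, not_false_eq_true, Function.update_of_ne, hk', hreg k' (by simp [hk'])]
        · intro j hj
          simp [run_cons, run_nil, B.step, hj, harr j hj]
        · intro v hv
          simp only [run_cons, run_nil, B.step]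
          simp only [h33, ne_eq, Nat.reduceEqDiff, not_false_eq_true, Function.update_of_ne, Function.update_self, Function.update_apply]
          by_cases hvk : v = k
          · subst hvk; simp [hgk]
          · simp [hvk]; exact h41 v (by omega)
        · simp only [run_cons, B.step, h33, run_nil, ne_eq, Nat.reduceEqDiff, not_false_eq_true, Function.update_of_ne, Function.update_self, Nat.add_left_cancel_iff]
        · simp only [run_cons, B.step, run_nil, ne_eq, Nat.reduceEqDiff, not_false_eq_true, Function.update_of_ne, hb]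
      · rw [if_neg hgk] at g2
        refine ⟨_, _, .seq (Ex.blk _ _) (.seq (.iteFalse ?_ (Ex.blk _ _)) (Ex.blk _ _)), ?_,
          ⟨?_, ?_, ?_⟩, ?_, ?_⟩
        · simp [Test.holds, run_cons, run_nil, B.step, h33, g2, g1]
        · simp only [List.length_cons, List.length_nil, zero_add, Nat.reduceAdd, Nat.reduceLeDiff]
        · intro k' hk'
          simp only [List.mem_cons, List.not_mem_nil, or_false, not_or] at hk'
          simp only [run_cons, B.step, run_nil, Function.update_self, Function.update_idem, ne_eq, Nat.reduceEqDiff, not_false_eq_true, Function.update_of_ne, hk', hreg k' (by simp [hk'])]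
        · intro j hj
          simp only [run_cons, B.step, run_nil, Function.update_self, Function.update_idem, ne_eq, Nat.reduceEqDiff, not_false_eq_true, Function.update_of_ne, hj, harr j hj]
        · intro v hv
          simp only [run_cons, B.step, run_nil]
          simp only [h33, g2, Function.update_self, add_tsub_cancel_right, ne_eq, Nat.reduceEqDiff, not_false_eq_true, Function.update_of_ne, Function.update_apply]
          by_cases hvk : v = k
          · subst hvk; simp
          · simp [hvk]; exact h41 v (by omega)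
        · simp only [run_cons, B.step, h33, run_nil, Function.update_self, Function.update_idem, ne_eq, Nat.reduceEqDiff, not_false_eq_true, Function.update_of_ne, Nat.add_left_cancel_iff]
        · simp only [run_cons, B.step, run_nil, Function.update_self, Function.update_idem, ne_eq, Nat.reduceEqDiff, not_false_eq_true, Function.update_of_ne, hb])
    s1 (by omega)
    (by
      refine ⟨?_, fun j _ => by rw [aarr], fun v hv => by omega⟩
      intro k hk
      exact areg k (fun h => hk ((by decide : ∀ x ∈ [33], x ∈ [33, 34]) k h)))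
    a33 (by rw [areg 20 (by decide)]; exact h20)
  refine ⟨s2, _, .seq e1 e2, ?_, h41, hreg, harr⟩
  simp only [List.length_cons, List.length_nil]; omega

/-- The bipartite graph of a batch. -/
def bipG (n : ℕ) (A0 : ℕ → ℕ → Prop) (kd bs : ℕ → ℕ) : SimpleGraph (Fin (2 * n)) where
  Adj u v := HB n A0 kd bs u v
  symm := ⟨fun _ _ h => (HB.gr n A0 kd bs).symm h⟩
  loopless := ⟨fun u h => (HB.gr n A0 kd bs).irr u h⟩

theorem natAdj_bipG (n : ℕ) (A0 : ℕ → ℕ → Prop) (kd bs : ℕ → ℕ) :
    natAdj (bipG n A0 kd bs) = HB n A0 kd bs := by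
  funext u v
  apply propext
  constructor
  · rintro ⟨_, _, h⟩; exact h
  · intro h
    exact ⟨(HB.gr n A0 kd bs).lt h, (HB.gr n A0 kd bs).lt' h, h⟩

theorem bipG_bip (n : ℕ) (A0 : ℕ → ℕ → Prop) (kd bs : ℕ → ℕ) : (bipG n A0 kd bs).IsBipartite := by
  refine ⟨SimpleGraph.Coloring.mk (fun v => if (v : ℕ) < n then (0 : Fin 2) else 1) ?_⟩
  intro u v h
  have h' : HB n A0 kd bs u v := h
  rcases h' with ⟨h1, _, b, y, h2, _⟩ | ⟨h1, _, b, y, h2, _⟩
  · rw [if_pos h1, if_neg (by (clear h h1; omega))]; decide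
  · rw [if_neg (by omega), if_pos h1]; decide

def batchC : Cmd :=
  .seq labelC (.seq searchC (.seq classC (.seq buildHC (.seq pack (.seq .call
    (.seq readC (.seq mdC (.seq applyC (.seq greedyC copyC)))))))))

theorem batch_spec {n r : ℕ} {A0 : ℕ → ℕ → Prop} {rk m : ℕ → ℕ} (s : St) {τ : ℕ}
    (hBB : ∀ (H : SimpleGraph (Fin (2 * n))) (L' : AdjLists H), H.IsBipartite →
      (L'.upTo (2 * n)).length ≤ 2 * s.a 4 n →
      ∃ out t M, R L'.encode out t ∧ t ≤ τ ∧ IsMaximumMatching H M ∧ Represents out M)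
    (hG0 : Gr n A0) (hcsr : CSR n A0 (s.a 4) (s.a 5)) (h0 : s.r 0 = n) (h1 : s.r 1 = 0)
    (h31 : s.r 31 = r) (h20 : ∀ v < n, s.a 20 v = rk v)
    (hcl : ∀ u < n, ∀ v < n, rk u = r → rk v = r → u ≠ v → ConnLe A0 rk r u v → A0 u v)
    (hmax : IsMax n (Alt A0 rk r) m) (h40 : ∀ v < n, s.a 40 v = m v)
    (hclean : Clean (s.a 1)) (hlen : encLen (s.a 1) ≤ 2 * n + 2 + 2 * s.a 4 n)
    (hcap : 2 * n + 2 + 2 * s.a 4 n ≤ cap) :
    ∃ s' t m', Ex R cap batchC s t s' ∧
      t ≤ τ + 1000 * ((Nat.log 2 n + 1) * (n + s.a 4 n + 1)) ∧ s'.r 0 = n ∧ s'.r 1 = 0 ∧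
      (∀ k ∈ [6, 31, 32], s'.r k = s.r k) ∧ IsMax n (Alt A0 rk (r + 1)) m' ∧
      (∀ v < n, s'.a 40 v = m' v) ∧ Clean (s'.a 1) ∧
      encLen (s'.a 1) ≤ 2 * n + 2 + 2 * s.a 4 n ∧ (∀ j ∈ [4, 5, 20], s'.a j = s.a j) := by
  have hGA := Alt.gr (rk := rk) (r := r) hG0
  have hvs : ∀ v, Vlt n rk r v → v < n := fun v h => h.1
  have hAr : ∀ u v, Alt A0 rk r u v ↔ A0 u v ∧ Vlt n rk r u ∧ Vlt n rk r v := by
    intro u v
    exact ⟨fun h => ⟨h.1, ⟨hG0.lt h.1, h.2.1⟩, ⟨hG0.lt' h.1, h.2.2⟩⟩,
      fun h => ⟨h.1, h.2.1.2, h.2.2.2⟩⟩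
  -- labels
  obtain ⟨s1, t1, e1, ht1, a51, areg, aarr⟩ := labelC_spec (R := R) (cap := cap) s h0 h1 h31
  -- search
  obtain ⟨s2, t2, e2, breg, barr, ht2, β, ρ, qt, hC, hcase⟩ := searchC_spec (R := R) (cap := cap)
    (A := Alt A0 rk r) hvs hG0 hAr hmax.1 s1
    (by rw [aarr 4 (by decide), aarr 5 (by decide)]; exact hcsr)
    (by rw [areg 0 (by decide)]; exact h0) (by rw [areg 1 (by decide)]; exact h1)
    (by
      intro v hv
      rw [a51 v hv, h20 v hv]
      by_cases h : rk v < r
      · left; exact ⟨⟨hv, h⟩, if_pos h⟩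
      · right; exact ⟨fun h' => h h'.2, if_neg h⟩)
    (by intro v hv; rw [aarr 40 (by decide)]; exact h40 v hv)
  have hfin : β.Final (Alt A0 rk r) := by
    rcases hcase with h | h
    · exact h.2
    · exact absurd (h.2.not_max hvs hGA hmax hC.inv) (by simp)
  have b4 : s2.a 4 = s.a 4 := by rw [barr 4 (by decide), aarr 4 (by decide)]
  have b5 : s2.a 5 = s.a 5 := by rw [barr 5 (by decide), aarr 5 (by decide)]
  rw [aarr 4 (by decide)] at ht2
  -- classification
  obtain ⟨s3, t3, kd, bs, f0, e3, ht3, hsit, hf0, c46, c47, c42, creg, carr⟩ :=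
    classC_spec (R := R) (cap := cap) s2 hG0 hC hmax.1 hfin
      (by rw [breg 0 (by decide), areg 0 (by decide)]; exact h0)
      (by rw [breg 31 (by decide), areg 31 (by decide)]; exact h31)
      (by intro v hv; rw [barr 20 (by decide), aarr 20 (by decide)]; exact h20 v hv)
  have c0 : s3.r 0 = n := by
    rw [creg 0 (by decide), breg 0 (by decide), areg 0 (by decide)]; exact h0
  have c1 : s3.r 1 = 0 := by
    rw [creg 1 (by decide), breg 1 (by decide), areg 1 (by decide)]; exact h1
  have c4 : s3.a 4 = s.a 4 := by rw [carr 4 (by decide), b4]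
  have c5 : s3.a 5 = s.a 5 := by rw [carr 5 (by decide), b5]
  have hbsn : ∀ v < n, ∀ b, bs v = b + 1 → b < n := by
    intro v hv b hb
    have := (hsit.kind.bs1 v hv b).1 hb
    have h := (hsit.inv.blab v this.1).1
    rw [this.2] at h
    exact (hsit.out_lt (Or.inl h)).1
  have hR3 : Rep n m s3 β := hC.good.rep.congr (fun j hj =>
    carr j (fun h => (by decide : ∀ x ∈ [42, 46, 47], x ∉ [40, 51, 52, 53, 54, 55]) j h hj))
  -- bipartite graph
  obtain ⟨s4, t4, e4, ht4, d10, dle, d20, dreg, darr⟩ := buildHC_spec (R := R) (cap := cap) s3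
    (by rw [c4, c5]; exact hcsr) hG0 c0 c1 c46 c47 hbsn (by omega)
  rw [c4] at ht4 dle
  have d1 : s4.a 1 = s.a 1 := by
    rw [darr 1 (by decide), carr 1 (by decide), barr 1 (by decide), aarr 1 (by decide)]
  -- packing
  obtain ⟨s5, t5, L', e5, ht5, hL', hcl5, hlen5, hup5, earr, ereg⟩ := pack_spec' (R := R)
    (cap := cap) s4 (H := bipG n A0 kd bs) d20 (by rw [d1]; exact hclean)
    (by rw [d1]; omega) (by rw [natAdj_bipG]; exact d10)
  rw [d1] at ht5
  have e1' : s5.r 1 = 0 := by rw [ereg 1 (by omega), dreg 1 (by decide)]; exact c1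
  -- call
  obtain ⟨out, tc, M, hRc, htc, hMM, hrep⟩ := hBB (bipG n A0 kd bs) L' (bipG_bip n A0 kd bs)
    (by rw [hup5]; exact dle)
  have e6 : Ex R cap .call s5 (tc + L'.encode.length + 1) (callResult s5 L'.encode out) :=
    Ex.call hL' hRc
  obtain ⟨s6, hs6⟩ : ∃ s6, s6 = callResult s5 L'.encode out := ⟨_, rfl⟩
  rw [← hs6] at e6
  have f6r : s6.r = s5.r := by rw [hs6]; rfl
  have f6a : ∀ j, j ≠ 2 → s6.a j = s5.a j := by
    intro j hj
    rw [hs6]
    show update s5.a 2 _ j = _
    rw [Function.update_of_ne hj]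
  have hgmax0 := isMax_mateOf hMM
  rw [natAdj_bipG] at hgmax0
  obtain ⟨g, hg⟩ : ∃ g, g = mateOf M := ⟨_, rfl⟩
  rw [← hg] at hgmax0
  have f62 : ∀ v < 2 * n, s6.a 2 v = if g v = v then 0 else g v + 1 := by
    intro v hv
    rw [hs6]
    show update s5.a 2 _ 2 v = _
    rw [Function.update_self]
    have hh : L'.encode.headI = 2 * n := rfl
    show (if v < L'.encode.headI then out v else s5.a 2 v) = _
    rw [hh, if_pos hv, hg]
    exact hrep.mateOf hMM.1 hv
  -- reading
  obtain ⟨s7, t7, e7, ht7, g41, greg, garr⟩ := readC_spec (R := R) (cap := cap) s6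
    (by rw [f6r, ereg 20 (by omega)]; exact d20) (by rw [f6r]; exact e1') f62
  have k0 : s7.r 0 = n := by
    rw [greg 0 (by decide), f6r, ereg 0 (by omega), dreg 0 (by (clear * -; decide))]; exact c0
  have k1 : s7.r 1 = 0 := by rw [greg 1 (by decide), f6r]; exact e1'
  have ka : ∀ j, j ∉ [1, 2, 41] → j ∉ bhArrs → s7.a j = s3.a j := by
    intro j hj hj'
    rw [garr j (by rintro rfl; exact hj (by decide)), f6a j (by rintro rfl; exact hj (by decide)),
      earr j (by rintro rfl; exact hj (by decide)), darr j hj']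
  -- exchange phase
  have hmD : MDat n (HB n A0 kd bs) kd m := by
    refine ⟨HB.gr n A0 kd bs, ?_, ?_, ?_, ?_⟩
    · intro a ha _
      exact hmax.1.lt hGA ha
    · intro a ha hk
      have h2 := (hsit.kind.kd2 a ha).1 hk
      have hb := hsit.inv.base2 a h2
      have ho : β.Out (m a) := Or.inl (hsit.inv.imate a (Or.inl h2))
      have hmn := (hsit.out_lt ho).1
      have hne : m a ≠ a := by
        intro e
        have := hsit.inv.imate a (Or.inl h2)
        rw [e] at this; omega
      refine Or.inl ⟨ha, by omega, m a, m a, rfl, hmn, (hmax.1.adj a hne).1, ?_⟩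
      exact (hsit.kind.bs1 _ hmn _).2 ⟨ho, hb⟩
    · intro a b hab
      rw [← hmax.1.inv a, hab, hmax.1.inv]
    · rintro u v (⟨q1, _, b, y, q2, _⟩ | ⟨q1, _, b, y, q2, _⟩) hu
      · omega
      · exact q1
  obtain ⟨s8, t8, g', e8, ht8, hg'max, hgA, h41, hreg, harr⟩ := mdC_spec (R := R) (cap := cap) s7
    hmD hgmax0 k0 k1 (by (clear * - hcap c0 k0; omega)) g41 (by intro v hv; rw [ka 47 (by decide) (by decide)]; exact c47 v hv)
    (by
      intro v hv
      rw [ka 40 (by decide) (by decide)]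
      exact hR3.mt v hv)
  have ka8 : ∀ j, j ∉ [1, 2, 41] → j ∉ bhArrs → s8.a j = s3.a j := by
    intro j hj hj'
    rw [harr j (by rintro rfl; exact hj (by decide)), ka j hj hj']
  have k80 : s8.r 0 = n := by rw [hreg 0 (by decide)]; exact k0
  have k81 : s8.r 1 = 0 := by rw [hreg 1 (by decide)]; exact k1
  -- rematching
  obtain ⟨s9, t9, f, e9, ht9, hres, i42, ireg, iarr⟩ := applyC_spec (R := R) (cap := cap) s8 hsit
    hg'max.1
    (by rw [ka8 4 (by decide) (by decide), ka8 5 (by decide) (by decide), c4, c5]; exact hcsr)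
    (hR3.congr (fun j hj => ka8 j
      (fun h => (by decide : ∀ x ∈ [1, 2, 41], x ∉ [40, 51, 52, 53, 54, 55]) j h hj)
      (fun h => (by decide : ∀ x ∈ bhArrs, x ∉ [40, 51, 52, 53, 54, 55]) j h hj)))
    k80 k81 h41 (by intro v hv; rw [ka8 46 (by decide) (by decide)]; exact c46 v hv)
    (by intro v hv; rw [ka8 47 (by decide) (by decide)]; exact c47 v hv) hf0
    (by intro v hv; rw [ka8 42 (by decide) (by decide)]; exact c42 v hv)
  rw [ka8 4 (by decide) (by decide), c4] at ht9
  have i0 : s9.r 0 = n := by rw [ireg 0 (by decide)]; exact k80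
  have ka9 : ∀ j, j ∉ [1, 2, 41, 42, 43, 44] → j ∉ bhArrs → s9.a j = s3.a j := by
    intro j hj hj'
    rw [iarr j (fun h => hj ((by decide : ∀ x ∈ [42, 43, 44], x ∈ [1, 2, 41, 42, 43, 44]) j h)),
      ka8 j (fun h => hj ((by decide : ∀ x ∈ [1, 2, 41], x ∈ [1, 2, 41, 42, 43, 44]) j h)) hj']
  -- greedy pairing
  obtain ⟨s10, t10, f', e10, ht10, hgr, j42, jreg, jarr⟩ := greedyC_spec (R := R) (cap := cap)
    (kd := kd) (f := f) s9 hG0
    (by rw [ka9 4 (by decide) (by decide), ka9 5 (by decide) (by decide), c4, c5]; exact hcsr) i0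
    (by intro v hv; rw [ka9 47 (by decide) (by decide)]; exact c47 v hv) i42
  rw [ka9 4 (by decide) (by decide), c4] at ht10
  -- copy
  obtain ⟨s11, t11, e11, ht11, l40, lreg, larr⟩ := copyC_spec (R := R) (cap := cap) (n := n) s10
    (by rw [jreg 0 (by decide)]; exact i0)
  -- optimality
  obtain ⟨Cv, _, hCv1, hCv2⟩ := konig (HB.gr n A0 kd bs) (c := fun v => decide (v < n))
    (by
      rintro u v (⟨q1, _, b, y, q2, _⟩ | ⟨q1, _, b, y, q2, _⟩)
      · simp [q1, q2]
      · simp only [q2, add_lt_iff_neg_left, not_lt_zero, decide_false, q1, decide_true, ne_eq, Bool.false_eq_true, not_false_eq_true]) hg'max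
  have hmax' : IsMax n (Alt A0 rk (r + 1)) f' :=
    batch_isMax hsit hcl hg'max.1 hgA (Cv := fun v => v ∈ Cv) hCv1 hCv2 hres hgr
  have regs : ∀ k ∈ [0, 1, 6, 31, 32], s11.r k = s.r k := by
    intro k hk
    have hk' : k < 21 ∨ 25 < k := by
      simp only [List.mem_cons, List.not_mem_nil, or_false] at hk; omega
    rw [lreg k (fun h => (by decide : ∀ x ∈ [33, 34], x ∉ [0, 1, 6, 31, 32]) k h hk),
      jreg k (fun h => (by decide : ∀ x ∈ greedyRegs, x ∉ [0, 1, 6, 31, 32]) k h hk),
      ireg k (fun h => (by decide : ∀ x ∈ applyRegs, x ∉ [0, 1, 6, 31, 32]) k h hk),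
      hreg k (fun h => (by decide : ∀ x ∈ mdRegs, x ∉ [0, 1, 6, 31, 32]) k h hk),
      greg k (fun h => (by decide : ∀ x ∈ [33, 34], x ∉ [0, 1, 6, 31, 32]) k h hk), f6r,
      ereg k hk',
      dreg k (fun h => (by decide : ∀ x ∈ bhRegs, x ∉ [0, 1, 6, 31, 32]) k h hk),
      creg k (fun h => (by decide : ∀ x ∈ classRegs, x ∉ [0, 1, 6, 31, 32]) k h hk),
      breg k (fun h => (by (clear * -; decide) : ∀ x ∈ searchRegs, x ∉ [0, 1, 6, 31, 32]) k h hk),
      areg k (fun h => (by decide : ∀ x ∈ [33, 34, 41], x ∉ [0, 1, 6, 31, 32]) k h hk)]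
  have arrs : ∀ j ∈ [4, 5, 20], s11.a j = s.a j := by
    intro j hj
    rw [larr j (by rintro rfl; exact absurd hj (by decide)),
      jarr j (by rintro rfl; exact absurd hj (by decide)),
      ka9 j (fun h => (by decide : ∀ x ∈ [1, 2, 41, 42, 43, 44], x ∉ [4, 5, 20]) j h hj)
        (fun h => (by decide : ∀ x ∈ bhArrs, x ∉ [4, 5, 20]) j h hj),
      carr j (fun h => (by decide : ∀ x ∈ [42, 46, 47], x ∉ [4, 5, 20]) j h hj),
      barr j (fun h => (by decide : ∀ x ∈ srchArrs, x ∉ [4, 5, 20]) j h hj),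
      aarr j (by rintro rfl; exact absurd hj (by decide))]
  have arr1 : s11.a 1 = s5.a 1 := by
    rw [larr 1 (by decide), jarr 1 (by decide), iarr 1 (by decide), harr 1 (by decide),
      garr 1 (by decide), f6a 1 (by decide)]
  refine ⟨s11, _, f', .seq e1 (.seq e2 (.seq e3 (.seq e4 (.seq e5 (.seq e6 (.seq e7 (.seq e8
    (.seq e9 (.seq e10 e11))))))))), ?_, ?_, ?_, ?_, hmax', ?_, ?_, ?_, arrs⟩
  · -- time
    have hel : L'.encode.length = 2 * n + 2 + s4.a 10 (2 * n) := by
      rw [L'.encode_length, hup5]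
    have hb : ∀ a b c : ℕ, a ≤ 1000 → b ≤ 1000 → c ≤ 1000 →
        (Nat.log 2 n + 1) * (a * n + b * s.a 4 n + c) ≤
          1000 * ((Nat.log 2 n + 1) * (n + s.a 4 n + 1)) := by
      intro a b c ha hb hc
      have h1 : a * n ≤ 1000 * n := Nat.mul_le_mul_right _ ha
      have h2 : b * s.a 4 n ≤ 1000 * s.a 4 n := Nat.mul_le_mul_right _ hb
      calc (Nat.log 2 n + 1) * (a * n + b * s.a 4 n + c)
          ≤ (Nat.log 2 n + 1) * (1000 * n + 1000 * s.a 4 n + 1000) :=
            Nat.mul_le_mul_left _ (by (clear * - c0 k0 k80 i0 hc h1 h2; omega))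
        _ = 1000 * ((Nat.log 2 n + 1) * (n + s.a 4 n + 1)) := by ring
    have hl1 : ∀ X : ℕ, X ≤ (Nat.log 2 n + 1) * X := fun X =>
      Nat.le_mul_of_pos_left X (Nat.succ_pos _)
    -- collect
    have T2 : t2 ≤ (Nat.log 2 n + 1) * (200 * n + 200 * s.a 4 n + 200) := by
      refine ht2.trans (le_of_eq ?_); ring
    have T3 : t3 ≤ (Nat.log 2 n + 1) * (28 * n + 0 * s.a 4 n + 5) := by
      refine ht3.trans ?_
      have := hl1 (25 * n + 5)
      calc (3 * (Nat.log 2 n + 1) + 25) * n + 5 = (Nat.log 2 n + 1) * (3 * n) + (25 * n + 5) := by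
            ring
        _ ≤ (Nat.log 2 n + 1) * (3 * n) + (Nat.log 2 n + 1) * (25 * n + 5) := by omega
        _ = (Nat.log 2 n + 1) * (28 * n + 0 * s.a 4 n + 5) := by ring
    have TR := hl1 (250 * n + 100 * s.a 4 n + 150)
    have TS := hb 478 300 355 (by omega) (by omega) (by omega)
    have e : (Nat.log 2 n + 1) * (478 * n + 300 * s.a 4 n + 355) =
        (Nat.log 2 n + 1) * (200 * n + 200 * s.a 4 n + 200) +
        (Nat.log 2 n + 1) * (28 * n + 0 * s.a 4 n + 5) +
        (Nat.log 2 n + 1) * (250 * n + 100 * s.a 4 n + 150) := by ring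
    omega
  · rw [regs 0 (by decide)]; exact h0
  · rw [regs 1 (by decide)]; exact h1
  · intro k hk
    exact regs k ((by decide : ∀ x ∈ [6, 31, 32], x ∈ [0, 1, 6, 31, 32]) k hk)
  · intro v hv
    rw [l40 v hv]; exact j42 v hv
  · rw [arr1]; exact hcl5
  · rw [arr1, hlen5]; omega

end Vale.Agent.P305
end
end

section

section

/-! Chordal graphs: the final theorem. -/

set_option autoImplicit false

namespace Vale.Agent.P305

theorem findC_ok : findC.ok 64 4 := by simp only [findC, L1.Cmd.ok_seq, L1.Cmd.ok_blk, List.mem_cons, List.not_mem_nil, or_false, forall_eq, L1.B.ok_load, Nat.reduceLT, L1.Cmd.ok_loop, forall_eq_or_imp, L1.B.ok_copy, and_self]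
theorem baseC_ok : baseC.ok 64 4 := by simp [baseC, findC_ok]
theorem unionC_ok : unionC.ok 64 4 := by simp only [unionC, L1.Cmd.ok_seq, L1.Cmd.ok_blk, List.mem_cons, List.not_mem_nil, or_false, forall_eq_or_imp, L1.B.ok_load, Nat.reduceLT, forall_eq, and_self, L1.Cmd.ok_ite, L1.B.ok_store, L1.B.ok_copy, L1.B.ok_inc, IsEmpty.forall_iff, implies_true]
theorem labelC_ok : labelC.ok 64 4 := by simp only [labelC, L1.Cmd.ok_seq, L1.Cmd.ok_blk, List.mem_cons, List.not_mem_nil, or_false, forall_eq_or_imp, L1.B.ok_const, zero_le, forall_eq, Std.le_refl, and_self, L1.Cmd.ok_loop, L1.B.ok_load, Nat.reduceLT, L1.Cmd.ok_ite, L1.B.ok_store, L1.B.ok_inc]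
theorem sideBody_ok : sideBody.ok 64 4 := by simp only [sideBody, L1.Cmd.ok_seq, L1.Cmd.ok_blk, List.mem_cons, List.not_mem_nil, or_false, forall_eq_or_imp, L1.B.ok_load, Nat.reduceLT, L1.B.ok_store, L1.B.ok_inc, forall_eq, L1.B.ok_copy, and_self, findC_ok, unionC_ok]
theorem contractC_ok : contractC.ok 64 4 := by simp only [contractC, sideLoop, L1.Cmd.ok_seq, L1.Cmd.ok_blk, List.mem_cons, List.not_mem_nil, or_false, forall_eq_or_imp, L1.B.ok_copy, forall_eq, and_self, baseC_ok, L1.Cmd.ok_loop, sideBody_ok]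
theorem lcaLoop_ok : lcaLoop.ok 64 4 := by simp only [lcaLoop, lcaBody, moveC, L1.Cmd.ok_loop, L1.Cmd.ok_seq, L1.Cmd.ok_blk, List.mem_cons, List.not_mem_nil, or_false, forall_eq_or_imp, L1.B.ok_load, Nat.reduceLT, forall_eq, and_self, L1.Cmd.ok_ite, L1.B.ok_copy, baseC_ok]
theorem growC_ok : growC.ok 64 4 := by simp only [growC, L1.Cmd.ok_seq, L1.Cmd.ok_blk, List.mem_cons, List.not_mem_nil, or_false, forall_eq, L1.B.ok_copy, baseC_ok, forall_eq_or_imp, L1.B.ok_load, Nat.reduceLT, L1.B.ok_inc, L1.B.ok_store, and_self]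
theorem outC_ok : outC.ok 64 4 := by simp only [outC, L1.Cmd.ok_seq, L1.Cmd.ok_blk, List.mem_cons, List.not_mem_nil, or_false, forall_eq, L1.B.ok_copy, baseC_ok, forall_eq_or_imp, and_self, lcaLoop_ok, L1.Cmd.ok_ite, contractC_ok]
theorem searchC_ok : searchC.ok 64 4 := by
  simp only [searchC, srInit, srInitBody, srVtxLoop, srVtxBody, srArcLoop, srArcBody, L1.Cmd.ok_seq, L1.Cmd.ok_blk, List.mem_cons, List.not_mem_nil, or_false, forall_eq_or_imp, L1.B.ok_const, Nat.one_le_ofNat, Nat.reduceLeDiff, zero_le, forall_eq, and_self, L1.Cmd.ok_loop, L1.B.ok_load, Nat.reduceLT, L1.Cmd.ok_ite, L1.B.ok_store, L1.B.ok_inc, IsEmpty.forall_iff, implies_true, L1.B.ok_copy, growC_ok, outC_ok]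
theorem classC_ok : classC.ok 64 4 := by simp only [classC, classBody, L1.Cmd.ok_seq, L1.Cmd.ok_blk, List.mem_cons, List.not_mem_nil, or_false, forall_eq, L1.B.ok_const, zero_le, L1.Cmd.ok_loop, forall_eq_or_imp, L1.B.ok_load, Nat.reduceLT, and_self, L1.Cmd.ok_ite, Nat.reduceLeDiff, L1.B.ok_copy, Nat.one_le_ofNat, baseC_ok, L1.B.ok_inc, IsEmpty.forall_iff, implies_true, L1.B.ok_store]
theorem buildHC_ok : buildHC.ok 64 4 := by simp only [buildHC, bhLeft, bhScan, bhRight, L1.Cmd.ok_seq, L1.Cmd.ok_blk, List.mem_cons, List.not_mem_nil, or_false, forall_eq, L1.B.ok_const, zero_le, L1.Cmd.ok_loop, forall_eq_or_imp, L1.B.ok_store, Nat.reduceLT, L1.B.ok_inc, and_self, L1.B.ok_copy, L1.B.ok_load, L1.Cmd.ok_ite, IsEmpty.forall_iff, implies_true, L1.B.ok_dec, Nat.lt_add_one, L1.Cmd.ok_add]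
theorem mdC_ok : mdC.ok 64 4 := by simp only [mdC, mdBody, mdTest, mdStep, L1.Cmd.ok_seq, L1.Cmd.ok_blk, List.mem_cons, List.not_mem_nil, or_false, forall_eq_or_imp, L1.B.ok_const, zero_le, Nat.one_le_ofNat, forall_eq, Nat.reduceLeDiff, and_self, L1.Cmd.ok_loop, L1.B.ok_copy, L1.B.ok_load, Nat.reduceLT, L1.Cmd.ok_ite, IsEmpty.forall_iff, implies_true, L1.Cmd.ok_add, L1.B.ok_store, L1.B.ok_inc]
theorem flipC_ok : flipC.ok 64 4 := by simp only [flipC, flipBody, L1.Cmd.ok_seq, L1.Cmd.ok_blk, List.mem_cons, List.not_mem_nil, or_false, forall_eq_or_imp, L1.B.ok_const, zero_le, Nat.one_le_ofNat, forall_eq, and_self, L1.Cmd.ok_loop, L1.Cmd.ok_ite, L1.B.ok_load, Nat.reduceLT, L1.B.ok_store, L1.B.ok_copy, L1.B.ok_inc, L1.B.ok_dec]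
theorem applyC_ok : applyC.ok 64 4 := by simp only [applyC, applyBody, scanBody, L1.Cmd.ok_seq, L1.Cmd.ok_blk, List.mem_cons, List.not_mem_nil, or_false, forall_eq, L1.B.ok_const, zero_le, L1.Cmd.ok_loop, forall_eq_or_imp, L1.B.ok_load, Nat.reduceLT, and_self, L1.Cmd.ok_ite, IsEmpty.forall_iff, implies_true, L1.B.ok_sub, L1.B.ok_copy, L1.B.ok_inc, flipC_ok, L1.B.ok_store]
theorem greedyC_ok : greedyC.ok 64 4 := by simp only [greedyC, arcLoop, greedyBody, L1.Cmd.ok_seq, L1.Cmd.ok_blk, List.mem_cons, List.not_mem_nil, or_false, forall_eq, L1.B.ok_const, Nat.one_le_ofNat, forall_eq_or_imp, zero_le, and_self, L1.Cmd.ok_loop, L1.B.ok_copy, L1.B.ok_inc, L1.B.ok_load, Nat.reduceLT, L1.Cmd.ok_ite, L1.B.ok_store, IsEmpty.forall_iff, implies_true]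
theorem copyC_ok : copyC.ok 64 4 := by simp only [copyC, L1.Cmd.ok_seq, L1.Cmd.ok_blk, List.mem_cons, List.not_mem_nil, or_false, forall_eq, L1.B.ok_const, zero_le, L1.Cmd.ok_loop, forall_eq_or_imp, L1.B.ok_load, Nat.reduceLT, L1.B.ok_store, L1.B.ok_inc, and_self]
theorem readC_ok : readC.ok 64 4 := by simp only [readC, L1.Cmd.ok_seq, L1.Cmd.ok_blk, List.mem_cons, List.not_mem_nil, or_false, forall_eq, L1.B.ok_const, zero_le, L1.Cmd.ok_loop, L1.B.ok_load, Nat.reduceLT, L1.Cmd.ok_ite, L1.B.ok_store, forall_eq_or_imp, L1.B.ok_dec, and_self, L1.B.ok_inc]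

theorem batchC_ok : batchC.ok 64 4 := by
  simp only [batchC, pack, clear1, L1.Cmd.ok_seq, labelC_ok, searchC_ok, classC_ok, buildHC_ok, L1.Cmd.ok_blk, List.mem_cons, List.not_mem_nil, or_false, forall_eq_or_imp, L1.B.ok_const, zero_le, L1.B.ok_load, Nat.one_lt_ofNat, L1.B.ok_copy, L1.B.ok_inc, forall_eq, and_self, L1.Cmd.ok_add, or_self, L1.Cmd.ok_loop, L1.B.ok_store, Nat.one_le_ofNat, Nat.reduceLT, L1.Cmd.ok_call, readC_ok, mdC_ok, applyC_ok, greedyC_ok, copyC_ok]

theorem batchSpec : BatchSpec batchC 1000 :=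
  fun _ _ _ _ _ _ _ s _ hBB hG0 hcsr h0 h1 h31 h20 hcl hmax h40 hclean hlen hcap =>
    batch_spec s hBB hG0 hcsr h0 h1 h31 h20 hcl hmax h40 hclean hlen hcap

/-- Maximum matching on chordal graphs reduces to maximum matching on bipartite graphs. -/
theorem chordal_reduction (T : ℕ → ℕ → ℕ)
    (hT : ∀ n n' m m', n ≤ n' → m ≤ m' → T n m ≤ T n' m')
    (hP : ∃ P, Solves P (fun _ G => G.IsBipartite) (fun n G => T n G.edgeSet.ncard)) :
    ∃ P C, Solves P (fun _ G => IsChordal G) (fun n G =>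
      C * ((Nat.log 2 n + 1) * (T (2 * n) (2 * G.edgeSet.ncard) +
        (Nat.log 2 n + 1) * (n + G.edgeSet.ncard + 1)))) :=
  chordal_of_batch batchC_ok batchSpec T hT hP

theorem chordal_almostLinear (h : AlmostLinear fun _ G => G.IsBipartite) :
    AlmostLinear fun _ G => IsChordal G :=
  almostLinear_of_reduction chordal_reduction h

end Vale.Agent.P305
end
end

section

section

/-! Stage 1: one call on the double cover, a matching that leaves at most one vertex more exposed
for every odd cycle of an induced packing. -/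

set_option autoImplicit false
set_option linter.unusedSimpArgs false

namespace Vale.Agent.P305

open Function (update)
open L1

variable {R : List ℕ → (ℕ → ℕ) → ℕ → Prop} {cap : ℕ}

def stage1 : Cmd :=
  .seq dcC (.seq pack (.seq .call (.seq readC (.seq iniC (.seq p1C (.seq p2C (.seq prC fmC)))))))

/-- What stage 1 achieves: `C` numbers the cycles, `F` is the set of unpaired odd cycles. -/
structure S1Res (n : ℕ) (A : ℕ → ℕ → Prop) (m C : ℕ → ℕ) (F : Finset ℕ) : Prop where
  mat : Mat A m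
  card : ∀ m', Mat A m' → (exposed n m).card ≤ (exposed n m').card + F.card
  odd : ∀ c ∈ F, OddSet A (fun v => v < n ∧ C v = c)
  apart : ∀ u v, A u v → C u ∈ F → C v ∈ F → C u = C v

theorem PV.init {n : ℕ} {A : ℕ → ℕ → Prop} {g P C I O : ℕ → ℕ} (hP : ∀ v < n, P v = 0)
    (hO : ∀ c ≤ n, O c = 0) : PV n A g P C I O 0 where
  cl := by intro v hv w hw _; rw [hP v hv, hP w hw]
  p12 := fun v hv h => absurd (hP v hv) h
  par2 := by intro w hw h; rw [hP w hw] at h; omega
  same := fun v hv w _ h => absurd (hP v hv) h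
  even := fun v hv w _ h => absurd (hP v hv) h
  full := fun v hv h => absurd (hP v hv) h
  odd := fun v hv w _ h => absurd (hP v hv) h
  inj := fun v hv w _ h => absurd (hP v hv) h
  le := fun v hv h => absurd (hP v hv) h
  walk := by intro c hc h; rw [hO c hc] at h; omega
  oz := by intro c hc _; rw [hO c hc]; omega

theorem stage1_spec {n : ℕ} {A : ℕ → ℕ → Prop} (s : St) {τ : ℕ}
    (hBB : ∀ (H : SimpleGraph (Fin (2 * n))) (L' : AdjLists H), H.IsBipartite →
      (L'.upTo (2 * n)).length ≤ 2 * s.a 4 n →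
      ∃ out t M, R L'.encode out t ∧ t ≤ τ ∧ IsMaximumMatching H M ∧ Represents out M)
    (hG : Gr n A) (hcsr : CSR n A (s.a 4) (s.a 5)) (h0 : s.r 0 = n) (h1 : s.r 1 = 0)
    (hclean : Clean (s.a 1)) (hlen : encLen (s.a 1) ≤ 2 * n + 2 + 2 * s.a 4 n)
    (hcap : 2 * n + 2 + 2 * s.a 4 n ≤ cap) :
    ∃ s' t m C F, Ex R cap stage1 s t s' ∧ t ≤ τ + 200 * (n + s.a 4 n + 1) ∧
      S1Res n A m C F ∧ (∀ v < n, s'.a 40 v = m v) ∧ s'.r 0 = n ∧ s'.r 1 = 0 ∧
      (∀ j ∈ [4, 5], s'.a j = s.a j) := by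
  -- double cover
  obtain ⟨s1, t1, e1, ht1, a10, a2n, a20, areg, aarr⟩ := dcC_spec (R := R) (cap := cap) s hG hcsr
    h0 (by omega)
  have a1 : s1.a 1 = s.a 1 := aarr 1 (by decide) (by decide)
  -- packing
  obtain ⟨s2, t2, L', e2, ht2, hL', hcl2, hlen2, hup2, barr, breg⟩ := pack_spec' (R := R)
    (cap := cap) s1 (H := dcG n A) a20 (by rw [a1]; exact hclean) (by rw [a1]; (clear * - hlen hcap; omega))
    (by rw [natAdj_dcG hG]; exact a10)
  rw [a1, a2n] at ht2
  -- call
  obtain ⟨out, tc, M, hRc, htc, hMM, hrep⟩ := hBB (dcG n A) L' (dcG_bip n A)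
    (by rw [hup2, a2n])
  have e3 : Ex R cap .call s2 (tc + L'.encode.length + 1) (callResult s2 L'.encode out) :=
    Ex.call hL' hRc
  obtain ⟨s3, hs3⟩ : ∃ s3, s3 = callResult s2 L'.encode out := ⟨_, rfl⟩
  rw [← hs3] at e3
  have c3r : s3.r = s2.r := by rw [hs3]; rfl
  have c3a : ∀ j, j ≠ 2 → s3.a j = s2.a j := by
    intro j hj
    rw [hs3]
    show update s2.a 2 _ j = _
    rw [Function.update_of_ne hj]
  have hgmax := isMax_mateOf hMM
  rw [natAdj_dcG hG] at hgmax
  obtain ⟨g, hg⟩ : ∃ g, g = mateOf M := ⟨_, rfl⟩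
  rw [← hg] at hgmax
  have c32 : ∀ v < 2 * n, s3.a 2 v = if g v = v then 0 else g v + 1 := by
    intro v hv
    rw [hs3]
    show update s2.a 2 _ 2 v = _
    rw [Function.update_self]
    have hh : L'.encode.headI = 2 * n := rfl
    show (if v < L'.encode.headI then out v else s2.a 2 v) = _
    rw [hh, if_pos hv, hg]
    exact hrep.mateOf hMM.1 hv
  have r21 : s2.r 1 = 0 := by rw [breg 1 (by omega), areg 1 (by decide)]; exact h1
  have r20 : s2.r 0 = n := by rw [breg 0 (by omega), areg 0 (by decide)]; exact h0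
  -- reading
  obtain ⟨s4, t4, e4, ht4, d41, dreg, darr⟩ := readC_spec (R := R) (cap := cap) s3
    (by rw [c3r, breg 20 (by omega)]; exact a20) (by rw [c3r]; exact r21) c32
  have r40 : s4.r 0 = n := by rw [dreg 0 (by decide), c3r]; exact r20
  have r41 : s4.r 1 = 0 := by rw [dreg 1 (by decide), c3r]; exact r21
  have k4 : ∀ j ∈ [4, 5], s4.a j = s.a j := by
    intro j hj
    rw [darr j (by rintro rfl; exact absurd hj (by decide)),
      c3a j (by rintro rfl; exact absurd hj (by decide)),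
      barr j (by rintro rfl; exact absurd hj (by decide)),
      aarr j (by rintro rfl; exact absurd hj (by decide))
        (by rintro rfl; exact absurd hj (by decide))]
  have hA := hgmax.1.toPI hG
  -- initialisation
  obtain ⟨s5, t5, e5, ht5, f42, f43, f45, f46, freg, farr⟩ := iniC_spec (R := R) (cap := cap) s4
    r40 r41
  -- first pass
  obtain ⟨s6, t6, e6, hV6, hN6, ht6, greg, garr⟩ := p1C_spec (R := R) (cap := cap) hA hG.irr s5
    (by rw [freg 0 (by decide)]; exact r40) (by rw [freg 1 (by decide)]; exact r41)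
    (by intro v hv; rw [farr 41 (by decide)]; exact d41 v hv)
    (PV.init (fun v hv => f42 v (by omega)) f45) (fun v hv => f42 v (by omega)) (f45 0 (by omega))
  -- second pass
  obtain ⟨s7, t7, e7, ht7, hV7, hall, hT7, h764, h765, hreg, harr⟩ := p2C_spec (R := R)
    (cap := cap) hA hG.irr s6
    (by rw [greg 0 (by decide), freg 0 (by decide)]; exact r40)
    (by rw [greg 1 (by decide), freg 1 (by decide)]; exact r41)
    (by intro v hv; rw [garr 41 (by decide), farr 41 (by decide)]; exact d41 v hv)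
    hV6 hN6
    (by
      constructor
      · intro c hc
        rw [garr 46 (by decide), garr 45 (by decide), f45 c hc, f46 c hc]
      · intro c hc hO
        rw [garr 45 (by decide), f45 c hc] at hO
        omega)
  have hcyc := hV7.cyc le_rfl hall
  have hP7 : Prg n A (s7.a 43) (s7.a 45) (s7.a 46) (s7.a 47) (s7.a 48) := by
    constructor
    · intro c hc hO
      obtain ⟨x1, _, x2, _⟩ := hT7.d c hc hO
      exact ⟨x1, x2⟩
    · intro c hc hO
      obtain ⟨_, _, _, x4⟩ := hT7.d c hc hO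
      exact Or.inl ⟨by rw [hT7.eq c hc]; exact hO, x4⟩
    · intro c hc hT
      rw [← hT7.eq c hc]; exact hT
  have r70 : s7.r 0 = n := by
    rw [hreg 0 (by decide), greg 0 (by decide), freg 0 (by decide)]; exact r40
  have r71 : s7.r 1 = 0 := by
    rw [hreg 1 (by decide), greg 1 (by decide), freg 1 (by decide)]; exact r41
  have k7 : ∀ j ∈ [4, 5], s7.a j = s.a j := by
    intro j hj
    rw [harr j (fun h => (by decide : ∀ x ∈ p2Arrs, x ∉ [4, 5]) j h hj),
      garr j (fun h => (by decide : ∀ x ∈ [42, 43, 44], x ∉ [4, 5]) j h hj),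
      farr j (fun h => (by decide : ∀ x ∈ [42, 43, 45, 46], x ∉ [4, 5]) j h hj), k4 j hj]
  -- pairing
  obtain ⟨s8, t8, e8, ht8, hP8, hap, ireg, iarr⟩ := prC_spec (R := R) (cap := cap) s7 hG
    (by rw [k7 4 (by decide), k7 5 (by decide)]; exact hcsr) r70 r71 h765 hcyc.le hP7
  rw [k7 4 (by decide)] at ht8
  have hcyc8 : Cyc n g (s8.a 42) (s8.a 43) (s8.a 44) (s8.a 45) := by
    rw [iarr 42 (by decide), iarr 43 (by decide), iarr 44 (by decide), iarr 45 (by decide)]
    exact hcyc
  -- final pass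
  obtain ⟨s9, t9, e9, ht9, l40, lreg, larr⟩ := fmC_spec (R := R) (cap := cap) (n := n) (g := g) s8
    (by rw [ireg 0 (by decide)]; exact r70) (by rw [ireg 64 (by decide)]; exact h764)
    (by rw [ireg 65 (by decide)]; exact h765)
    (by
      intro v hv
      rw [iarr 41 (by decide), harr 41 (by decide), garr 41 (by decide), farr 41 (by decide)]
      exact d41 v hv)
  refine ⟨s9, _, fm n g (s8.a 42) (s8.a 43) (s8.a 44) (s8.a 45) (s8.a 47) (s8.a 48), s8.a 43,
    (Finset.range (n + 1)).filter (fun c => s8.a 46 c = 1),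
    .seq e1 (.seq e2 (.seq e3 (.seq e4 (.seq e5 (.seq e6 (.seq e7 (.seq e8 e9))))))), ?_,
    ⟨?_, ?_, ?_, ?_⟩, l40, ?_, ?_, ?_⟩
  · have hel : L'.encode.length = 2 * n + 2 + s1.a 10 (2 * n) := by
      rw [L'.encode_length, hup2]
    rw [a2n] at hel
    omega
  · exact hcyc8.mat hA hG hP8
  · intro m' hm'
    have x1 := hcyc8.card hA hP8
    have x2 := card_out_le hG hgmax hm'
    omega
  · intro c hc
    rw [Finset.mem_filter, Finset.mem_range] at hc
    have hO := hP8.tO c (by omega) hc.2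
    rw [iarr 45 (by decide)] at hO
    obtain ⟨s0, k, hk, w1, w2, w3⟩ := hV7.walk c (by omega) hO
    rw [iarr 43 (by decide)]
    exact oddSet_of_walk (wf n g s0) hk (fun i hi => ⟨(w1 i hi).1, (w1 i hi).2.2⟩) w2 w3
  · intro u v huv hu hv
    rw [Finset.mem_filter] at hu hv
    exact hap u v huv hu.2 hv.2
  · rw [lreg 0 (by decide), ireg 0 (by decide)]; exact r70
  · rw [lreg 1 (by decide), ireg 1 (by decide)]; exact r71
  · intro j hj
    rw [larr j (by rintro rfl; exact absurd hj (by decide)),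
      iarr j (fun h => (by decide : ∀ x ∈ [46, 47, 48], x ∉ [4, 5]) j h hj), k7 j hj]

end Vale.Agent.P305
end
end

section

section

/-! Augmentation until the matching is maximum. -/

set_option autoImplicit false
set_option linter.unusedSimpArgs false

namespace Vale.Agent.P305

open Function (update)
open L1

variable {R : List ℕ → (ℕ → ℕ) → ℕ → Prop} {cap : ℕ}

/-- Array 51 becomes 0, array 42 a copy of array 40. -/
def prepC : Cmd :=
  .seq (.blk [.const 33 0]) (.loop (.lt 33 0)
    (.blk [.store 51 33 1, .load 40 34 33, .store 42 33 34, .inc 33]))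

theorem prepC_spec (s : St) {n : ℕ} (h0 : s.r 0 = n) (h1 : s.r 1 = 0) :
    ∃ s' t, Ex R cap prepC s t s' ∧ t ≤ 5 * n + 5 ∧
      (∀ v < n, s'.a 51 v = 0) ∧ (∀ v < n, s'.a 42 v = s.a 40 v) ∧
      (∀ k, k ∉ [33, 34] → s'.r k = s.r k) ∧ (∀ j, j ∉ [42, 51] → s'.a j = s.a j) := by
  have e1 := Ex.blk (R := R) (cap := cap) [.const 33 0] s
  obtain ⟨s1, hs1⟩ : ∃ s1, s1 = run [.const 33 0] s := ⟨_, rfl⟩
  rw [← hs1] at e1
  have A1 : s1.r 33 = 0 ∧ (∀ k, k ∉ [33] → s1.r k = s.r k) ∧ s1.a = s.a := by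
    subst hs1
    simp only [run_cons, B.step, run_nil, Function.update_self, List.mem_cons, List.not_mem_nil, or_false, and_true, true_and]
    intro k k1; simp [k1]
  obtain ⟨a33, areg, aarr⟩ := A1
  obtain ⟨s2, t2, e2, ht2, ⟨hreg, harr, h51, h42⟩, _, _⟩ := for_rule (R := R) (cap := cap)
    (i := 33) (b := 0)
    (body := .blk [.store 51 33 1, .load 40 34 33, .store 42 33 34, .inc 33]) n 4 0
    (fun k s' => (∀ k, k ∉ [33, 34] → s'.r k = s.r k) ∧ (∀ j, j ∉ [42, 51] → s'.a j = s.a j) ∧
      (∀ v < k, s'.a 51 v = 0) ∧ (∀ v < k, s'.a 42 v = s.a 40 v))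
    (by
      rintro k s' _ hk ⟨hreg, harr, h51, h42⟩ h33 hb
      have g40 : s'.a 40 = s.a 40 := harr 40 (by decide)
      have g1 : s'.r 1 = 0 := by rw [hreg 1 (by decide)]; exact h1
      refine ⟨_, _, Ex.blk _ _, ?_, ⟨?_, ?_, ?_, ?_⟩, ?_, ?_⟩
      · simp
      · intro k' hk'
        simp only [List.mem_cons, List.not_mem_nil, or_false, not_or] at hk'
        simp only [run_cons, B.step, ne_eq, Nat.reduceEqDiff, not_false_eq_true, Function.update_of_ne, Function.update_self, run_nil, hk', hreg k' (by simp [hk'])]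
      · intro j hj
        simp only [List.mem_cons, List.not_mem_nil, or_false, not_or] at hj
        simp only [run_cons, B.step, ne_eq, Nat.reduceEqDiff, not_false_eq_true, Function.update_of_ne, Function.update_self, run_nil, hj, harr j (by simp [hj])]
      · intro v hv
        simp only [run_cons, run_nil, B.step]
        simp only [h33, g1, ne_eq, Nat.reduceEqDiff, not_false_eq_true, Function.update_of_ne, g40, Function.update_self, Function.update_apply, ite_eq_left_iff]
        by_cases hvk : v = k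
        · subst hvk; simp
        · simp [hvk]; exact h51 v (by omega)
      · intro v hv
        simp only [run_cons, run_nil, B.step]
        simp only [h33, g1, ne_eq, Nat.reduceEqDiff, not_false_eq_true, Function.update_of_ne, g40, Function.update_self, Function.update_apply]
        by_cases hvk : v = k
        · subst hvk; simp
        · simp [hvk]; exact h42 v (by omega)
      · simp only [run_cons, B.step, h33, ne_eq, Nat.reduceEqDiff, not_false_eq_true, Function.update_of_ne, Function.update_self, run_nil]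
      · simp only [run_cons, B.step, ne_eq, Nat.reduceEqDiff, not_false_eq_true, Function.update_of_ne, Function.update_self, run_nil, OfNat.zero_ne_ofNat, hb])
    s1 (by omega)
    (by
      refine ⟨?_, fun j _ => by rw [aarr], fun v hv => by omega, fun v hv => by omega⟩
      intro k hk
      exact areg k (fun h => hk ((by decide : ∀ x ∈ [33], x ∈ [33, 34]) k h)))
    a33 (by rw [areg 0 (by decide)]; exact h0)
  refine ⟨s2, _, .seq e1 e2, ?_, h51, h42, hreg, harr⟩
  simp only [List.length_cons, List.length_nil]; omega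

theorem Wrn.trans {f0 f1 f2 : ℕ → ℕ} {E E' : List (ℕ × ℕ)} (h : Wrn f0 f1 E) (h' : Wrn f1 f2 E')
    (hnd : (ends (E ++ E')).Nodup) : Wrn f0 f2 (E ++ E') := by
  rw [ends_append, List.nodup_append] at hnd
  constructor
  · intro e he
    rcases List.mem_append.1 he with he | he
    · have hm := mem_ends he
      have h1 : e.1 ∉ ends E' := fun hx => hnd.2.2 _ hm.1 _ hx rfl
      have h2 : e.2 ∉ ends E' := fun hx => hnd.2.2 _ hm.2 _ hx rfl
      rw [h'.out _ h1, h'.out _ h2]
      exact h.wr e he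
    · exact h'.wr e he
  · intro y hy
    rw [ends_append, List.mem_append, not_or] at hy
    rw [h'.out y hy.2, h.out y hy.1]

theorem Wrn.perm {f0 f : ℕ → ℕ} {E E' : List (ℕ × ℕ)} (h : Wrn f0 f E) (hp : E.Perm E') :
    Wrn f0 f E' :=
  ⟨fun e he => h.wr e (hp.mem_iff.2 he),
    fun y hy => h.out y (fun h' => hy ((ends_perm hp).mem_iff.1 h'))⟩

theorem Wrn.uniq {n : ℕ} {f0 f f0' f' : ℕ → ℕ} {E : List (ℕ × ℕ)} (h : Wrn f0 f E)
    (h' : Wrn f0' f' E) (h0 : ∀ v < n, f0 v = f0' v) : ∀ v < n, f v = f' v := by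
  intro v hv
  by_cases hm : v ∈ ends E
  · obtain ⟨e, he, hve⟩ := List.mem_flatMap.1 hm
    have h1 := h.wr e he
    have h2 := h'.wr e he
    simp only [List.mem_cons, List.not_mem_nil, or_false] at hve
    rcases hve with rfl | rfl
    · rw [h1.1, h2.1]
    · rw [h1.2, h2.2]
  · rw [h.out v hm, h'.out v hm, h0 v hv]

def augC : Cmd :=
  .seq (.blk [.copy 92 62, .copy 93 78]) (.seq flipC
  (.seq (.blk [.copy 92 65, .copy 93 79]) (.seq flipC
  (.seq (.blk [.store 42 62 65, .store 42 65 62]) copyC))))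

def augRegs : List ℕ := [33, 34, 92, 93, 94, 95, 96, 97, 98]

theorem augC_spec {n : ℕ} {vs : ℕ → Prop} {A : ℕ → ℕ → Prop} {m : ℕ → ℕ}
    (hvs : ∀ v, vs v → v < n) (hG : Gr n A) (hM : Mat A m) (s : St) {β : BS}
    (hI : Inv vs A m β) (hR : Rep n m s β) (hF : Found m A β s) (h0 : s.r 0 = n)
    (h1 : s.r 1 = 0) (h42 : ∀ v < n, s.a 42 v = m v) :
    ∃ s' t f, Ex R cap augC s t s' ∧ t ≤ 24 * n + 31 ∧ Mat A f ∧
      (exposed n f).card + 2 = (exposed n m).card ∧ (∀ v < n, s'.a 40 v = f v) ∧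
      (∀ k, k ∉ augRegs → s'.r k = s.r k) ∧ (∀ j, j ∉ [40, 42, 43, 44] → s'.a j = s.a j) := by
  obtain ⟨u, v, x, y, pu, pv, hL, hne, hdx, hdy, hu, hv, huv, q62, q65, q78, q79⟩ := hF
  obtain ⟨Eu, Ev, hEu, hEv, hnd, hlen, hf⟩ := hI.aug hvs hG hM hL hne hdx hdy hu hv huv
  obtain ⟨f, hW⟩ := exists_wrn m _ hnd
  have hff := hf f hW
  have hnd2 : (ends (Eu ++ Ev)).Nodup := by
    rw [ends_cons] at hnd
    exact (List.nodup_cons.1 (List.nodup_cons.1 hnd).2).2
  have hndu : (ends Eu).Nodup := by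
    rw [ends_append] at hnd2; exact (List.nodup_append.1 hnd2).1
  have hndv : (ends Ev).Nodup := by
    rw [ends_append] at hnd2; exact (List.nodup_append.1 hnd2).2.1
  have hperm : ((Eu ++ Ev) ++ [(u, v)]).Perm ((u, v) :: (Eu ++ Ev)) :=
    (List.perm_append_comm).trans (by simp)
  have hnd3 : (ends ((Eu ++ Ev) ++ [(u, v)])).Nodup := (ends_perm hperm).nodup_iff.2 hnd
  -- first path
  have e1 := Ex.blk (R := R) (cap := cap) [.copy 92 62, .copy 93 78] s
  obtain ⟨s1, hs1⟩ : ∃ s1, s1 = run [.copy 92 62, .copy 93 78] s := ⟨_, rfl⟩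
  rw [← hs1] at e1
  have A1 : s1.r 92 = u ∧ s1.r 93 = x ∧ (∀ k, k ∉ [92, 93] → s1.r k = s.r k) ∧ s1.a = s.a := by
    subst hs1
    simp only [run_cons, B.step, q62, ne_eq, Nat.reduceEqDiff, not_false_eq_true, Function.update_of_ne, q78, run_nil, Function.update_self, List.mem_cons, List.not_mem_nil, or_false, not_or, and_imp, and_true, true_and]
    intro k k1 k2; simp [k1, k2]
  obtain ⟨a92, a93, areg, aarr⟩ := A1
  obtain ⟨s2, t2, e2, ht2, hW2, breg, barr⟩ := flipC_spec (R := R) (cap := cap) hvs s1 hI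
    (hR.congr (fun j _ => by rw [aarr])) hEu hndu a92 a93
    (by rw [areg 1 (by decide)]; exact h1)
  rw [aarr] at hW2
  -- second path
  have e3 := Ex.blk (R := R) (cap := cap) [.copy 92 65, .copy 93 79] s2
  obtain ⟨s3, hs3⟩ : ∃ s3, s3 = run [.copy 92 65, .copy 93 79] s2 := ⟨_, rfl⟩
  rw [← hs3] at e3
  have A3 : s3.r 92 = v ∧ s3.r 93 = y ∧ (∀ k, k ∉ [92, 93] → s3.r k = s2.r k) ∧ s3.a = s2.a := by
    have b65 : s2.r 65 = v := by rw [breg 65 (by decide), areg 65 (by decide)]; exact q65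
    have b79 : s2.r 79 = y := by rw [breg 79 (by decide), areg 79 (by decide)]; exact q79
    subst hs3
    simp only [run_cons, B.step, b65, ne_eq, Nat.reduceEqDiff, not_false_eq_true, Function.update_of_ne, b79, run_nil, Function.update_self, List.mem_cons, List.not_mem_nil, or_false, not_or, and_imp, and_true, true_and]
    intro k k1 k2; simp [k1, k2]
  obtain ⟨c92, c93, creg, carr⟩ := A3
  obtain ⟨s4, t4, e4, ht4, hW4, dreg, darr⟩ := flipC_spec (R := R) (cap := cap) hvs s3 hI
    (hR.congr (fun j hj => by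
      rw [carr, barr j (fun h => (by decide : ∀ x ∈ [42, 43, 44], x ∉ [40, 51, 52, 53, 54, 55])
        j h hj), aarr])) hEv hndv c92 c93
    (by rw [creg 1 (by decide), breg 1 (by decide), areg 1 (by decide)]; exact h1)
  rw [carr] at hW4
  have hregs4 : ∀ k, k ∉ flipRegs → s4.r k = s.r k := by
    intro k hk
    have hk' : k ∉ [92, 93] := fun h => hk ((by decide : ∀ x ∈ [92, 93], x ∈ flipRegs) k h)
    rw [dreg k hk, creg k hk', breg k hk, areg k hk']
  -- the edge itself
  have e5 := Ex.blk (R := R) (cap := cap) [.store 42 62 65, .store 42 65 62] s4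
  obtain ⟨s5, hs5⟩ : ∃ s5, s5 = run [.store 42 62 65, .store 42 65 62] s4 := ⟨_, rfl⟩
  rw [← hs5] at e5
  have A5 : s5.r = s4.r ∧ s5.a 42 = update (update (s4.a 42) u v) v u ∧
      (∀ j, j ≠ 42 → s5.a j = s4.a j) := by
    have d62 : s4.r 62 = u := by rw [hregs4 62 (by decide)]; exact q62
    have d65 : s4.r 65 = v := by rw [hregs4 65 (by decide)]; exact q65
    subst hs5
    simp only [run_cons, B.step, d62, d65, Function.update_self, Function.update_idem, run_nil, ne_eq, true_and]
    intro j j1; simp [j1]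
  obtain ⟨f5r, f42, farr⟩ := A5
  have hW5 : Wrn (s.a 42) (s5.a 42) ((u, v) :: (Eu ++ Ev)) := by
    rw [f42]
    exact ((hW2.trans hW4 hnd2).add hnd3).perm hperm
  -- copy
  obtain ⟨s6, t6, e6, ht6, g40, greg, garr⟩ := copyC_spec (R := R) (cap := cap) (n := n) s5
    (by rw [f5r, hregs4 0 (by decide)]; exact h0)
  refine ⟨s6, _, f, .seq e1 (.seq e2 (.seq e3 (.seq e4 (.seq e5 e6)))), ?_, hff.1, hff.2, ?_, ?_,
    ?_⟩
  · simp only [List.length_cons, List.length_nil]; (clear * - hlen ht2 ht4 ht6; omega)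
  · intro w hw
    rw [g40 w hw]
    exact hW5.uniq hW h42 w hw
  · intro k hk
    rw [greg k (fun h => hk ((by decide : ∀ x ∈ [33, 34], x ∈ augRegs) k h)), f5r,
      hregs4 k (fun h => hk ((by decide : ∀ x ∈ flipRegs, x ∈ augRegs) k h))]
  · intro j hj
    simp only [List.mem_cons, List.not_mem_nil, or_false, not_or] at hj
    rw [garr j hj.1, farr j hj.2.1, darr j (by simp [hj]), carr, barr j (by simp [hj]), aarr]

/-- One round: search, and augment if possible. -/
def roundC : Cmd := .seq prepC (.seq searchC (.ite (.eq 77 67) augC (.blk [])))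

def augLoop : Cmd := .seq (.blk [.const 77 1, .const 67 1]) (.loop (.eq 77 67) roundC)

theorem round_spec {n : ℕ} {A : ℕ → ℕ → Prop} {m : ℕ → ℕ} (hG : Gr n A) (s : St)
    (hcsr : CSR n A (s.a 4) (s.a 5)) (h0 : s.r 0 = n) (h1 : s.r 1 = 0) (hM : Mat A m)
    (h40 : ∀ v < n, s.a 40 v = m v) :
    ∃ s' t f, Ex R cap roundC s t s' ∧
      t + 1 ≤ 300 * ((Nat.log 2 n + 1) * (n + s.a 4 n + 1)) ∧
      s'.r 0 = n ∧ s'.r 1 = 0 ∧ s'.r 67 = 1 ∧ s'.a 4 = s.a 4 ∧ s'.a 5 = s.a 5 ∧ Mat A f ∧
      (∀ v < n, s'.a 40 v = f v) ∧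
      ((s'.r 77 = 0 ∧ IsMax n A f) ∨
        (s'.r 77 = 1 ∧ (exposed n f).card + 2 = (exposed n m).card)) := by
  obtain ⟨s1, t1, e1, ht1, a51, a42, areg, aarr⟩ := prepC_spec (R := R) (cap := cap) s h0 h1
  have hvs : ∀ v, v < n → v < n := fun v h => h
  have hA : ∀ u v, A u v ↔ A u v ∧ u < n ∧ v < n := fun u v =>
    ⟨fun h => ⟨h, hG.lt h, hG.lt' h⟩, fun h => h.1⟩
  obtain ⟨s2, t2, e2, breg, barr, ht2, β, ρ, qt, hC, hcase⟩ := searchC_spec (R := R) (cap := cap)
    (vs := fun v => v < n) hvs hG hA hM s1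
    (by rw [aarr 4 (by decide), aarr 5 (by decide)]; exact hcsr)
    (by rw [areg 0 (by decide)]; exact h0) (by rw [areg 1 (by decide)]; exact h1)
    (fun v hv => Or.inl ⟨hv, a51 v hv⟩)
    (by intro v hv; rw [aarr 40 (by decide)]; exact h40 v hv)
  rw [aarr 4 (by decide)] at ht2
  have hbd : 29 * n + 38 ≤ 100 * ((Nat.log 2 n + 1) * (n + s.a 4 n + 1)) := by
    have h1 : n + s.a 4 n + 1 ≤ (Nat.log 2 n + 1) * (n + s.a 4 n + 1) :=
      Nat.le_mul_of_pos_left _ (Nat.succ_pos _)
    (clear * - h0 h1; (clear * - h0 h1; omega))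
  have h2e : 200 * (Nat.log 2 n + 1) * (n + s.a 4 n + 1) =
      200 * ((Nat.log 2 n + 1) * (n + s.a 4 n + 1)) := by ring
  rw [h2e] at ht2
  have b0 : s2.r 0 = n := by rw [breg 0 (by decide), areg 0 (by decide)]; exact h0
  have b1 : s2.r 1 = 0 := by rw [breg 1 (by decide), areg 1 (by decide)]; exact h1
  have b4 : s2.a 4 = s.a 4 := by rw [barr 4 (by decide), aarr 4 (by decide)]
  have b5 : s2.a 5 = s.a 5 := by rw [barr 5 (by decide), aarr 5 (by decide)]
  have b42 : ∀ v < n, s2.a 42 v = m v := by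
    intro v hv
    rw [barr 42 (by decide), a42 v hv]; exact h40 v hv
  rcases hcase with ⟨h77, hfin⟩ | ⟨h77, hfound⟩
  · refine ⟨s2, _, m, .seq e1 (.seq e2 (.iteFalse ?_ (Ex.blk [] s2))), ?_, b0, b1, hC.r67, b4, b5,
      hM, ?_, Or.inl ⟨h77, ?_⟩⟩
    · simp only [Test.holds]
      rw [h77, hC.r67]; decide
    · simp only [List.length_nil]; omega
    · intro v hv
      rw [barr 40 (by decide), aarr 40 (by decide)]; exact h40 v hv
    · exact hC.inv.optimal hvs (fun h => hG.lt h) hM hfin
  · obtain ⟨s3, t3, f, e3, ht3, hMf, hcf, c40, creg, carr⟩ := augC_spec (R := R) (cap := cap) hvs hG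
      hM s2 hC.inv hC.good.rep hfound b0 b1 b42
    refine ⟨s3, _, f, .seq e1 (.seq e2 (.iteTrue ?_ e3)), ?_, ?_, ?_, ?_, ?_, ?_, hMf, c40,
      Or.inr ⟨?_, hcf⟩⟩
    · simp only [Test.holds]
      rw [h77, hC.r67]
    · (clear * - ht1 ht2 hbd b0 ht3; omega)
    · rw [creg 0 (by decide)]; exact b0
    · rw [creg 1 (by decide)]; exact b1
    · rw [creg 67 (by decide)]; exact hC.r67
    · rw [carr 4 (by decide)]; exact b4
    · rw [carr 5 (by decide)]; exact b5
    · rw [creg 77 (by decide)]; exact h77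

theorem augLoop_spec {n g : ℕ} {A : ℕ → ℕ → Prop} {m : ℕ → ℕ} (hG : Gr n A) (s : St)
    (hcsr : CSR n A (s.a 4) (s.a 5)) (h0 : s.r 0 = n) (h1 : s.r 1 = 0) (hM : Mat A m)
    (hg : ∀ m', Mat A m' → (exposed n m).card ≤ (exposed n m').card + g)
    (h40 : ∀ v < n, s.a 40 v = m v) :
    ∃ s' t f, Ex R cap augLoop s t s' ∧
      t ≤ (g + 1) * (300 * ((Nat.log 2 n + 1) * (n + s.a 4 n + 1))) + 5 ∧
      IsMax n A f ∧ (∀ v < n, s'.a 40 v = f v) ∧ s'.r 0 = n ∧ s'.r 1 = 0 := by
  have e1 := Ex.blk (R := R) (cap := cap) [.const 77 1, .const 67 1] s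
  obtain ⟨s1, hs1⟩ : ∃ s1, s1 = run [.const 77 1, .const 67 1] s := ⟨_, rfl⟩
  rw [← hs1] at e1
  have A1 : s1.r 77 = 1 ∧ s1.r 67 = 1 ∧ (∀ k, k ∉ [77, 67] → s1.r k = s.r k) ∧ s1.a = s.a := by
    subst hs1
    simp only [run_cons, B.step, run_nil, ne_eq, Nat.reduceEqDiff, not_false_eq_true, Function.update_of_ne, Function.update_self, List.mem_cons, List.not_mem_nil, or_false, not_or, and_imp, and_true, true_and]
    intro k k1 k2; simp [k1, k2]
  obtain ⟨a77, a67, areg, aarr⟩ := A1
  obtain ⟨c, hc⟩ : ∃ c, c = 300 * ((Nat.log 2 n + 1) * (n + s.a 4 n + 1)) := ⟨_, rfl⟩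
  rw [← hc]
  obtain ⟨s2, t2, k2, e2, ⟨b0, b1, b67, b4, b5, f, hMf, f40, hcase⟩, hh⟩ :=
    loop_rule_g (R := R) (cap := cap) (c := .eq 77 67) (p := roundC)
    (fun k τ s' => s'.r 0 = n ∧ s'.r 1 = 0 ∧ s'.r 67 = 1 ∧ s'.a 4 = s.a 4 ∧ s'.a 5 = s.a 5 ∧
      ∃ m', Mat A m' ∧ (∀ v < n, s'.a 40 v = m' v) ∧
      ((s'.r 77 = 1 ∧ ∃ g', k = g' + 1 ∧
          (∀ m'', Mat A m'' → (exposed n m').card ≤ (exposed n m'').card + g') ∧
          τ + (g' + 1) * c ≤ (g + 1) * c) ∨
        (s'.r 77 = 0 ∧ k = 0 ∧ IsMax n A m' ∧ τ ≤ (g + 1) * c)))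
    (by
      rintro k τ s' ⟨g0, g1, g67, g4, g5, m', hM', h40', hcase⟩ hh
      simp only [Test.holds] at hh
      rw [g67] at hh
      rcases hcase with ⟨_, g', hk, hgap, hτ⟩ | ⟨h77, _⟩
      swap
      · rw [hh] at h77; exact absurd h77 (by decide)
      obtain ⟨s3, t3, f, e3, ht3, c0, c1, c67, c4, c5, hMf, c40, hcase⟩ := round_spec (R := R)
        (cap := cap) hG s' (by rw [g4, g5]; exact hcsr) g0 g1 hM' h40'
      rw [g4, ← hc] at ht3
      have hring : (g' + 1) * c = g' * c + c := by ring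
      rcases hcase with ⟨h77, hmax⟩ | ⟨h77, hcard⟩
      · refine ⟨s3, t3, 0, e3, ⟨c0, c1, c67, c4.trans g4, c5.trans g5, f, hMf, c40,
          Or.inr ⟨h77, rfl, hmax, ?_⟩⟩, by omega⟩
        rw [hring] at hτ
        have := Nat.zero_le (g' * c)
        omega
      · have hg2 := hgap f hMf
        obtain ⟨g'', rfl⟩ : ∃ g'', g' = g'' + 2 := ⟨g' - 2, by omega⟩
        refine ⟨s3, t3, g'' + 1, e3, ⟨c0, c1, c67, c4.trans g4, c5.trans g5, f, hMf, c40,
          Or.inl ⟨h77, g'', rfl, ?_, ?_⟩⟩, by omega⟩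
        · intro m'' hm''
          have := hgap m'' hm''
          omega
        · have e : (g'' + 2 + 1) * c = (g'' + 1) * c + c + c := by ring
          rw [e] at hτ
          omega)
    (g + 1) 0 s1 (by
      refine ⟨?_, ?_, a67, by rw [aarr], by rw [aarr], m, hM, by rw [aarr]; exact h40,
        Or.inl ⟨a77, g, rfl, hg, by omega⟩⟩
      · rw [areg 0 (by decide)]; exact h0
      · rw [areg 1 (by decide)]; exact h1)
  simp only [Test.holds] at hh
  rw [b67] at hh
  rcases hcase with ⟨h77, _⟩ | ⟨_, _, hmax, hτ⟩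
  · exact absurd h77 hh
  · refine ⟨s2, _, f, .seq e1 e2, ?_, hmax, f40, b0, b1⟩
    simp only [List.length_cons, List.length_nil]
    omega

end Vale.Agent.P305
end
end

section

section

/-! Maximum matching from one bipartite call and few searches. -/

set_option autoImplicit false

namespace Vale.Agent.P305

open Function (update)
open L1

variable {R : List ℕ → (ℕ → ℕ) → ℕ → Prop} {cap : ℕ}

theorem IsOddPacking.le {n : ℕ} {G : SimpleGraph (Fin n)} {k : ℕ} {S : Fin k → Set (Fin n)}
    (h : IsOddPacking G k S) : k ≤ n := by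
  have hne : ∀ i, (S i).Nonempty := by
    intro i
    by_contra hc
    rw [Set.not_nonempty_iff_eq_empty] at hc
    apply h.1 i
    have : IsEmpty (S i) := by rw [hc]; infer_instance
    exact ⟨SimpleGraph.Coloring.mk (fun _ => (0 : Fin 2)) (fun {v} => isEmptyElim v)⟩
  choose f hf using hne
  have hinj : Function.Injective f := by
    intro i j hij
    by_contra hne
    exact (h.2 i j hne (f i) (hf i) (f j) (hf j)).1 hij
  have := Fintype.card_le_of_injective f hinj
  simpa only [ge_iff_le, Fintype.card_fin] using this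

theorem oddPacking_bdd {n : ℕ} (G : SimpleGraph (Fin n)) :
    BddAbove {k | ∃ S : Fin k → Set (Fin n), IsOddPacking G k S} :=
  ⟨n, fun _ ⟨_, hS⟩ => hS.le⟩

theorem le_oddPacking {n : ℕ} {G : SimpleGraph (Fin n)} {k : ℕ} {S : Fin k → Set (Fin n)}
    (h : IsOddPacking G k S) : k ≤ oddPacking G :=
  le_csSup (oddPacking_bdd G) ⟨S, h⟩

theorem oddPacking_le {n : ℕ} (G : SimpleGraph (Fin n)) : oddPacking G ≤ n :=
  csSup_le ⟨0, fun i => i.elim0, fun i => i.elim0, fun i => i.elim0⟩ (fun _ ⟨_, hS⟩ => hS.le)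

theorem S1Res.card_le {n : ℕ} {G : SimpleGraph (Fin n)} {m C : ℕ → ℕ} {F : Finset ℕ}
    (h : S1Res n (natAdj G) m C F) : F.card ≤ oddPacking G := by
  classical
  obtain ⟨e⟩ : Nonempty (Fin F.card ≃ F) := ⟨F.equivFin.symm⟩
  refine le_oddPacking (S := fun i => {v : Fin n | C v = (e i : ℕ)}) ⟨?_, ?_⟩
  · intro i hb
    apply h.odd (e i) (e i).2
    obtain ⟨col⟩ := hb
    refine ⟨fun v => if hv : v < n ∧ C v = (e i : ℕ) then
      decide (col ⟨⟨v, hv.1⟩, hv.2⟩ = 0) else false, ?_⟩
    intro u v hu hv huv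
    obtain ⟨hun, hvn, hadj⟩ := huv
    beta_reduce
    rw [dif_pos hu, dif_pos hv]
    have hne := col.valid (v := ⟨⟨u, hu.1⟩, hu.2⟩) (w := ⟨⟨v, hv.1⟩, hv.2⟩) (by
      simpa [SimpleGraph.comap_adj] using hadj)
    intro heq
    apply hne
    rw [decide_eq_decide] at heq
    generalize col ⟨⟨u, hu.1⟩, hu.2⟩ = a at *
    generalize col ⟨⟨v, hv.1⟩, hv.2⟩ = b at *
    revert a b
    decide
  · intro i j hij u hu v hv
    have hu' : C u = (e i : ℕ) := hu
    have hv' : C v = (e j : ℕ) := hv
    have hne : (e i : ℕ) ≠ e j := fun h => hij (e.injective (Subtype.ext h))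
    refine ⟨?_, ?_⟩
    · rintro rfl
      exact hne (hu'.symm.trans hv')
    · intro hadj
      have := h.apart u v ⟨u.2, v.2, by simpa using hadj⟩ (by rw [hu']; exact (e i).2)
        (by rw [hv']; exact (e j).2)
      exact hne (hu'.symm.trans (this.trans hv'))

/-- The whole program. -/
def oddC : Cmd := .seq unpack (.seq stage1 (.seq augLoop cOut))

theorem odd_run {n : ℕ} (G : SimpleGraph (Fin n)) (L : AdjLists G)
    {R : List ℕ → (ℕ → ℕ) → ℕ → Prop} {cap τ : ℕ}
    (hcap : 2 * n + 4 * G.edgeSet.ncard + 2 ≤ cap)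
    (hR : ∀ (n' : ℕ) (H : SimpleGraph (Fin n')) (L' : AdjLists H), H.IsBipartite →
      (n' = 2 * n ∧ H.edgeSet.ncard ≤ 2 * G.edgeSet.ncard) →
        ∃ (out : ℕ → ℕ) (t : ℕ) (M : H.Subgraph), R L'.encode out t ∧ t ≤ τ ∧
          IsMaximumMatching H M ∧ Represents out M) :
    ∃ (t : ℕ) (s : St) (M : G.Subgraph), Ex R cap oddC (St.init L.encode) t s ∧
      t ≤ 1100 * ((oddPacking G + 1) * ((Nat.log 2 n + 1) * (n + G.edgeSet.ncard + 1))) +
        1 * τ ∧ IsMaximumMatching G M ∧ Represents (s.a 3) M := by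
  set m := G.edgeSet.ncard with hm
  set Λ := Nat.log 2 n + 1 with hΛ
  have hG := natAdj_gr G
  have hinit : ∀ j i, (St.init L.encode).a j i = if j = 0 then L.encode.getD i 0 else 0 :=
    fun j i => rfl
  have hoffn : L.encode.getD (n + 1) 0 = 2 * m := by rw [L.encode_off le_rfl, L.upTo_length]
  obtain ⟨s1, t1, e1, ht1, r10, r11, o1, a1, j1⟩ := unpack_spec (R := R) (cap := cap)
    (St.init L.encode) n (2 * m) (by rw [hinit, if_pos rfl, L.encode_zero])
    (by rw [hinit, if_pos rfl, hoffn])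
  have hn : s1.a 4 n = 2 * m := by rw [o1 n le_rfl, hinit, if_pos rfl, hoffn]
  have hC : CSR n (natAdj G) (s1.a 4) (s1.a 5) := by
    refine csr_of_encode L (fun i hi => ?_) (fun p hp => ?_)
    · rw [o1 i hi, hinit, if_pos rfl]
    · rw [a1 p (by omega), hinit, if_pos rfl]
  have q1 : s1.a 1 = fun _ => 0 := by
    rw [j1 1 (by decide) (by decide)]
    funext i
    rw [hinit, if_neg (by decide)]
  obtain ⟨s2, t2, m1, C, F, e2, ht2, hS, h40, r20, r21, h45⟩ := stage1_spec (R := R) (cap := cap)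
    (n := n) (A := natAdj G) s1 (τ := τ)
    (by
      intro H L' hH hlen
      refine hR _ H L' hH ⟨rfl, ?_⟩
      rw [hn, L'.upTo_length] at hlen
      omega)
    hG hC r10 r11 (by rw [q1]; intro i _; rfl) (by rw [q1]; simp [encLen]; (clear * - r10 hn; omega))
    (by rw [hn]; omega)
  obtain ⟨s3, t3, f, e3, ht3, hmax, f40, r30, r31⟩ := augLoop_spec (R := R) (cap := cap)
    hG s2 (by rw [h45 4 (by decide), h45 5 (by decide)]; exact hC) r20 r21 hS.mat hS.card h40
  obtain ⟨s4, t4, e4, ht4, a43⟩ := cOut_spec (R := R) (cap := cap) s3 r30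
  obtain ⟨M, hM, hrep⟩ := maximum_of_isMax (f := s4.a 3) hmax (by
    intro v hv
    rw [a43 v hv, f40 v hv])
  refine ⟨_, s4, M, .seq e1 (.seq e2 (.seq e3 e4)), ?_, hM, hrep⟩
  -- the time
  rw [h45 4 (by decide), hn, ← hΛ] at ht3
  rw [hn] at ht2
  have hF := hS.card_le
  set X := Λ * (n + m + 1) with hX
  set k := oddPacking G with hk
  have x1 : n + m + 1 ≤ X := Nat.le_mul_of_pos_left _ (by omega)
  have x2 : X ≤ (k + 1) * X := Nat.le_mul_of_pos_left _ (by omega)
  have x3 : (F.card + 1) * (300 * (Λ * (n + 2 * m + 1))) ≤ 600 * ((k + 1) * X) := by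
    calc (F.card + 1) * (300 * (Λ * (n + 2 * m + 1))) ≤
        (k + 1) * (300 * (Λ * (2 * (n + m + 1)))) := by
          apply Nat.mul_le_mul (by omega)
          apply Nat.mul_le_mul_left
          apply Nat.mul_le_mul_left
          (clear * - r10 r20 r30; omega)
      _ = 600 * ((k + 1) * X) := by rw [hX]; ring
  rw [one_mul]
  omega

theorem stage1_ok : stage1.ok 64 4 := by
  simp only [stage1, dcC, pack, clear1, iniC, p1C, p1Body, wkC, wkBody, p2C, p2Body, prC, arcLoop, prBody, fmC, fmBody, kindC, Cmd.ok_seq, Cmd.ok_blk, List.mem_cons, List.not_mem_nil, or_false, forall_eq_or_imp, B.ok_const, zero_le, B.ok_copy, B.ok_inc, forall_eq, B.ok_load, Nat.reduceLT, and_self, Cmd.ok_loop, B.ok_store, Cmd.ok_add, Nat.one_lt_ofNat, or_self, Nat.one_le_ofNat, Cmd.ok_call, readC_ok, Cmd.ok_ite, Nat.reduceLeDiff, B.ok_sub, IsEmpty.forall_iff, implies_true]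

theorem augLoop_ok : augLoop.ok 64 4 := by
  simp only [augLoop, roundC, prepC, augC, Cmd.ok_seq, Cmd.ok_blk, List.mem_cons, List.not_mem_nil, or_false, forall_eq_or_imp, B.ok_const, Nat.one_le_ofNat, forall_eq, and_self, Cmd.ok_loop, zero_le, B.ok_store, Nat.reduceLT, B.ok_load, B.ok_inc, searchC_ok, Cmd.ok_ite, B.ok_copy, flipC_ok, copyC_ok, IsEmpty.forall_iff, implies_true]

theorem oddC_ok : oddC.ok 64 4 := by
  simp only [oddC, unpack, cOut, Cmd.ok_seq, Cmd.ok_blk, List.mem_cons, List.not_mem_nil, or_false, forall_eq_or_imp, B.ok_const, zero_le, B.ok_load, Nat.ofNat_pos, Nat.one_le_ofNat, B.ok_copy, forall_eq, B.ok_inc, and_self, Cmd.ok_loop, B.ok_store, Nat.reduceLT, stage1_ok, augLoop_ok, Cmd.ok_ite]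

/-- Maximum matching from one bipartite call and few searches. -/
theorem odd_reduction (T : ℕ → ℕ → ℕ)
    (hT : ∀ n n' m m', n ≤ n' → m ≤ m' → T n m ≤ T n' m')
    (hP : ∃ P, Solves P (fun _ G => G.IsBipartite) (fun n G => T n G.edgeSet.ncard)) :
    ∃ P C, Solves P (fun _ _ => True) (fun n G =>
      C * (T (2 * n) (2 * G.edgeSet.ncard) +
        (oddPacking G + 1) * ((Nat.log 2 n + 1) * (n + G.edgeSet.ncard + 1)))) := by
  obtain ⟨P, hP⟩ := hP
  obtain ⟨k0, hk0⟩ : ∃ k0, 1100 ≤ 2 ^ k0 := ⟨11, by norm_num⟩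
  have hlog : ∀ n m, Nat.log 2 n + 1 ≤ n + m + 2 := by
    intro n m
    have := Nat.log_le_self 2 n
    omega
  have hpow : ∀ N, 2 ≤ N → 1100 * N ^ 3 ≤ N ^ (k0 + 3) := by
    intro N hN
    rw [pow_add]
    apply Nat.mul_le_mul_right
    exact hk0.trans (Nat.pow_le_pow_left hN k0)
  have hA : ∀ (n : ℕ) (G : SimpleGraph (Fin n)),
      1100 * ((oddPacking G + 1) * ((Nat.log 2 n + 1) * (n + G.edgeSet.ncard + 1))) ≤
        (n + G.edgeSet.ncard + 2) ^ (k0 + 3) := by
    intro n G
    refine le_trans (Nat.mul_le_mul_left _ ?_) (hpow _ (by omega))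
    have h1 := oddPacking_le G
    have h2 := hlog n G.edgeSet.ncard
    obtain ⟨N, hN⟩ : ∃ N, N = n + G.edgeSet.ncard + 2 := ⟨_, rfl⟩
    rw [← hN] at h2 ⊢
    have h3 : (oddPacking G + 1) * ((Nat.log 2 n + 1) * (n + G.edgeSet.ncard + 1)) ≤
        N * (N * N) := Nat.mul_le_mul (by omega) (Nat.mul_le_mul h2 (by omega))
    have h4 : N * (N * N) = N ^ 3 := by ring
    omega
  have hC : ∀ (n : ℕ) (G : SimpleGraph (Fin n)),
      2 * n + 4 * G.edgeSet.ncard + 2 ≤ (n + G.edgeSet.ncard + 2) ^ (k0 + 3) := by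
    intro n G
    refine le_trans ?_ (hpow _ (by omega))
    obtain ⟨N, hN⟩ : ∃ N, N = n + G.edgeSet.ncard + 2 := ⟨_, rfl⟩
    rw [← hN]
    have h4 : N * 1 ≤ N * (N * N) :=
      Nat.mul_le_mul_left _ (Nat.mul_pos (by omega) (by omega))
    have h5 : N * (N * N) = N ^ 3 := by ring
    omega
  have hsz : ∀ (n : ℕ) (G : SimpleGraph (Fin n)), True → ∀ (n' : ℕ) (H : SimpleGraph (Fin n')),
      H.IsBipartite → (n' = 2 * n ∧ H.edgeSet.ncard ≤ 2 * G.edgeSet.ncard) →
      n' + H.edgeSet.ncard + 2 ≤ (n + G.edgeSet.ncard + 2) ^ 2 ∧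
        T n' H.edgeSet.ncard ≤ T (2 * n) (2 * G.edgeSet.ncard) := by
    rintro n G - n' H - ⟨h1, h2⟩
    refine ⟨?_, hT _ _ _ _ h1.le h2⟩
    obtain ⟨N, hN⟩ : ∃ N, N = n + G.edgeSet.ncard + 2 := ⟨_, rfl⟩
    rw [← hN, pow_two]
    have h4 : 2 * N ≤ N * N := Nat.mul_le_mul_right _ (by omega)
    omega
  obtain ⟨P', C, k, hk⟩ := solves_of_L1 (CG := fun _ _ => True) hP (K := 64) (by decide)
    oddC (cst := 4) oddC_ok (k0 + 3) 2
    (fun n G n' H => n' = 2 * n ∧ H.edgeSet.ncard ≤ 2 * G.edgeSet.ncard)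
    (fun n G => T (2 * n) (2 * G.edgeSet.ncard))
    (fun n G => 1100 * ((oddPacking G + 1) * ((Nat.log 2 n + 1) * (n + G.edgeSet.ncard + 1))))
    (fun _ _ => 1) hsz (fun n G _ => hA n G)
    (fun n G _ L R τ hR => odd_run G L (hC n G) hR)
  refine ⟨P', 1101 * C, k, fun n G hG L => ?_⟩
  obtain ⟨t, s, M, e, ht, hM, hr⟩ := hk n G hG L
  refine ⟨t, s, M, e, ht.trans ?_, hM, hr⟩
  beta_reduce
  set Λ := Nat.log 2 n + 1 with hΛ
  set m := G.edgeSet.ncard with hm
  set Y := T (2 * n) (2 * m) with hY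
  set X := (oddPacking G + 1) * (Λ * (n + m + 1)) with hX
  have y1 : n + m + 1 ≤ X :=
    le_trans (Nat.le_mul_of_pos_left _ (by omega)) (Nat.le_mul_of_pos_left _ (by omega))
  calc C * (1100 * X + 1 * Y + n + m + 1) ≤ C * (1101 * (Y + X)) :=
        Nat.mul_le_mul_left _ (by omega)
    _ = 1101 * C * (Y + X) := by ring

/-- Almost-linear time when the odd packing number is subpolynomial. -/
theorem odd_almostLinear (hB : AlmostLinear fun _ G => G.IsBipartite) (κ : ℕ → ℕ)
    (hκ : ∀ ε : ℝ, 0 < ε → ∃ c : ℝ, ∀ N : ℕ, (κ N : ℝ) ≤ c * ((N : ℝ) + 1) ^ ε) :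
    AlmostLinear fun n G => oddPacking G ≤ κ (n + G.edgeSet.ncard) := by
  obtain ⟨P, T, hP, hT⟩ := hB
  set Tb : ℕ → ℕ := fun N => (Finset.range (N + 1)).sup T with hTb
  have hle : ∀ N, T N ≤ Tb N := fun N =>
    Finset.le_sup (f := T) (Finset.mem_range.2 (Nat.lt_succ_self N))
  have hmono : ∀ N N', N ≤ N' → Tb N ≤ Tb N' := by
    intro N N' hN
    apply Finset.sup_mono
    intro x hx
    rw [Finset.mem_range] at hx ⊢
    omega
  have hTb' : ∀ ε : ℝ, 0 < ε → ∃ c : ℝ, 0 ≤ c ∧ ∀ N : ℕ,
      (Tb N : ℝ) ≤ c * ((N : ℝ) + 1) ^ (1 + ε) := by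
    intro ε hε
    obtain ⟨c, hc⟩ := hT ε hε
    have hc0 : 0 ≤ c := by
      have := hc 0
      simp only [Nat.cast_zero, zero_add, Real.one_rpow, mul_one] at this
      exact (Nat.cast_nonneg _).trans this
    refine ⟨c, hc0, fun N => ?_⟩
    obtain ⟨k, hk, hk'⟩ : ∃ k ∈ Finset.range (N + 1), (Finset.range (N + 1)).sup T = T k :=
      Finset.exists_mem_eq_sup _ ⟨0, by simp only [Finset.mem_range, lt_add_iff_pos_left, Order.lt_add_one_iff, zero_le]⟩ T
    show (((Finset.range (N + 1)).sup T : ℕ) : ℝ) ≤ _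
    rw [hk']
    refine (hc k).trans (mul_le_mul_of_nonneg_left ?_ hc0)
    apply Real.rpow_le_rpow (by (clear * -; positivity)) _ (by (clear * - hε; linarith))
    rw [Finset.mem_range] at hk
    have : (k : ℝ) ≤ N := by exact_mod_cast (by omega : k ≤ N)
    linarith only [this]
  obtain ⟨P', C, hP'⟩ := odd_reduction (fun n m => Tb (n + m))
    (fun n n' m m' h1 h2 => hmono _ _ (by omega))
    ⟨P, hP.mono (fun _ _ h => h) fun n G _ => hle _⟩
  refine ⟨P', fun N => C * (Tb (2 * N) + (κ N + 1) * ((Nat.log 2 N + 1) * (N + 1))),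
    hP'.mono (fun _ _ _ => trivial) ?_, ?_⟩
  · intro n G hG
    beta_reduce
    have h1 : Nat.log 2 n ≤ Nat.log 2 (n + G.edgeSet.ncard) := Nat.log_mono_right (by omega)
    apply Nat.mul_le_mul_left
    apply Nat.add_le_add
    · exact hmono _ _ (by omega)
    · exact Nat.mul_le_mul (by omega) (Nat.mul_le_mul (by omega) le_rfl)
  · intro ε hε
    obtain ⟨c1, hc1, h1⟩ := nlog_bound (δ := ε / 2) (by linarith only [hε])
    obtain ⟨c2, hc2, h2⟩ := hTb' ε hε
    obtain ⟨c3, h3⟩ := hκ (ε / 2) (by linarith)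
    have hc3 : 0 ≤ c3 := by
      have := h3 0
      simp only [Nat.cast_zero, zero_add, Real.one_rpow, mul_one] at this
      exact (Nat.cast_nonneg _).trans this
    refine ⟨C * (c2 * 2 ^ (1 + ε) + (c3 + 1) * c1), fun N => ?_⟩
    have hN : (0 : ℝ) ≤ N := Nat.cast_nonneg N
    have hN1 : (0 : ℝ) < (N : ℝ) + 1 := by linarith
    set x : ℝ := (N : ℝ) + 1 with hx
    have g1 := h1 N
    have g3 := h3 N
    have g2 : (Tb (2 * N) : ℝ) ≤ c2 * 2 ^ (1 + ε) * x ^ (1 + ε) := by
      refine (h2 (2 * N)).trans ?_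
      rw [mul_assoc, ← Real.mul_rpow (by norm_num) hN1.le]
      apply mul_le_mul_of_nonneg_left _ hc2
      apply Real.rpow_le_rpow (by (clear * -; positivity)) _ (by linarith only [hε])
      push_cast
      rw [hx]
      linarith only []
    have p1 : (0 : ℝ) ≤ x ^ (ε / 2) := Real.rpow_nonneg hN1.le _
    have p3 : (1 : ℝ) ≤ x ^ (ε / 2) := Real.one_le_rpow (by linarith) (by linarith only [hε])
    have g4 : (κ N : ℝ) + 1 ≤ (c3 + 1) * x ^ (ε / 2) := by
      rw [add_mul, one_mul]; linarith only [g3, p3]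
    have e1 : x ^ (ε / 2) * (x ^ (ε / 2) * x) = x ^ (1 + ε) := by
      rw [← mul_assoc, ← Real.rpow_add hN1, ← Real.rpow_add_one hN1.ne']
      congr 1
      ring
    push_cast
    rw [mul_assoc]
    apply mul_le_mul_of_nonneg_left _ (Nat.cast_nonneg _)
    have q2 : ((κ N : ℝ) + 1) * (((Nat.log 2 N : ℝ) + 1) * x) ≤
        (c3 + 1) * c1 * x ^ (1 + ε) := by
      calc ((κ N : ℝ) + 1) * (((Nat.log 2 N : ℝ) + 1) * x) ≤
          ((c3 + 1) * x ^ (ε / 2)) * ((c1 * x ^ (ε / 2)) * x) := by
            apply mul_le_mul g4 _ (by (clear * -; positivity)) (by (clear * - hc3; positivity))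
            exact mul_le_mul_of_nonneg_right g1 hN1.le
        _ = (c3 + 1) * c1 * (x ^ (ε / 2) * (x ^ (ε / 2) * x)) := by ring
        _ = _ := by rw [e1]
    rw [add_mul (c2 * 2 ^ (1 + ε))]
    exact add_le_add g2 q2

end Vale.Agent.P305
end
end
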