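import Vale.Agent.P305.Bdl.B1

/-! Definitions for chordal graphs: elimination orders and clique ranks. -/

set_option autoImplicit false

namespace Vale.Agent.P305

/-- No induced cycle of length at least 4 (Mathlib's `cycleGraph`, induced = graph embedding). -/
def IsChordal {V : Type} (G : SimpleGraph V) : Prop :=
  ∀ k, 4 ≤ k → IsEmpty (SimpleGraph.cycleGraph k ↪g G)

/-- `pos` is a perfect elimination order: the later neighbours of a vertex form a clique. -/
structure PEO (n : ℕ) (A : ℕ → ℕ → Prop) (pos : ℕ → ℕ) : Prop where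
  lt : ∀ v < n, pos v < n
  inj : ∀ u < n, ∀ v < n, pos u = pos v → u = v
  simp : ∀ v u w, A v u → A v w → pos v < pos u → pos v < pos w → u ≠ w → A u w

/-- `u`, `v` are connected in the subgraph induced by the vertices of rank at most `i`. -/
def ConnLe (A : ℕ → ℕ → Prop) (rk : ℕ → ℕ) (i : ℕ) (u v : ℕ) : Prop :=
  Relation.ReflTransGen (fun a b => A a b ∧ rk a ≤ i ∧ rk b ≤ i) u v

/-- `rk` takes values in `{0, …, d-1}` and in every component of the subgraph of vertices of rank
at most `i`, the vertices of rank exactly `i` form a clique. -/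
structure Ranks (n : ℕ) (A : ℕ → ℕ → Prop) (rk : ℕ → ℕ) (d : ℕ) : Prop where
  lt : ∀ v < n, rk v < d
  clique : ∀ u < n, ∀ v < n, rk u = rk v → u ≠ v → ConnLe A rk (rk u) u v → A u v

end Vale.Agent.P305
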